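import Vale.Agent.P168.MathlibUsed
import Vale.Agent.P168.Defs

set_option linter.all false

section

section

set_option autoImplicit false

open MeasureTheory ProbabilityTheory
open scoped NNReal

namespace Vale.Agent.P168

section LipOp

variable {H : Type} [NormedAddCommGroup H]

/-- Lipschitz functions. -/
def LipS (H : Type) [NormedAddCommGroup H] : Submodule ℝ (H → ℝ) where
  carrier := {G | ∃ C : ℝ≥0, LipschitzWith C G}
  add_mem' := by
    rintro a b ⟨C, hC⟩ ⟨D, hD⟩
    exact ⟨C + D, hC.add hD⟩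
  zero_mem' := ⟨0, LipschitzWith.const 0⟩
  smul_mem' := by
    rintro c a ⟨C, hC⟩
    refine ⟨‖c‖₊ * C, ?_⟩
    refine LipschitzWith.of_dist_le_mul fun x y => ?_
    simp only [Pi.smul_apply, smul_eq_mul, Real.dist_eq, ← mul_sub, abs_mul, NNReal.coe_mul,
      coe_nnnorm, Real.norm_eq_abs, mul_assoc]
    apply mul_le_mul_of_nonneg_left _ (abs_nonneg c)
    have := hC.dist_le_mul x y
    rwa [Real.dist_eq] at this

theorem lip_bound {G : H → ℝ} {C : ℝ≥0} (hG : LipschitzWith C G) (x y : H) :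
    |G (x + y) - G x| ≤ C * ‖y‖ := by
  have := hG.dist_le_mul (x + y) x
  rw [Real.dist_eq, dist_eq_norm, add_sub_cancel_left] at this
  exact this

variable {X : Type} [MeasurableSpace X]

theorem lip_integrable {G : H → ℝ} {C : ℝ≥0} (hG : LipschitzWith C G) {η : Measure X}
    [IsFiniteMeasure η] {e : X → H} (he : Integrable e η) (h : H) :
    Integrable (fun x => G (h + e x)) η := by
  have h1 : Integrable (fun x => |G h| + C * ‖e x‖) η :=
    (integrable_const _).add (he.norm.const_mul _)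
  refine h1.mono' ?_ ?_
  · exact hG.continuous.comp_aestronglyMeasurable (aestronglyMeasurable_const.add he.1)
  · refine Filter.Eventually.of_forall fun x => ?_
    have h2 := lip_bound hG h (e x)
    rw [Real.norm_eq_abs]
    have h3 : |G (h + e x)| ≤ |G (h + e x) - G h| + |G h| := by
      have := abs_add_le (G (h + e x) - G h) (G h)
      simpa only [ge_iff_le, sub_add_cancel] using this
    linarith

/-- The averaging operator `G ↦ ∫ G (· + e x) dη(x)`. -/
noncomputable def Top (η : Measure X) [IsProbabilityMeasure η] (e : X → H) (he : Integrable e η) :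
    Module.End ℝ (LipS H) where
  toFun G := ⟨fun h => ∫ x, G.1 (h + e x) ∂η, by
    obtain ⟨C, hC⟩ := G.2
    refine ⟨C, LipschitzWith.of_dist_le_mul fun a b => ?_⟩
    rw [Real.dist_eq, ← integral_sub (lip_integrable hC he a) (lip_integrable hC he b)]
    calc |∫ x, (G.1 (a + e x) - G.1 (b + e x)) ∂η|
        ≤ ∫ x, |G.1 (a + e x) - G.1 (b + e x)| ∂η := by
          have := norm_integral_le_integral_norm (μ := η) (fun x => G.1 (a + e x) - G.1 (b + e x))
          simpa using this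
      _ ≤ ∫ _, C * dist a b ∂η := by
          refine integral_mono ?_ (integrable_const _) fun x => ?_
          · exact ((lip_integrable hC he a).sub (lip_integrable hC he b)).abs
          · have := hC.dist_le_mul (a + e x) (b + e x)
            rw [Real.dist_eq, dist_add_right] at this
            exact this
      _ = C * dist a b := by simp⟩
  map_add' G G' := by
    obtain ⟨C, hC⟩ := G.2
    obtain ⟨C', hC'⟩ := G'.2
    ext h
    simp only [Submodule.coe_add, Pi.add_apply]
    exact integral_add (lip_integrable hC he h) (lip_integrable hC' he h)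
  map_smul' c G := by
    ext h
    simp only [SetLike.val_smul, Pi.smul_apply, smul_eq_mul, RingHom.id_apply]
    exact integral_const_mul c _

theorem Top_apply (η : Measure X) [IsProbabilityMeasure η] (e : X → H) (he : Integrable e η)
    (G : LipS H) (h : H) : (Top η e he G).1 h = ∫ x, G.1 (h + e x) ∂η := rfl

theorem Top_lip (η : Measure X) [IsProbabilityMeasure η] (e : X → H) (he : Integrable e η)
    (G : LipS H) {C : ℝ≥0} (hC : LipschitzWith C G.1) : LipschitzWith C (Top η e he G).1 := by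
  refine LipschitzWith.of_dist_le_mul fun a b => ?_
  rw [Real.dist_eq, Top_apply, Top_apply,
    ← integral_sub (lip_integrable hC he a) (lip_integrable hC he b)]
  calc |∫ x, (G.1 (a + e x) - G.1 (b + e x)) ∂η|
      ≤ ∫ x, |G.1 (a + e x) - G.1 (b + e x)| ∂η := by
        have := norm_integral_le_integral_norm (μ := η) (fun x => G.1 (a + e x) - G.1 (b + e x))
        simpa only [ge_iff_le, Real.norm_eq_abs] using this
    _ ≤ ∫ _, C * dist a b ∂η := by
        refine integral_mono ?_ (integrable_const _) fun x => ?_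
        · exact ((lip_integrable hC he a).sub (lip_integrable hC he b)).abs
        · have := hC.dist_le_mul (a + e x) (b + e x)
          rw [Real.dist_eq, dist_add_right] at this
          exact this
    _ = C * dist a b := by simp

/-- `T G - G` is bounded by the mean norm. -/
theorem Top_sub_le (η : Measure X) [IsProbabilityMeasure η] (e : X → H) (he : Integrable e η)
    (G : LipS H) {C : ℝ≥0} (hC : LipschitzWith C G.1) (h : H) :
    |(Top η e he G).1 h - G.1 h| ≤ C * ∫ x, ‖e x‖ ∂η := by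
  have h1 : (Top η e he G).1 h - G.1 h = ∫ x, (G.1 (h + e x) - G.1 h) ∂η := by
    rw [integral_sub (lip_integrable hC he h) (integrable_const _), Top_apply]
    simp
  rw [h1]
  calc |∫ x, (G.1 (h + e x) - G.1 h) ∂η| ≤ ∫ x, |G.1 (h + e x) - G.1 h| ∂η := by
        have := norm_integral_le_integral_norm (μ := η) (fun x => G.1 (h + e x) - G.1 h)
        simpa only [ge_iff_le, Real.norm_eq_abs] using this
    _ ≤ ∫ x, C * ‖e x‖ ∂η := by
        refine integral_mono ?_ (he.norm.const_mul _) fun x => lip_bound hC h (e x)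
        exact ((lip_integrable hC he h).sub (integrable_const _)).abs
    _ = _ := integral_const_mul _ _

variable {Y : Type} [MeasurableSpace Y]

/-- The operators commute. -/
theorem Top_commute (η : Measure X) [IsProbabilityMeasure η] (e : X → H) (he : Integrable e η)
    (η' : Measure Y) [IsProbabilityMeasure η'] (e' : Y → H) (he' : Integrable e' η') :
    Commute (Top η e he) (Top η' e' he') := by
  ext G h
  show (Top η e he (Top η' e' he' G)).1 h = (Top η' e' he' (Top η e he G)).1 h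
  obtain ⟨C, hC⟩ := G.2
  rw [Top_apply, Top_apply]
  simp_rw [Top_apply]
  rw [integral_integral_swap]
  · refine integral_congr_ae (Filter.Eventually.of_forall fun y => ?_)
    refine integral_congr_ae (Filter.Eventually.of_forall fun x => ?_)
    show G.1 (h + e x + e' y) = G.1 (h + e' y + e x)
    rw [add_right_comm]
  · have hsum : Integrable (fun z : X × Y => e z.1 + e' z.2) (η.prod η') :=
      (he.comp_fst _).add (he'.comp_snd _)
    have := lip_integrable hC hsum h
    refine this.congr (Filter.Eventually.of_forall fun z => ?_)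
    show G.1 (h + (e z.1 + e' z.2)) = G.1 (h + e z.1 + e' z.2)
    rw [add_assoc]

/-- Iterates of the operator as integrals over product spaces. -/
theorem Top_pow (η : Measure X) [IsProbabilityMeasure η] (e : X → H) (he : Integrable e η)
    (n : ℕ) (G : LipS H) (h : H) :
    ((Top η e he ^ n) G).1 h = ∫ ω : Fin n → X, G.1 (h + ∑ k, e (ω k)) ∂(Measure.pi fun _ => η) := by
  induction n generalizing h with
  | zero =>
    simp only [pow_zero, Module.End.one_apply, Finset.univ_eq_empty, Finset.sum_empty, add_zero, integral_const, probReal_univ, smul_eq_mul, one_mul]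
  | succ n ih =>
    rw [pow_succ']
    show (Top η e he ((Top η e he ^ n) G)).1 h = _
    rw [Top_apply]
    simp_rw [ih]
    obtain ⟨C, hC⟩ := G.2
    have hmp := measurePreserving_piFinSuccAbove (fun _ : Fin (n + 1) => η) 0
    have hemb := (MeasurableEquiv.piFinSuccAbove (fun _ : Fin (n + 1) => X) 0).measurableEmbedding
    have h1 := hmp.integral_comp hemb (g := fun z : X × (Fin n → X) =>
      G.1 (h + e z.1 + ∑ k, e (z.2 k)))
    have h2 : ∀ ω : Fin (n + 1) → X,
        G.1 (h + e ((MeasurableEquiv.piFinSuccAbove (fun _ : Fin (n + 1) => X) 0) ω).1 +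
          ∑ k, e (((MeasurableEquiv.piFinSuccAbove (fun _ : Fin (n + 1) => X) 0) ω).2 k)) =
        G.1 (h + ∑ k, e (ω k)) := by
      intro ω
      rw [Fin.sum_univ_succ, add_assoc]
      rfl
    simp_rw [h2] at h1
    rw [h1, integral_prod]
    have hsum : Integrable (fun z : X × (Fin n → X) => e z.1 + ∑ k, e (z.2 k))
        (η.prod (Measure.pi fun _ : Fin n => η)) := by
      refine (he.comp_fst _).add ?_
      refine integrable_finsetSum _ fun k _ => ?_
      have h3 : Integrable (fun ω : Fin n → X => e (ω k)) (Measure.pi fun _ : Fin n => η) :=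
        integrable_comp_eval he
      exact h3.comp_snd _
    refine (lip_integrable hC hsum h).congr (Filter.Eventually.of_forall fun z => ?_)
    show G.1 (h + (e z.1 + ∑ k, e (z.2 k))) = G.1 (h + e z.1 + ∑ k, e (z.2 k))
    rw [add_assoc]

end LipOp

end Vale.Agent.P168
end
end

section

section

set_option autoImplicit false
set_option linter.unusedSectionVars false

namespace Vale.Agent.P168

open Finset

section Cluster

variable {V C : Type*} [Fintype V] [DecidableEq V] [Fintype C] [DecidableEq C] {K : ℕ}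

/-- One step through a clause, arriving in `D`. -/
def Step (I : C → Fin K → V) (D : Finset V) (a b : V) : Prop :=
  ∃ c, (∃ i, I c i = a) ∧ (∃ j, I c j = b) ∧ b ∈ D

end Cluster

end Vale.Agent.P168
end
end

section

section

set_option autoImplicit false
set_option linter.unusedSectionVars false

namespace Vale.Agent.P168

open Finset

section Cov

variable {V C : Type*} [Fintype V] [DecidableEq V] [Fintype C] [DecidableEq C] {K : ℕ}

end Cov

end Vale.Agent.P168
end
end

section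

section

set_option autoImplicit false
set_option linter.unusedSectionVars false

namespace Vale.Agent.P168

open Finset

section CovPath

variable {V C : Type*} [Fintype V] [DecidableEq V] [Fintype C] [DecidableEq C] {K : ℕ}

end CovPath

end Vale.Agent.P168
end
end

section

section

open Finset

namespace Vale.Agent.P168.KS

section Finite

variable {Ω : Type*} [Fintype Ω] [Nonempty Ω]

end Finite

end Vale.Agent.P168.KS
end
end

section

section

open MeasureTheory ProbabilityTheory Finset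
open scoped NNReal

namespace Vale.Agent.P168.KS

lemma spin_abs (s : Bool) : |spin s| = 1 := by
  cases s <;> simp [spin]

instance instProbUnif (N : ℕ) [NeZero N] : IsProbabilityMeasure (unif N) :=
  isProbabilityMeasure_uniformOn Set.finite_univ Set.univ_nonempty

lemma unif_real_singleton (N : ℕ) [NeZero N] (i : Fin N) :
    (unif N).real {i} = 1 / (N : ℝ) := by
  unfold unif
  rw [measureReal_def, uniformOn_univ]
  simp only [MeasurableSpace.measurableSet_top, Measure.count_singleton', Fintype.card_fin, one_div, ENNReal.toReal_inv, ENNReal.toReal_natCast]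

lemma integral_unif (N : ℕ) [NeZero N] (f : Fin N → ℝ) :
    ∫ i, f i ∂(unif N) = (1 / (N : ℝ)) * ∑ i, f i := by
  rw [integral_fintype (Integrable.of_finite), Finset.mul_sum]
  refine Finset.sum_congr rfl fun i _ => ?_
  rw [unif_real_singleton, smul_eq_mul]

/-- law of the sites of one interaction -/
noncomputable abbrev unifK (K N : ℕ) : Measure (Fin K → Fin N) := Measure.pi fun _ => unif N

end Vale.Agent.P168.KS
end
end

section

section

set_option autoImplicit false

open MeasureTheory ProbabilityTheory Finset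
open scoped NNReal

namespace Vale.Agent.P168

open KS (unifK integral_unif)

variable {K : ℕ}

/-- `max_σ |θ(σ)|`. -/
noncomputable def maxTheta (c : Clause K) : ℝ := ⨆ σ : Fin K → Bool, |theta c σ|

theorem measurable_theta (σ : Fin K → Bool) : Measurable fun c : Clause K => theta c σ := by
  unfold theta
  apply Real.measurable_log.comp
  apply Measurable.mul measurable_fst
  apply Measurable.const_add
  apply Measurable.mul (measurable_fst.comp measurable_snd)
  apply Finset.measurable_prod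
  intro j _
  have h1 : Measurable fun c : Clause K => c.2.2 := measurable_snd.comp measurable_snd
  exact (measurable_pi_apply (σ j)).comp ((measurable_pi_apply j).comp h1)

theorem measurable_maxTheta : Measurable (maxTheta : Clause K → ℝ) := by
  unfold maxTheta
  exact Measurable.iSup fun σ => (measurable_theta σ).abs

theorem abs_theta_le (c : Clause K) (σ : Fin K → Bool) : |theta c σ| ≤ maxTheta c :=
  le_ciSup (f := fun σ : Fin K → Bool => |theta c σ|) (Set.finite_range _).bddAbove σ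

theorem maxTheta_nonneg (c : Clause K) : 0 ≤ maxTheta c :=
  le_trans (abs_nonneg _) (abs_theta_le c fun _ => true)

theorem maxTheta_le_sum (c : Clause K) : maxTheta c ≤ ∑ σ : Fin K → Bool, |theta c σ| := by
  unfold maxTheta
  refine ciSup_le fun σ => ?_
  exact Finset.single_le_sum (f := fun σ : Fin K → Bool => |theta c σ|)
    (fun _ _ => abs_nonneg _) (Finset.mem_univ σ)

/-- Energy of one interaction placed at the sites `x.2`. -/
noncomputable def clauseE {N : ℕ} (x : Clause K × (Fin K → Fin N)) (σ : Fin N → Bool) : ℝ :=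
  theta x.1 fun j => σ (x.2 j)

theorem measurable_clauseE {N : ℕ} (σ : Fin N → Bool) :
    Measurable fun x : Clause K × (Fin K → Fin N) => clauseE x σ := by
  refine measurable_from_prod_countable_left (α := Clause K) (β := Fin K → Fin N)
    (f := fun x => clauseE x σ) fun I => ?_
  exact measurable_theta (fun j => σ (I j))

theorem abs_clauseE_le {N : ℕ} (x : Clause K × (Fin K → Fin N)) (σ : Fin N → Bool) :
    |clauseE x σ| ≤ maxTheta x.1 := abs_theta_le _ _

section Idx

variable {N : ℕ} [NeZero N]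

end Idx

end Vale.Agent.P168
end
end

section

section

set_option autoImplicit false
set_option linter.unusedSectionVars false

open MeasureTheory ProbabilityTheory Finset
open scoped NNReal

namespace Vale.Agent.P168

open KS (unifK integral_unif)

variable {K : ℕ}

section Exp

variable {N n k : ℕ} [NeZero N] (ρ : Measure (Clause K)) [IsProbabilityMeasure ρ]

end Exp

end Vale.Agent.P168
end
end

section

section

set_option autoImplicit false
set_option linter.unusedSectionVars false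

open MeasureTheory ProbabilityTheory Finset
open scoped NNReal

namespace Vale.Agent.P168

open KS (unifK integral_unif)

variable {K N k : ℕ}

/-- Energy of the system. -/
noncomputable def En (ω : Fin k → Clause K × (Fin K → Fin N)) (h : Fin N → ℝ)
    (σ : Fin N → Bool) : ℝ :=
  ∑ c, clauseE (ω c) σ + ∑ v, h v * spin (σ v)

theorem spin_abs_one (b : Bool) : |spin b| = 1 := by cases b <;> simp [spin]

theorem measurable_En :
    Measurable fun x : (Fin k → Clause K × (Fin K → Fin N)) × (Fin N → ℝ) => En x.1 x.2 := by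
  rw [measurable_pi_iff]
  intro σ
  unfold En
  refine Measurable.add ?_ ?_
  · refine Finset.measurable_fun_sum _ fun c _ => ?_
    have h1 : Measurable fun x : (Fin k → Clause K × (Fin K → Fin N)) × (Fin N → ℝ) => x.1 c :=
      (measurable_pi_apply c).comp measurable_fst
    exact (measurable_clauseE σ).comp h1
  · refine Finset.measurable_fun_sum _ fun v _ => ?_
    exact ((measurable_pi_apply v).comp measurable_snd).mul_const _

section Exp

variable [NeZero N] (ρ : Measure (Clause K)) [IsProbabilityMeasure ρ]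

end Exp

end Vale.Agent.P168
end
end

section

section

set_option autoImplicit false
set_option linter.unusedSectionVars false

open MeasureTheory ProbabilityTheory Finset
open scoped NNReal

namespace Vale.Agent.P168

open KS (unifK integral_unif)

section Avg

variable {H : Type} [NormedAddCommGroup H]

/-- Averaging operators. -/
structure IsAvg (T : Module.End ℝ (LipS H)) (L : ℝ) : Prop where
  lip : ∀ (G : LipS H) (C : ℝ≥0), LipschitzWith C G.1 → LipschitzWith C (T G).1
  near : ∀ (G : LipS H) (C : ℝ≥0), LipschitzWith C G.1 → ∀ h, |(T G).1 h - G.1 h| ≤ C * L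
  bdd : ∀ (G : LipS H) (B : ℝ), (∀ h, |G.1 h| ≤ B) → ∀ h, |(T G).1 h| ≤ B

theorem isAvg_top {X : Type} [MeasurableSpace X] (η : Measure X) [IsProbabilityMeasure η]
    (e : X → H) (he : Integrable e η) (L : ℝ) (hL : ∫ x, ‖e x‖ ∂η ≤ L) :
    IsAvg (Top η e he) L where
  lip G C hC := Top_lip η e he G hC
  near G C hC h := (Top_sub_le η e he G hC h).trans
    (mul_le_mul_of_nonneg_left hL (NNReal.coe_nonneg C))
  bdd G B hB h := by
    obtain ⟨C, hC⟩ := G.2
    rw [Top_apply]
    calc |∫ x, G.1 (h + e x) ∂η| ≤ ∫ x, |G.1 (h + e x)| ∂η := by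
          have := norm_integral_le_integral_norm (μ := η) (fun x => G.1 (h + e x))
          simpa only [ge_iff_le, Real.norm_eq_abs] using this
      _ ≤ ∫ _, B ∂η := integral_mono (lip_integrable hC he h).abs (integrable_const _)
          fun x => hB _
      _ = B := by simp

theorem comb_apply {ι : Type*} (t : Finset ι) (a : ι → ℝ) (T : ι → Module.End ℝ (LipS H))
    (G : LipS H) (h : H) :
    ((∑ i ∈ t, a i • T i) G).1 h = ∑ i ∈ t, a i * (T i G).1 h := by
  rw [LinearMap.sum_apply]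
  simp only [LinearMap.smul_apply, AddSubmonoidClass.coe_finsetSum, SetLike.val_smul, Finset.sum_apply, Pi.smul_apply, smul_eq_mul]

theorem isAvg_comb {ι : Type*} (t : Finset ι) (a : ι → ℝ) (ha : ∀ i ∈ t, 0 ≤ a i)
    (ha1 : ∑ i ∈ t, a i = 1) (T : ι → Module.End ℝ (LipS H)) (L : ℝ)
    (hT : ∀ i ∈ t, IsAvg (T i) L) : IsAvg (∑ i ∈ t, a i • T i) L where
  lip G C hC := by
    refine LipschitzWith.of_dist_le_mul fun x y => ?_
    rw [Real.dist_eq, comb_apply, comb_apply, ← Finset.sum_sub_distrib]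
    calc |∑ i ∈ t, (a i * (T i G).1 x - a i * (T i G).1 y)|
        ≤ ∑ i ∈ t, |a i * (T i G).1 x - a i * (T i G).1 y| := Finset.abs_sum_le_sum_abs _ _
      _ ≤ ∑ i ∈ t, a i * (C * dist x y) := by
          refine Finset.sum_le_sum fun i hi => ?_
          rw [← mul_sub, abs_mul, abs_of_nonneg (ha i hi)]
          apply mul_le_mul_of_nonneg_left _ (ha i hi)
          have := ((hT i hi).lip G C hC).dist_le_mul x y
          rwa [Real.dist_eq] at this
      _ = C * dist x y := by rw [← Finset.sum_mul, ha1, one_mul]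
  near G C hC h := by
    have h1 : ((∑ i ∈ t, a i • T i) G).1 h - G.1 h = ∑ i ∈ t, a i * ((T i G).1 h - G.1 h) := by
      rw [comb_apply]
      simp_rw [mul_sub]
      rw [Finset.sum_sub_distrib, ← Finset.sum_mul, ha1, one_mul]
    rw [h1]
    calc |∑ i ∈ t, a i * ((T i G).1 h - G.1 h)| ≤ ∑ i ∈ t, |a i * ((T i G).1 h - G.1 h)| :=
          Finset.abs_sum_le_sum_abs _ _
      _ ≤ ∑ i ∈ t, a i * (C * L) := by
          refine Finset.sum_le_sum fun i hi => ?_
          rw [abs_mul, abs_of_nonneg (ha i hi)]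
          exact mul_le_mul_of_nonneg_left ((hT i hi).near G C hC h) (ha i hi)
      _ = C * L := by rw [← Finset.sum_mul, ha1, one_mul]
  bdd G B hB h := by
    rw [comb_apply]
    calc |∑ i ∈ t, a i * (T i G).1 h| ≤ ∑ i ∈ t, |a i * (T i G).1 h| :=
          Finset.abs_sum_le_sum_abs _ _
      _ ≤ ∑ i ∈ t, a i * B := by
          refine Finset.sum_le_sum fun i hi => ?_
          rw [abs_mul, abs_of_nonneg (ha i hi)]
          exact mul_le_mul_of_nonneg_left ((hT i hi).bdd G B hB h) (ha i hi)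
      _ = B := by rw [← Finset.sum_mul, ha1, one_mul]

theorem IsAvg.pow_lip {T : Module.End ℝ (LipS H)} {L : ℝ} (hT : IsAvg T L) (n : ℕ) :
    ∀ (G : LipS H) (C : ℝ≥0), LipschitzWith C G.1 → LipschitzWith C ((T ^ n) G).1 := by
  induction n with
  | zero => intro G C hC; simpa only [pow_zero, Module.End.one_apply] using hC
  | succ n ih =>
    intro G C hC
    rw [pow_succ']
    exact hT.lip _ C (ih G C hC)

theorem IsAvg.pow_near {T : Module.End ℝ (LipS H)} {L : ℝ} (hT : IsAvg T L) (n : ℕ) :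
    ∀ (G : LipS H) (C : ℝ≥0), LipschitzWith C G.1 → ∀ h,
      |((T ^ n) G).1 h - G.1 h| ≤ n * (C * L) := by
  induction n with
  | zero => intro G C hC h; simp only [pow_zero, Module.End.one_apply, sub_self, abs_zero, CharP.cast_eq_zero, zero_mul, Std.le_refl]
  | succ n ih =>
    intro G C hC h
    rw [pow_succ']
    have h1 := hT.near ((T ^ n) G) C (hT.pow_lip n G C hC) h
    have h2 := ih G C hC h
    have h3 := abs_add_le ((T ((T ^ n) G)).1 h - ((T ^ n) G).1 h) (((T ^ n) G).1 h - G.1 h)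
    rw [sub_add_sub_cancel] at h3
    refine h3.trans ?_
    push_cast
    linarith

theorem IsAvg.pow_bdd {T : Module.End ℝ (LipS H)} {L : ℝ} (hT : IsAvg T L) (n : ℕ) :
    ∀ (G : LipS H) (B : ℝ), (∀ h, |G.1 h| ≤ B) → ∀ h, |((T ^ n) G).1 h| ≤ B := by
  induction n with
  | zero => intro G B hB h; simpa only [pow_zero, Module.End.one_apply] using hB h
  | succ n ih =>
    intro G B hB h
    rw [pow_succ']
    exact hT.bdd _ B (ih G B hB) h

theorem IsAvg.pow_compare {T T' : Module.End ℝ (LipS H)} {L : ℝ} (hT : IsAvg T L)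
    (hT' : IsAvg T' L) (ε : ℝ) (hε : ∀ (G : LipS H) (C : ℝ≥0), LipschitzWith C G.1 → ∀ h,
      |(T G).1 h - (T' G).1 h| ≤ C * ε) (n : ℕ) :
    ∀ (G : LipS H) (C : ℝ≥0), LipschitzWith C G.1 → ∀ h,
      |((T ^ n) G).1 h - ((T' ^ n) G).1 h| ≤ n * (C * ε) := by
  induction n with
  | zero => intro G C hC h; simp only [pow_zero, Module.End.one_apply, sub_self, abs_zero, CharP.cast_eq_zero, zero_mul, Std.le_refl]
  | succ n ih =>
    intro G C hC h
    rw [pow_succ', pow_succ']
    have h1 := hε ((T ^ n) G) C (hT.pow_lip n G C hC) h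
    have h2 : |(T' ((T ^ n) G)).1 h - (T' ((T' ^ n) G)).1 h| ≤ n * (C * ε) := by
      have := hT'.bdd ((T ^ n) G - (T' ^ n) G) (n * (C * ε)) (fun h => ih G C hC h) h
      rwa [map_sub] at this
    have h3 := abs_add_le ((T ((T ^ n) G)).1 h - (T' ((T ^ n) G)).1 h)
      ((T' ((T ^ n) G)).1 h - (T' ((T' ^ n) G)).1 h)
    rw [sub_add_sub_cancel] at h3
    refine h3.trans ?_
    push_cast
    linarith

end Avg

end Vale.Agent.P168
end
end

section

section

open MeasureTheory ProbabilityTheory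
open scoped NNReal

namespace Vale.Agent.P168

lemma nest_zero {W : Type} [MeasurableSpace W] (P : Measure W) (m : Fin 0 → ℝ)
    (Y : (Fin 0 → W) → ℝ) : nest P 0 m Y = Y Fin.elim0 := rfl

lemma nest_succ {W : Type} [MeasurableSpace W] (P : Measure W) (r : ℕ) (m : Fin (r + 1) → ℝ)
    (Y : (Fin (r + 1) → W) → ℝ) :
    nest P (r + 1) m Y =
      (∫ u, (nest P r (Fin.tail m) fun v => Y (Fin.cons u v)) ^ m 0 ∂P) ^ (1 / m 0) := rfl

end Vale.Agent.P168
end
end

section

section

set_option autoImplicit false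

open MeasureTheory ProbabilityTheory
open scoped NNReal

namespace Vale.Agent.P168.PT

variable {W : Type} [MeasurableSpace W]

/-- Measurable with values in `[z0, z1]`. -/
structure Bd {A : Type} [MeasurableSpace A] (z0 z1 : ℝ) (Y : A → ℝ) : Prop where
  meas : Measurable Y
  lo : ∀ v, z0 ≤ Y v
  hi : ∀ v, Y v ≤ z1

theorem Bd.comp {A B : Type} [MeasurableSpace A] [MeasurableSpace B] {z0 z1 : ℝ} {Y : A → ℝ}
    (h : Bd z0 z1 Y) {f : B → A} (hf : Measurable f) : Bd z0 z1 fun b => Y (f b) :=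
  ⟨h.meas.comp hf, fun _ => h.lo _, fun _ => h.hi _⟩

theorem Bd.rpow {A : Type} [MeasurableSpace A] {z0 z1 : ℝ} {Y : A → ℝ}
    (h : Bd z0 z1 Y) (hz : 0 < z0) {q : ℝ} (hq : 0 < q) : Bd (z0 ^ q) (z1 ^ q) fun a => Y a ^ q :=
  ⟨h.meas.pow_const q, fun v => Real.rpow_le_rpow hz.le (h.lo v) hq.le,
    fun v => Real.rpow_le_rpow (hz.le.trans (h.lo v)) (h.hi v) hq.le⟩

theorem Bd.integrable {A : Type} [MeasurableSpace A] {z0 z1 : ℝ} {Y : A → ℝ}
    (h : Bd z0 z1 Y) (P : Measure A) [IsFiniteMeasure P] : Integrable Y P := by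
  refine Integrable.of_bound h.meas.aestronglyMeasurable (max |z0| |z1|)
    (Filter.Eventually.of_forall fun a => ?_)
  exact abs_le_max_abs_abs (h.lo a) (h.hi a)

theorem Bd.integral_mem {A : Type} [MeasurableSpace A] {z0 z1 : ℝ} {Y : A → ℝ}
    (h : Bd z0 z1 Y) (P : Measure A) [IsProbabilityMeasure P] :
    z0 ≤ ∫ a, Y a ∂P ∧ ∫ a, Y a ∂P ≤ z1 := by
  constructor
  · have := integral_mono (integrable_const z0) (h.integrable P) h.lo
    simpa using this
  · have := integral_mono (h.integrable P) (integrable_const z1) h.hi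
    simpa using this

/-- The power mean. -/
noncomputable def pm (P : Measure W) (q : ℝ) (F : W → ℝ) : ℝ := (∫ u, F u ^ q ∂P) ^ (1 / q)

theorem pm_mem {P : Measure W} [IsProbabilityMeasure P] {q z0 z1 : ℝ} {F : W → ℝ}
    (h : Bd z0 z1 F) (hz : 0 < z0) (hq : 0 < q) : z0 ≤ pm P q F ∧ pm P q F ≤ z1 := by
  have hz1 : z0 ≤ z1 := by
    obtain ⟨w⟩ : Nonempty W := P.nonempty_of_neZero
    exact (h.lo w).trans (h.hi w)
  have h1 := (h.rpow hz hq).integral_mem P
  have e0 : (z0 ^ q) ^ (1 / q) = z0 := by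
    rw [← Real.rpow_mul hz.le, mul_one_div_cancel hq.ne', Real.rpow_one]
  have e1 : (z1 ^ q) ^ (1 / q) = z1 := by
    rw [← Real.rpow_mul (hz.le.trans hz1), mul_one_div_cancel hq.ne', Real.rpow_one]
  constructor
  · calc z0 = (z0 ^ q) ^ (1 / q) := e0.symm
      _ ≤ _ := Real.rpow_le_rpow (by positivity) h1.1 (by positivity)
  · calc pm P q F ≤ (z1 ^ q) ^ (1 / q) :=
        Real.rpow_le_rpow ((Real.rpow_nonneg hz.le q).trans h1.1) h1.2 (by positivity)
      _ = z1 := e1

theorem pm_rpow {P : Measure W} [IsProbabilityMeasure P] {q z0 z1 : ℝ} {F : W → ℝ}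
    (h : Bd z0 z1 F) (hz : 0 < z0) (hq : 0 < q) : pm P q F ^ q = ∫ u, F u ^ q ∂P := by
  have h1 := (h.rpow hz hq).integral_mem P
  unfold pm
  rw [← Real.rpow_mul ((Real.rpow_nonneg hz.le q).trans h1.1), one_div_mul_cancel hq.ne',
    Real.rpow_one]

theorem pm_mono {P : Measure W} [IsProbabilityMeasure P] {q z0 z1 z0' z1' : ℝ} {F G : W → ℝ}
    (h : Bd z0 z1 F) (hz : 0 < z0) (h' : Bd z0' z1' G) (hz' : 0 < z0') (hq : 0 < q)
    (hFG : ∀ u, F u ≤ G u) : pm P q F ≤ pm P q G := by
  have h1 := (h.rpow hz hq).integral_mem P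
  refine Real.rpow_le_rpow ((Real.rpow_nonneg hz.le q).trans h1.1) ?_ (by positivity)
  exact integral_mono ((h.rpow hz hq).integrable P) ((h'.rpow hz' hq).integrable P)
    fun u => Real.rpow_le_rpow (hz.le.trans (h.lo u)) (hFG u) hq.le

theorem pm_smul {P : Measure W} {q c : ℝ} {F : W → ℝ} (hc : 0 ≤ c)
    (hF : ∀ u, 0 ≤ F u) (hq : 0 < q) : pm P q (fun u => c * F u) = c * pm P q F := by
  unfold pm
  have h1 : ∀ u, (c * F u) ^ q = c ^ q * F u ^ q := fun u => Real.mul_rpow hc (hF u)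
  simp_rw [h1]
  rw [integral_const_mul, Real.mul_rpow (Real.rpow_nonneg hc q)
    (integral_nonneg fun u => Real.rpow_nonneg (hF u) q), ← Real.rpow_mul hc,
    mul_one_div_cancel hq.ne', Real.rpow_one]

theorem pm_nonneg {P : Measure W} {q : ℝ} {F : W → ℝ}
    (hF : ∀ u, 0 ≤ F u) : 0 ≤ pm P q F :=
  Real.rpow_nonneg (integral_nonneg fun u => Real.rpow_nonneg (hF u) q) _

theorem nest_succ' (P : Measure W) (r : ℕ) (m : Fin (r + 1) → ℝ) (Y : (Fin (r + 1) → W) → ℝ) :
    nest P (r + 1) m Y = pm P (m 0) fun u => nest P r (Fin.tail m) fun v => Y (Fin.cons u v) := rfl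

theorem measurable_cons {r : ℕ} :
    Measurable fun z : W × (Fin r → W) => (Fin.cons z.1 z.2 : Fin (r + 1) → W) := by
  refine measurable_pi_iff.2 fun i => ?_
  refine Fin.cases ?_ (fun j => ?_) i
  · simpa using measurable_fst
  · simpa [Function.comp_def] using
      (measurable_pi_apply j).comp (measurable_snd (α := W) (β := Fin r → W))

theorem measurable_consr {r : ℕ} (u : W) :
    Measurable fun v : Fin r → W => (Fin.cons u v : Fin (r + 1) → W) :=
  measurable_cons.comp (measurable_const.prodMk measurable_id)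

theorem measurable_nest (P : Measure W) [SFinite P] (r : ℕ) :
    ∀ (m : Fin r → ℝ) {Θ : Type} [MeasurableSpace Θ] (Y : Θ → (Fin r → W) → ℝ),
      Measurable (fun z : Θ × (Fin r → W) => Y z.1 z.2) →
        Measurable fun θ => nest P r m (Y θ) := by
  induction r with
  | zero =>
    intro m Θ _ Y hY
    exact hY.comp (measurable_id.prodMk measurable_const)
  | succ r ih =>
    intro m Θ _ Y hY
    have h1 : Measurable fun z : Θ × W => nest P r (Fin.tail m) fun v => Y z.1 (Fin.cons z.2 v) := by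
      refine ih (Fin.tail m) (fun (z : Θ × W) v => Y z.1 (Fin.cons z.2 v)) ?_
      refine hY.comp ((measurable_fst.comp measurable_fst).prodMk ?_)
      exact measurable_cons.comp ((measurable_snd.comp measurable_fst).prodMk measurable_snd)
    have h2 : StronglyMeasurable (fun θ => ∫ u, (nest P r (Fin.tail m) fun v =>
        Y θ (Fin.cons u v)) ^ m 0 ∂P) :=
      StronglyMeasurable.integral_prod_right (f := fun θ u => (nest P r (Fin.tail m) fun v =>
        Y θ (Fin.cons u v)) ^ m 0) (h1.pow_const (m 0)).stronglyMeasurable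
    exact h2.measurable.pow_const _

theorem measurable_nest_cons (P : Measure W) [SFinite P] {r : ℕ} (m : Fin r → ℝ)
    {Y : (Fin (r + 1) → W) → ℝ} (hY : Measurable Y) :
    Measurable fun u => nest P r m fun v => Y (Fin.cons u v) :=
  measurable_nest P r m (fun u v => Y (Fin.cons u v)) (hY.comp measurable_cons)

theorem nest_mem {P : Measure W} [IsProbabilityMeasure P] {z0 z1 : ℝ} (hz : 0 < z0) (r : ℕ) :
    ∀ (m : Fin r → ℝ) (_ : ∀ p, 0 < m p) (Y : (Fin r → W) → ℝ) (_ : Bd z0 z1 Y),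
      z0 ≤ nest P r m Y ∧ nest P r m Y ≤ z1 := by
  induction r with
  | zero => intro m hm Y hY; exact ⟨hY.lo _, hY.hi _⟩
  | succ r ih =>
    intro m hm Y hY
    rw [nest_succ']
    refine pm_mem ⟨measurable_nest_cons P _ hY.meas, fun u => ?_, fun u => ?_⟩ hz (hm 0)
    · exact (ih (Fin.tail m) (fun p => hm _) _ (hY.comp (measurable_consr u))).1
    · exact (ih (Fin.tail m) (fun p => hm _) _ (hY.comp (measurable_consr u))).2

theorem nest_cons_bd {P : Measure W} [IsProbabilityMeasure P] {z0 z1 : ℝ} (hz : 0 < z0) {r : ℕ}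
    (m : Fin r → ℝ) (hm : ∀ p, 0 < m p) (Y : (Fin (r + 1) → W) → ℝ) (hY : Bd z0 z1 Y) :
    Bd z0 z1 fun u => nest P r m fun v => Y (Fin.cons u v) :=
  ⟨measurable_nest_cons P _ hY.meas,
    fun u => (nest_mem hz r m hm _ (hY.comp (measurable_consr u))).1,
    fun u => (nest_mem hz r m hm _ (hY.comp (measurable_consr u))).2⟩

theorem nest_mono {P : Measure W} [IsProbabilityMeasure P] {z0 z1 z0' z1' : ℝ} (hz : 0 < z0)
    (hz' : 0 < z0') (r : ℕ) :
    ∀ (m : Fin r → ℝ) (_ : ∀ p, 0 < m p) (Y Y' : (Fin r → W) → ℝ) (_ : Bd z0 z1 Y)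
      (_ : Bd z0' z1' Y') (_ : ∀ v, Y v ≤ Y' v), nest P r m Y ≤ nest P r m Y' := by
  induction r with
  | zero => intro m hm Y Y' _ _ h; exact h _
  | succ r ih =>
    intro m hm Y Y' hY hY' h
    rw [nest_succ', nest_succ']
    refine pm_mono (nest_cons_bd hz _ (fun p => hm _) Y hY) hz
      (nest_cons_bd hz' _ (fun p => hm _) Y' hY') hz' (hm 0) fun u => ?_
    exact ih (Fin.tail m) (fun p => hm _) _ _ (hY.comp (measurable_consr u))
      (hY'.comp (measurable_consr u)) fun v => h _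

theorem nest_nonneg {P : Measure W} (r : ℕ) :
    ∀ (m : Fin r → ℝ) (Y : (Fin r → W) → ℝ) (_ : ∀ v, 0 ≤ Y v), 0 ≤ nest P r m Y := by
  induction r with
  | zero => intro m Y h; exact h _
  | succ r ih =>
    intro m Y h
    rw [nest_succ']
    exact pm_nonneg fun u => ih _ _ fun v => h _

theorem nest_smul {P : Measure W} {c : ℝ} (hc : 0 ≤ c) (r : ℕ) :
    ∀ (m : Fin r → ℝ) (_ : ∀ p, 0 < m p) (Y : (Fin r → W) → ℝ) (_ : ∀ v, 0 ≤ Y v),
      nest P r m (fun v => c * Y v) = c * nest P r m Y := by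
  induction r with
  | zero => intro m hm Y _; rfl
  | succ r ih =>
    intro m hm Y h
    rw [nest_succ', nest_succ']
    have h1 : ∀ u, (nest P r (Fin.tail m) fun v => c * Y (Fin.cons u v)) =
        c * nest P r (Fin.tail m) fun v => Y (Fin.cons u v) := fun u =>
      ih (Fin.tail m) (fun p => hm _) _ fun v => h _
    simp_rw [h1]
    exact pm_smul hc (fun u => nest_nonneg _ _ _ fun v => h _) (hm 0)

theorem nest_const {P : Measure W} [IsProbabilityMeasure P] {c : ℝ} (hc : 0 < c) (r : ℕ)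
    (m : Fin r → ℝ) (hm : ∀ p, 0 < m p) : nest P r m (fun _ => c) = c := by
  have h := nest_mem (P := P) (z0 := c) (z1 := c) hc r m hm (fun _ => c)
    ⟨measurable_const, fun _ => le_rfl, fun _ => le_rfl⟩
  exact le_antisymm h.2 h.1

theorem nest_comp {W' : Type} [MeasurableSpace W'] {P' : Measure W'} {P : Measure W} [SFinite P]
    {φ : W' → W} (hφ : MeasurePreserving φ P' P) (r : ℕ) :
    ∀ (m : Fin r → ℝ) (Y : (Fin r → W) → ℝ) (_ : Measurable Y),
      nest P' r m (fun v => Y fun p => φ (v p)) = nest P r m Y := by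
  induction r with
  | zero =>
    intro m Y _
    rw [nest_zero, nest_zero]
    congr 1
    exact Subsingleton.elim _ _
  | succ r ih =>
    intro m Y hY
    rw [nest_succ', nest_succ']
    unfold pm
    congr 1
    have h1 : ∀ u, (nest P' r (Fin.tail m) fun v => Y fun p => φ ((Fin.cons u v : Fin (r + 1) → W') p)) =
        nest P r (Fin.tail m) fun v => Y (Fin.cons (φ u) v) := by
      intro u
      rw [← ih (Fin.tail m) (fun v => Y (Fin.cons (φ u) v)) (hY.comp (measurable_consr _))]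
      congr 1
      funext v
      congr 1
      funext p
      refine Fin.cases ?_ (fun j => ?_) p
      · simp
      · simp
    simp_rw [h1]
    have h2 := integral_map (μ := P') hφ.measurable.aemeasurable
      ((measurable_nest_cons P (Fin.tail m) hY).pow_const (m 0)).aestronglyMeasurable
    rw [← h2, hφ.map_eq]

theorem nest_prod {ι : Type} [Fintype ι] {V : ι → Type} [∀ i, MeasurableSpace (V i)]
    {P : ∀ i, Measure (V i)} [∀ i, SigmaFinite (P i)] (r : ℕ) :
    ∀ (m : Fin r → ℝ) (_ : ∀ p, 0 < m p) (Y : ∀ i, (Fin r → V i) → ℝ) (_ : ∀ i v, 0 ≤ Y i v),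
      nest (Measure.pi P) r m (fun v => ∏ i, Y i fun p => v p i) = ∏ i, nest (P i) r m (Y i) := by
  induction r with
  | zero =>
    intro m hm Y _
    simp_rw [nest_zero]
    refine Finset.prod_congr rfl fun i _ => ?_
    congr 1
    exact Subsingleton.elim _ _
  | succ r ih =>
    intro m hm Y hY
    simp_rw [nest_succ']
    unfold pm
    have h1 : ∀ u : ∀ i, V i, (nest (Measure.pi P) r (Fin.tail m) fun v => ∏ i, Y i fun p =>
        (Fin.cons u v : Fin (r + 1) → ∀ i, V i) p i) =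
        ∏ i, nest (P i) r (Fin.tail m) fun v => Y i (Fin.cons (u i) v) := by
      intro u
      rw [← ih (Fin.tail m) (fun p => hm _) (fun i v => Y i (Fin.cons (u i) v)) fun i v => hY _ _]
      congr 1
      funext v
      refine Finset.prod_congr rfl fun i _ => ?_
      congr 1
      funext p
      refine Fin.cases ?_ (fun j => ?_) p
      · simp
      · simp
    simp_rw [h1]
    have h2 : ∀ u : ∀ i, V i, (∏ i, nest (P i) r (Fin.tail m) fun v => Y i (Fin.cons (u i) v)) ^ m 0 =
        ∏ i, (nest (P i) r (Fin.tail m) fun v => Y i (Fin.cons (u i) v)) ^ m 0 := by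
      intro u
      rw [Real.finsetProd_rpow]
      intro i _
      exact nest_nonneg _ _ _ fun v => hY _ _
    simp_rw [h2]
    rw [integral_fintype_prod_eq_prod (𝕜 := ℝ) (μ := P)
      (fun i u => (nest (P i) r (Fin.tail m) fun v => Y i (Fin.cons u v)) ^ m 0),
      Real.finsetProd_rpow]
    intro i _
    exact integral_nonneg fun u => Real.rpow_nonneg (nest_nonneg _ _ _ fun v => hY _ _) _

theorem nest_mul {V : Type} [MeasurableSpace V]
    {P : Measure W} {P' : Measure V} [SFinite P] [SFinite P'] (r : ℕ) :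
    ∀ (m : Fin r → ℝ) (_ : ∀ p, 0 < m p) (Y : (Fin r → W) → ℝ) (_ : ∀ v, 0 ≤ Y v)
      (Y' : (Fin r → V) → ℝ) (_ : ∀ v, 0 ≤ Y' v),
      nest (P.prod P') r m (fun v => (Y fun p => (v p).1) * Y' fun p => (v p).2) =
        nest P r m Y * nest P' r m Y' := by
  induction r with
  | zero =>
    intro m hm Y _ Y' _
    simp_rw [nest_zero]
    congr 2 <;> exact Subsingleton.elim _ _
  | succ r ih =>
    intro m hm Y hY Y' hY'
    simp_rw [nest_succ']
    unfold pm
    have h1 : ∀ u : W × V, (nest (P.prod P') r (Fin.tail m) fun v =>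
        (Y fun p => ((Fin.cons u v : Fin (r + 1) → W × V) p).1) *
          Y' fun p => ((Fin.cons u v : Fin (r + 1) → W × V) p).2) =
        (nest P r (Fin.tail m) fun v => Y (Fin.cons u.1 v)) *
          nest P' r (Fin.tail m) fun v => Y' (Fin.cons u.2 v) := by
      intro u
      rw [← ih (Fin.tail m) (fun p => hm _) (fun v => Y (Fin.cons u.1 v)) (fun v => hY _)
        (fun v => Y' (Fin.cons u.2 v)) (fun v => hY' _)]
      congr 1
      funext v
      congr 2
      · funext p
        refine Fin.cases ?_ (fun j => ?_) p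
        · simp
        · simp
      · funext p
        refine Fin.cases ?_ (fun j => ?_) p
        · simp
        · simp
    simp_rw [h1]
    have h2 : ∀ u : W × V, ((nest P r (Fin.tail m) fun v => Y (Fin.cons u.1 v)) *
          nest P' r (Fin.tail m) fun v => Y' (Fin.cons u.2 v)) ^ m 0 =
        (nest P r (Fin.tail m) fun v => Y (Fin.cons u.1 v)) ^ m 0 *
          (nest P' r (Fin.tail m) fun v => Y' (Fin.cons u.2 v)) ^ m 0 := fun u =>
      Real.mul_rpow (nest_nonneg _ _ _ fun v => hY _) (nest_nonneg _ _ _ fun v => hY' _)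
    simp_rw [h2]
    rw [integral_prod_mul (μ := P) (ν := P')
      (fun u => (nest P r (Fin.tail m) fun v => Y (Fin.cons u v)) ^ m 0)
      (fun u => (nest P' r (Fin.tail m) fun v => Y' (Fin.cons u v)) ^ m 0), Real.mul_rpow]
    · exact integral_nonneg fun u => Real.rpow_nonneg (nest_nonneg _ _ _ fun v => hY _) _
    · exact integral_nonneg fun u => Real.rpow_nonneg (nest_nonneg _ _ _ fun v => hY' _) _

/-- Comparison of the logarithms. -/
theorem nest_log_close {P : Measure W} [IsProbabilityMeasure P] {z0 z1 z0' z1' δ : ℝ} (hz : 0 < z0)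
    (hz' : 0 < z0') {r : ℕ} {m : Fin r → ℝ} (hm : ∀ p, 0 < m p) {Y Y' : (Fin r → W) → ℝ}
    (hY : Bd z0 z1 Y) (hY' : Bd z0' z1' Y') (h : ∀ v, Y v ≤ Real.exp δ * Y' v) :
    Real.log (nest P r m Y) ≤ δ + Real.log (nest P r m Y') := by
  have h1 := nest_mem (P := P) hz r m hm Y hY
  have h2 := nest_mem (P := P) hz' r m hm Y' hY'
  have hB : Bd (Real.exp δ * z0') (Real.exp δ * z1') fun v => Real.exp δ * Y' v :=
    ⟨hY'.meas.const_mul _, fun v => mul_le_mul_of_nonneg_left (hY'.lo v) (Real.exp_nonneg _),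
      fun v => mul_le_mul_of_nonneg_left (hY'.hi v) (Real.exp_nonneg _)⟩
  have h3 := nest_mono (P := P) hz (by positivity) r m hm Y _ hY hB h
  rw [nest_smul (Real.exp_nonneg _) r m hm Y' fun v => hz'.le.trans (hY'.lo v)] at h3
  have h4 := Real.log_le_log (hz.trans_le h1.1) h3
  rwa [Real.log_mul (Real.exp_pos _).ne' (hz'.trans_le h2.1).ne', Real.log_exp] at h4

end Vale.Agent.P168.PT
end
end

section

section

/-!
# Realization of the resampling trial on the unit cube

`S` is a finite set of sites. `cellAvg q f` is the average of a function of `J` sites over the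
product of the cells of the partition given by the labels `q`. The recursion
`f ↦ (cellAvg q f) ^ θ` along `r + 1` partitions is the Mézard–Parisi functional of depth `r`,
with the parameters `m i = θ ^ (r - i)` and with messages that are obtained by resampling the
sites inside their cells.
-/

open MeasureTheory ProbabilityTheory Finset
open scoped NNReal BigOperators

namespace Vale.Agent.P168

section defs

variable {S Λ J : Type} [Fintype S] [Fintype J] [DecidableEq J]

open Classical in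
/-- The cell of `i` in the partition given by the labels `q`. -/
noncomputable def cell (q : S → Λ) (i : S) : Finset S := univ.filter fun i' => q i' = q i

/-- The average of `f` over the product of the cells of the coordinates of `s`. -/
noncomputable def cellAvg (q : S → Λ) (f : (J → S) → ℝ) (s : J → S) : ℝ :=
  𝔼 s' ∈ Fintype.piFinset (fun j => cell q (s j)), f s'

/-- `β_p = (E[β_{p+1} | P_p]) ^ θ`, starting from `β_{R+1} = f`; the value is `β_1`. -/
noncomputable def betaRec (θ : ℝ) : (R : ℕ) → (Fin R → S → Λ) → ((J → S) → ℝ) → (J → S) → ℝ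
  | 0, _, f => f
  | R + 1, q, f => fun s => cellAvg (q 0) (betaRec θ R (Fin.tail q) f) s ^ θ

/-- The nested functional on functions of sites. -/
noncomputable def cellNest : (r : ℕ) → (Fin r → ℝ) → (Fin r → S → Λ) → ((J → S) → ℝ) →
    (J → S) → ℝ
  | 0, _, _, f => f
  | r + 1, m, q, f => fun s =>
      cellAvg (q 0) (fun s' => cellNest r (Fin.tail m) (Fin.tail q) f s' ^ m 0) s ^ (1 / m 0)

/-- The multilinear extension of `w`. -/
noncomputable def mlin (w : (J → Bool) → ℝ) (y : J → ℝ) : ℝ :=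
  ∑ σ : J → Bool, w σ * ∏ j, (1 + y j * spin (σ j)) / 2

end defs

section basic

variable {S Λ J : Type} [Fintype S] [Fintype J] [DecidableEq J]

lemma mem_cell {q : S → Λ} {i i' : S} : i' ∈ cell q i ↔ q i' = q i := by
  simp only [cell, mem_filter, mem_univ, true_and]

lemma self_mem_cell (q : S → Λ) (i : S) : i ∈ cell q i := mem_cell.2 rfl

lemma cell_nonempty (q : S → Λ) (i : S) : (cell q i).Nonempty := ⟨i, self_mem_cell q i⟩

lemma piCell_nonempty (q : S → Λ) (s : J → S) :
    (Fintype.piFinset (fun j => cell q (s j))).Nonempty :=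
  ⟨s, Fintype.mem_piFinset.2 fun j => self_mem_cell q (s j)⟩

lemma betaRec_zero (θ : ℝ) (q : Fin 0 → S → Λ) (f : (J → S) → ℝ) : betaRec θ 0 q f = f := rfl

lemma betaRec_succ (θ : ℝ) (R : ℕ) (q : Fin (R + 1) → S → Λ) (f : (J → S) → ℝ) (s : J → S) :
    betaRec θ (R + 1) q f s = cellAvg (q 0) (betaRec θ R (Fin.tail q) f) s ^ θ := rfl

lemma cellNest_zero (m : Fin 0 → ℝ) (q : Fin 0 → S → Λ) (f : (J → S) → ℝ) :
    cellNest 0 m q f = f := rfl

lemma cellNest_succ (r : ℕ) (m : Fin (r + 1) → ℝ) (q : Fin (r + 1) → S → Λ) (f : (J → S) → ℝ)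
    (s : J → S) :
    cellNest (r + 1) m q f s =
      cellAvg (q 0) (fun s' => cellNest r (Fin.tail m) (Fin.tail q) f s' ^ m 0) s ^ (1 / m 0) :=
  rfl

lemma cellAvg_pos (q : S → Λ) {f : (J → S) → ℝ} (hf : ∀ s, 0 < f s) (s : J → S) :
    0 < cellAvg q f s :=
  Finset.expect_pos (fun i _ => hf i) (piCell_nonempty q s)

lemma cellNest_pos (r : ℕ) (m : Fin r → ℝ) (q : Fin r → S → Λ) {f : (J → S) → ℝ}
    (hf : ∀ s, 0 < f s) (s : J → S) : 0 < cellNest r m q f s := by
  induction r generalizing s with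
  | zero => exact hf s
  | succ r ih =>
    rw [cellNest_succ]
    exact Real.rpow_pos_of_pos (cellAvg_pos _ (fun s' => Real.rpow_pos_of_pos (ih _ _ s') _) s) _

/-- The average as a sum against the product kernel. -/
lemma cellAvg_eq_sum (q : S → Λ) (f : (J → S) → ℝ) (s : J → S) :
    cellAvg q f s = ∑ s' : J → S, (∏ j, (cell q (s j) : Set S).indicator
      (fun _ => ((cell q (s j)).card : ℝ)⁻¹) (s' j)) * f s' := by
  classical
  unfold cellAvg
  rw [Finset.expect_eq_sum_div_card, Fintype.card_piFinset, Finset.sum_div]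
  have : ∀ s' : J → S, (∏ j, (cell q (s j) : Set S).indicator
      (fun _ => ((cell q (s j)).card : ℝ)⁻¹) (s' j)) * f s' =
      if s' ∈ Fintype.piFinset (fun j => cell q (s j)) then
        f s' / ((∏ j, (cell q (s j)).card : ℕ) : ℝ) else 0 := by
    intro s'
    split_ifs with h
    · rw [Finset.prod_congr rfl fun j _ => Set.indicator_of_mem
        (Finset.mem_coe.2 (Fintype.mem_piFinset.1 h j)) _]
      rw [Nat.cast_prod, div_eq_mul_inv, mul_comm, ← Finset.prod_inv_distrib]
    · rw [Fintype.mem_piFinset] at h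
      push Not at h
      obtain ⟨j, hj⟩ := h
      rw [Finset.prod_eq_zero (mem_univ j), zero_mul]
      exact Set.indicator_of_notMem (by simpa using hj) _
  simp_rw [this]
  rw [← Finset.sum_filter]
  congr 1
  ext s'
  simp only [Fintype.mem_piFinset, mem_filter, mem_univ, true_and]

/-- Averages of products over product cells factorize. -/
lemma cellAvg_prod (q : S → Λ) (g : J → S → ℝ) (s : J → S) :
    cellAvg q (fun s' => ∏ j, g j (s' j)) s = ∏ j, 𝔼 i ∈ cell q (s j), g j i := by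
  unfold cellAvg
  rw [Finset.expect_eq_sum_div_card, Fintype.card_piFinset]
  rw [← Finset.prod_univ_sum (fun j => cell q (s j)) fun j i => g j i]
  simp_rw [Finset.expect_eq_sum_div_card]
  rw [Finset.prod_div_distrib, Nat.cast_prod]

/-- The average of the multilinear extension. -/
lemma cellAvg_mlin (q : S → Λ) (w : (J → Bool) → ℝ) (y : S → ℝ) (s : J → S) :
    cellAvg q (fun s' => mlin w fun j => y (s' j)) s =
      mlin w fun j => 𝔼 i ∈ cell q (s j), y i := by
  have h1 : cellAvg q (fun s' => mlin w fun j => y (s' j)) s =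
      ∑ σ : J → Bool, w σ * cellAvg q (fun s' => ∏ j, (1 + y (s' j) * spin (σ j)) / 2) s := by
    unfold cellAvg mlin
    rw [Finset.expect_sum_comm]
    exact Finset.sum_congr rfl fun σ _ => (Finset.mul_expect _ _ _).symm
  rw [h1]
  unfold mlin
  refine Finset.sum_congr rfl fun σ _ => ?_
  rw [cellAvg_prod q (fun j i => (1 + y i * spin (σ j)) / 2)]
  congr 1
  refine Finset.prod_congr rfl fun j _ => ?_
  dsimp only
  rw [Finset.expect_eq_sum_div_card, Finset.expect_eq_sum_div_card, ← Finset.sum_div,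
    Finset.sum_add_distrib, ← Finset.sum_mul]
  have hc : ((cell q (s j)).card : ℝ) ≠ 0 := by
    exact_mod_cast (cell_nonempty q (s j)).card_pos.ne'
  simp only [sum_const, nsmul_eq_mul, mul_one]
  (clear * - hc; field_simp)

end basic

section step

variable {S Λ J : Type} [Fintype S] [Fintype J] [DecidableEq J]

/-- Resampling maps: for each site a map of the unit interval with the uniform law on the cell. -/
structure IsStep [MeasurableSpace S] (q : S → Λ) (st : S → U01 → S) : Prop where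
  meas : ∀ i, Measurable (st i)
  law : ∀ i i', (volume.map (st i)).real {i'} =
    (cell q i : Set S).indicator (fun _ => ((cell q i).card : ℝ)⁻¹) i'

lemma exists_step [MeasurableSpace S] [DiscreteMeasurableSpace S] [Nonempty S] (q : S → Λ) :
    ∃ st : S → U01 → S, IsStep q st := by
  classical
  have h : ∀ i, ∃ f : U01 → S, Measurable f ∧
      volume.map f = uniformOn (cell q i : Set S) := by
    intro i
    have : IsProbabilityMeasure (uniformOn (cell q i : Set S)) :=
      isProbabilityMeasure_uniformOn (Finset.finite_toSet _) (cell_nonempty q i)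
    exact Measure.exists_measurable_map_eq _
  choose st hst using h
  refine ⟨st, fun i => (hst i).1, fun i i' => ?_⟩
  rw [(hst i).2]
  have hc : ((cell q i).card : ℝ) ≠ 0 := by
    exact_mod_cast (cell_nonempty q i).card_pos.ne'
  rw [Measure.real, uniformOn, cond_apply (Finset.measurableSet _)]
  by_cases hi : i' ∈ cell q i
  · rw [Set.indicator_of_mem (Finset.mem_coe.2 hi), Set.inter_eq_right.2 (by simpa using hi)]
    simp only [Measure.count_apply_finset, MeasurableSet.singleton, Measure.count_singleton', mul_one, ENNReal.toReal_inv, ENNReal.toReal_natCast]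
  · rw [Set.indicator_of_notMem (by simpa using hi)]
    rw [Set.inter_singleton_eq_empty.2 (by simpa using hi)]
    simp

variable [MeasurableSpace S] [DiscreteMeasurableSpace S]

lemma integral_step {q : S → Λ} {st : S → U01 → S} (hst : IsStep q st) (G : (J → S) → ℝ)
    (s : J → S) : ∫ u : J → U01, G (fun j => st (s j) (u j)) = cellAvg q G s := by
  have hm : Measurable fun (u : J → U01) (j : J) => st (s j) (u j) :=
    measurable_pi_lambda _ fun j => (hst.meas (s j)).comp (measurable_pi_apply j)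
  have h1 : ∫ u : J → U01, G (fun j => st (s j) (u j)) =
      ∫ s', G s' ∂(volume.map fun (u : J → U01) (j : J) => st (s j) (u j)) := by
    rw [integral_map hm.aemeasurable (Measurable.of_discrete).aestronglyMeasurable]
  have h2 : (volume.map fun (u : J → U01) (j : J) => st (s j) (u j)) =
      Measure.pi fun j => (volume : Measure U01).map (st (s j)) := by
    have : ∀ j, SigmaFinite ((volume : Measure U01).map (st (s j))) := fun j => by
      have : IsProbabilityMeasure ((volume : Measure U01).map (st (s j))) :=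
        Measure.isProbabilityMeasure_map (hst.meas (s j)).aemeasurable
      infer_instance
    rw [volume_pi]
    exact Measure.pi_map_pi fun j => (hst.meas (s j)).aemeasurable
  have : ∀ j, IsProbabilityMeasure ((volume : Measure U01).map (st (s j))) := fun j =>
    Measure.isProbabilityMeasure_map (hst.meas (s j)).aemeasurable
  rw [h1, h2, integral_fintype (Integrable.of_finite), cellAvg_eq_sum]
  refine Finset.sum_congr rfl fun s' _ => ?_
  rw [smul_eq_mul, Measure.real, Measure.pi_singleton, ENNReal.toReal_prod]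
  congr 1
  exact Finset.prod_congr rfl fun j _ => hst.law (s j) (s' j)

end step

section site

variable {S Λ J : Type} [Fintype S] [Fintype J] [DecidableEq J]

/-- The site obtained from `i` by following the resampling maps. -/
def lastSite : (r : ℕ) → (Fin r → S → U01 → S) → S → (Fin r → U01) → S
  | 0, _, i, _ => i
  | r + 1, st, i, ω => lastSite r (Fin.tail st) (st 0 i (ω 0)) (Fin.tail ω)

variable [MeasurableSpace S] [DiscreteMeasurableSpace S]

lemma measurable_lastSite (r : ℕ) (st : Fin r → S → U01 → S)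
    (hst : ∀ p i, Measurable (st p i)) (i : S) : Measurable (lastSite r st i) := by
  induction r generalizing i with
  | zero => exact measurable_const
  | succ r ih =>
    have h1 : Measurable fun (x : S × (Fin r → U01)) => lastSite r (Fin.tail st) x.1 x.2 :=
      measurable_from_prod_countable_right fun i => ih (Fin.tail st) (fun p => hst p.succ) i
    have h2 : Measurable fun ω : Fin (r + 1) → U01 => (st 0 i (ω 0), Fin.tail ω) :=
      ((hst 0 i).comp (measurable_pi_apply 0)).prodMk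
        (measurable_pi_lambda _ fun p => measurable_pi_apply _)
    exact h1.comp h2

lemma nest_lastSite (r : ℕ) (m : Fin r → ℝ) (q : Fin r → S → Λ) (st : Fin r → S → U01 → S)
    (hst : ∀ p, IsStep (q p) (st p)) (F : (J → S) → ℝ) (s : J → S) :
    nest volume r m (fun v : Fin r → (J → U01) =>
      F fun j => lastSite r st (s j) fun p => v p j) = cellNest r m q F s := by
  induction r generalizing s with
  | zero => rfl
  | succ r ih =>
    rw [nest_succ, cellNest_succ]
    congr 1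
    rw [← integral_step (hst 0) (fun s' => cellNest r (Fin.tail m) (Fin.tail q) F s' ^ m 0) s]
    refine integral_congr_ae (Filter.Eventually.of_forall fun u => ?_)
    dsimp only
    rw [← ih (Fin.tail m) (Fin.tail q) (Fin.tail st) (fun p => hst p.succ)
      (fun j => st 0 (s j) (u j))]
    rfl

end site

section main

variable {S Λ : Type} [Fintype S]

lemma mlin_pos {J : Type} [Fintype J] [DecidableEq J] {w : (J → Bool) → ℝ} (hw : ∀ σ, 0 < w σ)
    {y : J → ℝ} (hy : ∀ j, y j ∈ Set.Icc (-1 : ℝ) 1) : 0 < mlin w y := by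
  have hnn : ∀ (σ : J → Bool) j, 0 ≤ (1 + y j * spin (σ j)) / 2 := by
    intro σ j
    have := hy j
    rcases h : σ j <;> simp [spin] <;> linarith only [this.1, this.2]
  have hsum : ∑ σ : J → Bool, ∏ j, (1 + y j * spin (σ j)) / 2 = 1 := by
    rw [← Fintype.piFinset_univ, ← Finset.prod_univ_sum (fun _ => (univ : Finset Bool))
      fun j e => (1 + y j * spin e) / 2]
    refine Finset.prod_eq_one fun j _ => ?_
    simp only [Fintype.univ_bool, spin, mul_ite, mul_one, mul_neg, mem_singleton, Bool.true_eq_false, not_false_eq_true, sum_insert, ↓reduceIte, sum_singleton, Bool.false_eq_true]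
    ring
  obtain ⟨σ0, hσ0⟩ : ∃ σ : J → Bool, 0 < ∏ j, (1 + y j * spin (σ j)) / 2 := by
    by_contra hcon
    push Not at hcon
    have : ∑ σ : J → Bool, ∏ j, (1 + y j * spin (σ j)) / 2 ≤ 0 :=
      Finset.sum_nonpos fun σ _ => hcon σ
    linarith only [hsum, this]
  unfold mlin
  exact Finset.sum_pos' (fun σ _ => mul_nonneg (hw σ).le (Finset.prod_nonneg fun j _ => hnn σ j))
    ⟨σ0, mem_univ _, mul_pos (hw σ0) hσ0⟩

lemma expect_cell_mem (q : S → Λ) {xh : S → ℝ} (hxh : ∀ i, xh i ∈ Set.Icc (-1 : ℝ) 1) (i : S) :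
    (𝔼 i' ∈ cell q i, xh i') ∈ Set.Icc (-1 : ℝ) 1 := by
  have hne := cell_nonempty q i
  constructor
  · calc (-1 : ℝ) = 𝔼 _i' ∈ cell q i, (-1 : ℝ) := (Finset.expect_const hne _).symm
      _ ≤ _ := Finset.expect_le_expect fun i' _ => (hxh i').1
  · calc _ ≤ 𝔼 _i' ∈ cell q i, (1 : ℝ) := Finset.expect_le_expect fun i' _ => (hxh i').2
      _ = 1 := Finset.expect_const hne _

/-- The recursion for `β` and the nested functional. -/
lemma betaRec_eq {J : Type} [Fintype J] [DecidableEq J] {θ : ℝ} (hθ : θ ∈ Set.Ioo (0 : ℝ) 1)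
    {w : (J → Bool) → ℝ} (hw : ∀ σ, 0 < w σ) {xh : S → ℝ}
    (hxh : ∀ i, xh i ∈ Set.Icc (-1 : ℝ) 1) (r : ℕ) (q : Fin (r + 1) → S → Λ) (s : J → S) :
    betaRec θ (r + 1) q (fun s => mlin w fun j => xh (s j)) s =
      cellNest r (fun i => θ ^ (r - (i : ℕ))) (fun i => q i.castSucc)
        (fun s => mlin w fun j => 𝔼 i' ∈ cell (q (Fin.last r)) (s j), xh i') s
          ^ (θ ^ (r + 1)) := by
  induction r generalizing s with
  | zero =>
    rw [betaRec_succ, betaRec_zero, cellNest_zero, cellAvg_mlin]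
    simp
  | succ r ih =>
    have hF : ∀ s : J → S, 0 < mlin w fun j => 𝔼 i' ∈ cell (q (Fin.last (r + 1))) (s j), xh i' :=
      fun s => mlin_pos hw fun j => expect_cell_mem _ hxh _
    rw [betaRec_succ, cellNest_succ]
    have e1 : (betaRec θ (r + 1) (Fin.tail q) fun s : J → S => mlin w fun j => xh (s j)) =
        fun s' => cellNest r (Fin.tail fun i : Fin (r + 1) => θ ^ (r + 1 - (i : ℕ)))
          (Fin.tail fun i : Fin (r + 1) => q i.castSucc)
          (fun s => mlin w fun j => 𝔼 i' ∈ cell (q (Fin.last (r + 1))) (s j), xh i') s'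
            ^ (θ ^ (r + 1)) := by
      funext s'
      rw [ih (Fin.tail q) s']
      have t1 : (Fin.tail fun i : Fin (r + 1) => θ ^ (r + 1 - (i : ℕ))) =
          fun i : Fin r => θ ^ (r - (i : ℕ)) := by
        funext i
        simp only [Fin.tail, Fin.val_succ, Nat.reduceSubDiff]
      have t2 : (Fin.tail fun i : Fin (r + 1) => q i.castSucc) =
          fun i : Fin r => Fin.tail q i.castSucc := by
        funext i
        rfl
      rw [t1, t2]
      rfl
    rw [e1]
    have hpos : 0 < cellAvg (J := J) (q 0) (fun s' =>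
        cellNest r (Fin.tail fun i : Fin (r + 1) => θ ^ (r + 1 - (i : ℕ)))
          (Fin.tail fun i : Fin (r + 1) => q i.castSucc)
          (fun s => mlin w fun j => 𝔼 i' ∈ cell (q (Fin.last (r + 1))) (s j), xh i') s'
            ^ (θ ^ (r + 1))) s :=
      cellAvg_pos _ (fun s' => Real.rpow_pos_of_pos (cellNest_pos _ _ _ hF s') _) s
    have e0 : q (Fin.castSucc (0 : Fin (r + 1))) = q 0 := rfl
    have e2 : θ ^ (r + 1 - ((0 : Fin (r + 1)) : ℕ)) = θ ^ (r + 1) := by simp
    rw [e0, e2, ← Real.rpow_mul hpos.le]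
    congr 1
    have : θ ^ (r + 1) ≠ 0 := (pow_pos hθ.1 _).ne'
    rw [pow_succ θ (r + 1)]
    field_simp

/-- **Realization.** The recursion `β` along `r + 1` partitions of a finite set of sites is the
Mézard–Parisi functional of depth `r` with parameters `m i = θ ^ (r - i)`, for one measurable
message function `x` which does not depend on the shape `w`. -/
theorem realize [Nonempty S] {θ : ℝ} (hθ : θ ∈ Set.Ioo (0 : ℝ) 1) (r : ℕ)
    (q : Fin (r + 1) → S → Λ) (xh : S → ℝ) (hxh : ∀ i, xh i ∈ Set.Icc (-1 : ℝ) 1) :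
    ∃ x : (Fin (r + 1) → U01) → ℝ, IsTrial r (fun i => θ ^ (r - (i : ℕ))) x ∧
      ∀ (J : Type) [Fintype J] [DecidableEq J] (w : (J → Bool) → ℝ), (∀ σ, 0 < w σ) →
        hierLog r (fun i => θ ^ (r - (i : ℕ))) (fun u v => mlin w (message x u v)) =
          1 / θ ^ (r + 1) *
            𝔼 s : J → S, Real.log (betaRec θ (r + 1) q (fun s => mlin w fun j => xh (s j)) s) := by
  classical
  let _ : MeasurableSpace S := ⊤
  have : DiscreteMeasurableSpace S := ⟨fun _ => trivial⟩
  obtain ⟨e0, he0⟩ := exists_step (S := S) (fun _ : S => ())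
  have hst : ∀ p : Fin r, ∃ st : S → U01 → S, IsStep (q p.castSucc) st := fun p => exists_step _
  choose st hst using hst
  obtain ⟨i0⟩ := ‹Nonempty S›
  set xv : S → ℝ := fun i => 𝔼 i' ∈ cell (q (Fin.last r)) i, xh i' with hxv
  refine ⟨fun ω => xv (lastSite r st (e0 i0 (ω 0)) (Fin.tail ω)), ⟨?_, ?_, ?_, ?_⟩, ?_⟩
  · intro i j hij
    have h1 : r - (j : ℕ) < r - (i : ℕ) := by
      have := i.2; have := j.2; have : (i : ℕ) < j := hij
      omega
    exact pow_lt_pow_right_of_lt_one₀ hθ.1 hθ.2 h1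
  · intro i
    refine ⟨pow_pos hθ.1 _, pow_lt_one₀ hθ.1.le hθ.2 ?_⟩
    have := i.2
    omega
  · have h1 : Measurable (lastSite (r + 1) (Fin.cons (fun _ => e0 i0) st) i0) :=
      measurable_lastSite (r + 1) _ (fun p i => by
        refine Fin.cases ?_ (fun p => ?_) p
        · simpa using he0.meas i0
        · simpa using (hst p).meas i) i0
    exact (Measurable.of_discrete (f := xv)).comp h1
  · intro ω
    exact expect_cell_mem _ hxh _
  · intro J _ _ w hw
    have hF : ∀ s : J → S, 0 < mlin w fun j => xv (s j) :=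
      fun s => mlin_pos hw fun j => expect_cell_mem _ hxh _
    unfold hierLog
    have key : ∀ u : J → U01, nest volume r (fun i => θ ^ (r - (i : ℕ))) (fun v =>
        mlin w (message (fun ω => xv (lastSite r st (e0 i0 (ω 0)) (Fin.tail ω))) u v)) =
        cellNest r (fun i => θ ^ (r - (i : ℕ))) (fun i => q i.castSucc)
          (fun s => mlin w fun j => xv (s j)) (fun j => e0 i0 (u j)) := by
      intro u
      rw [← nest_lastSite r (fun i => θ ^ (r - (i : ℕ))) (fun i => q i.castSucc) st hst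
        (fun s => mlin w fun j => xv (s j)) (fun j => e0 i0 (u j))]
      rfl
    simp_rw [key]
    rw [integral_step he0 (fun s => Real.log (cellNest r (fun i => θ ^ (r - (i : ℕ)))
      (fun i => q i.castSucc) (fun s => mlin w fun j => xv (s j)) s)) (fun _ => i0)]
    have hcell : (Fintype.piFinset fun _ : J => cell (fun _ : S => ()) i0) =
        (univ : Finset (J → S)) := by
      ext s
      simp only [Fintype.mem_piFinset, mem_cell, implies_true, mem_univ]
    rw [cellAvg, hcell, Finset.mul_expect]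
    refine Finset.expect_congr rfl fun s _ => ?_
    rw [betaRec_eq hθ hw hxh r q s, Real.log_rpow (cellNest_pos _ _ _ hF s)]
    have : θ ^ (r + 1) ≠ 0 := (pow_pos hθ.1 _).ne'
    field_simp

end main

end Vale.Agent.P168
end
end

section

section

set_option autoImplicit false

open Finset

namespace Vale.Agent.P168.MP

/-- A normalized positive linear functional on all real functions on `α` (an abstract
expectation; the only facts used are linearity, monotonicity and `E 1 = 1`). -/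
structure PE (α : Type) where
  E : (α → ℝ) → ℝ
  add' : ∀ f g : α → ℝ, E (fun x => f x + g x) = E f + E g
  smul' : ∀ (c : ℝ) (f : α → ℝ), E (fun x => c * f x) = c * E f
  mono' : ∀ f g : α → ℝ, (∀ x, f x ≤ g x) → E f ≤ E g
  one' : E (fun _ => 1) = 1

namespace PE

variable {α β γ : Type} (P : PE α)

theorem add (f g : α → ℝ) : P.E (fun x => f x + g x) = P.E f + P.E g := P.add' f g

theorem smul (c : ℝ) (f : α → ℝ) : P.E (fun x => c * f x) = c * P.E f := P.smul' c f

theorem mul_right (c : ℝ) (f : α → ℝ) : P.E (fun x => f x * c) = P.E f * c := by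
  rw [mul_comm, ← P.smul]
  congr 1
  funext x
  ring

theorem div_right (c : ℝ) (f : α → ℝ) : P.E (fun x => f x / c) = P.E f / c := by
  simp only [div_eq_mul_inv]
  exact P.mul_right _ _

theorem mono {f g : α → ℝ} (h : ∀ x, f x ≤ g x) : P.E f ≤ P.E g := P.mono' f g h

theorem const (c : ℝ) : P.E (fun _ => c) = c := by
  have := P.smul c (fun _ => 1)
  rw [P.one'] at this
  simpa using this

theorem neg (f : α → ℝ) : P.E (fun x => - f x) = - P.E f := by
  have := P.smul (-1) f
  simpa only [neg_mul, one_mul] using this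

theorem sub (f g : α → ℝ) : P.E (fun x => f x - g x) = P.E f - P.E g := by
  have := P.add f (fun x => - g x)
  rw [P.neg] at this
  simpa only [sub_eq_add_neg] using this

theorem nonneg {f : α → ℝ} (h : ∀ x, 0 ≤ f x) : 0 ≤ P.E f := by
  have := P.mono (f := fun _ => 0) (g := f) h
  rwa [P.const] at this

theorem le_const {f : α → ℝ} {c : ℝ} (h : ∀ x, f x ≤ c) : P.E f ≤ c := by
  have := P.mono (f := f) (g := fun _ => c) h
  rwa [P.const] at this

theorem const_le {f : α → ℝ} {c : ℝ} (h : ∀ x, c ≤ f x) : c ≤ P.E f := by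
  have := P.mono (f := fun _ => c) (g := f) h
  rwa [P.const] at this

theorem abs_le (f : α → ℝ) : |P.E f| ≤ P.E fun x => |f x| := by
  rw [_root_.abs_le]
  constructor
  · rw [← P.neg]
    exact P.mono fun x => neg_abs_le (f x)
  · exact P.mono fun x => le_abs_self (f x)

theorem abs_sub_le (f g : α → ℝ) : |P.E f - P.E g| ≤ P.E fun x => |f x - g x| := by
  rw [← P.sub]
  exact P.abs_le _

theorem sum {ι : Type} (s : Finset ι) (f : ι → α → ℝ) :
    P.E (fun x => ∑ i ∈ s, f i x) = ∑ i ∈ s, P.E (f i) := by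
  classical
  induction s using Finset.induction_on with
  | empty => simpa using P.const 0
  | insert a s ha ih =>
    simp only [Finset.sum_insert ha]
    rw [P.add, ih]

/-- Point mass. -/
def dirac (a : α) : PE α where
  E f := f a
  add' _ _ := rfl
  smul' _ _ := rfl
  mono' _ _ h := h a
  one' := rfl

/-- Composition of a functional with a kernel. -/
def bind (P : PE α) (Q : α → PE β) : PE β where
  E f := P.E fun a => (Q a).E f
  add' f g := by simp only [PE.add]
  smul' c f := by simp only [PE.smul]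
  mono' f g h := P.mono fun a => (Q a).mono h
  one' := by simp only [PE.const]

/-- Image. -/
def map (P : PE α) (g : α → β) : PE β where
  E f := P.E fun a => f (g a)
  add' _ _ := P.add _ _
  smul' _ _ := P.smul _ _
  mono' _ _ h := P.mono fun a => h (g a)
  one' := P.const 1

theorem dirac_E (a : α) (f : α → ℝ) : (dirac a).E f = f a := rfl

theorem bind_E (P : PE α) (Q : α → PE β) (f : β → ℝ) :
    (P.bind Q).E f = P.E fun a => (Q a).E f := rfl

theorem map_E (P : PE α) (g : α → β) (f : β → ℝ) : (P.map g).E f = P.E fun a => f (g a) := rfl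

/-- Uniform average over a finite nonempty type. -/
noncomputable def unif (α : Type) [Fintype α] [Nonempty α] : PE α where
  E f := (∑ a, f a) / Fintype.card α
  add' f g := by rw [Finset.sum_add_distrib, add_div]
  smul' c f := by rw [← Finset.mul_sum, mul_div_assoc]
  mono' f g h := by
    apply div_le_div_of_nonneg_right (Finset.sum_le_sum fun a _ => h a)
    exact Nat.cast_nonneg _
  one' := by
    have : (Fintype.card α : ℝ) ≠ 0 := by
      exact_mod_cast Fintype.card_ne_zero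
    simp [this]

theorem unif_E [Fintype α] [Nonempty α] (f : α → ℝ) :
    (unif α).E f = (∑ a, f a) / Fintype.card α := rfl

/-- A uniform average commutes with any functional. -/
theorem comm_unif (P : PE α) [Fintype β] [Nonempty β] (f : α → β → ℝ) :
    P.E (fun x => (unif β).E (f x)) = (unif β).E fun b => P.E fun x => f x b := by
  simp only [unif_E]
  rw [P.div_right, P.sum]

/-- Variance. -/
def var (f : α → ℝ) : ℝ := P.E (fun x => f x ^ 2) - P.E f ^ 2

/-- Standard deviation. -/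
noncomputable def sd (f : α → ℝ) : ℝ := Real.sqrt (P.var f)

/-- Covariance. -/
def cov (f g : α → ℝ) : ℝ := P.E (fun x => f x * g x) - P.E f * P.E g

theorem var_eq (f : α → ℝ) : P.var f = P.E fun x => (f x - P.E f) ^ 2 := by
  have h : (fun x => (f x - P.E f) ^ 2) =
      fun x => f x ^ 2 + ((-2 * P.E f) * f x + P.E f ^ 2) := by
    funext x; ring
  rw [h, P.add, P.add, P.smul, P.const, var]
  ring

theorem var_nonneg (f : α → ℝ) : 0 ≤ P.var f := by
  rw [var_eq]
  exact P.nonneg fun x => sq_nonneg _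

theorem sq_le (f : α → ℝ) : P.E f ^ 2 ≤ P.E fun x => f x ^ 2 := by
  have := P.var_nonneg f
  unfold var at this
  linarith only [this]

theorem cov_self (f : α → ℝ) : P.cov f f = P.var f := by
  unfold cov var
  simp only [pow_two]

theorem cov_eq (f g : α → ℝ) : P.cov f g = P.E fun x => (f x - P.E f) * (g x - P.E g) := by
  have h : (fun x => (f x - P.E f) * (g x - P.E g)) =
      fun x => f x * g x + ((- P.E g) * f x + ((- P.E f) * g x + P.E f * P.E g)) := by
    funext x; ring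
  rw [h, P.add, P.add, P.add, P.smul, P.smul, P.const, cov]
  ring

/-- Cauchy-Schwarz. -/
theorem cauchy_schwarz (f g : α → ℝ) :
    (P.E fun x => f x * g x) ^ 2 ≤ (P.E fun x => f x ^ 2) * P.E fun x => g x ^ 2 := by
  have key : ∀ t : ℝ, 0 ≤ (P.E fun x => g x ^ 2) * (t * t) + (2 * P.E fun x => f x * g x) * t +
      P.E fun x => f x ^ 2 := by
    intro t
    have h : (fun x => (f x + t * g x) ^ 2) =
        fun x => f x ^ 2 + ((2 * t) * (f x * g x) + (t * t) * g x ^ 2) := by
      funext x; ring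
    have h1 : 0 ≤ P.E fun x => (f x + t * g x) ^ 2 := P.nonneg fun x => sq_nonneg _
    rw [h, P.add, P.add, P.smul, P.smul] at h1
    linarith
  have := discrim_le_zero key
  unfold discrim at this
  linarith

theorem abs_cov_le (f g : α → ℝ) : |P.cov f g| ≤ P.sd f * P.sd g := by
  have h := P.cauchy_schwarz (fun x => f x - P.E f) (fun x => g x - P.E g)
  rw [← P.cov_eq, ← P.var_eq, ← P.var_eq] at h
  unfold sd
  rw [← Real.sqrt_mul (P.var_nonneg f)]
  exact Real.abs_le_sqrt h

/-- `E |f| ≤ (E f²)^{1/2}`. -/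
theorem abs_le_sqrt (f : α → ℝ) : (P.E fun x => |f x|) ≤ Real.sqrt (P.E fun x => f x ^ 2) := by
  apply Real.le_sqrt_of_sq_le
  have := P.sq_le fun x => |f x|
  simpa only [sq_abs] using this

/-- Jensen for the square root. -/
theorem sqrt_le {f : α → ℝ} (hf : ∀ x, 0 ≤ f x) :
    (P.E fun x => Real.sqrt (f x)) ≤ Real.sqrt (P.E f) := by
  apply Real.le_sqrt_of_sq_le
  have := P.sq_le fun x => Real.sqrt (f x)
  refine this.trans (le_of_eq ?_)
  congr 1
  funext x
  exact Real.sq_sqrt (hf x)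

theorem abs_dev_le_sd (f : α → ℝ) : (P.E fun x => |f x - P.E f|) ≤ P.sd f := by
  unfold sd
  rw [var_eq]
  exact P.abs_le_sqrt _

theorem sd_nonneg (f : α → ℝ) : 0 ≤ P.sd f := Real.sqrt_nonneg _

/-- The mean minimizes the quadratic deviation. -/
theorem var_le (f : α → ℝ) (c : ℝ) : P.var f ≤ P.E fun x => (f x - c) ^ 2 := by
  have h : (fun x => (f x - c) ^ 2) = fun x => f x ^ 2 + ((-2 * c) * f x + c ^ 2) := by
    funext x; ring
  rw [h, P.add, P.add, P.smul, P.const, var]
  nlinarith only [sq_nonneg (P.E f - c)]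

/-- Existence of a point which does almost as well as the mean. -/
theorem exists_le (f : α → ℝ) {δ : ℝ} (hδ : 0 < δ) : ∃ x, f x ≤ P.E f + δ := by
  by_contra h
  push Not at h
  have := P.const_le (f := f) (c := P.E f + δ) fun x => (h x).le
  linarith

end PE

end Vale.Agent.P168.MP
end
end

section

section

set_option autoImplicit false

open Finset

namespace Vale.Agent.P168.MP

/-- A state space `𝒩` with a commuting action of the slot types `Ω`, and a base functional (the
log partition function) with increments bounded by `M`. -/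
structure Slots (𝒩 Ω : Type) where
  act : Ω → 𝒩 → 𝒩
  comm : ∀ τ τ' x, act τ (act τ' x) = act τ' (act τ x)
  base : 𝒩 → ℝ
  M : ℝ
  M_nonneg : 0 ≤ M
  bd : ∀ τ x, |base (act τ x) - base x| ≤ M

/-- A block of slots of constant power. -/
def blk {Ω : Type} (μ : ℝ) (l : List Ω) : List (ℝ × Ω) := l.map fun τ => (μ, τ)

/-- All powers are in `(0, 1]`. -/
def Pos {Ω : Type} (L : List (ℝ × Ω)) : Prop := ∀ s ∈ L, 0 < s.1 ∧ s.1 ≤ 1

/-- Powers in `(0, 1]`, nondecreasing from head to tail. -/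
def Good {Ω : Type} (L : List (ℝ × Ω)) : Prop := Pos L ∧ L.Pairwise fun a b => a.1 ≤ b.1

section blk

variable {Ω : Type}

@[simp] theorem blk_nil (μ : ℝ) : blk μ ([] : List Ω) = [] := rfl

@[simp] theorem blk_cons (μ : ℝ) (τ : Ω) (l : List Ω) : blk μ (τ :: l) = (μ, τ) :: blk μ l := rfl

theorem blk_append (μ : ℝ) (l l' : List Ω) : blk μ (l ++ l') = blk μ l ++ blk μ l' :=
  List.map_append

end blk

namespace Slots

variable {𝒩 Ω : Type} (S : Slots 𝒩 Ω)

/-- `log X_L`, the nested power mean functional of a list of slots `(power, type)`. -/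
noncomputable def lam (L : List (ℝ × Ω)) : 𝒩 → ℝ :=
  L.foldr (fun s F x => (1 / s.1) *
    Real.log ((Real.exp (s.1 * F x) + Real.exp (s.1 * F (S.act s.2 x))) / 2)) S.base

theorem lam_nil (x : 𝒩) : S.lam [] x = S.base x := rfl

theorem lam_cons (μ : ℝ) (τ : Ω) (L : List (ℝ × Ω)) (x : 𝒩) :
    S.lam ((μ, τ) :: L) x = (1 / μ) *
      Real.log ((Real.exp (μ * S.lam L x) + Real.exp (μ * S.lam L (S.act τ x))) / 2) := rfl

/-- Probability of the outcome `1` at a slot `(μ, τ)` followed by the list `L`. -/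
noncomputable def pi1 (μ : ℝ) (τ : Ω) (L : List (ℝ × Ω)) (x : 𝒩) : ℝ :=
  Real.exp (μ * S.lam L (S.act τ x)) /
    (Real.exp (μ * S.lam L x) + Real.exp (μ * S.lam L (S.act τ x)))

/-- Path expectation `E^{L1 | L2}_x f`: `f` is a function of the state at the end of `L1`. -/
noncomputable def Ex (L1 L2 : List (ℝ × Ω)) (f : 𝒩 → ℝ) : 𝒩 → ℝ :=
  List.rec (motive := fun _ => 𝒩 → ℝ) f
    (fun s L ih x => (1 - S.pi1 s.1 s.2 (L ++ L2) x) * ih x +
      S.pi1 s.1 s.2 (L ++ L2) x * ih (S.act s.2 x)) L1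

theorem Ex_nil (L2 : List (ℝ × Ω)) (f : 𝒩 → ℝ) (x : 𝒩) : S.Ex [] L2 f x = f x := rfl

theorem Ex_cons (μ : ℝ) (τ : Ω) (L1 L2 : List (ℝ × Ω)) (f : 𝒩 → ℝ) (x : 𝒩) :
    S.Ex ((μ, τ) :: L1) L2 f x = (1 - S.pi1 μ τ (L1 ++ L2) x) * S.Ex L1 L2 f x +
      S.pi1 μ τ (L1 ++ L2) x * S.Ex L1 L2 f (S.act τ x) := rfl

/-- Log value of the insertion `τ` at a node with remaining list `L`. -/
noncomputable def val (L : List (ℝ × Ω)) (τ : Ω) (x : 𝒩) : ℝ := S.lam L (S.act τ x) - S.lam L x

theorem pi1_nonneg (μ : ℝ) (τ : Ω) (L : List (ℝ × Ω)) (x : 𝒩) : 0 ≤ S.pi1 μ τ L x :=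
  div_nonneg (Real.exp_pos _).le (add_pos (Real.exp_pos _) (Real.exp_pos _)).le

theorem pi1_le_one (μ : ℝ) (τ : Ω) (L : List (ℝ × Ω)) (x : 𝒩) : S.pi1 μ τ L x ≤ 1 := by
  unfold pi1
  rw [div_le_one (add_pos (Real.exp_pos _) (Real.exp_pos _))]
  have := Real.exp_pos (μ * S.lam L x)
  linarith

theorem Ex_add (L1 L2 : List (ℝ × Ω)) (f g : 𝒩 → ℝ) (x : 𝒩) :
    S.Ex L1 L2 (fun y => f y + g y) x = S.Ex L1 L2 f x + S.Ex L1 L2 g x := by
  induction L1 generalizing x with
  | nil => rfl
  | cons s L ih =>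
    obtain ⟨μ, τ⟩ := s
    rw [Ex_cons, Ex_cons, Ex_cons, ih, ih]
    ring

theorem Ex_smul (L1 L2 : List (ℝ × Ω)) (c : ℝ) (f : 𝒩 → ℝ) (x : 𝒩) :
    S.Ex L1 L2 (fun y => c * f y) x = c * S.Ex L1 L2 f x := by
  induction L1 generalizing x with
  | nil => rfl
  | cons s L ih =>
    obtain ⟨μ, τ⟩ := s
    rw [Ex_cons, Ex_cons, ih, ih]
    ring

theorem Ex_mono (L1 L2 : List (ℝ × Ω)) {f g : 𝒩 → ℝ} (h : ∀ y, f y ≤ g y) (x : 𝒩) :
    S.Ex L1 L2 f x ≤ S.Ex L1 L2 g x := by
  induction L1 generalizing x with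
  | nil => exact h x
  | cons s L ih =>
    obtain ⟨μ, τ⟩ := s
    rw [Ex_cons, Ex_cons]
    have h0 := S.pi1_nonneg μ τ (L ++ L2) x
    have h1 := S.pi1_le_one μ τ (L ++ L2) x
    exact add_le_add (mul_le_mul_of_nonneg_left (ih x) (by linarith))
      (mul_le_mul_of_nonneg_left (ih _) h0)

theorem Ex_one (L1 L2 : List (ℝ × Ω)) (x : 𝒩) : S.Ex L1 L2 (fun _ => 1) x = 1 := by
  induction L1 generalizing x with
  | nil => rfl
  | cons s L ih =>
    obtain ⟨μ, τ⟩ := s
    rw [Ex_cons, ih, ih]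
    ring

/-- The path expectation as a `PE`. -/
noncomputable def exPE (L1 L2 : List (ℝ × Ω)) (x : 𝒩) : PE 𝒩 where
  E f := S.Ex L1 L2 f x
  add' f g := S.Ex_add L1 L2 f g x
  smul' c f := S.Ex_smul L1 L2 c f x
  mono' _ _ h := S.Ex_mono L1 L2 h x
  one' := S.Ex_one L1 L2 x

theorem exPE_E (L1 L2 : List (ℝ × Ω)) (x : 𝒩) (f : 𝒩 → ℝ) :
    (S.exPE L1 L2 x).E f = S.Ex L1 L2 f x := rfl

theorem Ex_append (L1 L1' L2 : List (ℝ × Ω)) (f : 𝒩 → ℝ) (x : 𝒩) :
    S.Ex (L1 ++ L1') L2 f x = S.Ex L1 (L1' ++ L2) (S.Ex L1' L2 f) x := by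
  induction L1 generalizing x with
  | nil => rfl
  | cons s L ih =>
    obtain ⟨μ, τ⟩ := s
    rw [List.cons_append, Ex_cons, Ex_cons, ih, ih, List.append_assoc]

/-! ### Identities of section 0 of the note -/

theorem exp_lam_cons {μ : ℝ} (hμ : 0 < μ) (τ : Ω) (L : List (ℝ × Ω)) (x : 𝒩) :
    Real.exp (μ * S.lam ((μ, τ) :: L) x) =
      (Real.exp (μ * S.lam L x) + Real.exp (μ * S.lam L (S.act τ x))) / 2 := by
  have h : 0 < (Real.exp (μ * S.lam L x) + Real.exp (μ * S.lam L (S.act τ x))) / 2 := by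
    positivity
  rw [lam_cons, ← mul_assoc, mul_one_div_cancel hμ.ne', one_mul, Real.exp_log h]

theorem lamstep_le {μ D a b c d : ℝ} (hμ : 0 < μ) (hab : a ≤ b + D) (hcd : c ≤ d + D) :
    (1 / μ) * Real.log ((Real.exp (μ * a) + Real.exp (μ * c)) / 2) ≤
      (1 / μ) * Real.log ((Real.exp (μ * b) + Real.exp (μ * d)) / 2) + D := by
  have e1 : Real.exp (μ * a) ≤ Real.exp (μ * D) * Real.exp (μ * b) := by
    rw [← Real.exp_add]
    apply Real.exp_le_exp.2
    nlinarith only [hμ, hab]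
  have e2 : Real.exp (μ * c) ≤ Real.exp (μ * D) * Real.exp (μ * d) := by
    rw [← Real.exp_add]
    apply Real.exp_le_exp.2
    nlinarith only [hμ, hcd]
  have h1 : (Real.exp (μ * a) + Real.exp (μ * c)) / 2 ≤
      Real.exp (μ * D) * ((Real.exp (μ * b) + Real.exp (μ * d)) / 2) := by linarith only [e1, e2]
  have h2 := Real.log_le_log (by positivity) h1
  rw [Real.log_mul (by positivity) (by positivity), Real.log_exp] at h2
  calc _ ≤ (1 / μ) * (μ * D + Real.log ((Real.exp (μ * b) + Real.exp (μ * d)) / 2)) :=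
        mul_le_mul_of_nonneg_left h2 (by positivity)
    _ = _ := by field_simp; ring

theorem Pos_tail {s : ℝ × Ω} {L : List (ℝ × Ω)} (h : Pos (s :: L)) : Pos L :=
  fun t ht => h t (List.mem_cons_of_mem _ ht)

theorem Pos_head {s : ℝ × Ω} {L : List (ℝ × Ω)} (h : Pos (s :: L)) : 0 < s.1 ∧ s.1 ≤ 1 :=
  h s List.mem_cons_self

/-- One action changes `lam` by at most `M`. -/
theorem abs_val_le {L : List (ℝ × Ω)} (hL : Pos L) (τ : Ω) (x : 𝒩) : |S.val L τ x| ≤ S.M := by
  unfold val
  induction L generalizing x with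
  | nil => exact S.bd τ x
  | cons s L ih =>
    obtain ⟨μ, τ'⟩ := s
    have hμ : 0 < μ := (Pos_head hL).1
    have a1 := abs_le.1 (ih (Pos_tail hL) x)
    have a2 := abs_le.1 (ih (Pos_tail hL) (S.act τ' x))
    rw [lam_cons, lam_cons, S.comm τ' τ x, abs_le]
    constructor
    · have := lamstep_le (a := S.lam L x) (b := S.lam L (S.act τ x)) (D := S.M)
        (c := S.lam L (S.act τ' x)) (d := S.lam L (S.act τ (S.act τ' x))) hμ
        (by linarith) (by linarith)
      linarith
    · have := lamstep_le (a := S.lam L (S.act τ x)) (b := S.lam L x) (D := S.M)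
        (c := S.lam L (S.act τ (S.act τ' x))) (d := S.lam L (S.act τ' x)) hμ
        (by linarith) (by linarith)
      linarith

/-- One more slot changes `lam` by at most `M`. -/
theorem lam_cons_near {μ : ℝ} (hμ : 0 < μ) {L : List (ℝ × Ω)} (hL : Pos L) (τ : Ω) (x : 𝒩) :
    |S.lam ((μ, τ) :: L) x - S.lam L x| ≤ S.M := by
  have h := abs_le.1 (S.abs_val_le hL τ x)
  unfold val at h
  have hM := S.M_nonneg
  have e := S.exp_lam_cons hμ τ L x
  have up : Real.exp (μ * S.lam ((μ, τ) :: L) x) ≤ Real.exp (μ * (S.lam L x + S.M)) := by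
    rw [e]
    have h1 := Real.exp_le_exp.2 (mul_le_mul_of_nonneg_left
      (show S.lam L x ≤ S.lam L x + S.M by linarith only [h]) hμ.le)
    have h2 := Real.exp_le_exp.2 (mul_le_mul_of_nonneg_left
      (show S.lam L (S.act τ x) ≤ S.lam L x + S.M by linarith only [h]) hμ.le)
    linarith only [h1, h2]
  have lo : Real.exp (μ * (S.lam L x - S.M)) ≤ Real.exp (μ * S.lam ((μ, τ) :: L) x) := by
    rw [e]
    have h1 := Real.exp_le_exp.2 (mul_le_mul_of_nonneg_left
      (show S.lam L x - S.M ≤ S.lam L x by linarith only [h]) hμ.le)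
    have h2 := Real.exp_le_exp.2 (mul_le_mul_of_nonneg_left
      (show S.lam L x - S.M ≤ S.lam L (S.act τ x) by linarith only [h]) hμ.le)
    linarith only [h1, h2]
  rw [Real.exp_le_exp, mul_le_mul_iff_right₀ hμ] at up lo
  rw [abs_le]
  constructor <;> linarith

/-- Uniformly close tails give uniformly close functionals. -/
theorem lam_append_near {L1 L2 L2' : List (ℝ × Ω)} (h1 : Pos L1) {D : ℝ}
    (hD : ∀ x, |S.lam L2' x - S.lam L2 x| ≤ D) (x : 𝒩) :
    |S.lam (L1 ++ L2') x - S.lam (L1 ++ L2) x| ≤ D := by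
  induction L1 generalizing x with
  | nil => exact hD x
  | cons s L ih =>
    obtain ⟨μ, τ⟩ := s
    have hμ : 0 < μ := (Pos_head h1).1
    have a1 := abs_le.1 (ih (Pos_tail h1) x)
    have a2 := abs_le.1 (ih (Pos_tail h1) (S.act τ x))
    rw [List.cons_append, List.cons_append, lam_cons, lam_cons, abs_le]
    constructor
    · have := lamstep_le (a := S.lam (L ++ L2) x) (b := S.lam (L ++ L2') x) (D := D)
        (c := S.lam (L ++ L2) (S.act τ x)) (d := S.lam (L ++ L2') (S.act τ x)) hμ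
        (by linarith) (by linarith)
      linarith
    · have := lamstep_le (a := S.lam (L ++ L2') x) (b := S.lam (L ++ L2) x) (D := D)
        (c := S.lam (L ++ L2') (S.act τ x)) (d := S.lam (L ++ L2) (S.act τ x)) hμ
        (by linarith) (by linarith)
      linarith only [this]

/-- `|lam L - base| ≤ |L| M`. -/
theorem lam_base_near {L : List (ℝ × Ω)} (hL : Pos L) (x : 𝒩) :
    |S.lam L x - S.base x| ≤ L.length * S.M := by
  induction L with
  | nil => simp [lam_nil]
  | cons s L ih =>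
    obtain ⟨μ, τ⟩ := s
    have h1 := S.lam_cons_near (Pos_head hL).1 (Pos_tail hL) τ x
    have h2 := ih (Pos_tail hL)
    calc |S.lam ((μ, τ) :: L) x - S.base x|
        = |(S.lam ((μ, τ) :: L) x - S.lam L x) + (S.lam L x - S.base x)| := by
          congr 1; ring
      _ ≤ |S.lam ((μ, τ) :: L) x - S.lam L x| + |S.lam L x - S.base x| := abs_add_le _ _
      _ ≤ S.M + L.length * S.M := add_le_add h1 h2
      _ = ((μ, τ) :: L).length * S.M := by
          rw [List.length_cons]
          push_cast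
          ring

/-- (0.3) Moving the last slot of a block to the front. -/
theorem exp_lam_snoc {μ : ℝ} (hμ : 0 < μ) (l : List Ω) (τ : Ω) (L : List (ℝ × Ω)) (x : 𝒩) :
    Real.exp (μ * S.lam (blk μ l ++ (μ, τ) :: L) x) =
      (Real.exp (μ * S.lam (blk μ l ++ L) x) +
        Real.exp (μ * S.lam (blk μ l ++ L) (S.act τ x))) / 2 := by
  induction l generalizing x with
  | nil => exact S.exp_lam_cons hμ τ L x
  | cons t l ih =>
    rw [blk_cons, List.cons_append, List.cons_append, S.exp_lam_cons hμ, S.exp_lam_cons hμ,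
      S.exp_lam_cons hμ, ih, ih, S.comm t τ x]
    ring

/-- (0.1) The value recursion along a block of constant power. -/
theorem exp_val_block {μ : ℝ} (hμ : 0 < μ) (l : List Ω) (L : List (ℝ × Ω)) (τ : Ω) (x : 𝒩) :
    Real.exp (μ * S.val (blk μ l ++ L) τ x) =
      S.Ex (blk μ l) L (fun y => Real.exp (μ * S.val L τ y)) x := by
  induction l generalizing x with
  | nil => rfl
  | cons t l ih =>
    rw [blk_cons, Ex_cons, ← ih, ← ih, pi1]
    unfold val
    rw [List.cons_append, mul_sub, Real.exp_sub, S.exp_lam_cons hμ, S.exp_lam_cons hμ,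
      S.comm t τ x, mul_sub, mul_sub, Real.exp_sub, Real.exp_sub]
    have e1 := Real.exp_pos (μ * S.lam (blk μ l ++ L) x)
    have e2 := Real.exp_pos (μ * S.lam (blk μ l ++ L) (S.act t x))
    field_simp
    ring

/-- (0.2) Change of measure under an insertion. -/
theorem Ex_act {μ : ℝ} (hμ : 0 < μ) (l : List Ω) (L : List (ℝ × Ω)) (τ : Ω) (f : 𝒩 → ℝ) (x : 𝒩) :
    Real.exp (μ * S.val (blk μ l ++ L) τ x) * S.Ex (blk μ l) L f (S.act τ x) =
      S.Ex (blk μ l) L (fun y => f (S.act τ y) * Real.exp (μ * S.val L τ y)) x := by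
  induction l generalizing x with
  | nil => exact mul_comm _ _
  | cons t l ih =>
    rw [blk_cons, Ex_cons, Ex_cons, ← ih, ← ih, pi1, pi1]
    unfold val
    rw [List.cons_append, mul_sub, Real.exp_sub, S.exp_lam_cons hμ, S.exp_lam_cons hμ,
      S.comm t τ x, mul_sub, mul_sub, Real.exp_sub, Real.exp_sub]
    have e1 := Real.exp_pos (μ * S.lam (blk μ l ++ L) x)
    have e2 := Real.exp_pos (μ * S.lam (blk μ l ++ L) (S.act t x))
    have e3 := Real.exp_pos (μ * S.lam (blk μ l ++ L) (S.act τ x))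
    have e4 := Real.exp_pos (μ * S.lam (blk μ l ++ L) (S.act τ (S.act t x)))
    field_simp
    ring

/-- The probability of the outcome `1` of the last slot of a block is harmonic. -/
theorem Ex_pi1 {μ : ℝ} (hμ : 0 < μ) (l : List Ω) (L : List (ℝ × Ω)) (τ : Ω) (x : 𝒩) :
    S.Ex (blk μ l) ((μ, τ) :: L) (S.pi1 μ τ L) x = S.pi1 μ τ (blk μ l ++ L) x := by
  induction l generalizing x with
  | nil => rfl
  | cons t l ih =>
    rw [blk_cons, Ex_cons, ih, ih, pi1, pi1, pi1, pi1]
    rw [S.exp_lam_snoc hμ, S.exp_lam_snoc hμ, List.cons_append, S.exp_lam_cons hμ,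
      S.exp_lam_cons hμ, S.comm t τ x]
    have e1 := Real.exp_pos (μ * S.lam (blk μ l ++ L) x)
    have e2 := Real.exp_pos (μ * S.lam (blk μ l ++ L) (S.act t x))
    have e3 := Real.exp_pos (μ * S.lam (blk μ l ++ L) (S.act τ x))
    have e4 := Real.exp_pos (μ * S.lam (blk μ l ++ L) (S.act τ (S.act t x)))
    field_simp
    ring

theorem Ex_compare_aux {D : ℝ} (L1 L2 L2' : List (ℝ × Ω)) (hL : Pos L1)
    (hs : L1.Pairwise fun a b => a.1 ≤ b.1)
    (hD : ∀ x, |S.lam L2' x - S.lam L2 x| ≤ D)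
    {f : 𝒩 → ℝ} (hf : ∀ x, 0 ≤ f x) (ν : ℝ) (hν0 : 0 ≤ ν) (hν1 : ν ≤ 1)
    (hν : ∀ s ∈ L1, ν ≤ s.1) (x : 𝒩) :
    S.Ex L1 L2' f x ≤ Real.exp (D * (2 - ν) -
      ν * (S.lam (L1 ++ L2') x - S.lam (L1 ++ L2) x)) * S.Ex L1 L2 f x := by
  induction L1 generalizing x ν with
  | nil =>
    rw [Ex_nil, Ex_nil, List.nil_append, List.nil_append]
    have h := abs_le.1 (hD x)
    have hD0 : 0 ≤ D := (abs_nonneg _).trans (hD x)
    have : (1:ℝ) ≤ Real.exp (D * (2 - ν) - ν * (S.lam L2' x - S.lam L2 x)) := by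
      rw [← Real.exp_zero]
      apply Real.exp_le_exp.2
      nlinarith
    nlinarith only [this, hf x]
  | cons s L ih =>
    obtain ⟨μ, τ⟩ := s
    have hμ := Pos_head hL
    simp only at hμ
    have hs' := List.pairwise_cons.1 hs
    have ih' := ih (Pos_tail hL) hs'.2 μ hμ.1.le hμ.2 (fun s hs => hs'.1 s hs)
    have hr := abs_le.1 (S.lam_append_near hL hD x)
    have hνμ : ν ≤ μ := hν (μ, τ) List.mem_cons_self
    have hEx : 0 ≤ S.Ex ((μ, τ) :: L) L2 f x := (S.exPE ((μ, τ) :: L) L2 x).nonneg hf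
    have step1 : S.Ex ((μ, τ) :: L) L2' f x ≤ Real.exp (D * (2 - μ) -
        μ * (S.lam (((μ, τ) :: L) ++ L2') x - S.lam (((μ, τ) :: L) ++ L2) x)) *
        S.Ex ((μ, τ) :: L) L2 f x := by
      have b1 : ∀ y, Real.exp (μ * S.lam (L ++ L2') y) * S.Ex L L2' f y ≤
          Real.exp (D * (2 - μ)) * (Real.exp (μ * S.lam (L ++ L2) y) * S.Ex L L2 f y) := by
        intro y
        calc _ ≤ Real.exp (μ * S.lam (L ++ L2') y) * (Real.exp (D * (2 - μ) -
              μ * (S.lam (L ++ L2') y - S.lam (L ++ L2) y)) * S.Ex L L2 f y) :=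
              mul_le_mul_of_nonneg_left (ih' y) (Real.exp_pos _).le
          _ = _ := by
              rw [← mul_assoc, ← mul_assoc, ← Real.exp_add, ← Real.exp_add]
              congr 2
              ring
      have e0 : ∀ K : List (ℝ × Ω), Real.exp (μ * S.lam (L ++ K) x) +
          Real.exp (μ * S.lam (L ++ K) (S.act τ x)) =
          2 * Real.exp (μ * S.lam (((μ, τ) :: L) ++ K) x) := by
        intro K
        rw [List.cons_append, S.exp_lam_cons hμ.1]
        ring
      have e5 : ∀ K : List (ℝ × Ω), S.Ex ((μ, τ) :: L) K f x =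
          (Real.exp (μ * S.lam (L ++ K) x) * S.Ex L K f x +
            Real.exp (μ * S.lam (L ++ K) (S.act τ x)) * S.Ex L K f (S.act τ x)) /
          (2 * Real.exp (μ * S.lam (((μ, τ) :: L) ++ K) x)) := by
        intro K
        rw [← e0 K, Ex_cons, pi1]
        have e1 := Real.exp_pos (μ * S.lam (L ++ K) x)
        have e2 := Real.exp_pos (μ * S.lam (L ++ K) (S.act τ x))
        field_simp
        ring
      rw [e5, e5, div_le_iff₀ (by positivity)]
      refine (add_le_add (b1 x) (b1 (S.act τ x))).trans (le_of_eq ?_)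
      have h3 : Real.exp (D * (2 - μ) - μ * (S.lam (((μ, τ) :: L) ++ L2') x -
          S.lam (((μ, τ) :: L) ++ L2) x)) =
          Real.exp (D * (2 - μ)) * (Real.exp (μ * S.lam (((μ, τ) :: L) ++ L2) x) /
            Real.exp (μ * S.lam (((μ, τ) :: L) ++ L2') x)) := by
        rw [← Real.exp_sub, ← Real.exp_add]
        congr 1
        ring
      rw [h3]
      have p1 := Real.exp_pos (μ * S.lam (((μ, τ) :: L) ++ L2) x)
      have p2 := Real.exp_pos (μ * S.lam (((μ, τ) :: L) ++ L2') x)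
      (clear * -; field_simp)
    refine step1.trans ?_
    gcongr ?_ * _
    apply Real.exp_le_exp.2
    nlinarith only [hr, hνμ]

/-- (0.4) Comparison of path laws. -/
theorem Ex_compare {L1 L2 L2' : List (ℝ × Ω)} (hL : Good L1) {D : ℝ}
    (hD : ∀ x, |S.lam L2' x - S.lam L2 x| ≤ D) {f : 𝒩 → ℝ} (hf : ∀ y, 0 ≤ f y) (x : 𝒩) :
    S.Ex L1 L2' f x ≤ Real.exp (2 * D) * S.Ex L1 L2 f x := by
  have h := S.Ex_compare_aux L1 L2 L2' hL.1 hL.2 hD hf 0 le_rfl zero_le_one
    (fun s hs => (hL.1 s hs).1.le) x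
  have e : D * (2 - 0) - 0 * (S.lam (L1 ++ L2') x - S.lam (L1 ++ L2) x) = 2 * D := by
    ring
  rwa [e] at h

/-- Lower bound on the probability of each outcome: `c₀ = 1/(1+e^M)`. -/
theorem pi1_lower {μ : ℝ} (hμ : 0 < μ) (hμ1 : μ ≤ 1) (τ : Ω) {L : List (ℝ × Ω)} (hL : Pos L)
    (x : 𝒩) : 1 / (1 + Real.exp S.M) ≤ S.pi1 μ τ L x := by
  have h := abs_le.1 (S.abs_val_le hL τ x)
  unfold val at h
  have hM := S.M_nonneg
  unfold pi1
  have p1 := Real.exp_pos (μ * S.lam L x)
  have p2 := Real.exp_pos (μ * S.lam L (S.act τ x))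
  have p3 := Real.exp_pos S.M
  rw [div_le_div_iff₀ (by positivity) (by positivity), one_mul]
  have key : Real.exp (μ * S.lam L x) ≤ Real.exp (μ * S.lam L (S.act τ x)) * Real.exp S.M := by
    rw [← Real.exp_add]
    apply Real.exp_le_exp.2
    nlinarith only [h, hμ, hμ1]
  linarith

theorem pi1_upper {μ : ℝ} (hμ : 0 < μ) (hμ1 : μ ≤ 1) (τ : Ω) {L : List (ℝ × Ω)} (hL : Pos L)
    (x : 𝒩) : S.pi1 μ τ L x ≤ 1 - 1 / (1 + Real.exp S.M) := by
  have h := abs_le.1 (S.abs_val_le hL τ x)
  unfold val at h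
  have hM := S.M_nonneg
  unfold pi1
  have p1 := Real.exp_pos (μ * S.lam L x)
  have p2 := Real.exp_pos (μ * S.lam L (S.act τ x))
  have p3 := Real.exp_pos S.M
  have e : 1 - 1 / (1 + Real.exp S.M) = Real.exp S.M / (1 + Real.exp S.M) := by
    field_simp
    ring
  rw [e, div_le_div_iff₀ (by positivity) (by positivity)]
  have key : Real.exp (μ * S.lam L (S.act τ x)) ≤ Real.exp S.M * Real.exp (μ * S.lam L x) := by
    rw [← Real.exp_add]
    apply Real.exp_le_exp.2
    nlinarith only [h, hμ, hμ1]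
  nlinarith only [key]

/-- `π₁ = a / (1 + a)` with `a = exp (μ val)`. -/
theorem pi1_eq (μ : ℝ) (τ : Ω) (L : List (ℝ × Ω)) (x : 𝒩) :
    S.pi1 μ τ L x = Real.exp (μ * S.val L τ x) / (1 + Real.exp (μ * S.val L τ x)) := by
  unfold pi1 val
  rw [mul_sub, Real.exp_sub]
  have h1 := Real.exp_pos (μ * S.lam L x)
  have h2 := Real.exp_pos (μ * S.lam L (S.act τ x))
  field_simp

end Slots

end Vale.Agent.P168.MP
end
end

section

section

set_option autoImplicit false

open Finset

namespace Vale.Agent.P168.MP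

/-! ### Random blocks -/

/-- A block of `n` slots together with a position `k ∈ {0, …, n}`. -/
abbrev Blk (n : ℕ) (Ω : Type) : Type := Fin (n + 1) × (Fin n → Ω)

namespace Blk

variable {n : ℕ} {Ω : Type}

/-- The slots before the position. -/
def pre (b : Blk n Ω) : List Ω := (List.ofFn b.2).take b.1

/-- The slots after the position. -/
def suf (b : Blk n Ω) : List Ω := (List.ofFn b.2).drop b.1

theorem pre_append_suf (b : Blk n Ω) : b.pre ++ b.suf = List.ofFn b.2 :=
  List.take_append_drop _ _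

end Blk

theorem take_insertNth {n : ℕ} {Ω : Type} (i : Fin (n + 1)) (τ : Ω) (l : Fin n → Ω) :
    (List.ofFn (Fin.insertNth (α := fun _ => Ω) i τ l)).take i = (List.ofFn l).take i := by
  apply List.ext_getElem
  · simp only [List.length_take, List.length_ofFn]
    omega
  · intro j h1 h2
    simp only [List.length_take, List.length_ofFn] at h1 h2
    have hj : j < (i : ℕ) := by omega
    simp only [List.getElem_take, List.getElem_ofFn]
    rw [Fin.insertNth_apply_below (i := i) (j := ⟨j, by omega⟩) (by simpa [Fin.lt_def] using hj)]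
    simp only [eq_rec_constant]
    rfl

theorem drop_insertNth {n : ℕ} {Ω : Type} (i : Fin (n + 1)) (τ : Ω) (l : Fin n → Ω) :
    (List.ofFn (Fin.insertNth (α := fun _ => Ω) i τ l)).drop (i + 1) =
      (List.ofFn l).drop i := by
  apply List.ext_getElem
  · simp only [List.length_drop, List.length_ofFn]
    omega
  · intro j h1 h2
    simp only [List.length_drop, List.length_ofFn] at h1 h2
    simp only [List.getElem_drop, List.getElem_ofFn]
    rw [Fin.insertNth_apply_above (i := i) (j := ⟨i + 1 + j, by omega⟩)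
      (by simp [Fin.lt_def]; omega)]
    simp only [eq_rec_constant]
    congr 1
    ext
    simp only [Fin.val_pred]
    omega

/-- A uniform list of `n + 1` slots with a uniform marked slot, versus a uniform block of `n` slots
with a uniform position and a uniform extra slot. -/
theorem avg_insert {n : ℕ} {Ω : Type} [Fintype Ω] [Nonempty Ω]
    (F : List Ω → Ω → List Ω → ℝ) :
    (PE.unif (Fin (n + 1) → Ω)).E (fun l => ∑ i : Fin (n + 1),
      F ((List.ofFn l).take i) (l i) ((List.ofFn l).drop (i + 1))) =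
    (n + 1) * (PE.unif (Blk n Ω)).E fun b => (PE.unif Ω).E fun τ => F b.pre τ b.suf := by
  have hΩ : (Fintype.card Ω : ℝ) ≠ 0 := by exact_mod_cast Fintype.card_ne_zero
  have hn : ((n : ℝ) + 1) ≠ 0 := by positivity
  simp only [PE.unif_E]
  rw [Finset.sum_comm]
  have h1 : ∀ i : Fin (n + 1), ∑ l : Fin (n + 1) → Ω,
      F ((List.ofFn l).take i) (l i) ((List.ofFn l).drop (i + 1)) =
      ∑ l' : Fin n → Ω, ∑ τ : Ω, F ((List.ofFn l').take i) τ ((List.ofFn l').drop i) := by
    intro i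
    rw [← (Fin.insertNthEquiv (fun _ => Ω) i).sum_comp, Fintype.sum_prod_type, Finset.sum_comm]
    refine Finset.sum_congr rfl fun l' _ => Finset.sum_congr rfl fun τ _ => ?_
    have hins : (Fin.insertNthEquiv (fun _ => Ω) i) (τ, l') =
        Fin.insertNth (α := fun _ => Ω) i τ l' := rfl
    rw [hins, take_insertNth, drop_insertNth, Fin.insertNth_apply_same]
  simp_rw [h1]
  have h2 : (∑ b : Blk n Ω, (∑ τ, F b.pre τ b.suf) / (Fintype.card Ω : ℝ)) =
      (∑ i : Fin (n + 1), ∑ l' : Fin n → Ω, ∑ τ : Ω,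
        F ((List.ofFn l').take i) τ ((List.ofFn l').drop i)) / (Fintype.card Ω : ℝ) := by
    rw [Fintype.sum_prod_type, Finset.sum_div]
    refine Finset.sum_congr rfl fun i _ => ?_
    rw [Finset.sum_div]
    rfl
  rw [h2]
  simp only [Fintype.card_fun, Fintype.card_fin, Fintype.card_prod, Nat.cast_pow, Nat.cast_mul,
    Nat.cast_add, Nat.cast_one]
  field_simp
  ring

namespace Slots

variable {𝒩 Ω : Type} (S : Slots 𝒩 Ω)

/-- Constant `e^{2M} (1 + e^M)^2` of the potential argument. -/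
noncomputable def Cpot : ℝ := Real.exp (2 * S.M) * (1 + Real.exp S.M) ^ 2

/-- Martingale identity along a block. -/
theorem Ex_sq {μ : ℝ} (l : List Ω) (L : List (ℝ × Ω)) (f : 𝒩 → ℝ) (x : 𝒩) :
    S.Ex (blk μ l) L (fun y => f y ^ 2) x = S.Ex (blk μ l) L f x ^ 2 +
      ∑ i : Fin l.length, S.Ex (blk μ (l.take i)) (blk μ (l.drop i) ++ L) (fun y =>
        S.pi1 μ (l.get i) (blk μ (l.drop (i + 1)) ++ L) y *
          (1 - S.pi1 μ (l.get i) (blk μ (l.drop (i + 1)) ++ L) y) *
          (S.Ex (blk μ (l.drop (i + 1))) L f (S.act (l.get i) y) -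
            S.Ex (blk μ (l.drop (i + 1))) L f y) ^ 2) x := by
  induction l generalizing x with
  | nil => simp only [blk_nil, Ex_nil, List.length_nil, univ_eq_empty, List.take_nil, List.drop_nil, List.nil_append, List.get_eq_getElem, sum_empty, add_zero]
  | cons a l ih =>
    rw [blk_cons, Ex_cons, ih, ih, Ex_cons]
    simp only [List.length_cons]
    rw [Fin.sum_univ_succ]
    simp only [Fin.val_zero, List.take_zero, List.drop_zero, blk_nil, Ex_nil, List.get_eq_getElem,
      List.getElem_cons_zero, zero_add, List.drop_succ_cons, Fin.val_succ, List.take_succ_cons,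
      List.getElem_cons_succ, blk_cons, Ex_cons]
    have e : ∀ i : Fin l.length, blk μ (l.take i) ++ (blk μ (l.drop i) ++ L) = blk μ l ++ L := by
      intro i
      rw [← List.append_assoc, ← blk_append, List.take_append_drop]
    simp only [e]
    rw [Finset.sum_add_distrib, ← Finset.mul_sum, ← Finset.mul_sum]
    ring

/-- The potential argument (Lemma 4.1) for a fixed list `l` of slots of power `μ` between `L0` and
`L2`: for `|f| ≤ 1` the total effect of inserting the slots of `l`, one at a time, is bounded. The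
path law is the one of the structure in which the slot `i` is removed. -/
theorem potential {μ : ℝ} (L0 L2 : List (ℝ × Ω)) (l : List Ω)
    (hG : Good (L0 ++ (blk μ l ++ L2))) {f : 𝒩 → ℝ} (hf : ∀ y, |f y| ≤ 1) (x : 𝒩) :
    ∑ i : Fin l.length, S.Ex (L0 ++ blk μ (l.take i)) (blk μ (l.drop (i + 1)) ++ L2)
      (fun y => (S.Ex (blk μ (l.drop (i + 1))) L2 f (S.act (l.get i) y) -
        S.Ex (blk μ (l.drop (i + 1))) L2 f y) ^ 2) x ≤ S.Cpot := by
  have hc : 0 < 1 + Real.exp S.M := by positivity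
  have hPos : ∀ i : Fin l.length, 0 < μ ∧ μ ≤ 1 := by
    intro i
    exact hG.1 (μ, l.get i) (by simp only [blk, List.get_eq_getElem, List.mem_append, List.mem_map, Prod.mk.injEq, true_and, exists_eq_right, List.getElem_mem, true_or, or_true])
  -- the total of the increments along the block
  have h1 : ∀ y, ∑ i : Fin l.length, S.Ex (blk μ (l.take i)) (blk μ (l.drop i) ++ L2) (fun y =>
        S.pi1 μ (l.get i) (blk μ (l.drop (i + 1)) ++ L2) y *
          (1 - S.pi1 μ (l.get i) (blk μ (l.drop (i + 1)) ++ L2) y) *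
          (S.Ex (blk μ (l.drop (i + 1))) L2 f (S.act (l.get i) y) -
            S.Ex (blk μ (l.drop (i + 1))) L2 f y) ^ 2) y ≤ 1 := by
    intro y
    have h := S.Ex_sq (μ := μ) l L2 f y
    have h2 : S.Ex (blk μ l) L2 (fun y => f y ^ 2) y ≤ 1 := by
      refine ((S.exPE (blk μ l) L2 y).le_const (c := 1) fun z => ?_)
      have := abs_le.1 (hf z)
      nlinarith only [this]
    nlinarith only [h, h2]
  have e : ∀ i : Fin l.length, blk μ (l.take i) ++ (blk μ (l.drop i) ++ L2) = blk μ l ++ L2 := by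
    intro i
    rw [← List.append_assoc, ← blk_append, List.take_append_drop]
  have h2 : ∑ i : Fin l.length, S.Ex (L0 ++ blk μ (l.take i)) (blk μ (l.drop i) ++ L2) (fun y =>
        S.pi1 μ (l.get i) (blk μ (l.drop (i + 1)) ++ L2) y *
          (1 - S.pi1 μ (l.get i) (blk μ (l.drop (i + 1)) ++ L2) y) *
          (S.Ex (blk μ (l.drop (i + 1))) L2 f (S.act (l.get i) y) -
            S.Ex (blk μ (l.drop (i + 1))) L2 f y) ^ 2) x ≤ 1 := by
    simp only [Ex_append, e]
    have := (S.exPE L0 (blk μ l ++ L2) x).le_const h1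
    rw [PE.sum] at this
    exact this
  have key : ∀ i : Fin l.length,
      S.Ex (L0 ++ blk μ (l.take i)) (blk μ (l.drop (i + 1)) ++ L2)
        (fun y => (S.Ex (blk μ (l.drop (i + 1))) L2 f (S.act (l.get i) y) -
          S.Ex (blk μ (l.drop (i + 1))) L2 f y) ^ 2) x ≤
      S.Cpot * S.Ex (L0 ++ blk μ (l.take i)) (blk μ (l.drop i) ++ L2) (fun y =>
        S.pi1 μ (l.get i) (blk μ (l.drop (i + 1)) ++ L2) y *
          (1 - S.pi1 μ (l.get i) (blk μ (l.drop (i + 1)) ++ L2) y) *
          (S.Ex (blk μ (l.drop (i + 1))) L2 f (S.act (l.get i) y) -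
            S.Ex (blk μ (l.drop (i + 1))) L2 f y) ^ 2) x := by
    intro i
    obtain ⟨hμ, hμ1⟩ := hPos i
    have hGood0 : Good (L0 ++ blk μ (l.take i)) := by
      have hsub : (L0 ++ blk μ (l.take i)).Sublist (L0 ++ (blk μ l ++ L2)) := by
        refine List.Sublist.append_left ?_ L0
        exact ((List.take_sublist _ _).map _).trans (List.sublist_append_left _ _)
      exact ⟨fun s hs => hG.1 s (hsub.subset hs), hG.2.sublist hsub⟩
    have hPos1 : Pos (blk μ (l.drop (i + 1)) ++ L2) := by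
      have hsub : (blk μ (l.drop (i + 1)) ++ L2).Sublist (L0 ++ (blk μ l ++ L2)) := by
        refine List.Sublist.trans ?_ (List.sublist_append_right _ _)
        exact ((List.drop_sublist _ _).map _).append (List.Sublist.refl _)
      exact fun s hs => hG.1 s (hsub.subset hs)
    have hdrop : l.drop i = l.get i :: l.drop (i + 1) := by
      rw [List.get_eq_getElem]
      exact List.drop_eq_getElem_cons i.2
    have hcmp := S.Ex_compare (L1 := L0 ++ blk μ (l.take i)) (L2 := blk μ (l.drop i) ++ L2)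
      (L2' := blk μ (l.drop (i + 1)) ++ L2) hGood0 (D := S.M) (fun y => by
        rw [hdrop, blk_cons, List.cons_append, abs_sub_comm]
        exact S.lam_cons_near hμ hPos1 _ y)
      (f := fun y => (S.Ex (blk μ (l.drop (i + 1))) L2 f (S.act (l.get i) y) -
        S.Ex (blk μ (l.drop (i + 1))) L2 f y) ^ 2) (fun y => sq_nonneg _) x
    refine hcmp.trans ?_
    unfold Cpot
    rw [mul_assoc]
    refine mul_le_mul_of_nonneg_left ?_ (Real.exp_pos _).le
    rw [← Ex_smul]
    refine S.Ex_mono _ _ (fun y => ?_) x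
    have p1 := S.pi1_lower hμ hμ1 (l.get i) hPos1 y
    have p2 := S.pi1_upper hμ hμ1 (l.get i) hPos1 y
    have hprod : (1 / (1 + Real.exp S.M)) * (1 / (1 + Real.exp S.M)) ≤
        S.pi1 μ (l.get i) (blk μ (l.drop (i + 1)) ++ L2) y *
          (1 - S.pi1 μ (l.get i) (blk μ (l.drop (i + 1)) ++ L2) y) :=
      mul_le_mul p1 (by linarith only [p2]) (by positivity) (le_trans (by positivity) p1)
    have hone : 1 ≤ (1 + Real.exp S.M) ^ 2 *
        (S.pi1 μ (l.get i) (blk μ (l.drop (i + 1)) ++ L2) y *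
          (1 - S.pi1 μ (l.get i) (blk μ (l.drop (i + 1)) ++ L2) y)) := by
      have := mul_le_mul_of_nonneg_left hprod (sq_nonneg (1 + Real.exp S.M))
      refine le_trans (le_of_eq ?_) this
      field_simp
    calc _ = 1 * _ := (one_mul _).symm
      _ ≤ _ := mul_le_mul_of_nonneg_right hone (sq_nonneg _)
      _ = _ := by ring
  have hCpos : 0 ≤ S.Cpot := by unfold Cpot; positivity
  refine (Finset.sum_le_sum fun i _ => key i).trans ?_
  rw [← Finset.mul_sum]
  calc _ ≤ S.Cpot * 1 := mul_le_mul_of_nonneg_left h2 hCpos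
    _ = _ := mul_one _

variable [Fintype Ω] [Nonempty Ω]

/-- (4.1): a random insertion at a random position of a random block changes conditional
expectations very little. -/
theorem potential_avg {n : ℕ} {μ : ℝ} (L0 L2 : List (ℝ × Ω))
    (hG : ∀ l : List Ω, Good (L0 ++ (blk μ l ++ L2))) {f : 𝒩 → ℝ} (hf : ∀ y, |f y| ≤ 1) (x : 𝒩) :
    ((PE.unif (Blk n Ω)).E fun b => (PE.unif Ω).E fun τ =>
      S.Ex (L0 ++ blk μ b.pre) (blk μ b.suf ++ L2) (fun y =>
        (S.Ex (blk μ b.suf) L2 f (S.act τ y) - S.Ex (blk μ b.suf) L2 f y) ^ 2) x) ≤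
      S.Cpot / (n + 1) := by
  have h := avg_insert (n := n) (Ω := Ω) (fun pre τ suf =>
    S.Ex (L0 ++ blk μ pre) (blk μ suf ++ L2) (fun y =>
      (S.Ex (blk μ suf) L2 f (S.act τ y) - S.Ex (blk μ suf) L2 f y) ^ 2) x)
  have h2 : (PE.unif (Fin (n + 1) → Ω)).E (fun l => ∑ i : Fin (n + 1),
      S.Ex (L0 ++ blk μ ((List.ofFn l).take i)) (blk μ ((List.ofFn l).drop (i + 1)) ++ L2)
        (fun y => (S.Ex (blk μ ((List.ofFn l).drop (i + 1))) L2 f (S.act (l i) y) -
          S.Ex (blk μ ((List.ofFn l).drop (i + 1))) L2 f y) ^ 2) x) ≤ S.Cpot := by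
    refine PE.le_const _ fun l => ?_
    have hp := S.potential (μ := μ) L0 L2 (List.ofFn l) (hG _) hf x
    refine le_trans (le_of_eq ?_) hp
    rw [← (finCongr (List.length_ofFn (f := l))).sum_comp]
    refine Finset.sum_congr rfl fun i _ => ?_
    simp only [List.get_ofFn, finCongr_apply, Fin.val_cast]
  rw [h] at h2
  have hn : (0 : ℝ) < n + 1 := by positivity
  rw [le_div_iff₀ hn, mul_comm]
  exact h2

/-- The value `a(τ)` at a node with remaining list `L` and current power `μ`. -/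
noncomputable def av (μ : ℝ) (L : List (ℝ × Ω)) (τ : Ω) (x : 𝒩) : ℝ := Real.exp (μ * S.val L τ x)

/-- Constant of (M). -/
noncomputable def CM : ℝ := Real.exp (4 * S.M) * (1 + Real.exp S.M) ^ 6

/-- (M): inserting a random slot `τ` at a random position of a block changes the value of every
test `τ'` very little (in mean square). -/
theorem insertM {n : ℕ} {μ : ℝ} (L0 L2 : List (ℝ × Ω))
    (hG : ∀ l : List Ω, Good (L0 ++ (blk μ l ++ L2))) (hμ : 0 < μ) (hμ1 : μ ≤ 1) (τ' : Ω) (x : 𝒩) :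
    ((PE.unif (Blk n Ω)).E fun b => (PE.unif Ω).E fun τ =>
      S.Ex (L0 ++ blk μ b.pre) (blk μ b.suf ++ L2) (fun y =>
        (S.av μ (blk μ b.suf ++ L2) τ' (S.act τ y) - S.av μ (blk μ b.suf ++ L2) τ' y) ^ 2) x) ≤
      S.CM / (n + 1) := by
  have hG' : ∀ l : List Ω, Good (L0 ++ (blk μ l ++ (μ, τ') :: L2)) := by
    intro l
    have := hG (l ++ [τ'])
    rw [blk_append, List.append_assoc] at this
    exact this
  have hf : ∀ y, |S.pi1 μ τ' L2 y| ≤ 1 := fun y => by
    rw [abs_of_nonneg (S.pi1_nonneg _ _ _ _)]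
    exact S.pi1_le_one _ _ _ _
  have h := S.potential_avg (n := n) (μ := μ) L0 ((μ, τ') :: L2) hG' hf x
  have key : ((PE.unif (Blk n Ω)).E fun b => (PE.unif Ω).E fun τ =>
      S.Ex (L0 ++ blk μ b.pre) (blk μ b.suf ++ L2) (fun y =>
        (S.av μ (blk μ b.suf ++ L2) τ' (S.act τ y) - S.av μ (blk μ b.suf ++ L2) τ' y) ^ 2) x) ≤
      (Real.exp (2 * S.M) * (1 + Real.exp S.M) ^ 4) *
      ((PE.unif (Blk n Ω)).E fun b => (PE.unif Ω).E fun τ =>
      S.Ex (L0 ++ blk μ b.pre) (blk μ b.suf ++ (μ, τ') :: L2) (fun y =>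
        (S.Ex (blk μ b.suf) ((μ, τ') :: L2) (S.pi1 μ τ' L2) (S.act τ y) -
          S.Ex (blk μ b.suf) ((μ, τ') :: L2) (S.pi1 μ τ' L2) y) ^ 2) x) := by
    simp only [← PE.smul]
    refine PE.mono _ fun b => PE.mono _ fun τ => ?_
    have hGb := hG (List.ofFn b.2)
    have hGood0 : Good (L0 ++ blk μ b.pre) := by
      have hsub : (L0 ++ blk μ b.pre).Sublist (L0 ++ (blk μ (List.ofFn b.2) ++ L2)) := by
        refine List.Sublist.append_left ?_ L0
        exact ((List.take_sublist _ _).map _).trans (List.sublist_append_left _ _)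
      exact ⟨fun s hs => hGb.1 s (hsub.subset hs), hGb.2.sublist hsub⟩
    have hPos1 : Pos (blk μ b.suf ++ L2) := by
      have hsub : (blk μ b.suf ++ L2).Sublist (L0 ++ (blk μ (List.ofFn b.2) ++ L2)) := by
        refine List.Sublist.trans ?_ (List.sublist_append_right _ _)
        exact ((List.drop_sublist _ _).map _).append (List.Sublist.refl _)
      exact fun s hs => hGb.1 s (hsub.subset hs)
    have hPosB : Pos (blk μ b.suf) := fun s hs => hPos1 s (List.mem_append_left _ hs)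
    have hPosL : Pos L2 := fun s hs => hPos1 s (List.mem_append_right _ hs)
    have hcmp := S.Ex_compare (L1 := L0 ++ blk μ b.pre) (L2 := blk μ b.suf ++ (μ, τ') :: L2)
      (L2' := blk μ b.suf ++ L2) hGood0 (D := S.M)
      (S.lam_append_near hPosB fun y => by
        rw [abs_sub_comm]; exact S.lam_cons_near hμ hPosL τ' y)
      (f := fun y => (S.av μ (blk μ b.suf ++ L2) τ' (S.act τ y) -
        S.av μ (blk μ b.suf ++ L2) τ' y) ^ 2) (fun y => sq_nonneg _) x
    refine hcmp.trans ?_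
    rw [mul_assoc]
    refine mul_le_mul_of_nonneg_left ?_ (Real.exp_pos _).le
    rw [← Ex_smul]
    refine S.Ex_mono _ _ (fun y => ?_) x
    rw [S.Ex_pi1 hμ, S.Ex_pi1 hμ, pi1_eq, pi1_eq]
    have hav : ∀ z, 0 < S.av μ (blk μ b.suf ++ L2) τ' z ∧
        S.av μ (blk μ b.suf ++ L2) τ' z ≤ Real.exp S.M := by
      intro z
      refine ⟨Real.exp_pos _, Real.exp_le_exp.2 ?_⟩
      have h1 := (abs_le.1 (S.abs_val_le hPos1 τ' z)).2
      have h2 := S.M_nonneg
      nlinarith only [hμ, h1, hμ1, h2]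
    change _ ≤ (1 + Real.exp S.M) ^ 4 *
      (S.av μ (blk μ b.suf ++ L2) τ' (S.act τ y) / (1 + S.av μ (blk μ b.suf ++ L2) τ' (S.act τ y)) -
        S.av μ (blk μ b.suf ++ L2) τ' y / (1 + S.av μ (blk μ b.suf ++ L2) τ' y)) ^ 2
    obtain ⟨a0, a1⟩ := hav (S.act τ y)
    obtain ⟨b0, b1⟩ := hav y
    generalize S.av μ (blk μ b.suf ++ L2) τ' (S.act τ y) = a at *
    generalize S.av μ (blk μ b.suf ++ L2) τ' y = c at *
    have e1 : a / (1 + a) - c / (1 + c) = (a - c) / ((1 + a) * (1 + c)) := by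
      have : 1 + a ≠ 0 := by positivity
      have : 1 + c ≠ 0 := by positivity
      field_simp
      ring
    rw [e1, div_pow, mul_div_assoc', le_div_iff₀ (by positivity), mul_comm ((1 + Real.exp S.M) ^ 4)]
    refine mul_le_mul_of_nonneg_left ?_ (sq_nonneg _)
    have h3 : (1 + a) * (1 + c) ≤ (1 + Real.exp S.M) * (1 + Real.exp S.M) :=
      mul_le_mul (by linarith only [a1]) (by linarith only [b1]) (by (clear * - b0; positivity)) (by positivity)
    calc ((1 + a) * (1 + c)) ^ 2 ≤ ((1 + Real.exp S.M) * (1 + Real.exp S.M)) ^ 2 :=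
          pow_le_pow_left₀ (by positivity) h3 2
      _ = _ := by ring
  refine key.trans ((mul_le_mul_of_nonneg_left h (by positivity)).trans (le_of_eq ?_))
  unfold CM Cpot
  have e4 : Real.exp (4 * S.M) = Real.exp (2 * S.M) * Real.exp (2 * S.M) := by
    rw [← Real.exp_add]; congr 1; ring
  rw [e4]
  ring

/-- Two-step expectation from a node `y` of the current block (power `μ`, remaining slots `suf`) to
the node in the next block (power `μ'`, slots `pre'` before and `suf'` after the node, then `L3`)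
of a function of the state `s` at the end of the current block and of the final state `z`. -/
noncomputable def E2 (μ μ' : ℝ) (suf pre' suf' : List Ω) (L3 : List (ℝ × Ω))
    (f : 𝒩 → 𝒩 → ℝ) (y : 𝒩) : ℝ :=
  S.Ex (blk μ suf) (blk μ' pre' ++ (blk μ' suf' ++ L3))
    (fun s => S.Ex (blk μ' pre') (blk μ' suf' ++ L3) (f s) s) y

/-- The covariance `I(τ', τ) = Cov_F (a'(τ'), g(τ))`, where `a'` is the value at the node of the
next block and `g(τ) = a'(τ) e^{(μ - μ') val_S(τ)}`. -/
noncomputable def Icov (μ μ' : ℝ) (suf pre' suf' : List Ω) (L3 : List (ℝ × Ω))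
    (τ' τ : Ω) (y : 𝒩) : ℝ :=
  S.E2 μ μ' suf pre' suf' L3 (fun s z => S.av μ' (blk μ' suf' ++ L3) τ' z *
    (S.av μ' (blk μ' suf' ++ L3) τ z *
      Real.exp ((μ - μ') * S.val (blk μ' pre' ++ (blk μ' suf' ++ L3)) τ s))) y -
  S.E2 μ μ' suf pre' suf' L3 (fun _ z => S.av μ' (blk μ' suf' ++ L3) τ' z) y *
  S.E2 μ μ' suf pre' suf' L3 (fun s z => S.av μ' (blk μ' suf' ++ L3) τ z *
      Real.exp ((μ - μ') * S.val (blk μ' pre' ++ (blk μ' suf' ++ L3)) τ s)) y

/-- Constant of (4.2). -/
noncomputable def CI : ℝ := 100 * Real.exp (10 * S.M) * (1 + Real.exp S.M) ^ 6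

end Slots

end Vale.Agent.P168.MP
end
end

section

section

set_option autoImplicit false

open Finset

namespace Vale.Agent.P168.MP

namespace Slots

variable {𝒩 Ω : Type} (S : Slots 𝒩 Ω)

/-- The two-step expectation as a positive functional on pairs. -/
noncomputable def E2PE (μ μ' : ℝ) (suf pre' suf' : List Ω) (L3 : List (ℝ × Ω)) (y : 𝒩) :
    PE (𝒩 × 𝒩) :=
  (S.exPE (blk μ suf) (blk μ' pre' ++ (blk μ' suf' ++ L3)) y).bind fun s =>
    (S.exPE (blk μ' pre') (blk μ' suf' ++ L3) s).map fun z => (s, z)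

theorem E2_eq (μ μ' : ℝ) (suf pre' suf' : List Ω) (L3 : List (ℝ × Ω)) (f : 𝒩 → 𝒩 → ℝ) (y : 𝒩) :
    S.E2 μ μ' suf pre' suf' L3 f y =
      (S.E2PE μ μ' suf pre' suf' L3 y).E fun p => f p.1 p.2 := rfl

/-- Change of measure for the two-step expectation. -/
theorem E2_act {μ μ' : ℝ} (hμ : 0 < μ) (hμ' : 0 < μ') (suf pre' suf' : List Ω)
    (L3 : List (ℝ × Ω)) (τ : Ω) (f : 𝒩 → 𝒩 → ℝ) (y : 𝒩) :
    S.av μ (blk μ suf ++ (blk μ' pre' ++ (blk μ' suf' ++ L3))) τ y *
      S.E2 μ μ' suf pre' suf' L3 f (S.act τ y) =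
    S.E2 μ μ' suf pre' suf' L3 (fun s z => f (S.act τ s) (S.act τ z) *
      (S.av μ' (blk μ' suf' ++ L3) τ z *
      Real.exp ((μ - μ') * S.val (blk μ' pre' ++ (blk μ' suf' ++ L3)) τ s))) y := by
  unfold E2 av
  rw [S.Ex_act hμ]
  congr 1
  funext s
  beta_reduce
  have h := S.Ex_act hμ' pre' (blk μ' suf' ++ L3) τ (f (S.act τ s)) s
  have h1 : Real.exp (μ * S.val (blk μ' pre' ++ (blk μ' suf' ++ L3)) τ s) =
      Real.exp (μ' * S.val (blk μ' pre' ++ (blk μ' suf' ++ L3)) τ s) *
      Real.exp ((μ - μ') * S.val (blk μ' pre' ++ (blk μ' suf' ++ L3)) τ s) := by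
    rw [← Real.exp_add]
    congr 1
    ring
  rw [h1]
  have h2 : (fun z => f (S.act τ s) (S.act τ z) *
      (Real.exp (μ' * S.val (blk μ' suf' ++ L3) τ z) *
      Real.exp ((μ - μ') * S.val (blk μ' pre' ++ (blk μ' suf' ++ L3)) τ s))) =
      fun z => Real.exp ((μ - μ') * S.val (blk μ' pre' ++ (blk μ' suf' ++ L3)) τ s) *
      (f (S.act τ s) (S.act τ z) * Real.exp (μ' * S.val (blk μ' suf' ++ L3) τ z)) := by
    funext z; ring
  rw [h2, S.Ex_smul, ← h]
  ring

theorem E2_one (μ μ' : ℝ) (suf pre' suf' : List Ω) (L3 : List (ℝ × Ω)) (y : 𝒩) :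
    S.E2 μ μ' suf pre' suf' L3 (fun _ _ => 1) y = 1 := by
  rw [E2_eq]
  exact PE.const _ 1

/-- The decomposition of the covariance. -/
theorem Icov_eq {μ μ' : ℝ} (hμ : 0 < μ) (hμ' : 0 < μ') (suf pre' suf' : List Ω)
    (L3 : List (ℝ × Ω)) (τ' τ : Ω) (y : 𝒩) :
    S.Icov μ μ' suf pre' suf' L3 τ' τ y =
      S.av μ (blk μ suf ++ (blk μ' pre' ++ (blk μ' suf' ++ L3))) τ y *
        (S.E2 μ μ' suf pre' suf' L3 (fun _ z => S.av μ' (blk μ' suf' ++ L3) τ' z) (S.act τ y) -
          S.E2 μ μ' suf pre' suf' L3 (fun _ z => S.av μ' (blk μ' suf' ++ L3) τ' z) y) +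
      S.E2 μ μ' suf pre' suf' L3 (fun s z =>
        (S.av μ' (blk μ' suf' ++ L3) τ' z - S.av μ' (blk μ' suf' ++ L3) τ' (S.act τ z)) *
        (S.av μ' (blk μ' suf' ++ L3) τ z *
          Real.exp ((μ - μ') * S.val (blk μ' pre' ++ (blk μ' suf' ++ L3)) τ s))) y := by
  have h1 := S.E2_act hμ hμ' suf pre' suf' L3 τ
    (fun _ z => S.av μ' (blk μ' suf' ++ L3) τ' z) y
  have h2 := S.E2_act hμ hμ' suf pre' suf' L3 τ (fun _ _ => 1) y
  rw [E2_one, mul_one] at h2
  simp only [one_mul] at h2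
  have h3 : S.E2 μ μ' suf pre' suf' L3 (fun s z =>
        (S.av μ' (blk μ' suf' ++ L3) τ' z - S.av μ' (blk μ' suf' ++ L3) τ' (S.act τ z)) *
        (S.av μ' (blk μ' suf' ++ L3) τ z *
          Real.exp ((μ - μ') * S.val (blk μ' pre' ++ (blk μ' suf' ++ L3)) τ s))) y =
      S.E2 μ μ' suf pre' suf' L3 (fun s z => S.av μ' (blk μ' suf' ++ L3) τ' z *
        (S.av μ' (blk μ' suf' ++ L3) τ z *
          Real.exp ((μ - μ') * S.val (blk μ' pre' ++ (blk μ' suf' ++ L3)) τ s))) y -
      S.E2 μ μ' suf pre' suf' L3 (fun s z => S.av μ' (blk μ' suf' ++ L3) τ' (S.act τ z) *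
        (S.av μ' (blk μ' suf' ++ L3) τ z *
          Real.exp ((μ - μ') * S.val (blk μ' pre' ++ (blk μ' suf' ++ L3)) τ s))) y := by
    simp only [E2_eq]
    rw [← PE.sub]
    congr 1
    funext p
    ring
  rw [h3, mul_sub, h1, h2]
  unfold Icov
  ring

theorem exp_mul_val_le {c : ℝ} (hc : |c| ≤ 1) {L : List (ℝ × Ω)} (hL : Pos L) (τ : Ω) (x : 𝒩) :
    Real.exp (c * S.val L τ x) ≤ Real.exp S.M := by
  apply Real.exp_le_exp.mpr
  calc c * S.val L τ x ≤ |c * S.val L τ x| := le_abs_self _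
    _ = |c| * |S.val L τ x| := abs_mul _ _
    _ ≤ 1 * S.M := mul_le_mul hc (S.abs_val_le hL τ x) (abs_nonneg _) zero_le_one
    _ = S.M := one_mul _

theorem av_pos (μ : ℝ) (L : List (ℝ × Ω)) (τ : Ω) (x : 𝒩) : 0 < S.av μ L τ x := Real.exp_pos _

theorem av_le {μ : ℝ} (hμ : 0 < μ) (hμ1 : μ ≤ 1) {L : List (ℝ × Ω)} (hL : Pos L) (τ : Ω) (x : 𝒩) :
    S.av μ L τ x ≤ Real.exp S.M :=
  S.exp_mul_val_le (by rw [abs_of_pos hμ]; exact hμ1) hL τ x

/-- Pointwise bound of the covariance by the two insertion effects. -/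
theorem abs_Icov_le {μ μ' : ℝ} (hμ : 0 < μ) (hμμ : μ ≤ μ') (hμ1 : μ' ≤ 1)
    (suf pre' suf' : List Ω) (L3 : List (ℝ × Ω))
    (h1 : Pos (blk μ suf ++ (blk μ' pre' ++ (blk μ' suf' ++ L3))))
    (h2 : Pos (blk μ' pre' ++ (blk μ' suf' ++ L3)))
    (h3 : Pos (blk μ' suf' ++ L3)) (τ' τ : Ω) (y : 𝒩) :
    |S.Icov μ μ' suf pre' suf' L3 τ' τ y| ≤
      Real.exp S.M *
        |S.E2 μ μ' suf pre' suf' L3 (fun _ z => S.av μ' (blk μ' suf' ++ L3) τ' z) (S.act τ y) -
          S.E2 μ μ' suf pre' suf' L3 (fun _ z => S.av μ' (blk μ' suf' ++ L3) τ' z) y| +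
      Real.exp (2 * S.M) * S.E2 μ μ' suf pre' suf' L3 (fun _ z =>
        |S.av μ' (blk μ' suf' ++ L3) τ' (S.act τ z) - S.av μ' (blk μ' suf' ++ L3) τ' z|) y := by
  have hμ' : 0 < μ' := lt_of_lt_of_le hμ hμμ
  rw [S.Icov_eq hμ hμ']
  refine (abs_add_le _ _).trans (add_le_add ?_ ?_)
  · rw [abs_mul]
    apply mul_le_mul_of_nonneg_right _ (abs_nonneg _)
    rw [abs_of_pos (S.av_pos _ _ _ _)]
    exact S.av_le hμ (hμμ.trans hμ1) h1 τ y
  · simp only [E2_eq]
    rw [← PE.smul]
    refine (PE.abs_le _ _).trans (PE.mono _ fun p => ?_)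
    rw [abs_mul, mul_comm]
    apply mul_le_mul _ (le_of_eq (abs_sub_comm _ _)) (abs_nonneg _) (Real.exp_pos _).le
    rw [abs_of_pos (mul_pos (S.av_pos _ _ _ _) (Real.exp_pos _)), two_mul, Real.exp_add]
    apply mul_le_mul (S.av_le hμ' hμ1 h3 τ _) _ (Real.exp_pos _).le (Real.exp_pos _).le
    apply S.exp_mul_val_le _ h2
    rw [abs_le]
    constructor <;> linarith

end Slots

theorem Blk.blk_pre_suf {n : ℕ} {Ω : Type} (μ : ℝ) (b : Blk n Ω) (L : List (ℝ × Ω)) :
    blk μ b.pre ++ (blk μ b.suf ++ L) = blk μ (List.ofFn b.2) ++ L := by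
  rw [← List.append_assoc, ← blk_append, Blk.pre_append_suf]

namespace PE

variable {α β γ δ : Type}

theorem swap3 [Fintype γ] [Nonempty γ] (P : PE α) (Q : PE β) (F : α → β → γ → ℝ) :
    (P.E fun a => Q.E fun b => (unif γ).E fun c => F a b c) =
      (unif γ).E fun c => P.E fun a => Q.E fun b => F a b c := by
  have h := PE.comm_unif (P.bind fun a => Q.map fun b => (a, b)) (β := γ)
    (fun (p : α × β) c => F p.1 p.2 c)
  exact h

theorem jensen3 (P : PE α) (Q : PE β) (K : α → β → PE γ) (F : α → β → γ → ℝ) :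
    (P.E fun a => Q.E fun b => (K a b).E fun y => |F a b y|) ≤
      Real.sqrt (P.E fun a => Q.E fun b => (K a b).E fun y => F a b y ^ 2) :=
  (P.bind fun a => Q.bind fun b => (K a b).map (F a b)).abs_le_sqrt fun t => t

end PE

theorem sqrt_sq_div {A : ℝ} (hA : 0 ≤ A) (n : ℕ) :
    Real.sqrt (A ^ 2 / (n + 1)) = A / Real.sqrt (n + 1) := by
  rw [Real.sqrt_div (sq_nonneg A), Real.sqrt_sq hA]

namespace Slots

variable {𝒩 Ω : Type} (S : Slots 𝒩 Ω)

variable [Fintype Ω] [Nonempty Ω]

theorem potential_abs {n : ℕ} {μ : ℝ} (L0 L2 : List (ℝ × Ω))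
    (hG : ∀ l : List Ω, Good (L0 ++ (blk μ l ++ L2))) {f : 𝒩 → ℝ}
    (hf : ∀ y, |f y| ≤ Real.exp S.M) (x : 𝒩) :
    ((PE.unif (Blk n Ω)).E fun b => (PE.unif Ω).E fun τ =>
      S.Ex (L0 ++ blk μ b.pre) (blk μ b.suf ++ L2) (fun y =>
        |S.Ex (blk μ b.suf) L2 f (S.act τ y) - S.Ex (blk μ b.suf) L2 f y|) x) ≤
      Real.exp (2 * S.M) * (1 + Real.exp S.M) / Real.sqrt (n + 1) := by
  have h := S.potential_avg (n := n) L0 L2 hG (f := fun y => Real.exp (- S.M) * f y)
    (fun y => by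
      rw [abs_mul, abs_of_pos (Real.exp_pos _)]
      calc Real.exp (- S.M) * |f y| ≤ Real.exp (- S.M) * Real.exp S.M :=
            mul_le_mul_of_nonneg_left (hf y) (Real.exp_pos _).le
        _ = 1 := by rw [← Real.exp_add]; simp) x
  simp only [Ex_smul, ← mul_sub, mul_pow] at h
  simp only [PE.smul] at h
  have hj := PE.jensen3 (PE.unif (Blk n Ω)) (PE.unif Ω)
    (fun b _ => S.exPE (L0 ++ blk μ b.pre) (blk μ b.suf ++ L2) x)
    (fun b τ y => S.Ex (blk μ b.suf) L2 f (S.act τ y) - S.Ex (blk μ b.suf) L2 f y)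
  simp only [exPE_E] at hj
  refine hj.trans ?_
  rw [← sqrt_sq_div (by positivity)]
  apply Real.sqrt_le_sqrt
  have he : Real.exp S.M * Real.exp (- S.M) = 1 := by rw [← Real.exp_add]; simp
  have h' := mul_le_mul_of_nonneg_left h (sq_nonneg (Real.exp S.M))
  rw [← mul_assoc, ← mul_pow, he, one_pow, one_mul] at h'
  refine h'.trans (le_of_eq ?_)
  unfold Cpot
  rw [two_mul, Real.exp_add]
  ring

theorem insertM_abs {n : ℕ} {μ : ℝ} (L0 L2 : List (ℝ × Ω))
    (hG : ∀ l : List Ω, Good (L0 ++ (blk μ l ++ L2))) (hμ : 0 < μ) (hμ1 : μ ≤ 1) (τ' : Ω) (x : 𝒩) :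
    ((PE.unif (Blk n Ω)).E fun b => (PE.unif Ω).E fun τ =>
      S.Ex (L0 ++ blk μ b.pre) (blk μ b.suf ++ L2) (fun y =>
        |S.av μ (blk μ b.suf ++ L2) τ' (S.act τ y) - S.av μ (blk μ b.suf ++ L2) τ' y|) x) ≤
      Real.exp (2 * S.M) * (1 + Real.exp S.M) ^ 3 / Real.sqrt (n + 1) := by
  have hj := PE.jensen3 (PE.unif (Blk n Ω)) (PE.unif Ω)
    (fun b _ => S.exPE (L0 ++ blk μ b.pre) (blk μ b.suf ++ L2) x)
    (fun b τ y => S.av μ (blk μ b.suf ++ L2) τ' (S.act τ y) - S.av μ (blk μ b.suf ++ L2) τ' y)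
  simp only [exPE_E] at hj
  refine hj.trans ?_
  rw [← sqrt_sq_div (by positivity)]
  apply Real.sqrt_le_sqrt
  refine (S.insertM L0 L2 hG hμ hμ1 τ' x).trans (le_of_eq ?_)
  unfold CM
  rw [show 4 * S.M = 2 * S.M + 2 * S.M by ring, Real.exp_add]
  ring

/-- (4.2): for two consecutive random blocks the covariances `I(τ', τ)` are small on average. -/
theorem insertI {n : ℕ} {μ μ' : ℝ} (L0 L3 : List (ℝ × Ω))
    (hG : ∀ l l' : List Ω, Good (L0 ++ (blk μ l ++ (blk μ' l' ++ L3))))
    (hμ : 0 < μ) (hμμ : μ ≤ μ') (hμ1 : μ' ≤ 1) (x : 𝒩) :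
    ((PE.unif (Blk n Ω)).E fun b => (PE.unif (Blk n Ω)).E fun b' =>
      (PE.unif Ω).E fun τ => (PE.unif Ω).E fun τ' =>
      S.Ex (L0 ++ blk μ b.pre) (blk μ b.suf ++ (blk μ' (List.ofFn b'.2) ++ L3))
        (fun y => |S.Icov μ μ' b.suf b'.pre b'.suf L3 τ' τ y|) x) ≤
      S.CI / Real.sqrt (n + 1) := by
  have hμ' : 0 < μ' := lt_of_lt_of_le hμ hμμ
  -- positivity of all lists
  have hP : ∀ l l' : List Ω, Pos (blk μ l ++ (blk μ' l' ++ L3)) := fun l l' s hs =>
    (hG l l').1 s (List.mem_append_right _ hs)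
  have hP2 : ∀ l' : List Ω, Pos (blk μ' l' ++ L3) := fun l' => hP [] l'
  -- the pointwise bound
  have hpt : ∀ (b b' : Blk n Ω) (τ τ' : Ω) (y : 𝒩),
      |S.Icov μ μ' b.suf b'.pre b'.suf L3 τ' τ y| ≤
        Real.exp S.M * |S.Ex (blk μ b.suf) (blk μ' (List.ofFn b'.2) ++ L3)
            (S.Ex (blk μ' b'.pre) (blk μ' b'.suf ++ L3) (S.av μ' (blk μ' b'.suf ++ L3) τ'))
            (S.act τ y) -
          S.Ex (blk μ b.suf) (blk μ' (List.ofFn b'.2) ++ L3)
            (S.Ex (blk μ' b'.pre) (blk μ' b'.suf ++ L3) (S.av μ' (blk μ' b'.suf ++ L3) τ')) y| +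
        Real.exp (2 * S.M) * S.Ex (blk μ b.suf) (blk μ' (List.ofFn b'.2) ++ L3)
          (S.Ex (blk μ' b'.pre) (blk μ' b'.suf ++ L3) fun z =>
            |S.av μ' (blk μ' b'.suf ++ L3) τ' (S.act τ z) -
              S.av μ' (blk μ' b'.suf ++ L3) τ' z|) y := by
    intro b b' τ τ' y
    have h2 : Pos (blk μ' b'.pre ++ (blk μ' b'.suf ++ L3)) := by
      rw [Blk.blk_pre_suf]; exact hP2 _
    have h1 : Pos (blk μ b.suf ++ (blk μ' b'.pre ++ (blk μ' b'.suf ++ L3))) := by
      rw [Blk.blk_pre_suf]; exact hP _ _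
    have h := S.abs_Icov_le hμ hμμ hμ1 b.suf b'.pre b'.suf L3 h1 h2 (hP2 _) τ' τ y
    unfold E2 at h
    rw [Blk.blk_pre_suf] at h
    exact h
  -- the averaged bound
  have hmono : ((PE.unif (Blk n Ω)).E fun b => (PE.unif (Blk n Ω)).E fun b' =>
      (PE.unif Ω).E fun τ => (PE.unif Ω).E fun τ' =>
      S.Ex (L0 ++ blk μ b.pre) (blk μ b.suf ++ (blk μ' (List.ofFn b'.2) ++ L3))
        (fun y => |S.Icov μ μ' b.suf b'.pre b'.suf L3 τ' τ y|) x) ≤
      ((PE.unif (Blk n Ω)).E fun b => (PE.unif (Blk n Ω)).E fun b' =>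
      (PE.unif Ω).E fun τ => (PE.unif Ω).E fun τ' =>
        Real.exp S.M * S.Ex (L0 ++ blk μ b.pre) (blk μ b.suf ++ (blk μ' (List.ofFn b'.2) ++ L3))
        (fun y => |S.Ex (blk μ b.suf) (blk μ' (List.ofFn b'.2) ++ L3)
            (S.Ex (blk μ' b'.pre) (blk μ' b'.suf ++ L3) (S.av μ' (blk μ' b'.suf ++ L3) τ'))
            (S.act τ y) -
          S.Ex (blk μ b.suf) (blk μ' (List.ofFn b'.2) ++ L3)
            (S.Ex (blk μ' b'.pre) (blk μ' b'.suf ++ L3)
              (S.av μ' (blk μ' b'.suf ++ L3) τ')) y|) x +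
        Real.exp (2 * S.M) * S.Ex (L0 ++ blk μ (List.ofFn b.2) ++ blk μ' b'.pre)
          (blk μ' b'.suf ++ L3) (fun z =>
            |S.av μ' (blk μ' b'.suf ++ L3) τ' (S.act τ z) -
              S.av μ' (blk μ' b'.suf ++ L3) τ' z|) x) := by
    refine PE.mono _ fun b => PE.mono _ fun b' => PE.mono _ fun τ => PE.mono _ fun τ' => ?_
    refine (S.Ex_mono _ _ (hpt b b' τ τ') x).trans (le_of_eq ?_)
    rw [Ex_add, Ex_smul, Ex_smul]
    congr 2
    rw [show blk μ b.suf ++ (blk μ' (List.ofFn b'.2) ++ L3) =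
      blk μ b.suf ++ (blk μ' (List.ofFn b'.2) ++ L3) from rfl]
    have e1 : L0 ++ blk μ (List.ofFn b.2) = (L0 ++ blk μ b.pre) ++ blk μ b.suf := by
      rw [List.append_assoc, ← blk_append, Blk.pre_append_suf]
    rw [e1, S.Ex_append (L0 ++ blk μ b.pre ++ blk μ b.suf), S.Ex_append (L0 ++ blk μ b.pre),
      Blk.blk_pre_suf]
  refine hmono.trans ?_
  simp only [PE.add, PE.smul]
  -- first term
  have hT1 : ((PE.unif (Blk n Ω)).E fun b => (PE.unif (Blk n Ω)).E fun b' =>
      (PE.unif Ω).E fun τ => (PE.unif Ω).E fun τ' =>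
        S.Ex (L0 ++ blk μ b.pre) (blk μ b.suf ++ (blk μ' (List.ofFn b'.2) ++ L3))
        (fun y => |S.Ex (blk μ b.suf) (blk μ' (List.ofFn b'.2) ++ L3)
            (S.Ex (blk μ' b'.pre) (blk μ' b'.suf ++ L3) (S.av μ' (blk μ' b'.suf ++ L3) τ'))
            (S.act τ y) -
          S.Ex (blk μ b.suf) (blk μ' (List.ofFn b'.2) ++ L3)
            (S.Ex (blk μ' b'.pre) (blk μ' b'.suf ++ L3)
              (S.av μ' (blk μ' b'.suf ++ L3) τ')) y|) x) ≤
      Real.exp (2 * S.M) * (1 + Real.exp S.M) / Real.sqrt (n + 1) := by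
    rw [PE.comm_unif]
    apply PE.le_const
    intro b'
    rw [PE.swap3]
    apply PE.le_const
    intro τ'
    apply S.potential_abs L0 (blk μ' (List.ofFn b'.2) ++ L3) (fun l => hG l _)
    intro y
    refine (PE.abs_le (S.exPE (blk μ' b'.pre) (blk μ' b'.suf ++ L3) y) _).trans
      (PE.le_const _ fun z => ?_)
    rw [abs_of_pos (S.av_pos _ _ _ _)]
    exact S.av_le hμ' hμ1 (hP2 _) τ' z
  have hT2 : ((PE.unif (Blk n Ω)).E fun b => (PE.unif (Blk n Ω)).E fun b' =>
      (PE.unif Ω).E fun τ => (PE.unif Ω).E fun τ' =>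
        S.Ex (L0 ++ blk μ (List.ofFn b.2) ++ blk μ' b'.pre)
          (blk μ' b'.suf ++ L3) (fun z =>
            |S.av μ' (blk μ' b'.suf ++ L3) τ' (S.act τ z) -
              S.av μ' (blk μ' b'.suf ++ L3) τ' z|) x) ≤
      Real.exp (2 * S.M) * (1 + Real.exp S.M) ^ 3 / Real.sqrt (n + 1) := by
    apply PE.le_const
    intro b
    rw [PE.swap3]
    apply PE.le_const
    intro τ'
    apply S.insertM_abs (L0 ++ blk μ (List.ofFn b.2)) L3 (fun l => ?_) hμ' hμ1
    rw [List.append_assoc]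
    exact hG _ _
  have hfin : Real.exp S.M * (Real.exp (2 * S.M) * (1 + Real.exp S.M) / Real.sqrt (n + 1)) +
      Real.exp (2 * S.M) * (Real.exp (2 * S.M) * (1 + Real.exp S.M) ^ 3 / Real.sqrt (n + 1)) ≤
      S.CI / Real.sqrt (n + 1) := by
    rw [← mul_div_assoc, ← mul_div_assoc, ← add_div]
    apply div_le_div_of_nonneg_right _ (Real.sqrt_nonneg _)
    unfold CI
    have ht : 1 ≤ Real.exp S.M := Real.one_le_exp S.M_nonneg
    have e2 : Real.exp (2 * S.M) = Real.exp S.M ^ 2 := by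
      rw [← Real.exp_nat_mul]; norm_num
    have e10 : Real.exp (10 * S.M) = Real.exp S.M ^ 10 := by
      rw [← Real.exp_nat_mul]; norm_num
    rw [e2, e10]
    set t := Real.exp S.M with ht_def
    have ht0 : 0 ≤ t := by linarith only [ht]
    have hu : 1 ≤ 1 + t := by linarith only [ht]
    have a1 : t ^ 3 ≤ t ^ 10 := pow_le_pow_right₀ ht (by norm_num)
    have a2 : t ^ 4 ≤ t ^ 10 := pow_le_pow_right₀ ht (by norm_num)
    have a3 : (1 + t) ^ 1 ≤ (1 + t) ^ 6 := pow_le_pow_right₀ hu (by norm_num)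
    have a4 : (1 + t) ^ 3 ≤ (1 + t) ^ 6 := pow_le_pow_right₀ hu (by norm_num)
    have b1 : t ^ 3 * (1 + t) ^ 1 ≤ t ^ 10 * (1 + t) ^ 6 :=
      mul_le_mul a1 a3 (by positivity) (by positivity)
    have b2 : t ^ 4 * (1 + t) ^ 3 ≤ t ^ 10 * (1 + t) ^ 6 :=
      mul_le_mul a2 a4 (by positivity) (by positivity)
    have b3 : 0 ≤ t ^ 10 * (1 + t) ^ 6 := by positivity
    linarith
  refine le_trans (add_le_add (mul_le_mul_of_nonneg_left hT1 (Real.exp_pos _).le)
    (mul_le_mul_of_nonneg_left hT2 (Real.exp_pos _).le)) hfin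

end Slots

end Vale.Agent.P168.MP
end
end

section

section

set_option autoImplicit false
set_option linter.unusedSectionVars false

open Finset
open scoped BigOperators

namespace Vale.Agent.P168.MP

variable {S ι : Type} [Fintype S] [Nonempty S] [Fintype ι] [DecidableEq ι]

/-- Number of labels. -/
def nlab (Q : S → ℕ) : ℕ := (univ.image Q).card

/-- Join of two labellings. -/
def join (Q q : S → ℕ) : S → ℕ := fun i => Nat.pair (Q i) (q i)

/-- Uniform average over tuples of sites. -/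
noncomputable abbrev aS (f : (ι → S) → ℝ) : ℝ := (PE.unif (ι → S)).E f

theorem aS_eq (f : (ι → S) → ℝ) : aS f = 𝔼 s : ι → S, f s := by
  rw [Finset.expect_eq_sum_div_card]
  rfl

theorem mem_piCell (Q : S → ℕ) (s t : ι → S) :
    (t ∈ Fintype.piFinset fun j => cell Q (s j)) ↔ Q ∘ t = Q ∘ s := by
  simp only [Fintype.mem_piFinset, mem_cell, funext_iff, Function.comp_apply]

/-- `cellAvg` as a sum. -/
theorem cellAvg_eq (Q : S → ℕ) (f : (ι → S) → ℝ) (s : ι → S) :
    cellAvg Q f s = (∑ t ∈ Fintype.piFinset fun j => cell Q (s j), f t) /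
      ((Fintype.piFinset fun j => cell Q (s j)).card : ℝ) := by
  unfold cellAvg
  rw [Finset.expect_eq_sum_div_card]

/-- `cellAvg` as a `PE`. -/
noncomputable def cellPE (Q : S → ℕ) (s : ι → S) : PE (ι → S) where
  E f := cellAvg Q f s
  add' f g := by simp only [cellAvg_eq]; rw [Finset.sum_add_distrib, add_div]
  smul' c f := by simp only [cellAvg_eq]; rw [← Finset.mul_sum, mul_div_assoc]
  mono' f g h := by
    simp only [cellAvg_eq]
    exact div_le_div_of_nonneg_right (Finset.sum_le_sum fun a _ => h a) (Nat.cast_nonneg _)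
  one' := by
    rw [cellAvg_eq]
    have h : ((Fintype.piFinset fun j => cell Q (s j)).card : ℝ) ≠ 0 := by
      exact_mod_cast (Finset.card_pos.2 ⟨s, (mem_piCell Q s s).2 rfl⟩).ne'
    rw [Finset.sum_const, nsmul_eq_mul, mul_one, div_self h]

theorem cellPE_E (Q : S → ℕ) (s : ι → S) (f : (ι → S) → ℝ) :
    (cellPE Q s).E f = cellAvg Q f s := rfl

theorem piCell_eq (Q : S → ℕ) (s : ι → S) :
    (Fintype.piFinset fun j => cell Q (s j)) = univ.filter fun t => Q ∘ t = Q ∘ s := by
  ext t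
  rw [mem_piCell, Finset.mem_filter]
  simp

theorem cellAvg_eq' (Q : S → ℕ) (f : (ι → S) → ℝ) (s : ι → S) :
    cellAvg Q f s = (∑ t with Q ∘ t = Q ∘ s, f t) / (#{t | Q ∘ t = Q ∘ s} : ℝ) := by
  rw [cellAvg_eq, piCell_eq]

/-- Functions of the labels come out of the conditional average. -/
theorem cellAvg_label_mul (Q : S → ℕ) (g : (ι → ℕ) → ℝ) (f : (ι → S) → ℝ) (s : ι → S) :
    cellAvg Q (fun t => g (Q ∘ t) * f t) s = g (Q ∘ s) * cellAvg Q f s := by
  rw [cellAvg_eq', cellAvg_eq', ← mul_div_assoc, Finset.mul_sum]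
  congr 1
  refine Finset.sum_congr rfl fun t ht => ?_
  rw [(Finset.mem_filter.1 ht).2]

theorem cellAvg_label (Q : S → ℕ) (g : (ι → ℕ) → ℝ) (s : ι → S) :
    cellAvg Q (fun t => g (Q ∘ t)) s = g (Q ∘ s) := by
  have h1 := cellAvg_label_mul Q g (fun _ => 1) s
  have h2 : cellAvg Q (fun _ : ι → S => (1 : ℝ)) s = 1 := (cellPE Q s).one'
  rw [h2, mul_one] at h1
  simpa using h1

/-- Sums split over the label classes. -/
theorem sum_classes (Q : S → ℕ) (F : (ι → S) → ℝ) :
    ∑ s, F s = ∑ ζ ∈ univ.image (fun s : ι → S => Q ∘ s), ∑ s with Q ∘ s = ζ, F s :=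
  (Finset.sum_fiberwise_of_maps_to (fun s _ => Finset.mem_image_of_mem _ (Finset.mem_univ s)) F).symm

theorem class_card_pos (Q : S → ℕ) {ζ : ι → ℕ} (h : ζ ∈ univ.image (fun s : ι → S => Q ∘ s)) :
    (#{s : ι → S | Q ∘ s = ζ} : ℝ) ≠ 0 := by
  obtain ⟨s, _, hs⟩ := Finset.mem_image.1 h
  have : 0 < #{t : ι → S | Q ∘ t = ζ} :=
    Finset.card_pos.2 ⟨s, Finset.mem_filter.2 ⟨Finset.mem_univ _, hs⟩⟩
  exact_mod_cast this.ne'

theorem cellAvg_class (Q : S → ℕ) (f : (ι → S) → ℝ) {ζ : ι → ℕ} {s : ι → S}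
    (hs : s ∈ univ.filter fun s : ι → S => Q ∘ s = ζ) :
    cellAvg Q f s = (∑ t with Q ∘ t = ζ, f t) / (#{t | Q ∘ t = ζ} : ℝ) := by
  rw [cellAvg_eq', (Finset.mem_filter.1 hs).2]

/-- Total average. -/
theorem aS_cellAvg (Q : S → ℕ) (f : (ι → S) → ℝ) : aS (cellAvg Q f) = aS f := by
  unfold aS
  rw [PE.unif_E, PE.unif_E]
  congr 1
  rw [sum_classes Q (cellAvg Q f), sum_classes Q f]
  refine Finset.sum_congr rfl fun ζ hζ => ?_
  rw [Finset.sum_congr rfl fun s hs => cellAvg_class Q f hs, Finset.sum_const, nsmul_eq_mul,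
    mul_div_cancel₀ _ (class_card_pos Q hζ)]

/-- `L¹` contraction. -/
theorem aS_abs_cellAvg_le (Q : S → ℕ) (f : (ι → S) → ℝ) :
    aS (fun s => |cellAvg Q f s|) ≤ aS fun s => |f s| := by
  rw [← aS_cellAvg Q fun s => |f s|]
  exact (PE.unif (ι → S)).mono fun s => (cellPE Q s).abs_le f

/-- If `f` is close in `L¹` to a function of the labels `Q` then it is close to its conditional
average. -/
theorem aS_abs_cellAvg_sub_le (Q : S → ℕ) (f : (ι → S) → ℝ) (G : (ι → ℕ) → ℝ) :
    aS (fun s => |cellAvg Q f s - f s|) ≤ 2 * aS fun s => |f s - G (Q ∘ s)| := by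
  have h1 : ∀ s, |cellAvg Q f s - f s| ≤ |cellAvg Q (fun t => f t - G (Q ∘ t)) s| +
      |f s - G (Q ∘ s)| := by
    intro s
    have h2 : cellAvg Q (fun t => f t - G (Q ∘ t)) s = cellAvg Q f s - G (Q ∘ s) := by
      have h3 := (cellPE Q s).sub f fun t => G (Q ∘ t)
      rw [cellPE_E, cellPE_E, cellPE_E, cellAvg_label] at h3
      exact h3
    rw [h2]
    calc |cellAvg Q f s - f s| = |(cellAvg Q f s - G (Q ∘ s)) - (f s - G (Q ∘ s))| := by
          congr 1; ring
      _ ≤ _ := abs_sub _ _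
  refine ((PE.unif (ι → S)).mono h1).trans ?_
  rw [(PE.unif (ι → S)).add]
  have := aS_abs_cellAvg_le Q fun t => f t - G (Q ∘ t)
  unfold aS at this ⊢
  linarith

/-- Decomposition over product cells. -/
theorem aS_abs_cellAvg_eq (Q : S → ℕ) (f : (ι → S) → ℝ) :
    aS (fun s => |cellAvg Q f s|) =
      ∑ ζ ∈ univ.image (fun s : ι → S => Q ∘ s), |aS fun s => if Q ∘ s = ζ then f s else 0| := by
  unfold aS
  simp only [PE.unif_E]
  rw [sum_classes Q fun s => |cellAvg Q f s|, Finset.sum_div]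
  refine Finset.sum_congr rfl fun ζ hζ => ?_
  rw [Finset.sum_congr rfl fun s hs => by rw [cellAvg_class Q f hs], Finset.sum_const,
    nsmul_eq_mul, abs_div, Nat.abs_cast, mul_div_cancel₀ _ (class_card_pos Q hζ), abs_div,
    Nat.abs_cast, Finset.sum_filter]

/-- Every average over tuples splits over the cells. -/
theorem aS_eq_sum_cells (Q : S → ℕ) (f : (ι → S) → ℝ) :
    aS f = ∑ ζ ∈ univ.image (fun s : ι → S => Q ∘ s), aS fun s => if Q ∘ s = ζ then f s else 0 := by
  unfold aS
  simp only [PE.unif_E]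
  rw [sum_classes Q f, Finset.sum_div]
  refine Finset.sum_congr rfl fun ζ _ => ?_
  rw [Finset.sum_filter]

theorem card_cells_le (Q : S → ℕ) :
    (univ.image (fun s : ι → S => Q ∘ s)).card ≤ nlab Q ^ Fintype.card ι := by
  have h1 : univ.image (fun s : ι → S => Q ∘ s) ⊆ Fintype.piFinset fun _ : ι => univ.image Q := by
    intro ζ hζ
    obtain ⟨s, _, rfl⟩ := Finset.mem_image.1 hζ
    rw [Fintype.mem_piFinset]
    exact fun j => Finset.mem_image_of_mem _ (Finset.mem_univ _)
  refine (Finset.card_le_card h1).trans (le_of_eq ?_)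
  rw [Fintype.card_piFinset, Finset.prod_const, Finset.card_univ]
  rfl

theorem nlab_join_le (Q q : S → ℕ) : nlab (join Q q) ≤ nlab Q * nlab q := by
  have h1 : univ.image (join Q q) ⊆
      ((univ.image Q) ×ˢ (univ.image q)).image fun p => Nat.pair p.1 p.2 := by
    intro x hx
    obtain ⟨i, _, rfl⟩ := Finset.mem_image.1 hx
    exact Finset.mem_image.2 ⟨(Q i, q i), Finset.mem_product.2
      ⟨Finset.mem_image_of_mem _ (Finset.mem_univ _), Finset.mem_image_of_mem _ (Finset.mem_univ _)⟩,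
      rfl⟩
  refine (Finset.card_le_card h1).trans (Finset.card_image_le.trans (le_of_eq ?_))
  rw [Finset.card_product]
  rfl

theorem join_left {Q q : S → ℕ} {i j : S} (h : join Q q i = join Q q j) : Q i = Q j := by
  have := congrArg Nat.unpair h
  simp only [join, Nat.unpair_pair, Prod.mk.injEq] at this
  exact this.1

theorem join_right {Q q : S → ℕ} {i j : S} (h : join Q q i = join Q q j) : q i = q j := by
  have := congrArg Nat.unpair h
  simp only [join, Nat.unpair_pair, Prod.mk.injEq] at this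
  exact this.2

/-- The weights of the multilinear extension. -/
theorem mlin_weight_nonneg {y : ι → ℝ} (hy : ∀ j, |y j| ≤ 1) (σ : ι → Bool) :
    0 ≤ ∏ j, (1 + y j * spin (σ j)) / 2 := by
  refine Finset.prod_nonneg fun j _ => ?_
  have h := abs_le.1 (hy j)
  rcases Bool.eq_false_or_eq_true (σ j) with h1 | h1
  · rw [h1]
    simp only [spin, if_true]
    linarith [h.1]
  · rw [h1]
    simp only [spin, Bool.false_eq_true, if_false]
    linarith only [h]

theorem sum_prod_bool (g : ι → Bool → ℝ) :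
    ∑ σ : ι → Bool, ∏ j, g j (σ j) = ∏ j, (g j true + g j false) := by
  have h := Finset.prod_univ_sum (fun _ : ι => (Finset.univ : Finset Bool)) fun j b => g j b
  rw [Fintype.piFinset_univ] at h
  rw [← h]
  refine Finset.prod_congr rfl fun j _ => ?_
  rw [Fintype.sum_bool]

theorem mlin_weight_sum (y : ι → ℝ) :
    ∑ σ : ι → Bool, ∏ j, (1 + y j * spin (σ j)) / 2 = 1 := by
  rw [sum_prod_bool fun j b => (1 + y j * spin b) / 2]
  refine Finset.prod_eq_one fun j _ => ?_
  simp only [spin, if_true, Bool.false_eq_true, if_false]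
  ring

theorem mlin_lower {w : (ι → Bool) → ℝ} {c : ℝ} (hw : ∀ σ, c ≤ w σ) {y : ι → ℝ}
    (hy : ∀ j, |y j| ≤ 1) : c ≤ mlin w y := by
  unfold mlin
  calc c = c * ∑ σ : ι → Bool, ∏ j, (1 + y j * spin (σ j)) / 2 := by
        rw [mlin_weight_sum, mul_one]
    _ = ∑ σ : ι → Bool, c * ∏ j, (1 + y j * spin (σ j)) / 2 := Finset.mul_sum _ _ _
    _ ≤ _ := Finset.sum_le_sum fun σ _ =>
        mul_le_mul_of_nonneg_right (hw σ) (mlin_weight_nonneg hy σ)

/-- Change of one coordinate in the multilinear extension. -/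
theorem mlin_lip_one {w : (ι → Bool) → ℝ} {C : ℝ} (hw : ∀ σ, |w σ| ≤ C) {z z' : ι → ℝ} (a : ι)
    (hz : ∀ j, |z j| ≤ 1) (h : ∀ j, j ≠ a → z' j = z j) :
    |mlin w z - mlin w z'| ≤ C * |z a - z' a| := by
  set g : ι → Bool → ℝ := fun j b => if j = a then 1 else (1 + z j * spin b) / 2 with hg
  have hg0 : ∀ σ : ι → Bool, 0 ≤ ∏ j, g j (σ j) := by
    intro σ
    refine Finset.prod_nonneg fun j _ => ?_
    rw [hg]
    dsimp only
    split_ifs
    · exact zero_le_one
    · have h := abs_le.1 (hz j)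
      rcases Bool.eq_false_or_eq_true (σ j) with h1 | h1
      · rw [h1]
        simp only [spin, if_true]
        linarith only [h]
      · rw [h1]
        simp only [spin, Bool.false_eq_true, if_false]
        linarith only [h]
  have hprod : ∀ (u : ι → ℝ), (∀ j, j ≠ a → u j = z j) → ∀ σ : ι → Bool,
      ∏ j, (1 + u j * spin (σ j)) / 2 = (1 + u a * spin (σ a)) / 2 * ∏ j, g j (σ j) := by
    intro u hu σ
    rw [← Finset.mul_prod_erase Finset.univ (fun j => (1 + u j * spin (σ j)) / 2)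
      (Finset.mem_univ a), ← Finset.mul_prod_erase Finset.univ (fun j => g j (σ j))
      (Finset.mem_univ a)]
    have h1 : g a (σ a) = 1 := by rw [hg]; simp
    rw [h1, one_mul]
    congr 1
    refine Finset.prod_congr rfl fun j hj => ?_
    have hja := Finset.ne_of_mem_erase hj
    rw [hg]
    dsimp only
    rw [if_neg hja, hu j hja]
  have hsum : ∑ σ : ι → Bool, ∏ j, g j (σ j) = 2 := by
    rw [sum_prod_bool, ← Finset.mul_prod_erase Finset.univ _ (Finset.mem_univ a)]
    have h1 : g a true + g a false = 2 := by rw [hg]; norm_num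
    rw [h1]
    have h2 : ∏ j ∈ Finset.univ.erase a, (g j true + g j false) = 1 := by
      refine Finset.prod_eq_one fun j hj => ?_
      rw [hg]
      dsimp only
      rw [if_neg (Finset.ne_of_mem_erase hj), if_neg (Finset.ne_of_mem_erase hj)]
      simp only [spin, if_true, Bool.false_eq_true, if_false]
      ring
    rw [h2, mul_one]
  have hspin : ∀ b : Bool, |spin b| = 1 := by
    intro b
    cases b <;> simp [spin]
  unfold mlin
  rw [← Finset.sum_sub_distrib]
  refine (Finset.abs_sum_le_sum_abs _ _).trans ?_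
  have hC : ∀ σ : ι → Bool, |w σ * ∏ j, (1 + z j * spin (σ j)) / 2 -
      w σ * ∏ j, (1 + z' j * spin (σ j)) / 2| ≤ C * |z a - z' a| / 2 * ∏ j, g j (σ j) := by
    intro σ
    rw [hprod z (fun _ _ => rfl) σ, hprod z' h σ]
    have e1 : w σ * ((1 + z a * spin (σ a)) / 2 * ∏ j, g j (σ j)) -
        w σ * ((1 + z' a * spin (σ a)) / 2 * ∏ j, g j (σ j)) =
        w σ * ((z a - z' a) * spin (σ a) / 2) * ∏ j, g j (σ j) := by ring
    rw [e1, abs_mul, abs_of_nonneg (hg0 σ)]
    refine mul_le_mul_of_nonneg_right ?_ (hg0 σ)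
    rw [abs_mul, abs_div, abs_mul, hspin, mul_one, abs_two]
    calc |w σ| * (|z a - z' a| / 2) ≤ C * (|z a - z' a| / 2) :=
          mul_le_mul_of_nonneg_right (hw σ) (by (clear * -; positivity))
      _ = C * |z a - z' a| / 2 := by ring
  refine (Finset.sum_le_sum fun σ _ => hC σ).trans (le_of_eq ?_)
  rw [← Finset.mul_sum, hsum]
  ring

/-- Lipschitz bound for the multilinear extension. -/
theorem mlin_lip {w : (ι → Bool) → ℝ} {C : ℝ} (hw : ∀ σ, |w σ| ≤ C) {y y' : ι → ℝ}
    (hy : ∀ j, |y j| ≤ 1) (hy' : ∀ j, |y' j| ≤ 1) :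
    |mlin w y - mlin w y'| ≤ C * ∑ j, |y j - y' j| := by
  have key : ∀ T : Finset ι, |mlin w y - mlin w fun j => if j ∈ T then y' j else y j| ≤
      C * ∑ j ∈ T, |y j - y' j| := by
    intro T
    induction T using Finset.induction_on with
    | empty => simp
    | insert a T ha ih =>
      rw [Finset.sum_insert ha]
      have h1 := mlin_lip_one hw (z := fun j => if j ∈ T then y' j else y j)
        (z' := fun j => if j ∈ insert a T then y' j else y j) a
        (by intro j; split_ifs; exacts [hy' j, hy j])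
        (by
          intro j hj
          by_cases hjT : j ∈ T
          · rw [if_pos hjT, if_pos (Finset.mem_insert_of_mem hjT)]
          · rw [if_neg hjT, if_neg (by
              rw [Finset.mem_insert]
              push Not
              exact ⟨hj, hjT⟩)])
      simp only [ha, if_false, Finset.mem_insert_self, if_true] at h1
      calc _ ≤ |mlin w y - mlin w fun j => if j ∈ T then y' j else y j| +
            |(mlin w fun j => if j ∈ T then y' j else y j) -
              mlin w fun j => if j ∈ insert a T then y' j else y j| := abs_sub_le _ _ _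
        _ ≤ C * ∑ j ∈ T, |y j - y' j| + C * |y a - y' a| := add_le_add ih h1
        _ = _ := by ring
  have h2 := key Finset.univ
  simpa only [ge_iff_le, mem_univ, ↓reduceIte] using h2

theorem cellAvg_lower (Q : S → ℕ) {f : (ι → S) → ℝ} {c : ℝ} (hf : ∀ s, c ≤ f s) (s : ι → S) :
    c ≤ cellAvg Q f s := (cellPE Q s).const_le hf

theorem betaRec_lower {θ : ℝ} (h0 : 0 ≤ θ) (h1 : θ ≤ 1) {f0 : (ι → S) → ℝ} {c : ℝ} (hc : 0 < c)
    (hc1 : c ≤ 1) (hf : ∀ s, c ≤ f0 s) (R : ℕ) (q : Fin R → S → ℕ) (s : ι → S) :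
    c ≤ betaRec θ R q f0 s := by
  induction R generalizing s with
  | zero => exact hf s
  | succ R ih =>
    rw [betaRec_succ]
    have h2 := cellAvg_lower (q 0) (f := betaRec θ R (Fin.tail q) f0) (ih (Fin.tail q)) s
    calc c = c ^ (1 : ℝ) := (Real.rpow_one c).symm
      _ ≤ c ^ θ := Real.rpow_le_rpow_of_exponent_ge hc hc1 h1
      _ ≤ _ := Real.rpow_le_rpow hc.le h2 h0

end Vale.Agent.P168.MP
end
end

section

section

set_option autoImplicit false

open Finset

namespace Vale.Agent.P168.MP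

/-! Real power lemmas. -/

/-- Concavity of `x ^ s`: the chord lies below the tangent. -/
theorem rpow_sub_le {s u v : ℝ} (h0 : 0 ≤ s) (h1 : s ≤ 1) (hv : 0 < v) (huv : v ≤ u) :
    u ^ s - v ^ s ≤ s * v ^ (s - 1) * (u - v) := by
  have hu : 0 < u := lt_of_lt_of_le hv huv
  have ht : (0 : ℝ) ≤ u / v - 1 := by
    rw [sub_nonneg, le_div_iff₀ hv]; linarith
  have hb : (1 + (u / v - 1)) ^ s ≤ 1 + s * (u / v - 1) :=
    _root_.rpow_one_add_le_one_add_mul_self (by linarith only [ht]) h0 h1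
  have e1 : (1 + (u / v - 1)) = u / v := by ring
  rw [e1, Real.div_rpow hu.le hv.le] at hb
  have hvs : 0 < v ^ s := Real.rpow_pos_of_pos hv s
  rw [div_le_iff₀ hvs] at hb
  have e2 : v ^ (s - 1) = v ^ s / v := by
    rw [Real.rpow_sub hv, Real.rpow_one]
  rw [e2]
  have e3 : s * (v ^ s / v) * (u - v) = s * (u / v - 1) * v ^ s := by
    (clear * - hv; field_simp)
  rw [e3]
  nlinarith only [hb]

/-- Tangent bounds at `1`. -/
theorem rpow_upper {s t : ℝ} (h0 : 0 ≤ s) (h1 : s ≤ 1) (ht : 0 < t) :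
    t ^ s ≤ 1 + s * (t - 1) := by
  have hb : (1 + (t - 1)) ^ s ≤ 1 + s * (t - 1) :=
    _root_.rpow_one_add_le_one_add_mul_self (by linarith) h0 h1
  have e1 : (1 + (t - 1)) = t := by ring
  rwa [e1] at hb

theorem rpow_lower {s t : ℝ} (h1 : s ≤ 1) (ht : 0 < t) :
    1 + s * (t - 1) - (1 - s) * (t - 1) ^ 2 ≤ t ^ s := by
  have e1 : t ^ s = t * Real.exp (Real.log t * (s - 1)) := by
    rw [← Real.rpow_def_of_pos ht, Real.rpow_sub ht, Real.rpow_one]
    field_simp
  have h2 : Real.log t * (s - 1) + 1 ≤ Real.exp (Real.log t * (s - 1)) := Real.add_one_le_exp _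
  have h3 : Real.log t ≤ t - 1 := Real.log_le_sub_one_of_pos ht
  have h4 : t * (Real.log t * (s - 1) + 1) ≤ t ^ s := by
    rw [e1]; exact mul_le_mul_of_nonneg_left h2 ht.le
  have h5 : t * (Real.log t * (1 - s)) ≤ t * ((t - 1) * (1 - s)) :=
    mul_le_mul_of_nonneg_left (mul_le_mul_of_nonneg_right h3 (by linarith)) ht.le
  linarith

theorem rpow_lip {θ c u v : ℝ} (h0 : 0 < θ) (h1 : θ ≤ 1) (hc : 0 < c) (hu : c ≤ u) (hv : c ≤ v) :
    |u ^ θ - v ^ θ| ≤ c ^ (-(1 - θ)) * |u - v| := by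
  have key : ∀ u v : ℝ, c ≤ v → v ≤ u → |u ^ θ - v ^ θ| ≤ c ^ (-(1 - θ)) * |u - v| := by
    intro u v hv huv
    have hv0 : 0 < v := lt_of_lt_of_le hc hv
    rw [abs_of_nonneg (sub_nonneg.2 (Real.rpow_le_rpow hv0.le huv h0.le)),
      abs_of_nonneg (sub_nonneg.2 huv)]
    refine (rpow_sub_le h0.le h1 hv0 huv).trans ?_
    apply mul_le_mul_of_nonneg_right _ (sub_nonneg.2 huv)
    have e : -(1 - θ) = θ - 1 := by ring
    rw [e]
    have h2 : v ^ (θ - 1) ≤ c ^ (θ - 1) := Real.rpow_le_rpow_of_nonpos hc hv (by linarith)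
    have h3 : 0 < v ^ (θ - 1) := Real.rpow_pos_of_pos hv0 _
    nlinarith only [h2, h1, h3]
  rcases le_total v u with h | h
  · exact key u v hv h
  · rw [abs_sub_comm, abs_sub_comm u v]
    exact key v u hu h

theorem rpow_lip' {θ c u v : ℝ} (h0 : 0 < θ) (h1 : θ ≤ 1) (hc : 0 < c) (hc1 : c ≤ 1) (hu : c ≤ u)
    (hv : c ≤ v) : |u ^ (1 - θ) - v ^ (1 - θ)| ≤ c⁻¹ * (1 - θ) * |u - v| := by
  have key : ∀ u v : ℝ, c ≤ v → v ≤ u →
      |u ^ (1 - θ) - v ^ (1 - θ)| ≤ c⁻¹ * (1 - θ) * |u - v| := by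
    intro u v hv huv
    have hv0 : 0 < v := lt_of_lt_of_le hc hv
    have hs : 0 ≤ 1 - θ := by linarith
    rw [abs_of_nonneg (sub_nonneg.2 (Real.rpow_le_rpow hv0.le huv hs)),
      abs_of_nonneg (sub_nonneg.2 huv)]
    refine (rpow_sub_le hs (by linarith) hv0 huv).trans ?_
    apply mul_le_mul_of_nonneg_right _ (sub_nonneg.2 huv)
    have h2 : v ^ (1 - θ - 1) ≤ c ^ (1 - θ - 1) :=
      Real.rpow_le_rpow_of_nonpos hc hv (by linarith)
    have h3 : c ^ (1 - θ - 1) ≤ c⁻¹ := by
      rw [← Real.rpow_neg_one]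
      exact Real.rpow_le_rpow_of_exponent_ge hc hc1 (by linarith)
    rw [mul_comm c⁻¹]
    exact mul_le_mul_of_nonneg_left (h2.trans h3) hs
  rcases le_total v u with h | h
  · exact key u v hv h
  · rw [abs_sub_comm, abs_sub_comm u v]
    exact key v u hu h

/-- Powers of numbers in `[c, c⁻¹]`. -/
theorem rpow_mem {θ c u : ℝ} (h0 : 0 ≤ θ) (h1 : θ ≤ 1) (hc : 0 < c) (hc1 : c ≤ 1) (hu : c ≤ u)
    (hu' : u ≤ c⁻¹) : c ≤ u ^ θ ∧ u ^ θ ≤ c⁻¹ := by
  constructor
  · calc c = c ^ (1 : ℝ) := (Real.rpow_one c).symm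
      _ ≤ c ^ θ := Real.rpow_le_rpow_of_exponent_ge hc hc1 h1
      _ ≤ u ^ θ := Real.rpow_le_rpow hc.le hu h0
  · have hci : (1 : ℝ) ≤ c⁻¹ := (one_le_inv₀ hc).2 hc1
    calc u ^ θ ≤ c⁻¹ ^ θ := Real.rpow_le_rpow (hc.le.trans hu) hu' h0
      _ ≤ c⁻¹ ^ (1 : ℝ) := Real.rpow_le_rpow_of_exponent_le hci h1
      _ = c⁻¹ := Real.rpow_one _

theorem rpow_near {θ c u : ℝ} (h0 : 0 < θ) (h1 : θ ≤ 1) (hc : 0 < c) (hc1 : c ≤ 1) (hu : c ≤ u)
    (hu' : u ≤ c⁻¹) : |u ^ θ - u| ≤ c⁻¹ ^ 3 * (1 - θ) := by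
  have hu0 : 0 < u := lt_of_lt_of_le hc hu
  have hci : (1 : ℝ) ≤ c⁻¹ := (one_le_inv₀ hc).2 hc1
  have h2 : |u ^ (1 - θ) - 1 ^ (1 - θ)| ≤ c⁻¹ * (1 - θ) * |u - 1| :=
    rpow_lip' h0 h1 hc hc1 hu hc1
  rw [Real.one_rpow] at h2
  have h3 : |u - 1| ≤ c⁻¹ := by
    rw [abs_le]; constructor <;> linarith only [hc, hu, hci, hu']
  have e : u ^ θ - u = - (u ^ θ * (u ^ (1 - θ) - 1)) := by
    have : u ^ θ * u ^ (1 - θ) = u := by
      rw [← Real.rpow_add hu0]
      simp
    rw [mul_sub, this]; ring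
  have h4 := (rpow_mem h0.le h1 hc hc1 hu hu').2
  have h5 : 0 < u ^ θ := Real.rpow_pos_of_pos hu0 _
  rw [e, abs_neg, abs_mul, abs_of_pos h5]
  calc u ^ θ * |u ^ (1 - θ) - 1| ≤ c⁻¹ * (c⁻¹ * (1 - θ) * c⁻¹) := by
        apply mul_le_mul h4 _ (abs_nonneg _) (by positivity)
        refine h2.trans ?_
        apply mul_le_mul_of_nonneg_left h3
        apply mul_nonneg (by positivity) (by linarith only [h1])
    _ = c⁻¹ ^ 3 * (1 - θ) := by ring

theorem log_lip {c u v : ℝ} (hc : 0 < c) (hu : c ≤ u) (hv : c ≤ v) :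
    |Real.log u - Real.log v| ≤ c⁻¹ * |u - v| := by
  have key : ∀ u v : ℝ, c ≤ v → v ≤ u → |Real.log u - Real.log v| ≤ c⁻¹ * |u - v| := by
    intro u v hv huv
    have hv0 : 0 < v := lt_of_lt_of_le hc hv
    have hu0 : 0 < u := lt_of_lt_of_le hv0 huv
    rw [abs_of_nonneg (sub_nonneg.2 (Real.log_le_log hv0 huv)), abs_of_nonneg (sub_nonneg.2 huv),
      ← Real.log_div hu0.ne' hv0.ne']
    refine (Real.log_le_sub_one_of_pos (div_pos hu0 hv0)).trans ?_
    have e : u / v - 1 = v⁻¹ * (u - v) := by field_simp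
    rw [e]
    apply mul_le_mul_of_nonneg_right _ (sub_nonneg.2 huv)
    exact inv_anti₀ hc hv
  rcases le_total v u with h | h
  · exact key u v hv h
  · rw [abs_sub_comm, abs_sub_comm u v]
    exact key v u hu h

theorem exp_upper (y : ℝ) : Real.exp y ≤ 1 + y + y ^ 2 * Real.exp |y| := by
  rcases le_total 0 y with h | h
  · rw [abs_of_nonneg h]
    have h1 : 1 - y ≤ Real.exp (-y) := by
      have := Real.add_one_le_exp (-y); linarith
    have h2 : (1 - y) * Real.exp y ≤ 1 := by
      calc (1 - y) * Real.exp y ≤ Real.exp (-y) * Real.exp y :=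
            mul_le_mul_of_nonneg_right h1 (Real.exp_pos y).le
        _ = 1 := by rw [← Real.exp_add]; simp
    nlinarith only [h2, h]
  · have h1 : 1 - y ≤ Real.exp (-y) := by
      have := Real.add_one_le_exp (-y); linarith
    have h2 : (1 - y) * Real.exp y ≤ 1 := by
      calc (1 - y) * Real.exp y ≤ Real.exp (-y) * Real.exp y :=
            mul_le_mul_of_nonneg_right h1 (Real.exp_pos y).le
        _ = 1 := by rw [← Real.exp_add]; simp
    have h3 : y + 1 ≤ Real.exp y := Real.add_one_le_exp y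
    have h4 : 1 ≤ Real.exp |y| := Real.one_le_exp (abs_nonneg y)
    nlinarith only [h2, h4, h, h3]

namespace PE

variable {α : Type} (P : PE α)

/-- Jensen gap for `x ^ θ` on `[c, c⁻¹]`. -/
theorem jensen_rpow {θ c : ℝ} (h0 : 0 < θ) (h1 : θ ≤ 1) (hc : 0 < c) (hc1 : c ≤ 1) {f : α → ℝ}
    (hf : ∀ x, c ≤ f x) (hf' : ∀ x, f x ≤ c⁻¹) :
    |(P.E fun x => f x ^ θ) - (P.E f) ^ θ| ≤ c⁻¹ ^ 2 * (1 - θ) * P.var f := by
  set μ := P.E f with hμ
  have hμc : c ≤ μ := P.const_le hf
  have hμc' : μ ≤ c⁻¹ := P.le_const hf'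
  have hμ0 : 0 < μ := lt_of_lt_of_le hc hμc
  have hμθ : 0 < μ ^ θ := Real.rpow_pos_of_pos hμ0 _
  have hpow : ∀ x, f x ^ θ = μ ^ θ * (f x / μ) ^ θ := by
    intro x
    rw [← Real.mul_rpow hμ0.le (div_nonneg (hc.le.trans (hf x)) hμ0.le)]
    congr 1
    field_simp
  have hup : (P.E fun x => f x ^ θ) ≤ μ ^ θ := by
    have h : ∀ x, f x ^ θ ≤ μ ^ θ * (1 - θ) + (μ ^ θ * θ / μ) * f x := by
      intro x
      rw [hpow x]
      have := rpow_upper h0.le h1 (div_pos (lt_of_lt_of_le hc (hf x)) hμ0)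
      have h2 := mul_le_mul_of_nonneg_left this hμθ.le
      refine h2.trans (le_of_eq ?_)
      field_simp
      ring
    refine (P.mono h).trans ?_
    rw [P.add, P.const, P.smul, ← hμ]
    apply le_of_eq
    field_simp
    ring
  have hlo : μ ^ θ - (1 - θ) * (μ ^ θ / μ ^ 2) * P.var f ≤ P.E fun x => f x ^ θ := by
    have h : ∀ x, (μ ^ θ * (1 - θ) + (μ ^ θ * θ / μ) * f x) -
        ((1 - θ) * (μ ^ θ / μ ^ 2)) * (f x - μ) ^ 2 ≤ f x ^ θ := by
      intro x
      rw [hpow x]
      have := rpow_lower h1 (div_pos (lt_of_lt_of_le hc (hf x)) hμ0)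
      have h2 := mul_le_mul_of_nonneg_left this hμθ.le
      refine (le_of_eq ?_).trans h2
      field_simp
      ring
    refine le_trans ?_ (P.mono h)
    rw [P.sub, P.add, P.const, P.smul, P.smul, P.var_eq, ← hμ]
    apply le_of_eq
    field_simp
    ring
  have hvar := P.var_nonneg f
  have hcoef : μ ^ θ / μ ^ 2 ≤ c⁻¹ ^ 2 := by
    have e : μ ^ θ / μ ^ 2 = μ ^ (θ - 2) := by
      rw [Real.rpow_sub hμ0]
      norm_num
    rw [e]
    calc μ ^ (θ - 2) ≤ c ^ (θ - 2) := Real.rpow_le_rpow_of_nonpos hc hμc (by linarith only [h1])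
      _ ≤ c ^ (-2 : ℝ) := Real.rpow_le_rpow_of_exponent_ge hc hc1 (by linarith only [h0])
      _ = c⁻¹ ^ 2 := by
        rw [Real.rpow_neg hc.le, inv_pow]
        norm_num
  rw [_root_.abs_le]
  constructor
  · have h3 : (1 - θ) * (μ ^ θ / μ ^ 2) * P.var f ≤ c⁻¹ ^ 2 * (1 - θ) * P.var f := by
      apply mul_le_mul_of_nonneg_right _ hvar
      rw [mul_comm]
      exact mul_le_mul_of_nonneg_right hcoef (by linarith only [h1])
    linarith only [hlo, h3]
  · have h4 : 0 ≤ c⁻¹ ^ 2 * (1 - θ) * P.var f :=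
      mul_nonneg (mul_nonneg (by positivity) (by linarith only [h1])) hvar
    linarith only [hup, h4]

/-- Small powers: `(1/m) log E e^{m f}` is close to `E f`. -/
theorem log_exp_near {m M : ℝ} (hm : 0 < m) (hm1 : m ≤ 1) (hM : 0 ≤ M) {f : α → ℝ}
    (hf : ∀ x, |f x| ≤ M) :
    |(1 / m) * Real.log (P.E fun x => Real.exp (m * f x)) - P.E f| ≤ m * M ^ 2 * Real.exp M := by
  set μ := P.E f with hμ
  have hpos : 0 ≤ m * M ^ 2 * Real.exp M := by positivity
  -- lower bound
  have hlo : Real.exp (m * μ) ≤ P.E fun x => Real.exp (m * f x) := by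
    have h : ∀ x, Real.exp (m * μ) * (1 - m * μ) + (Real.exp (m * μ) * m) * f x ≤
        Real.exp (m * f x) := by
      intro x
      have h1 : m * f x - m * μ + 1 ≤ Real.exp (m * f x - m * μ) := Real.add_one_le_exp _
      have h2 : Real.exp (m * f x) = Real.exp (m * μ) * Real.exp (m * f x - m * μ) := by
        rw [← Real.exp_add]; congr 1; ring
      rw [h2]
      have h3 := mul_le_mul_of_nonneg_left h1 (Real.exp_pos (m * μ)).le
      refine (le_of_eq ?_).trans h3
      ring
    refine le_trans ?_ (P.mono h)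
    rw [P.add, P.const, P.smul, ← hμ]
    apply le_of_eq
    ring
  have hE0 : 0 < P.E fun x => Real.exp (m * f x) := lt_of_lt_of_le (Real.exp_pos _) hlo
  have hup : (P.E fun x => Real.exp (m * f x)) ≤ 1 + m * μ + m ^ 2 * M ^ 2 * Real.exp M := by
    have h : ∀ x, Real.exp (m * f x) ≤ (1 + m ^ 2 * M ^ 2 * Real.exp M) + m * f x := by
      intro x
      have h1 := exp_upper (m * f x)
      have h2 : |m * f x| ≤ M := by
        rw [abs_mul, abs_of_pos hm]
        calc m * |f x| ≤ 1 * |f x| := mul_le_mul_of_nonneg_right hm1 (abs_nonneg _)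
          _ ≤ M := by rw [one_mul]; exact hf x
      have h3 : (m * f x) ^ 2 ≤ m ^ 2 * M ^ 2 := by
        rw [mul_pow]
        apply mul_le_mul_of_nonneg_left _ (sq_nonneg m)
        exact sq_le_sq' (by linarith [(_root_.abs_le.1 (hf x)).1]) (_root_.abs_le.1 (hf x)).2
      have h4 : (m * f x) ^ 2 * Real.exp |m * f x| ≤ m ^ 2 * M ^ 2 * Real.exp M :=
        mul_le_mul h3 (Real.exp_le_exp.2 h2) (Real.exp_pos _).le (by positivity)
      linarith
    refine (P.mono h).trans (le_of_eq ?_)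
    rw [P.add, P.const, P.smul, ← hμ]
    ring
  rw [_root_.abs_le]
  constructor
  · have h1 : m * μ ≤ Real.log (P.E fun x => Real.exp (m * f x)) := by
      rw [Real.le_log_iff_exp_le hE0]; exact hlo
    have h2 : μ ≤ (1 / m) * Real.log (P.E fun x => Real.exp (m * f x)) := by
      rw [one_div, ← div_eq_inv_mul, le_div_iff₀ hm]; linarith
    linarith
  · have h1 : Real.log (P.E fun x => Real.exp (m * f x)) ≤
        m * μ + m ^ 2 * M ^ 2 * Real.exp M := by
      have := Real.log_le_sub_one_of_pos hE0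
      linarith
    have h2 : (1 / m) * Real.log (P.E fun x => Real.exp (m * f x)) ≤
        μ + m * M ^ 2 * Real.exp M := by
      rw [one_div, ← div_eq_inv_mul, div_le_iff₀ hm]
      nlinarith only [h1]
    linarith

end PE

end Vale.Agent.P168.MP
end
end

section

section

set_option autoImplicit false

open Finset

namespace Vale.Agent.P168.MP

/-! ### Real lemmas on powers -/

namespace PE

variable {α : Type} (P : PE α)

theorem cov_comm (f g : α → ℝ) : P.cov f g = P.cov g f := by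
  unfold cov
  rw [mul_comm (P.E f)]
  congr 2
  funext x
  ring

theorem cov_add_right (f g h : α → ℝ) :
    P.cov f (fun x => g x + h x) = P.cov f g + P.cov f h := by
  unfold cov
  rw [P.add]
  have : (fun x => f x * (g x + h x)) = fun x => f x * g x + f x * h x := by
    funext x; ring
  rw [this, P.add]
  ring

theorem cov_smul_right (c : ℝ) (f g : α → ℝ) :
    P.cov f (fun x => c * g x) = c * P.cov f g := by
  unfold cov
  rw [P.smul]
  have : (fun x => f x * (c * g x)) = fun x => c * (f x * g x) := by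
    funext x; ring
  rw [this, P.smul]
  ring

theorem sd_sq (f : α → ℝ) : P.sd f ^ 2 = P.var f := by
  unfold sd
  exact Real.sq_sqrt (P.var_nonneg f)

end PE

/-! ### Averages over the classes of a finite set -/

section cavg

variable {S Z : Type} [Fintype S] [DecidableEq Z]

/-- Average of `f` over the class `{s' | cell s' = cell s}` of `s`. -/
noncomputable def cavg (cell : S → Z) (f : S → ℝ) (s : S) : ℝ :=
  (∑ s' with cell s' = cell s, f s') / (#{s' | cell s' = cell s} : ℝ)

variable [Nonempty S]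

end cavg

/-! ### Claim C -/

section ClaimC

variable {α : Type} (P : PE α) {S Z : Type} [Fintype S] [Fintype Z] [DecidableEq Z]

variable [Nonempty S]

end ClaimC

end Vale.Agent.P168.MP
end
end

section

section

set_option autoImplicit false

open MeasureTheory ProbabilityTheory Filter
open scoped NNReal Topology

namespace Vale.Agent.P168.MP

/-- From the two bounds to the limit. -/
theorem limit_of_bounds {K : ℕ} {lam : ℝ≥0} {ρ : Measure (Clause K)} {ν : Measure ℝ}
    (hl : mezardParisi lam ρ ν ≤ liminf (fun N => ((pressure lam ρ ν N : ℝ) : EReal)) atTop)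
    (hu : ∀ N : ℕ, 1 ≤ N → ∀ (r : ℕ) (m : Fin r → ℝ) (x : (Fin (r + 1) → U01) → ℝ),
      IsTrial r m x → pressure lam ρ ν N ≤ trialU lam ρ ν r m x - trialV lam ρ r m x) :
    ∃ L : ℝ, Tendsto (fun N => pressure lam ρ ν N) atTop (𝓝 L) ∧ mezardParisi lam ρ ν = L := by
  have hup : ∀ N : ℕ, 1 ≤ N → ((pressure lam ρ ν N : ℝ) : EReal) ≤ mezardParisi lam ρ ν := by
    intro N hN
    unfold mezardParisi phi
    refine le_iInf fun r => le_iInf fun m => le_iInf fun x => le_iInf fun hx => ?_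
    exact EReal.coe_le_coe_iff.2 (hu N hN r m x hx)
  have hlim : Tendsto (fun N => ((pressure lam ρ ν N : ℝ) : EReal)) atTop
      (𝓝 (mezardParisi lam ρ ν)) := by
    refine tendsto_of_le_liminf_of_limsup_le hl ?_
    refine (limsup_le_limsup (v := fun _ => mezardParisi lam ρ ν) ?_).trans ?_
    · filter_upwards [eventually_ge_atTop 1] with N hN using hup N hN
    · rw [limsup_const]
  have hbot : mezardParisi lam ρ ν ≠ ⊥ := by
    intro h
    have := hup 1 le_rfl
    rw [h, le_bot_iff] at this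
    exact EReal.coe_ne_bot _ this
  have htop : mezardParisi lam ρ ν ≠ ⊤ := by
    intro h
    have h0 : IsTrial 0 (Fin.elim0 : Fin 0 → ℝ) (fun _ => 0) :=
      ⟨fun i => i.elim0, fun i => i.elim0, measurable_const, fun _ => by constructor <;> norm_num⟩
    have h1 : mezardParisi lam ρ ν ≤
        ((trialU lam ρ ν 0 Fin.elim0 (fun _ => 0) - trialV lam ρ 0 Fin.elim0 (fun _ => 0) : ℝ) :
          EReal) := by
      unfold mezardParisi phi
      exact (iInf_le _ 0).trans ((iInf_le _ Fin.elim0).trans ((iInf_le _ fun _ => 0).trans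
        (iInf_le _ h0)))
    rw [h, top_le_iff] at h1
    exact EReal.coe_ne_top _ h1
  refine ⟨(mezardParisi lam ρ ν).toReal, ?_, (EReal.coe_toReal htop hbot).symm⟩
  rw [← EReal.tendsto_coe, EReal.coe_toReal htop hbot]
  exact hlim

end Vale.Agent.P168.MP
end
end

section

section

/-!
Definitions for the upper bound: factors, spaces, the interpolating free energy `TT`.
-/

set_option autoImplicit false

open MeasureTheory ProbabilityTheory Filter
open scoped NNReal Topology

namespace Vale.Agent.P168.PT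

/-- Law of a clause, its sites and the level-`0` variables of its messages. -/
noncomputable def cl3 {K : ℕ} (ρ : Measure (Clause K)) (N : ℕ) :
    Measure ((Clause K × (Fin K → Fin N)) × (Fin K → U01)) :=
  (ρ.prod (Measure.pi fun _ : Fin K => unif N)).prod (Measure.pi fun _ : Fin K => volume)

/-- Messages of one clause. -/
def msgs {K r : ℕ} (x : (Fin (r + 1) → U01) → ℝ) (w : Fin K → U01) (v : Fin r → Fin K → U01)
    (j : Fin K) : ℝ := x (Fin.cons (w j) fun p => v p j)

/-- Interaction factor. -/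
noncomputable def intF {K N : ℕ} (y : (Clause K × (Fin K → Fin N)) × (Fin K → U01))
    (σ : Fin N → Bool) : ℝ := Real.exp (theta y.1.1 fun j => σ (y.1.2 j))

/-- Cavity factor. -/
noncomputable def cavF {K N r : ℕ} (x : (Fin (r + 1) → U01) → ℝ)
    (y : (Clause K × (Fin K → Fin N)) × (Fin K → U01)) (l : Fin K) (v : Fin r → Fin K → U01)
    (σ : Fin N → Bool) : ℝ := cavityFactor y.1.1 l (msgs x y.2 v) (σ (y.1.2 l))

/-- Edge factor. -/
noncomputable def edgF {K N r : ℕ} (x : (Fin (r + 1) → U01) → ℝ)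
    (y : (Clause K × (Fin K → Fin N)) × (Fin K → U01)) (v : Fin r → Fin K → U01) : ℝ :=
  edgeFactor y.1.1 (msgs x y.2 v)

variable {K N r : ℕ}

/-- level variables of one clause. -/
abbrev Lv (K : ℕ) : Type := Fin K → U01

/-- law of the level variables of one clause. -/
noncomputable abbrev lvM (K : ℕ) : Measure (Lv K) := Measure.pi fun _ : Fin K => (volume : Measure U01)

/-- clause, sites, level-`0` variables. -/
abbrev Y3 (K N : ℕ) : Type := (Clause K × (Fin K → Fin N)) × (Fin K → U01)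

/-- clause, distinguished index, level-`0` variables, site. -/
abbrev C4 (K N : ℕ) : Type := ((Clause K × Fin K) × (Fin K → U01)) × Fin N

/-- the law on `C4`. -/
noncomputable def c4 (ρ : Measure (Clause K)) (N : ℕ) : Measure (C4 K N) :=
  ((ρ.prod (unif K)).prod (lvM K)).prod (unif N)

/-- outer randomness of the interpolating system. -/
abbrev Om (K N a n : ℕ) : Type := (Fin a → Y3 K N) × ((Fin n → C4 K N) × (Fin N → ℝ))

/-- law of the outer randomness. -/
noncomputable def om (ρ : Measure (Clause K)) (ν : Measure ℝ) (N a n : ℕ) :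
    Measure (Om K N a n) :=
  (Measure.pi fun _ : Fin a => cl3 ρ N).prod
    ((Measure.pi fun _ : Fin n => c4 ρ N).prod (Measure.pi fun _ : Fin N => ν))

/-- cavity factor of an element of `C4`. -/
noncomputable def cavC (x : (Fin (r + 1) → U01) → ℝ) (q : C4 K N) (v : Fin r → Lv K)
    (σ : Fin N → Bool) : ℝ :=
  cavityFactor q.1.1.1 q.1.1.2 (msgs x q.1.2 v) (σ q.2)

/-- the weight of a configuration. -/
noncomputable def wt {a n : ℕ} (x : (Fin (r + 1) → U01) → ℝ) (ω : Om K N a n)
    (v : Fin r → Fin n → Lv K) (σ : Fin N → Bool) : ℝ :=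
  (∏ k, intF (ω.1 k) σ) * (Real.exp (∑ s, ω.2.2 s * spin (σ s)) *
    ∏ k, cavC x (ω.2.1 k) (fun p => v p k) σ)

/-- the logarithm of the nested partition function. -/
noncomputable def FF {a n : ℕ} (m : Fin r → ℝ) (x : (Fin (r + 1) → U01) → ℝ)
    (ω : Om K N a n) : ℝ :=
  Real.log (nest (Measure.pi fun _ : Fin n => lvM K) r m fun v => ∑ σ, wt x ω v σ)

/-- the interpolating free energy: `a` interactions, `n` cavity clauses. -/
noncomputable def TT (ρ : Measure (Clause K)) (ν : Measure ℝ) (m : Fin r → ℝ)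
    (x : (Fin (r + 1) → U01) → ℝ) (N a n : ℕ) : ℝ :=
  ∫ ω, FF m x ω ∂(om ρ ν N a n)

/-- the edge term. -/
noncomputable def tV (ρ : Measure (Clause K)) (m : Fin r → ℝ) (x : (Fin (r + 1) → U01) → ℝ)
    (N : ℕ) : ℝ :=
  ∫ y, Real.log (nest (lvM K) r m fun v => edgF x y v) ∂(cl3 ρ N)

end Vale.Agent.P168.PT
end
end

section

section

/-!
The interpolating system: spaces, measures and measure preserving maps.
-/

set_option autoImplicit false

open MeasureTheory ProbabilityTheory
open scoped NNReal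

namespace Vale.Agent.P168.PT

section Cons

theorem cons_mp {C : Type} [MeasurableSpace C] (μ : Measure C) [SigmaFinite μ] (n : ℕ) :
    MeasurePreserving (fun p : C × (Fin n → C) => (Fin.cons p.1 p.2 : Fin (n + 1) → C))
      (μ.prod (Measure.pi fun _ => μ)) (Measure.pi fun _ => μ) := by
  have h1 := (measurePreserving_piFinSuccAbove (fun _ : Fin (n + 1) => μ) 0).symm
  have e : (⇑(MeasurableEquiv.piFinSuccAbove (fun _ : Fin (n + 1) => C) 0).symm) =
      fun p : C × (Fin n → C) => (Fin.cons p.1 p.2 : Fin (n + 1) → C) := by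
    funext p
    simp only [MeasurableEquiv.piFinSuccAbove_symm_apply]
    rw [Fin.insertNthEquiv_zero]
    rfl
  rw [e] at h1
  exact h1

theorem cons_mp' {C : Type} [MeasurableSpace C] (μ : Measure C) [SigmaFinite μ] (n : ℕ) :
    MeasurePreserving (fun p : (Fin n → C) × C => (Fin.cons p.2 p.1 : Fin (n + 1) → C))
      ((Measure.pi fun _ => μ).prod μ) (Measure.pi fun _ => μ) :=
  (cons_mp μ n).comp Measure.measurePreserving_swap

end Cons

variable {K N r : ℕ}

section Inst

variable {ρ : Measure (Clause K)} {ν : Measure ℝ} [IsProbabilityMeasure ρ]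
  [IsProbabilityMeasure ν] [NeZero N] [NeZero K]

instance unif_prob (n : ℕ) [NeZero n] : IsProbabilityMeasure (unif n) := by
  unfold unif
  infer_instance

instance cl3_prob : IsProbabilityMeasure (cl3 ρ N) := by
  unfold cl3; infer_instance

instance c4_prob : IsProbabilityMeasure (c4 ρ N) := by
  unfold c4; infer_instance

instance om_prob (a n : ℕ) : IsProbabilityMeasure (om ρ ν N a n) := by
  unfold om; infer_instance

end Inst

/-- insert an interaction. -/
def insA {a n : ℕ} (q : Om K N a n × Y3 K N) : Om K N (a + 1) n :=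
  (Fin.cons q.2 q.1.1, q.1.2)

/-- insert a cavity clause. -/
def insC {a n : ℕ} (q : Om K N a n × C4 K N) : Om K N a (n + 1) :=
  (q.1.1, (Fin.cons q.2 q.1.2.1, q.1.2.2))

variable (ρ : Measure (Clause K)) (ν : Measure ℝ) [IsProbabilityMeasure ρ]
  [IsProbabilityMeasure ν] [NeZero N] [NeZero K]

theorem insA_mp (a n : ℕ) :
    MeasurePreserving (insA (K := K) (N := N) (a := a) (n := n)) ((om ρ ν N a n).prod (cl3 ρ N))
      (om ρ ν N (a + 1) n) := by
  have h1 : MeasurePreserving (Prod.swap : Om K N a n × Y3 K N → Y3 K N × Om K N a n)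
      ((om ρ ν N a n).prod (cl3 ρ N)) ((cl3 ρ N).prod (om ρ ν N a n)) :=
    Measure.measurePreserving_swap
  have h2 := (measurePreserving_prodAssoc (cl3 ρ N) (Measure.pi fun _ : Fin a => cl3 ρ N)
    ((Measure.pi fun _ : Fin n => c4 ρ N).prod (Measure.pi fun _ : Fin N => ν))).symm
  have h3 := (cons_mp (cl3 ρ N) a).prod (MeasurePreserving.id
    ((Measure.pi fun _ : Fin n => c4 ρ N).prod (Measure.pi fun _ : Fin N => ν)))
  exact h3.comp (h2.comp h1)

theorem insC_mp (a n : ℕ) :
    MeasurePreserving (insC (K := K) (N := N) (a := a) (n := n)) ((om ρ ν N a n).prod (c4 ρ N))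
      (om ρ ν N a (n + 1)) := by
  have h1 := measurePreserving_prodAssoc (Measure.pi fun _ : Fin a => cl3 ρ N)
    ((Measure.pi fun _ : Fin n => c4 ρ N).prod (Measure.pi fun _ : Fin N => ν)) (c4 ρ N)
  have h2 := (MeasurePreserving.id (Measure.pi fun _ : Fin a => cl3 ρ N)).prod
    (Measure.measurePreserving_swap (μ := (Measure.pi fun _ : Fin n => c4 ρ N).prod
      (Measure.pi fun _ : Fin N => ν)) (ν := c4 ρ N))
  have h3 := (MeasurePreserving.id (Measure.pi fun _ : Fin a => cl3 ρ N)).prod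
    (measurePreserving_prodAssoc (c4 ρ N) (Measure.pi fun _ : Fin n => c4 ρ N)
      (Measure.pi fun _ : Fin N => ν)).symm
  have h4 := (MeasurePreserving.id (Measure.pi fun _ : Fin a => cl3 ρ N)).prod
    ((cons_mp (c4 ρ N) n).prod (MeasurePreserving.id (Measure.pi fun _ : Fin N => ν)))
  exact h4.comp (h3.comp (h2.comp h1))

/-- from a clause with sites to the distinguished site. -/
def toC4 (q : Y3 K N × Fin K) : C4 K N := (((q.1.1.1, q.2), q.1.2), q.1.1.2 q.2)

theorem toC4_mp : MeasurePreserving (toC4 (K := K) (N := N)) ((cl3 ρ N).prod (unif K))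
    (c4 ρ N) := by
  set μI : Measure (Fin K → Fin N) := Measure.pi fun _ : Fin K => unif N with hμI
  set μw : Measure (Fin K → U01) := Measure.pi fun _ : Fin K => volume with hμw
  have h1 := measurePreserving_prodAssoc (ρ.prod μI) μw (unif K)
  have h2 := measurePreserving_prodAssoc ρ μI (μw.prod (unif K))
  have h3 := (MeasurePreserving.id ρ).prod
    (Measure.measurePreserving_swap (μ := μI) (ν := μw.prod (unif K)))
  have h4 := (measurePreserving_prodAssoc ρ (μw.prod (unif K)) μI).symm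
  have h5 := ((MeasurePreserving.id ρ).prod
    (Measure.measurePreserving_swap (μ := μw) (ν := unif K))).prod (MeasurePreserving.id μI)
  have h6 := ((measurePreserving_prodAssoc ρ (unif K) μw).symm).prod (MeasurePreserving.id μI)
  have h7 : MeasurePreserving (fun p : ((Clause K × Fin K) × (Fin K → U01)) × (Fin K → Fin N) =>
      ((p.1, p.2 p.1.1.2) : C4 K N)) (((ρ.prod (unif K)).prod μw).prod μI) (c4 ρ N) := by
    refine MeasurePreserving.skew_product (f := id)
      (g := fun (p : (Clause K × Fin K) × (Fin K → U01)) (I : Fin K → Fin N) => I p.1.2)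
      (MeasurePreserving.id _) ?_ ?_
    · have h8 : Measurable fun q : (Fin K → Fin N) × Fin K => q.1 q.2 := measurable_of_countable _
      exact h8.comp (measurable_snd.prodMk (measurable_snd.comp (measurable_fst.comp
        measurable_fst)))
    · refine Filter.Eventually.of_forall fun p => ?_
      exact (measurePreserving_eval (fun _ : Fin K => unif N) p.1.2).map_eq
  exact h7.comp (h6.comp (h5.comp (h4.comp (h3.comp (h2.comp h1)))))

end Vale.Agent.P168.PT
end
end

section

section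

set_option autoImplicit false

open MeasureTheory ProbabilityTheory
open scoped NNReal Nat

namespace Vale.Agent.P168

/-- The Poisson weight. -/
noncomputable def pw (a : ℝ≥0) (n : ℕ) : ℝ := Real.exp (-a) * (a : ℝ) ^ n / (n ! : ℝ)

theorem pw_nonneg (a : ℝ≥0) (n : ℕ) : 0 ≤ pw a n := by unfold pw; positivity

theorem pois_integral (a : ℝ≥0) (f : ℕ → ℝ) :
    ∫ n, f n ∂(poissonMeasure a) = ∑' n, pw a n * f n := by
  rw [integral_poissonMeasure]; rfl

theorem pw_summable_pow (a : ℝ≥0) (A : ℝ) : Summable fun n => pw a n * A ^ n := by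
  have h := Real.summable_pow_div_factorial ((a : ℝ) * A)
  have h2 := h.mul_left (Real.exp (-a))
  refine h2.congr fun n => ?_
  unfold pw
  rw [mul_pow]; ring

/-- Exponential growth. -/
def ExpGrowth (f : ℕ → ℝ) : Prop := ∃ C A : ℝ, 0 ≤ C ∧ 1 ≤ A ∧ ∀ n, |f n| ≤ C * A ^ n

/-- Exponential growth in two variables. -/
def ExpGrowth2 (f : ℕ → ℕ → ℝ) : Prop :=
  ∃ C A : ℝ, 0 ≤ C ∧ 1 ≤ A ∧ ∀ k l, |f k l| ≤ C * (A ^ k * A ^ l)

theorem ExpGrowth.summable {f : ℕ → ℝ} (hf : ExpGrowth f) (a : ℝ≥0) :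
    Summable fun n => pw a n * f n := by
  obtain ⟨C, A, hC, hA, h⟩ := hf
  refine Summable.of_norm_bounded ((pw_summable_pow a A).mul_left C) fun n => ?_
  rw [Real.norm_eq_abs, abs_mul, abs_of_nonneg (pw_nonneg a n)]
  calc pw a n * |f n| ≤ pw a n * (C * A ^ n) := mul_le_mul_of_nonneg_left (h n) (pw_nonneg a n)
    _ = C * (pw a n * A ^ n) := by ring

theorem ExpGrowth.integrable {f : ℕ → ℝ} (hf : ExpGrowth f) (a : ℝ≥0) :
    Integrable f (poissonMeasure a) := by
  rw [integrable_poissonMeasure_iff]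
  have hf' : ExpGrowth fun n => ‖f n‖ := by
    obtain ⟨C, A, hC, hA, h⟩ := hf
    exact ⟨C, A, hC, hA, fun n => by simpa only [Real.norm_eq_abs, abs_abs] using h n⟩
  exact hf'.summable a

theorem ExpGrowth.add {f g : ℕ → ℝ} (hf : ExpGrowth f) (hg : ExpGrowth g) :
    ExpGrowth fun n => f n + g n := by
  obtain ⟨C, A, hC, hA, h⟩ := hf
  obtain ⟨C', A', hC', hA', h'⟩ := hg
  refine ⟨C + C', A * A', by positivity, by nlinarith only [hA, hA'], fun n => ?_⟩
  have h1 : A ^ n ≤ (A * A') ^ n := by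
    apply pow_le_pow_left₀ (by linarith); nlinarith only [hA', hA]
  have h2 : A' ^ n ≤ (A * A') ^ n := by
    apply pow_le_pow_left₀ (by linarith); nlinarith only [hA, hA']
  calc |f n + g n| ≤ |f n| + |g n| := abs_add_le _ _
    _ ≤ C * A ^ n + C' * A' ^ n := add_le_add (h n) (h' n)
    _ ≤ C * (A * A') ^ n + C' * (A * A') ^ n :=
        add_le_add (mul_le_mul_of_nonneg_left h1 hC) (mul_le_mul_of_nonneg_left h2 hC')
    _ = _ := by ring

theorem ExpGrowth.const_mul {f : ℕ → ℝ} (hf : ExpGrowth f) (c : ℝ) :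
    ExpGrowth fun n => c * f n := by
  obtain ⟨C, A, hC, hA, h⟩ := hf
  refine ⟨|c| * C, A, by positivity, hA, fun n => ?_⟩
  rw [abs_mul, mul_assoc]
  exact mul_le_mul_of_nonneg_left (h n) (abs_nonneg c)

theorem expGrowth_const (c : ℝ) : ExpGrowth fun _ => c :=
  ⟨|c|, 1, abs_nonneg c, le_refl 1, fun n => by simp⟩

theorem nat_le_two_pow_real (n : ℕ) : (n : ℝ) ≤ 2 ^ n := by
  have : n < 2 ^ n := Nat.lt_two_pow_self
  exact_mod_cast this.le

theorem expGrowth_of_linear {f : ℕ → ℝ} {c d : ℝ} (hf : ∀ n, |f n| ≤ c + d * n) (hc : 0 ≤ c)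
    (hd : 0 ≤ d) : ExpGrowth f := by
  refine ⟨c + d, 2, by positivity, by norm_num, fun n => ?_⟩
  have h1 : (1 : ℝ) ≤ 2 ^ n := one_le_pow₀ (by norm_num)
  have h2 := nat_le_two_pow_real n
  calc |f n| ≤ c + d * n := hf n
    _ ≤ c * 2 ^ n + d * 2 ^ n := by
        apply add_le_add
        · nlinarith only [hc, h1]
        · exact mul_le_mul_of_nonneg_left h2 hd
    _ = _ := by ring

theorem pois_mono {f g : ℕ → ℝ} (hf : ExpGrowth f) (hg : ExpGrowth g) (a : ℝ≥0)
    (h : ∀ n, f n ≤ g n) : ∫ n, f n ∂(poissonMeasure a) ≤ ∫ n, g n ∂(poissonMeasure a) :=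
  integral_mono (hf.integrable a) (hg.integrable a) h

theorem pois_const (a : ℝ≥0) (c : ℝ) : ∫ _, c ∂(poissonMeasure a) = c := by simp

/-- Factorial-type moments of the Poisson law. -/
theorem pois_descFactorial (a : ℝ≥0) (m : ℕ) (x : ℝ) :
    ∫ n, ((n.descFactorial m : ℝ) * x ^ (n - m)) ∂(poissonMeasure a) =
      (a : ℝ) ^ m * Real.exp (a * (x - 1)) := by
  rw [pois_integral]
  have hsum : HasSum (fun j : ℕ => (a : ℝ) ^ m * Real.exp (-a) * (((a : ℝ) * x) ^ j / (j ! : ℝ)))
      ((a : ℝ) ^ m * Real.exp (-a) * Real.exp (a * x)) := by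
    have h := (NormedSpace.expSeries_div_hasSum_exp ((a : ℝ) * x))
    rw [← Real.exp_eq_exp_ℝ] at h
    exact h.mul_left _
  have hinj : Function.Injective (fun j : ℕ => j + m) := add_left_injective m
  have hsum2 : HasSum (fun n : ℕ => pw a n * ((n.descFactorial m : ℝ) * x ^ (n - m)))
      ((a : ℝ) ^ m * Real.exp (-a) * Real.exp (a * x)) := by
    rw [← hinj.hasSum_iff]
    · refine hsum.congr_fun ?_ |> id
      intro j
      simp only [Function.comp]
      have hfac : ((j + m)! : ℝ) = (j ! : ℝ) * ((j + m).descFactorial m : ℝ) := by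
        have h1 := Nat.factorial_mul_descFactorial (Nat.le_add_left m j)
        rw [Nat.add_sub_cancel] at h1
        exact_mod_cast h1.symm
      have hj : (j ! : ℝ) ≠ 0 := by exact_mod_cast Nat.factorial_ne_zero j
      have hd : ((j + m).descFactorial m : ℝ) ≠ 0 := by
        have : 0 < (j + m).descFactorial m := Nat.descFactorial_pos.2 (Nat.le_add_left m j)
        exact_mod_cast this.ne'
      unfold pw
      rw [hfac, Nat.add_sub_cancel, pow_add, mul_pow]
      field_simp
    · intro n hn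
      have hlt : n < m := by
        by_contra h
        push Not at h
        exact hn ⟨n - m, by simp only; omega⟩
      rw [Nat.descFactorial_of_lt hlt]
      simp
  rw [hsum2.tsum_eq, mul_assoc, ← Real.exp_add]
  congr 2
  ring

theorem pois_mean (a : ℝ≥0) : ∫ n, (n : ℝ) ∂(poissonMeasure a) = a := by
  have h := pois_descFactorial a 1 1
  simpa only [Nat.descFactorial_succ, tsub_zero, Nat.descFactorial_zero, mul_one, one_pow, pow_one, sub_self,     mul_zero, Real.exp_zero] using h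

/-- Poisson thinning. -/
theorem pois_thinning {B : ℕ → ℕ → ℝ} (hB : ExpGrowth2 B) (a p q : ℝ≥0) (hpq : p + q = 1) :
    ∫ n, (∑ kl ∈ Finset.HasAntidiagonal.antidiagonal n,
        (n.choose kl.1 : ℝ) * (p : ℝ) ^ kl.1 * (q : ℝ) ^ kl.2 * B kl.1 kl.2) ∂(poissonMeasure a) =
      ∫ k, (∫ l, B k l ∂(poissonMeasure (q * a))) ∂(poissonMeasure (p * a)) := by
  obtain ⟨C, A, hC, hA, hb⟩ := hB
  rw [pois_integral, pois_integral]
  have hS : Summable fun kl : ℕ × ℕ => pw (p * a) kl.1 * (pw (q * a) kl.2 * B kl.1 kl.2) := by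
    have h1 := pw_summable_pow (p * a) A
    have h2 := pw_summable_pow (q * a) A
    have h3 : Summable fun kl : ℕ × ℕ => (pw (p * a) kl.1 * A ^ kl.1) * (pw (q * a) kl.2 * A ^ kl.2) :=
      h1.mul_of_nonneg h2 (fun n => mul_nonneg (pw_nonneg _ _) (by positivity))
        (fun n => mul_nonneg (pw_nonneg _ _) (by positivity))
    refine Summable.of_norm_bounded (h3.mul_left C) fun kl => ?_
    rw [Real.norm_eq_abs, abs_mul, abs_mul, abs_of_nonneg (pw_nonneg _ _),
      abs_of_nonneg (pw_nonneg _ _)]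
    calc pw (p * a) kl.1 * (pw (q * a) kl.2 * |B kl.1 kl.2|)
        ≤ pw (p * a) kl.1 * (pw (q * a) kl.2 * (C * (A ^ kl.1 * A ^ kl.2))) := by
          apply mul_le_mul_of_nonneg_left _ (pw_nonneg _ _)
          exact mul_le_mul_of_nonneg_left (hb _ _) (pw_nonneg _ _)
      _ = _ := by ring
  have hR : ∑' k, pw (p * a) k * ∫ l, B k l ∂(poissonMeasure (q * a)) =
      ∑' kl : ℕ × ℕ, pw (p * a) kl.1 * (pw (q * a) kl.2 * B kl.1 kl.2) := by
    rw [hS.tsum_prod]
    refine tsum_congr fun k => ?_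
    rw [pois_integral, ← tsum_mul_left]
  rw [hR, ← (Finset.HasAntidiagonal.sigmaAntidiagonalEquivProd (A := ℕ)).tsum_eq]
  have hS' : Summable fun x : (Σ n : ℕ, Finset.HasAntidiagonal.antidiagonal n) =>
      pw (p * a) ((Finset.HasAntidiagonal.sigmaAntidiagonalEquivProd (A := ℕ)) x).1 *
      (pw (q * a) ((Finset.HasAntidiagonal.sigmaAntidiagonalEquivProd (A := ℕ)) x).2 *
        B ((Finset.HasAntidiagonal.sigmaAntidiagonalEquivProd (A := ℕ)) x).1
          ((Finset.HasAntidiagonal.sigmaAntidiagonalEquivProd (A := ℕ)) x).2) :=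
    (Finset.HasAntidiagonal.sigmaAntidiagonalEquivProd (A := ℕ)).summable_iff.2 hS
  rw [hS'.tsum_sigma]
  refine tsum_congr fun n => ?_
  rw [tsum_fintype]
  have hcoe := Finset.sum_coe_sort (Finset.HasAntidiagonal.antidiagonal n) (fun kl : ℕ × ℕ =>
    pw (p * a) kl.1 * (pw (q * a) kl.2 * B kl.1 kl.2))
  refine Eq.trans ?_ hcoe.symm
  rw [Finset.mul_sum]
  refine Finset.sum_congr rfl fun kl hkl => ?_
  rw [Finset.HasAntidiagonal.mem_antidiagonal] at hkl
  have hp : (p : ℝ) + q = 1 := by exact_mod_cast hpq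
  have hexp : Real.exp (-((p * a : ℝ≥0) : ℝ)) * Real.exp (-((q * a : ℝ≥0) : ℝ)) =
      Real.exp (-(a : ℝ)) := by
    rw [← Real.exp_add]
    congr 1
    push_cast
    linear_combination (-(a : ℝ)) * hp
  have hch : (n.choose kl.1 : ℝ) * ((kl.1)! : ℝ) * ((kl.2)! : ℝ) = (n ! : ℝ) := by
    have h1 : kl.1 ≤ n := by omega
    have h2 : n - kl.1 = kl.2 := by omega
    have h3 := Nat.choose_mul_factorial_mul_factorial h1
    rw [h2] at h3
    exact_mod_cast h3
  have hk0 : ((kl.1)! : ℝ) ≠ 0 := by exact_mod_cast Nat.factorial_ne_zero _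
  have hl0 : ((kl.2)! : ℝ) ≠ 0 := by exact_mod_cast Nat.factorial_ne_zero _
  have hn0 : (n ! : ℝ) ≠ 0 := by exact_mod_cast Nat.factorial_ne_zero _
  have hn : n = kl.1 + kl.2 := hkl.symm
  unfold pw
  have : (n.choose kl.1 : ℝ) = (n ! : ℝ) / (((kl.1)! : ℝ) * ((kl.2)! : ℝ)) := by
    rw [← hch]; (clear * - hk0 hl0; field_simp)
  rw [this, ← hexp]
  push_cast
  rw [mul_pow, mul_pow]
  have hpow : (a : ℝ) ^ n = (a : ℝ) ^ kl.1 * (a : ℝ) ^ kl.2 := by rw [← pow_add, hkl]
  rw [hpow]
  (clear * - hn0 hl0 hk0; field_simp)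

/-- The binomial mixture of `V 0`. -/
noncomputable def bmix (p q : ℝ) (V0 : ℕ → ℕ → ℝ) (n k l : ℕ) : ℝ :=
  ∑ ij ∈ Finset.HasAntidiagonal.antidiagonal n,
    (n.choose ij.1 : ℝ) * (p ^ ij.1 * q ^ ij.2 * V0 (k + ij.1) (l + ij.2))

theorem bmix_succ (p q : ℝ) (V0 : ℕ → ℕ → ℝ) (n k l : ℕ) :
    bmix p q V0 (n + 1) k l = p * bmix p q V0 n (k + 1) l + q * bmix p q V0 n k (l + 1) := by
  unfold bmix
  have h := Finset.sum_antidiagonal_choose_succ_mul (R := ℝ)
    (fun i j => p ^ i * q ^ j * V0 (k + i) (l + j)) n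
  rw [h, Finset.mul_sum, Finset.mul_sum, add_comm]
  congr 1
  · refine Finset.sum_congr rfl fun ij hij => ?_
    rw [Finset.HasAntidiagonal.mem_antidiagonal] at hij
    have hc : n.choose ij.2 = n.choose ij.1 := by
      rw [← Nat.choose_symm (by omega : ij.1 ≤ n)]
      congr 1
      omega
    rw [hc, show k + (ij.1 + 1) = k + 1 + ij.1 by ring, pow_succ]
    ring
  · refine Finset.sum_congr rfl fun ij _ => ?_
    rw [show l + (ij.2 + 1) = l + 1 + ij.2 by ring, pow_succ]
    ring

theorem bmix_zero (p q : ℝ) (V0 : ℕ → ℕ → ℝ) (k l : ℕ) : bmix p q V0 0 k l = V0 k l := by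
  simp [bmix]

theorem binom_iter (V : ℕ → ℕ → ℕ → ℝ) (p q : ℝ)
    (hV : ∀ n k l, V (n + 1) k l = p * V n (k + 1) l + q * V n k (l + 1)) (n : ℕ) :
    ∀ k l, V n k l = bmix p q (V 0) n k l := by
  induction n with
  | zero => intro k l; rw [bmix_zero]
  | succ n ih => intro k l; rw [hV, bmix_succ, ih, ih]

theorem binom_iter_ge (V : ℕ → ℕ → ℕ → ℝ) (p q : ℝ) (hp : 0 ≤ p) (hq : 0 ≤ q)
    (hV : ∀ n k l, p * V n (k + 1) l + q * V n k (l + 1) ≤ V (n + 1) k l) (n : ℕ) :
    ∀ k l, bmix p q (V 0) n k l ≤ V n k l := by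
  induction n with
  | zero => intro k l; rw [bmix_zero]
  | succ n ih =>
    intro k l
    rw [bmix_succ]
    exact le_trans (add_le_add (mul_le_mul_of_nonneg_left (ih _ _) hp)
      (mul_le_mul_of_nonneg_left (ih _ _) hq)) (hV n k l)

theorem pois_bmix {B : ℕ → ℕ → ℝ} (hB : ExpGrowth2 B) (a p q : ℝ≥0) (hpq : p + q = 1) :
    ∫ n, bmix p q B n 0 0 ∂(poissonMeasure a) =
      ∫ k, (∫ l, B k l ∂(poissonMeasure (q * a))) ∂(poissonMeasure (p * a)) := by
  rw [← pois_thinning hB a p q hpq]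
  congr 1
  funext n
  unfold bmix
  refine Finset.sum_congr rfl fun ij _ => ?_
  simp only [zero_add]
  ring

theorem sum_choose_one (p q : ℝ) (hpq : p + q = 1) (n : ℕ) :
    ∑ ij ∈ Finset.HasAntidiagonal.antidiagonal n,
      (n.choose ij.1 : ℝ) * (p ^ ij.1 * q ^ ij.2) = 1 := by
  have h := Commute.add_pow' (Commute.all p q) n
  rw [hpq, one_pow] at h
  rw [h]
  simp only [nsmul_eq_mul]

theorem bmix_growth {B : ℕ → ℕ → ℝ} (hB : ExpGrowth2 B) (p q : ℝ) (hp : 0 ≤ p) (hq : 0 ≤ q)
    (hpq : p + q = 1) : ExpGrowth fun n => bmix p q B n 0 0 := by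
  obtain ⟨C, A, hC, hA, hb⟩ := hB
  refine ⟨C, A, hC, hA, fun n => ?_⟩
  unfold bmix
  have h1 := sum_choose_one p q hpq n
  calc |∑ ij ∈ Finset.HasAntidiagonal.antidiagonal n,
        (n.choose ij.1 : ℝ) * (p ^ ij.1 * q ^ ij.2 * B (0 + ij.1) (0 + ij.2))|
      ≤ ∑ ij ∈ Finset.HasAntidiagonal.antidiagonal n,
        |(n.choose ij.1 : ℝ) * (p ^ ij.1 * q ^ ij.2 * B (0 + ij.1) (0 + ij.2))| :=
        Finset.abs_sum_le_sum_abs _ _
    _ ≤ ∑ ij ∈ Finset.HasAntidiagonal.antidiagonal n,
        (n.choose ij.1 : ℝ) * (p ^ ij.1 * q ^ ij.2) * (C * A ^ n) := by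
        refine Finset.sum_le_sum fun ij hij => ?_
        rw [Finset.HasAntidiagonal.mem_antidiagonal] at hij
        have h2 : |B (0 + ij.1) (0 + ij.2)| ≤ C * A ^ n := by
          rw [zero_add, zero_add]
          refine (hb _ _).trans_eq ?_
          rw [← pow_add, hij]
        have h3 : 0 ≤ (n.choose ij.1 : ℝ) * (p ^ ij.1 * q ^ ij.2) := by (clear * - hp hq; positivity)
        rw [← mul_assoc, abs_mul, abs_of_nonneg h3]
        exact mul_le_mul_of_nonneg_left h2 h3
    _ = C * A ^ n := by rw [← Finset.sum_mul, h1, one_mul]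

theorem bmix_add (p q : ℝ) (hpq : p + q = 1) (f : ℕ → ℝ) (n : ℕ) :
    bmix p q (fun k l => f (k + l)) n 0 0 = f n := by
  unfold bmix
  have h1 := sum_choose_one p q hpq n
  calc _ = ∑ ij ∈ Finset.HasAntidiagonal.antidiagonal n,
        (n.choose ij.1 : ℝ) * (p ^ ij.1 * q ^ ij.2) * f n := by
        refine Finset.sum_congr rfl fun ij hij => ?_
        rw [Finset.HasAntidiagonal.mem_antidiagonal] at hij
        simp only [zero_add]
        rw [hij]; ring
    _ = f n := by rw [← Finset.sum_mul, h1, one_mul]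

/-- Superposition of Poisson laws. -/
theorem pois_super {f : ℕ → ℝ} (hf : ExpGrowth f) (a b : ℝ≥0) :
    ∫ n, f n ∂(poissonMeasure (a + b)) =
      ∫ k, (∫ l, f (k + l) ∂(poissonMeasure b)) ∂(poissonMeasure a) := by
  by_cases hab : a + b = 0
  · have ha : a = 0 := by
      have := add_eq_zero.1 hab
      exact this.1
    have hb : b = 0 := (add_eq_zero.1 hab).2
    subst ha; subst hb
    simp only [add_zero]
    have h0 : ∀ g : ℕ → ℝ, ∫ n, g n ∂(poissonMeasure 0) = g 0 := by
      intro g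
      rw [pois_integral, tsum_eq_single 0]
      · simp [pw]
      · intro n hn; simp [pw, hn]
    rw [h0, h0, h0]
  · have hpq : a / (a + b) + b / (a + b) = 1 := by
      rw [← add_div, div_self hab]
    have hB : ExpGrowth2 fun k l => f (k + l) := by
      obtain ⟨C, A, hC, hA, h⟩ := hf
      exact ⟨C, A, hC, hA, fun k l => by rw [← pow_add]; exact h _⟩
    have h := pois_bmix hB (a + b) (a / (a + b)) (b / (a + b)) hpq
    rw [div_mul_cancel₀ _ hab, div_mul_cancel₀ _ hab] at h
    rw [← h]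
    congr 1
    funext n
    rw [bmix_add _ _ (by exact_mod_cast hpq)]

theorem growth_of_lip {f : ℕ → ℝ} {L : ℝ} (hf : ∀ n, |f (n + 1) - f n| ≤ L) : ExpGrowth f := by
  have hL : 0 ≤ L := le_trans (abs_nonneg _) (hf 0)
  refine expGrowth_of_linear (c := |f 0|) (d := L) (fun n => ?_) (abs_nonneg _) hL
  induction n with
  | zero => simp
  | succ n ih =>
    have h1 := hf n
    have h2 : |f (n + 1)| ≤ |f (n + 1) - f n| + |f n| := by
      have := abs_add_le (f (n + 1) - f n) (f n)
      simpa only [ge_iff_le, sub_add_cancel] using this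
    push_cast
    linarith

theorem lip_iter {f : ℕ → ℝ} {L : ℝ} (hf : ∀ n, |f (n + 1) - f n| ≤ L) (k l : ℕ) :
    |f (k + l) - f k| ≤ L * l := by
  induction l with
  | zero => simp
  | succ l ih =>
    have h1 := hf (k + l)
    have h2 : |f (k + (l + 1)) - f k| ≤ |f (k + l + 1) - f (k + l)| + |f (k + l) - f k| := by
      have := abs_add_le (f (k + l + 1) - f (k + l)) (f (k + l) - f k)
      rw [← add_assoc]
      simpa only [ge_iff_le, sub_add_sub_cancel] using this
    push_cast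
    linarith

theorem pois_lip_aux {f : ℕ → ℝ} {L : ℝ} (hf : ∀ n, |f (n + 1) - f n| ≤ L) (a b : ℝ≥0) :
    |∫ n, f n ∂(poissonMeasure (a + b)) - ∫ n, f n ∂(poissonMeasure a)| ≤ L * b := by
  have hg := growth_of_lip hf
  rw [pois_super hg]
  have hL : 0 ≤ L := le_trans (abs_nonneg _) (hf 0)
  have hin : ∀ k, |(∫ l, f (k + l) ∂(poissonMeasure b)) - f k| ≤ L * b := by
    intro k
    have hgk : ExpGrowth fun l => f (k + l) :=
      growth_of_lip (L := L) (fun l => by rw [← add_assoc]; exact hf (k + l))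
    have h1 : (∫ l, f (k + l) ∂(poissonMeasure b)) - f k =
        ∫ l, (f (k + l) - f k) ∂(poissonMeasure b) := by
      rw [integral_sub (hgk.integrable b) (integrable_const _), pois_const]
    rw [h1]
    have hlin : ExpGrowth fun l : ℕ => L * (l : ℝ) :=
      expGrowth_of_linear (c := 0) (d := L) (fun n => by
        rw [abs_of_nonneg (by (clear * - hL; positivity))]; linarith) le_rfl hL
    calc |∫ l, (f (k + l) - f k) ∂(poissonMeasure b)|
        ≤ ∫ l, |f (k + l) - f k| ∂(poissonMeasure b) := by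
          have := norm_integral_le_integral_norm (μ := poissonMeasure b) (fun l => f (k + l) - f k)
          simpa only [ge_iff_le, Real.norm_eq_abs] using this
      _ ≤ ∫ l : ℕ, L * (l : ℝ) ∂(poissonMeasure b) := by
          refine pois_mono ?_ hlin b (fun l => lip_iter hf k l)
          refine expGrowth_of_linear (c := 0) (d := L) (fun n => ?_) le_rfl hL
          rw [abs_abs]
          have := lip_iter hf k n
          linarith only [this]
      _ = L * b := by rw [integral_const_mul, pois_mean]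
  have hin2 : ExpGrowth fun k => (∫ l, f (k + l) ∂(poissonMeasure b)) := by
    obtain ⟨C, A, hC, hA, h⟩ := hg
    refine ⟨C + L * b, A, by (clear * - hC hL; positivity), hA, fun k => ?_⟩
    have h1 := hin k
    have h2 := h k
    have h3 : |∫ l, f (k + l) ∂(poissonMeasure b)| ≤
        |(∫ l, f (k + l) ∂(poissonMeasure b)) - f k| + |f k| := by
      have := abs_add_le ((∫ l, f (k + l) ∂(poissonMeasure b)) - f k) (f k)
      simpa only [ge_iff_le, sub_add_cancel] using this
    have h4 : (1 : ℝ) ≤ A ^ k := one_le_pow₀ hA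
    have h5 : 0 ≤ L * (b : ℝ) := by positivity
    nlinarith only [h1, h2, h3, h4, h5]
  rw [← integral_sub (hin2.integrable a) (hg.integrable a)]
  calc |∫ k, ((∫ l, f (k + l) ∂(poissonMeasure b)) - f k) ∂(poissonMeasure a)|
      ≤ ∫ k, |(∫ l, f (k + l) ∂(poissonMeasure b)) - f k| ∂(poissonMeasure a) := by
        have := norm_integral_le_integral_norm (μ := poissonMeasure a)
          (fun k => (∫ l, f (k + l) ∂(poissonMeasure b)) - f k)
        simpa only [ge_iff_le, Real.norm_eq_abs] using this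
    _ ≤ ∫ _, L * b ∂(poissonMeasure a) := by
        refine pois_mono ?_ (expGrowth_const _) a hin
        refine ⟨L * b, 1, by positivity, le_rfl, fun n => ?_⟩
        rw [abs_abs]; simpa only [one_pow, mul_one] using hin n
    _ = L * b := pois_const _ _

/-- The Poisson expectation of a Lipschitz sequence is Lipschitz in the mean. -/
theorem pois_lip {f : ℕ → ℝ} {L : ℝ} (hf : ∀ n, |f (n + 1) - f n| ≤ L) (a b : ℝ≥0) :
    |∫ n, f n ∂(poissonMeasure a) - ∫ n, f n ∂(poissonMeasure b)| ≤ L * |(a : ℝ) - b| := by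
  rcases le_total a b with h | h
  · obtain ⟨c, rfl⟩ := exists_add_of_le h
    have := pois_lip_aux hf a c
    rw [abs_sub_comm]
    refine this.trans_eq ?_
    push_cast
    rw [show (a : ℝ) - (a + c) = -c by ring, abs_neg, abs_of_nonneg (NNReal.coe_nonneg c)]
  · obtain ⟨c, rfl⟩ := exists_add_of_le h
    have := pois_lip_aux hf b c
    refine this.trans_eq ?_
    push_cast
    rw [show (b : ℝ) + c - b = c by ring, abs_of_nonneg (NNReal.coe_nonneg c)]

end Vale.Agent.P168
end
end

section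

section

set_option autoImplicit false
set_option linter.unusedSectionVars false

open MeasureTheory ProbabilityTheory Finset Filter
open scoped NNReal Topology

namespace Vale.Agent.P168.MP

/-- Logarithmic shapes with `l` interactions. -/
abbrev SE (K l : ℕ) : Type := (Fin l × Fin K → Bool) → ℝ

/-- Restriction of configurations. -/
def rst {K l D : ℕ} (h : l ≤ D) (σ : Fin D × Fin K → Bool) : Fin l × Fin K → Bool :=
  fun p => σ (Fin.castLE h p.1, p.2)

/-- Consistent families of 1-Lipschitz functionals of shapes. -/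
structure ShapeFun (K : ℕ) where
  F : ∀ l : ℕ, SE K l → ℝ
  lip : ∀ l, LipschitzWith 1 (F l)
  zero : ∀ l, F l 0 = 0
  emb : ∀ {l D : ℕ} (h : l ≤ D) (φ : SE K l), F D (fun σ => φ (rst h σ)) = F l φ

section Round

/-- Clipped index of an integer. -/
def rfin (n : ℕ) (t : ℤ) : Fin (2 * n + 1) :=
  ⟨(min (max (t + n) 0) (2 * n)).toNat, by omega⟩

theorem rfin_val (n : ℕ) (t : ℤ) :
    (((rfin n t : ℕ) : ℝ) - n) = ((min (max t (-n)) n : ℤ) : ℝ) := by
  have h : (((rfin n t : ℕ) : ℤ)) = min (max t (-n)) n + n := by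
    unfold rfin
    simp only
    omega
  have h2 : (((rfin n t : ℕ) : ℝ)) = ((min (max t (-n)) n : ℤ) : ℝ) + n := by
    have := congrArg (fun z : ℤ => (z : ℝ)) h
    push_cast at this ⊢
    exact this
  rw [h2]
  ring

theorem rval_close {ε B u : ℝ} {n : ℕ} (hε : 0 < ε) (hn : B / ε + 1 ≤ n) (hu : |u| ≤ B) :
    |u - ε * (((rfin n ⌊u / ε⌋ : ℕ) : ℝ) - n)| ≤ ε := by
  have h1 : |u / ε| ≤ B / ε := by
    rw [abs_div, abs_of_pos hε]
    exact div_le_div_of_nonneg_right hu hε.le
  have h2 := abs_le.1 h1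
  have f1 := Int.floor_le (u / ε)
  have f2 := Int.lt_floor_add_one (u / ε)
  have c1 : -(n : ℤ) ≤ ⌊u / ε⌋ := by
    rw [Int.le_floor]
    push_cast
    linarith only [hn, h2]
  have c2 : ⌊u / ε⌋ ≤ (n : ℤ) := by
    have : (⌊u / ε⌋ : ℝ) ≤ (n : ℝ) := by linarith only [hn, h2, f1]
    exact_mod_cast this
  have h3 : min (max ⌊u / ε⌋ (-(n : ℤ))) n = ⌊u / ε⌋ := by omega
  rw [rfin_val, h3]
  have h4 : u - ε * (⌊u / ε⌋ : ℝ) = ε * (u / ε - ⌊u / ε⌋) := by (clear * - hε; field_simp)
  rw [h4, abs_mul, abs_of_pos hε]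
  have h5 : |u / ε - ⌊u / ε⌋| ≤ 1 := by
    rw [abs_le]
    constructor <;> linarith only [f1, f2]
  nlinarith only [hε, h5]

theorem rval_abs {ε u : ℝ} {n : ℕ} (hε : 0 < ε) :
    |ε * (((rfin n ⌊u / ε⌋ : ℕ) : ℝ) - n)| ≤ |u| + ε := by
  have f1 := Int.floor_le (u / ε)
  have f2 := Int.lt_floor_add_one (u / ε)
  rw [rfin_val, abs_mul, abs_of_pos hε]
  have h1 : |((min (max ⌊u / ε⌋ (-(n : ℤ))) n : ℤ) : ℝ)| ≤ |(⌊u / ε⌋ : ℝ)| := by
    rw [← Int.cast_abs, ← Int.cast_abs]
    have h0 : |min (max ⌊u / ε⌋ (-(n : ℤ))) n| ≤ |⌊u / ε⌋| := by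
      rcases abs_cases ⌊u / ε⌋ with h | h <;>
        rcases abs_cases (min (max ⌊u / ε⌋ (-(n : ℤ))) n) with h' | h' <;> omega
    exact_mod_cast h0
  have h2 : |(⌊u / ε⌋ : ℝ)| ≤ |u / ε| + 1 := by
    have := abs_le.1 (le_refl |u / ε|)
    rw [abs_le]
    constructor <;> linarith only [f1, this, f2]
  calc ε * |((min (max ⌊u / ε⌋ (-(n : ℤ))) n : ℤ) : ℝ)| ≤ ε * (|u / ε| + 1) :=
        mul_le_mul_of_nonneg_left (h1.trans h2) hε.le
    _ = |u| + ε := by
        rw [abs_div, abs_of_pos hε]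
        field_simp

/-- Indices of rounded shapes. -/
abbrev RI (K n D : ℕ) : Type := (Fin D × Fin K → Bool) → Fin (2 * n + 1)

/-- The rounded shape. -/
noncomputable def rsh {K n D : ℕ} (ε : ℝ) (c : RI K n D) : SE K D :=
  fun σ => ε * (((c σ : ℕ) : ℝ) - n)

/-- Rounding. -/
noncomputable def rnd {K l : ℕ} (ε : ℝ) (n D : ℕ) (φ : SE K l) : RI K n D :=
  if h : l ≤ D then fun σ => rfin n ⌊φ (rst h σ) / ε⌋ else fun _ => rfin n 0

theorem measurable_rnd {K l : ℕ} (ε : ℝ) (n D : ℕ) :
    Measurable (rnd ε n D : SE K l → RI K n D) := by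
  unfold rnd
  split_ifs with h
  · rw [measurable_pi_iff]
    intro σ
    have h1 : Measurable fun φ : SE K l => ⌊φ (rst h σ) / ε⌋ :=
      Int.measurable_floor.comp ((measurable_pi_apply _).div_const _)
    exact (measurable_of_countable (rfin n)).comp h1
  · exact measurable_const

theorem norm_le_of {ι : Type} [Fintype ι] {φ : ι → ℝ} {C : ℝ} (hC : 0 ≤ C)
    (h : ∀ i, |φ i| ≤ C) : ‖φ‖ ≤ C := by
  rw [pi_norm_le_iff_of_nonneg hC]
  intro i
  rw [Real.norm_eq_abs]
  exact h i

theorem abs_le_norm {ι : Type} [Fintype ι] (φ : ι → ℝ) (i : ι) : |φ i| ≤ ‖φ‖ := by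
  have := norm_le_pi_norm φ i
  rwa [Real.norm_eq_abs] at this

theorem ShapeFun.abs_sub_le {K : ℕ} (S : ShapeFun K) {l : ℕ} (φ φ' : SE K l) :
    |S.F l φ - S.F l φ'| ≤ ‖φ - φ'‖ := by
  have := (S.lip l).dist_le_mul φ φ'
  rwa [NNReal.coe_one, one_mul, Real.dist_eq, dist_eq_norm] at this

theorem ShapeFun.abs_le {K : ℕ} (S : ShapeFun K) {l : ℕ} (φ : SE K l) :
    |S.F l φ| ≤ ‖φ‖ := by
  have := S.abs_sub_le φ 0
  rwa [S.zero, sub_zero, sub_zero] at this

/-- Error of the rounding. -/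
theorem ShapeFun.round {K : ℕ} (S : ShapeFun K) {l : ℕ} (φ : SE K l) {ε B : ℝ} {n D : ℕ}
    (hε : 0 < ε) (hn : B / ε + 1 ≤ n) :
    |S.F l φ - S.F D (rsh ε (rnd ε n D φ))| ≤
      ε + 2 * (‖φ‖ * (if D < l ∨ B < ‖φ‖ then 1 else 0)) := by
  have hφ := norm_nonneg φ
  by_cases h : l ≤ D
  · rw [← S.emb h φ]
    refine (S.abs_sub_le _ _).trans ?_
    have e : rnd ε n D φ = fun σ => rfin n ⌊φ (rst h σ) / ε⌋ := by
      unfold rnd
      rw [dif_pos h]
    rw [e]
    by_cases hB : B < ‖φ‖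
    · rw [if_pos (Or.inr hB), mul_one]
      refine norm_le_of (by (clear * - hε; positivity)) fun σ => ?_
      have h1 := abs_le_norm φ (rst h σ)
      have h2 := rval_abs (ε := ε) (u := φ (rst h σ)) (n := n) hε
      have h3 : |φ (rst h σ) - ε * (((rfin n ⌊φ (rst h σ) / ε⌋ : ℕ) : ℝ) - n)| ≤
          |φ (rst h σ)| + |ε * (((rfin n ⌊φ (rst h σ) / ε⌋ : ℕ) : ℝ) - n)| := abs_sub _ _
      show |φ (rst h σ) - ε * (((rfin n ⌊φ (rst h σ) / ε⌋ : ℕ) : ℝ) - n)| ≤ _
      linarith only [h1, h2, h3]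
    · rw [if_neg (by rintro (h' | h') <;> [omega; exact hB h']), mul_zero, mul_zero, add_zero]
      refine norm_le_of hε.le fun σ => ?_
      exact rval_close hε hn ((abs_le_norm φ _).trans (not_lt.1 hB))
  · have e : rsh ε (rnd ε n D φ) = 0 := by
      have e1 : rnd ε n D φ = fun _ => rfin n 0 := by
        unfold rnd
        rw [dif_neg h]
      rw [e1]
      funext σ
      show ε * (((rfin n 0 : ℕ) : ℝ) - n) = 0
      rw [rfin_val]
      have : min (max (0 : ℤ) (-(n : ℤ))) n = 0 := by omega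
      rw [this]
      simp
    rw [e, S.zero, sub_zero, if_pos (Or.inl (not_le.1 h)), mul_one]
    have := S.abs_le φ
    linarith only [hε, hφ, this]

end Round

section Tail

variable {K : ℕ} (π : ∀ l : ℕ, Measure (SE K l)) [∀ l, IsProbabilityMeasure (π l)]
  (hπ : ∀ l, Integrable (fun φ : SE K l => ‖φ‖) (π l))

/-- The truncated first moment. -/
noncomputable def tl (N l : ℕ) : ℝ :=
  ∫ φ : SE K l, ‖φ‖ * (if N < l ∨ (N : ℝ) < ‖φ‖ then 1 else 0) ∂(π l)

theorem measurable_ind (N l : ℕ) :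
    Measurable fun φ : SE K l => (if N < l ∨ (N : ℝ) < ‖φ‖ then (1 : ℝ) else 0) := by
  refine Measurable.ite ?_ measurable_const measurable_const
  have h : {φ : SE K l | N < l ∨ (N : ℝ) < ‖φ‖} = {φ | N < l} ∪ {φ | (N : ℝ) < ‖φ‖} := by
    ext φ; simp
  rw [h]
  exact (MeasurableSet.const _).union (measurableSet_lt measurable_const measurable_norm)

include hπ in
theorem integrable_tl (N l : ℕ) : Integrable (fun φ : SE K l =>
    ‖φ‖ * (if N < l ∨ (N : ℝ) < ‖φ‖ then (1 : ℝ) else 0)) (π l) := by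
  refine (hπ l).mono' ((measurable_norm.mul (measurable_ind N l)).aestronglyMeasurable)
    (Filter.Eventually.of_forall fun φ => ?_)
  rw [Real.norm_eq_abs, abs_mul, abs_norm]
  split_ifs <;> simp

theorem tl_nonneg (N l : ℕ) : 0 ≤ tl π N l := by
  refine integral_nonneg fun φ => ?_
  show 0 ≤ ‖φ‖ * (if N < l ∨ (N : ℝ) < ‖φ‖ then (1 : ℝ) else 0)
  split_ifs
  · simp
  · simp

include hπ in
theorem tl_le (N l : ℕ) : tl π N l ≤ ∫ φ, ‖φ‖ ∂(π l) := by
  refine integral_mono (integrable_tl π hπ N l) (hπ l) fun φ => ?_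
  show ‖φ‖ * (if N < l ∨ (N : ℝ) < ‖φ‖ then (1 : ℝ) else 0) ≤ ‖φ‖
  split_ifs <;> simp

include hπ in
theorem tl_tendsto (l : ℕ) : Tendsto (fun N => tl π N l) atTop (𝓝 0) := by
  have h0 : (0 : ℝ) = ∫ _ : SE K l, (0 : ℝ) ∂(π l) := by simp
  rw [h0]
  refine tendsto_integral_of_dominated_convergence (fun φ => ‖φ‖) ?_ (hπ l) ?_ ?_
  · exact fun N => (measurable_norm.mul (measurable_ind N l)).aestronglyMeasurable
  · intro N
    refine Filter.Eventually.of_forall fun φ => ?_
    rw [Real.norm_eq_abs, abs_mul, abs_norm]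
    split_ifs <;> simp
  · refine Filter.Eventually.of_forall fun φ => ?_
    obtain ⟨m, hm⟩ := exists_nat_ge ‖φ‖
    refine tendsto_const_nhds.congr' ?_
    filter_upwards [eventually_ge_atTop (max m l)] with N hN
    have h1 : ¬ (N < l ∨ (N : ℝ) < ‖φ‖) := by
      rintro (h | h)
      · omega
      · have : (m : ℝ) ≤ N := by exact_mod_cast (le_max_left m l).trans hN
        linarith only [hm, h, this]
    rw [if_neg h1, mul_zero]

variable (A B : ℝ) (hA : 0 ≤ A) (hB : 0 ≤ B) (hAB : ∀ l, ∫ φ, ‖φ‖ ∂(π l) ≤ A + B * l)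

include hπ hA hB hAB in
theorem tail_tendsto (a : ℝ≥0) :
    Tendsto (fun N => ∫ l, tl π N l ∂(poissonMeasure a)) atTop (𝓝 0) := by
  have h0 : (0 : ℝ) = ∫ _ : ℕ, (0 : ℝ) ∂(poissonMeasure a) := by simp
  rw [h0]
  have hg : ExpGrowth fun l : ℕ => A + B * l := expGrowth_of_linear (c := A) (d := B)
    (fun n => by rw [abs_of_nonneg (by positivity)]) hA hB
  refine tendsto_integral_of_dominated_convergence (fun l : ℕ => A + B * l) ?_
    (hg.integrable a) ?_ ?_
  · exact fun N => (measurable_of_countable _).aestronglyMeasurable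
  · intro N
    refine Filter.Eventually.of_forall fun l => ?_
    rw [Real.norm_eq_abs, abs_of_nonneg (tl_nonneg π N l)]
    exact (tl_le π hπ N l).trans (hAB l)
  · exact Filter.Eventually.of_forall fun l => tl_tendsto π hπ l

/-- The weight of a rounded shape. -/
noncomputable def wt (a : ℝ≥0) (ε : ℝ) (n D : ℕ) (c : RI K n D) : ℝ :=
  ∫ l, (π l).real {φ | rnd ε n D φ = c} ∂(poissonMeasure a)

theorem integral_rnd (ε : ℝ) (n D l : ℕ) (f : RI K n D → ℝ) :
    ∫ φ, f (rnd ε n D φ) ∂(π l) = ∑ c, (π l).real {φ | rnd ε n D φ = c} * f c := by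
  have hm := measurable_rnd (K := K) (l := l) ε n D
  have h1 : ∫ φ, f (rnd ε n D φ) ∂(π l) = ∫ c, f c ∂((π l).map (rnd ε n D)) := by
    rw [integral_map hm.aemeasurable (measurable_of_countable f).aestronglyMeasurable]
  have _inst : IsProbabilityMeasure ((π l).map (rnd ε n D)) :=
    Measure.isProbabilityMeasure_map hm.aemeasurable
  rw [h1, integral_fintype (Integrable.of_finite)]
  refine Finset.sum_congr rfl fun c _ => ?_
  rw [smul_eq_mul, map_measureReal_apply hm (measurableSet_singleton c)]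
  rfl

theorem ShapeFun.integrable (S : ShapeFun K) (l : ℕ) (hπ : ∀ l, Integrable (fun φ : SE K l => ‖φ‖) (π l)) :
    Integrable (fun φ => S.F l φ) (π l) := by
  refine (hπ l).mono' (S.lip l).continuous.aestronglyMeasurable
    (Filter.Eventually.of_forall fun φ => ?_)
  rw [Real.norm_eq_abs]
  exact S.abs_le φ

/-- Values of a functional of shapes for random shapes. -/
noncomputable def ShapeFun.val (S : ShapeFun K) (a : ℝ≥0) : ℝ :=
  ∫ l, (∫ φ, S.F l φ ∂(π l)) ∂(poissonMeasure a)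

include hπ hA hB hAB in
/-- The quantization theorem. -/
theorem ShapeFun.quant (S : ShapeFun K) (a : ℝ≥0) {ε : ℝ} (hε : 0 < ε) {n D : ℕ}
    (hn : (D : ℝ) / ε + 1 ≤ n) :
    |S.val π a - ∑ c, wt π a ε n D c * S.F D (rsh ε c)| ≤
      ε + 2 * ∫ l, tl π D l ∂(poissonMeasure a) := by
  have hg0 : ExpGrowth fun l : ℕ => A + B * l := expGrowth_of_linear (c := A) (d := B)
    (fun n => by rw [abs_of_nonneg (by positivity)]) hA hB
  have hgS : ExpGrowth fun l => ∫ φ, S.F l φ ∂(π l) := by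
    refine expGrowth_of_linear (c := A) (d := B) (fun l => ?_) hA hB
    rw [← Real.norm_eq_abs]
    refine (norm_integral_le_integral_norm _).trans ((integral_mono
      (S.integrable π l hπ).norm (hπ l) fun φ => ?_).trans (hAB l))
    rw [Real.norm_eq_abs]
    exact S.abs_le φ
  have hgt : ExpGrowth fun l => tl π D l := by
    refine expGrowth_of_linear (c := A) (d := B) (fun l => ?_) hA hB
    rw [abs_of_nonneg (tl_nonneg π D l)]
    exact (tl_le π hπ D l).trans (hAB l)
  have hgc : ∀ c : RI K n D, ExpGrowth fun l => (π l).real {φ | rnd ε n D φ = c} := by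
    intro c
    refine ⟨1, 1, zero_le_one, le_rfl, fun l => ?_⟩
    rw [abs_of_nonneg measureReal_nonneg, one_pow, mul_one]
    exact measureReal_le_one
  have e1 : ∑ c, wt π a ε n D c * S.F D (rsh ε c) =
      ∫ l, (∑ c, (π l).real {φ | rnd ε n D φ = c} * S.F D (rsh ε c)) ∂(poissonMeasure a) := by
    rw [integral_finsetSum]
    · refine Finset.sum_congr rfl fun c _ => ?_
      unfold wt
      rw [integral_mul_const]
    · intro c _
      exact ((hgc c).integrable a).mul_const _
  have hgs : ExpGrowth fun l => ∑ c, (π l).real {φ | rnd ε n D φ = c} * S.F D (rsh ε c) := by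
    refine ⟨∑ c : RI K n D, |S.F D (rsh ε c)|, 1, by (clear * -; positivity), le_rfl, fun l => ?_⟩
    rw [one_pow, mul_one]
    refine (Finset.abs_sum_le_sum_abs _ _).trans (Finset.sum_le_sum fun c _ => ?_)
    rw [abs_mul, abs_of_nonneg measureReal_nonneg]
    have : (π l).real {φ | rnd ε n D φ = c} ≤ 1 := measureReal_le_one
    nlinarith only [this, abs_nonneg (S.F D (rsh ε c))]
  rw [e1]
  unfold ShapeFun.val
  rw [← integral_sub (hgS.integrable a) (hgs.integrable a), ← Real.norm_eq_abs]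
  refine (norm_integral_le_integral_norm _).trans ?_
  have hpt : ∀ l, ‖(∫ φ, S.F l φ ∂(π l)) -
      ∑ c, (π l).real {φ | rnd ε n D φ = c} * S.F D (rsh ε c)‖ ≤ ε + 2 * tl π D l := by
    intro l
    have i2 : Integrable (fun φ : SE K l => S.F D (rsh ε (rnd ε n D φ))) (π l) := by
      refine Integrable.of_bound (C := ∑ c : RI K n D, |S.F D (rsh ε c)|)
        ((measurable_of_countable fun c : RI K n D => S.F D (rsh ε c)).comp
          (measurable_rnd ε n D)).aestronglyMeasurable (Filter.Eventually.of_forall fun φ => ?_)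
      rw [Real.norm_eq_abs]
      exact Finset.single_le_sum (f := fun c : RI K n D => |S.F D (rsh ε c)|)
        (fun c _ => abs_nonneg _)
        (Finset.mem_univ (rnd ε n D φ))
    rw [← integral_rnd π ε n D l (fun c => S.F D (rsh ε c)),
      ← integral_sub (S.integrable π l hπ) i2]
    refine (norm_integral_le_integral_norm _).trans ?_
    have i3 : Integrable (fun φ : SE K l =>
        ε + 2 * (‖φ‖ * (if D < l ∨ (D : ℝ) < ‖φ‖ then (1 : ℝ) else 0))) (π l) :=
      (integrable_const _).add ((integrable_tl π hπ D l).const_mul 2)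
    refine (integral_mono ((S.integrable π l hπ).sub i2).norm i3 fun φ => ?_).trans
      (le_of_eq ?_)
    · show ‖S.F l φ - S.F D (rsh ε (rnd ε n D φ))‖ ≤ _
      rw [Real.norm_eq_abs]
      exact S.round φ hε hn
    · rw [integral_add (integrable_const _) ((integrable_tl π hπ D l).const_mul 2),
        integral_const_mul]
      simp only [integral_const, probReal_univ, smul_eq_mul, one_mul, mul_ite, mul_one, mul_zero, tl]
  refine (integral_mono ((hgS.integrable a).sub (hgs.integrable a)).norm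
    (((expGrowth_const ε).add (hgt.const_mul 2)).integrable a) hpt).trans (le_of_eq ?_)
  rw [integral_add ((expGrowth_const ε).integrable a) ((hgt.const_mul 2).integrable a),
    integral_const_mul]
  simp

end Tail

end Vale.Agent.P168.MP
end
end

section

section

set_option autoImplicit false
set_option linter.unusedSectionVars false

open Finset

namespace Vale.Agent.P168

section Gav

variable {S : Type*} [Fintype S] [Nonempty S]

end Gav

section Dec

variable {N : ℕ}

/-- Probability of the spin `b` for magnetization `m`. -/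
noncomputable def pr (m : ℝ) (b : Bool) : ℝ := (1 + m * spin b) / 2

/-- Product-measure average of `Q`. -/
noncomputable def pav {ι : Type*} [Fintype ι] [DecidableEq ι] (Q : (ι → Bool) → ℝ) (m : ι → ℝ) : ℝ :=
  ∑ τ : ι → Bool, Q τ * ∏ k, pr (m k) (τ k)

theorem pr_nonneg {m : ℝ} (hm : |m| ≤ 1) (b : Bool) : 0 ≤ pr m b := by
  unfold pr
  rw [abs_le] at hm
  cases b <;> simp [spin] <;> linarith

theorem pr_sum (m : ℝ) : ∑ b, pr m b = 1 := by
  unfold pr
  simp only [Fintype.univ_bool, spin, mul_ite, mul_one, mul_neg, mem_singleton, Bool.true_eq_false, not_false_eq_true, sum_insert, ↓reduceIte, sum_singleton, Bool.false_eq_true]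
  ring

theorem sum_fin_succ_fun {M : Type*} [AddCommMonoid M] {α : Type*} [Fintype α] {n : ℕ}
    (F : (Fin (n + 1) → α) → M) :
    ∑ x : Fin (n + 1) → α, F x = ∑ a : α, ∑ y : Fin n → α, F (Fin.cons a y) := by
  rw [← (Fin.consEquiv (fun _ : Fin (n + 1) => α)).sum_comp, ← Finset.univ_product_univ,
    Finset.sum_product]
  rfl

open MeasureTheory ProbabilityTheory in
theorem integral_pi_unif {ι : Type} [Fintype ι] [DecidableEq ι] [NeZero N] (F : (ι → Fin N) → ℝ) :
    ∫ i, F i ∂(Measure.pi fun _ : ι => unif N) =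
      (1 / (N : ℝ)) ^ (Fintype.card ι) * ∑ i, F i := by
  classical
  rw [integral_fintype (Integrable.of_finite), Finset.mul_sum]
  refine Finset.sum_congr rfl fun i _ => ?_
  rw [smul_eq_mul]
  congr 1
  rw [measureReal_def, Measure.pi_singleton, ENNReal.toReal_prod]
  have : ∀ k : ι, ((unif N) {i k}).toReal = 1 / (N : ℝ) := fun k => KS.unif_real_singleton N (i k)
  simp_rw [this]
  simp only [one_div, prod_inv_distrib, prod_const, card_univ, inv_pow]

end Dec

end Vale.Agent.P168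
end
end

section

section

set_option autoImplicit false
set_option linter.unusedSectionVars false

open MeasureTheory ProbabilityTheory Finset
open scoped NNReal

namespace Vale.Agent.P168

open KS (unifK integral_unif)

section Mask

/-- Merge a mask and a tuple of ordinary sites. -/
def merge {K N : ℕ} (s : Fin K → Bool) (I : Fin K → Fin N) (j : Fin K) : Fin (N + 1) :=
  if s j then 0 else (I j).succ

/-- Weight of a mask. -/
noncomputable def mw {K : ℕ} (p : ℝ) (s : Fin K → Bool) : ℝ := ∏ j, (if s j then p else 1 - p)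

theorem merge_cons {K N : ℕ} (b : Bool) (s : Fin K → Bool) (a : Fin N) (I : Fin K → Fin N) :
    merge (Fin.cons b s : Fin (K + 1) → Bool) (Fin.cons a I : Fin (K + 1) → Fin N) =
      (Fin.cons (if b then 0 else a.succ) (merge s I) : Fin (K + 1) → Fin (N + 1)) := by
  funext j
  induction j using Fin.cases with
  | zero => simp [merge]
  | succ j => simp [merge]

theorem sum_mask (K N : ℕ) [NeZero N] (f : (Fin K → Fin (N + 1)) → ℝ) :
    (1 / ((N + 1 : ℕ) : ℝ)) ^ K * ∑ I, f I =
      ∑ s : Fin K → Bool, mw (1 / ((N + 1 : ℕ) : ℝ)) s *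
        ((1 / (N : ℝ)) ^ K * ∑ I : Fin K → Fin N, f (merge s I)) := by
  have hN : (N : ℝ) ≠ 0 := by
    have := NeZero.ne N
    exact_mod_cast this
  have hN1 : ((N + 1 : ℕ) : ℝ) ≠ 0 := by positivity
  induction K with
  | zero =>
    simp only [Nat.cast_add, Nat.cast_one, one_div, pow_zero, univ_unique, sum_singleton, one_mul, mw, univ_eq_empty, prod_empty]
    congr 1
    funext j; exact j.elim0
  | succ K ih =>
    rw [sum_fin_succ_fun, Fin.sum_univ_succ, sum_fin_succ_fun, Fintype.sum_bool]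
    simp_rw [sum_fin_succ_fun, merge_cons]
    have hmt : ∀ s : Fin K → Bool, mw (1 / ((N + 1 : ℕ) : ℝ)) (Fin.cons true s : Fin (K + 1) → Bool) =
        (1 / ((N + 1 : ℕ) : ℝ)) * mw (1 / ((N + 1 : ℕ) : ℝ)) s := by
      intro s
      unfold mw
      rw [Fin.prod_univ_succ]
      simp only [Fin.cons_zero, ↓reduceIte, Nat.cast_add, Nat.cast_one, one_div, Fin.cons_succ]
    have hmf : ∀ s : Fin K → Bool, mw (1 / ((N + 1 : ℕ) : ℝ)) (Fin.cons false s : Fin (K + 1) → Bool) =
        (N / ((N + 1 : ℕ) : ℝ)) * mw (1 / ((N + 1 : ℕ) : ℝ)) s := by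
      intro s
      unfold mw
      rw [Fin.prod_univ_succ]
      simp only [Fin.cons_zero, Fin.cons_succ]
      congr 1
      push_cast
      simp
      field_simp
      ring
    simp_rw [hmt, hmf]
    simp only [if_true, Bool.false_eq_true, if_false]
    rw [mul_add]
    congr 1
    · have h0 := ih (fun y => f (Fin.cons 0 y))
      calc (1 / ((N + 1 : ℕ) : ℝ)) ^ (K + 1) * ∑ y : Fin K → Fin (N + 1), f (Fin.cons 0 y)
          = (1 / ((N + 1 : ℕ) : ℝ)) * ((1 / ((N + 1 : ℕ) : ℝ)) ^ K *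
            ∑ y : Fin K → Fin (N + 1), f (Fin.cons 0 y)) := by rw [pow_succ]; ring
        _ = _ := by
          rw [h0, Finset.mul_sum]
          refine Finset.sum_congr rfl fun s _ => ?_
          rw [Finset.sum_const, Finset.card_univ, Fintype.card_fin, nsmul_eq_mul, pow_succ]
          field_simp
    · have h0 := fun a : Fin N => ih (fun y => f (Fin.cons a.succ y))
      calc (1 / ((N + 1 : ℕ) : ℝ)) ^ (K + 1) * ∑ a : Fin N, ∑ y : Fin K → Fin (N + 1),
            f (Fin.cons a.succ y)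
          = (1 / ((N + 1 : ℕ) : ℝ)) * ∑ a : Fin N, ((1 / ((N + 1 : ℕ) : ℝ)) ^ K *
            ∑ y : Fin K → Fin (N + 1), f (Fin.cons a.succ y)) := by
            rw [← Finset.mul_sum, pow_succ]; ring
        _ = _ := by
          simp_rw [h0]
          rw [Finset.sum_comm, Finset.mul_sum]
          refine Finset.sum_congr rfl fun s _ => ?_
          rw [← Finset.mul_sum, ← Finset.mul_sum, pow_succ]
          field_simp

theorem integral_unifK_succ (K N : ℕ) [NeZero N] (f : (Fin K → Fin (N + 1)) → ℝ) :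
    ∫ I, f I ∂(unifK K (N + 1)) = ∑ s : Fin K → Bool, mw (1 / ((N + 1 : ℕ) : ℝ)) s *
      ∫ I, f (merge s I) ∂(unifK K N) := by
  have h := sum_mask K N f
  rw [integral_pi_unif (ι := Fin K) (N := N + 1) f, Fintype.card_fin, h]
  refine Finset.sum_congr rfl fun s _ => ?_
  rw [integral_pi_unif (ι := Fin K) (N := N) (fun I => f (merge s I)), Fintype.card_fin]

theorem mw_sum {K : ℕ} (p : ℝ) : ∑ s : Fin K → Bool, mw p s = 1 := by
  unfold mw
  rw [← Fintype.prod_sum (fun (_ : Fin K) (b : Bool) => if b then p else 1 - p)]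
  simp only [Fintype.univ_bool, mem_singleton, Bool.true_eq_false, not_false_eq_true, sum_insert, ↓reduceIte, sum_singleton, Bool.false_eq_true, add_sub_cancel, prod_const_one]

theorem mw_nonneg {K : ℕ} {p : ℝ} (h0 : 0 ≤ p) (h1 : p ≤ 1) (s : Fin K → Bool) : 0 ≤ mw p s := by
  unfold mw
  exact Finset.prod_nonneg fun j _ => by split_ifs <;> linarith

theorem mw_zero {K : ℕ} (p : ℝ) : mw p (fun _ : Fin K => false) = (1 - p) ^ K := by
  simp only [mw, Bool.false_eq_true, ↓reduceIte, prod_const, card_univ, Fintype.card_fin]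

/-- The mask with a single marked position. -/
def emask {K : ℕ} (l : Fin K) : Fin K → Bool := fun j => decide (j = l)

theorem mw_emask {K : ℕ} (p : ℝ) (l : Fin K) : mw p (emask l) = p * (1 - p) ^ (K - 1) := by
  unfold mw emask
  rw [← Finset.mul_prod_erase Finset.univ _ (Finset.mem_univ l)]
  simp only [decide_true, if_true]
  congr 1
  rw [Finset.prod_congr rfl (g := fun _ => 1 - p)]
  · rw [Finset.prod_const, Finset.card_erase_of_mem (Finset.mem_univ l), Finset.card_univ,
      Fintype.card_fin]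
  · intro j hj
    have : j ≠ l := (Finset.mem_erase.1 hj).1
    simp [this]

theorem emask_inj {K : ℕ} : Function.Injective (emask : Fin K → Fin K → Bool) := by
  intro a b h
  have := congrFun h a
  simpa [emask] using this

theorem emask_ne {K : ℕ} (l : Fin K) : emask l ≠ fun _ => false := by
  intro h
  have := congrFun h l
  simp [emask] at this

/-- The estimate for multiply marked masks. -/
theorem multi_le (K : ℕ) {p : ℝ} (h0 : 0 ≤ p) (h1 : p ≤ 1) (hK : 1 ≤ K) :
    (1 - (1 - p) ^ K) - K * (p * (1 - p) ^ (K - 1)) ≤ ((K : ℝ) * p) * ((K : ℝ) * p) := by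
  obtain ⟨k, rfl⟩ : ∃ k, K = k + 1 := ⟨K - 1, by omega⟩
  rw [Nat.add_sub_cancel]
  have hb : 1 + (k : ℝ) * (-p) ≤ (1 + (-p)) ^ k := one_add_mul_le_pow (by linarith only [h1]) k
  have hb' : 1 - (k : ℝ) * p ≤ (1 - p) ^ k := by
    have : (1 + -p) = 1 - p := by ring
    rw [this] at hb
    linarith only [hb]
  have e : (1 - (1 - p) ^ (k + 1)) - ((k + 1 : ℕ) : ℝ) * (p * (1 - p) ^ k) =
      1 - (1 - p) ^ k * (1 + k * p) := by
    push_cast
    rw [pow_succ]; ring
  rw [e]
  have hkp : 0 ≤ 1 + (k : ℝ) * p := by positivity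
  have h2 : (1 - (k : ℝ) * p) * (1 + k * p) ≤ (1 - p) ^ k * (1 + k * p) :=
    mul_le_mul_of_nonneg_right hb' hkp
  push_cast
  nlinarith only [h2, mul_nonneg h0 h0]

end Mask

end Vale.Agent.P168
end
end

section

section

set_option autoImplicit false
set_option linter.unusedSectionVars false

open MeasureTheory ProbabilityTheory Finset
open scoped NNReal

namespace Vale.Agent.P168

open KS (unifK integral_unif)

section Arrow

theorem integral_unifK_pi {N l K : ℕ} [NeZero N] (F : (Fin l × Fin K → Fin N) → ℝ) :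
    ∫ I : Fin l → Fin K → Fin N, F (fun p => I p.1 p.2) ∂(Measure.pi fun _ => unifK K N) =
      ∫ i, F i ∂(Measure.pi fun _ : Fin l × Fin K => unif N) := by
  classical
  rw [integral_pi_unif, integral_fintype (Integrable.of_finite)]
  have h1 : ∀ I : Fin l → Fin K → Fin N,
      (Measure.pi fun _ : Fin l => unifK K N).real {I} = (1 / (N : ℝ)) ^ (l * K) := by
    intro I
    rw [measureReal_def, Measure.pi_singleton, ENNReal.toReal_prod]
    have : ∀ k : Fin l, ((unifK K N) {I k}).toReal = (1 / (N : ℝ)) ^ K := by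
      intro k
      have : (unifK K N) {I k} = (Measure.pi fun _ : Fin K => unif N) {I k} := rfl
      rw [this, Measure.pi_singleton, ENNReal.toReal_prod]
      have h2 : ∀ j : Fin K, ((unif N) {I k j}).toReal = 1 / (N : ℝ) :=
        fun j => KS.unif_real_singleton N (I k j)
      simp_rw [h2]
      simp only [one_div, prod_inv_distrib, prod_const, card_univ, Fintype.card_fin, inv_pow]
    simp_rw [this]
    rw [Finset.prod_const, Finset.card_univ, Fintype.card_fin, ← pow_mul, mul_comm]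
  simp_rw [h1, smul_eq_mul]
  rw [← Finset.mul_sum]
  congr 1
  · simp only [one_div, inv_pow, Fintype.card_prod, Fintype.card_fin]
  · exact Fintype.sum_equiv (Equiv.curry (Fin l) (Fin K) (Fin N)).symm _ _ (fun I => rfl)

theorem integral_arrow {A : Type} [MeasurableSpace A] (μ : Measure A) [IsProbabilityMeasure μ]
    {l K N : ℕ} [NeZero N] (F : (Fin l → A) → (Fin l × Fin K → Fin N) → ℝ)
    (hF : Integrable (fun η : Fin l → A × (Fin K → Fin N) =>
      F (fun k => (η k).1) (fun p => (η p.1).2 p.2)) (Measure.pi fun _ => μ.prod (unifK K N))) :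
    ∫ η : Fin l → A × (Fin K → Fin N), F (fun k => (η k).1) (fun p => (η p.1).2 p.2)
      ∂(Measure.pi fun _ => μ.prod (unifK K N)) =
    ∫ ω : Fin l → A, (∫ i, F ω i ∂(Measure.pi fun _ : Fin l × Fin K => unif N))
      ∂(Measure.pi fun _ => μ) := by
  have hmp := measurePreserving_arrowProdEquivProdArrow A (Fin K → Fin N) (Fin l)
    (fun _ => μ) (fun _ => unifK K N)
  have hemb := (MeasurableEquiv.arrowProdEquivProdArrow A (Fin K → Fin N)
    (Fin l)).measurableEmbedding
  have h1 := hmp.integral_comp hemb (g := fun z : (Fin l → A) × (Fin l → Fin K → Fin N) =>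
    F z.1 (fun p => z.2 p.1 p.2))
  have h2 := (hmp.integrable_comp_emb hemb (g := fun z : (Fin l → A) × (Fin l → Fin K → Fin N) =>
    F z.1 (fun p => z.2 p.1 p.2))).1 hF
  rw [integral_prod _ h2] at h1
  refine Eq.trans h1 ?_
  congr 1
  funext ω
  exact integral_unifK_pi (F ω)

end Arrow

end Vale.Agent.P168
end
end

section

section

set_option autoImplicit false
set_option linter.unusedSectionVars false

open MeasureTheory ProbabilityTheory Finset
open scoped NNReal

namespace Vale.Agent.P168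

open KS (unifK integral_unif)

section Factor

variable {K : ℕ}

theorem sum_update (l : Fin K) (e : Bool) (G : (Fin K → Bool) → ℝ) :
    ∑ τ, G τ = ∑ τ : Fin K → Bool,
      if τ l = e then (∑ b, G (Function.update τ l b)) else 0 := by
  classical
  rw [← Finset.sum_filter, ← Finset.sum_filter_add_sum_filter_not Finset.univ
    (fun τ : Fin K → Bool => τ l = e)]
  have h1 : ∑ τ : Fin K → Bool with ¬ τ l = e, G τ =
      ∑ τ : Fin K → Bool with τ l = e, G (Function.update τ l (!e)) := by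
    refine Finset.sum_bij' (fun τ _ => Function.update τ l e)
      (fun τ _ => Function.update τ l (!e)) ?_ ?_ ?_ ?_ ?_
    · intro τ hτ
      simp
    · intro τ hτ
      simp
    · intro τ hτ
      simp only [Finset.mem_filter, Finset.mem_univ, true_and] at hτ
      rw [Function.update_idem]
      have : (!e) = τ l := by
        cases e <;> cases h : τ l <;> simp_all
      rw [this, Function.update_eq_self]
    · intro τ hτ
      simp only [Finset.mem_filter, Finset.mem_univ, true_and] at hτ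
      rw [Function.update_idem, ← hτ, Function.update_eq_self]
    · intro τ hτ
      simp only [Finset.mem_filter, Finset.mem_univ, true_and] at hτ
      rw [Function.update_idem]
      have : (!e) = τ l := by
        cases e <;> cases h : τ l <;> simp_all
      rw [this, Function.update_eq_self]
  rw [h1, ← Finset.sum_add_distrib]
  refine Finset.sum_congr rfl fun τ hτ => ?_
  simp only [Finset.mem_filter, Finset.mem_univ, true_and] at hτ
  rw [Fintype.sum_bool]
  have h2 : G τ = G (Function.update τ l e) := by rw [← hτ, Function.update_eq_self]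
  rw [h2]
  cases e
  · rw [Bool.not_false, add_comm]
  · rw [Bool.not_true]

theorem cavityFactor_eq (c : Clause K) (l : Fin K) (y : Fin K → ℝ) (e : Bool) :
    cavityFactor c l y e = ∑ τ : Fin K → Bool,
      Real.exp (theta c (Function.update τ l e)) * ∏ j, pr (y j) (τ j) := by
  rw [sum_update l e]
  unfold cavityFactor
  refine Finset.sum_congr rfl fun τ _ => ?_
  by_cases h : τ l = e
  · rw [if_pos h, if_pos h]
    have h1 : ∀ b, ∏ j, pr (y j) (Function.update τ l b j) =
        pr (y l) b * ∏ j ∈ Finset.univ.erase l, pr (y j) (τ j) := by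
      intro b
      rw [← Finset.mul_prod_erase _ _ (Finset.mem_univ l), Function.update_self]
      congr 1
      refine Finset.prod_congr rfl fun j hj => ?_
      rw [Function.update_of_ne (Finset.ne_of_mem_erase hj)]
    simp_rw [h1, Function.update_idem]
    rw [← h, Function.update_eq_self, ← Finset.mul_sum, ← Finset.sum_mul, pr_sum, one_mul]
    rfl
  · rw [if_neg h, if_neg h]

theorem edgeFactor_eq (c : Clause K) (y : Fin K → ℝ) :
    edgeFactor c y = ∑ τ : Fin K → Bool, Real.exp (theta c τ) * ∏ j, pr (y j) (τ j) := rfl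

theorem pr_prod_sum {ι : Type*} [Fintype ι] [DecidableEq ι] (y : ι → ℝ) :
    ∑ τ : ι → Bool, ∏ j, pr (y j) (τ j) = 1 := by
  have h := Finset.prod_univ_sum (fun _ : ι => (Finset.univ : Finset Bool))
    (fun j b => pr (y j) b)
  rw [Fintype.piFinset_univ] at h
  rw [← h]
  simp_rw [pr_sum]
  simp only [prod_const_one]

theorem pav_mono {ι : Type*} [Fintype ι] [DecidableEq ι] (Q Q' : (ι → Bool) → ℝ) (y : ι → ℝ)
    (hy : ∀ j, |y j| ≤ 1) (h : ∀ τ, Q τ ≤ Q' τ) : pav Q y ≤ pav Q' y := by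
  unfold pav
  exact Finset.sum_le_sum fun τ _ => mul_le_mul_of_nonneg_right (h τ)
    (Finset.prod_nonneg fun j _ => pr_nonneg (hy j) _)

theorem pav_const {ι : Type*} [Fintype ι] [DecidableEq ι] (q : ℝ) (y : ι → ℝ) :
    pav (fun _ => q) y = q := by
  unfold pav
  rw [← Finset.mul_sum, pr_prod_sum, mul_one]

theorem pav_const_mul {ι : Type*} [Fintype ι] [DecidableEq ι] (c : ℝ) (Q : (ι → Bool) → ℝ)
    (y : ι → ℝ) : pav (fun τ => c * Q τ) y = c * pav Q y := by
  unfold pav
  rw [Finset.mul_sum]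
  exact Finset.sum_congr rfl fun τ _ => by ring

theorem pav_sum {ι κ : Type*} [Fintype ι] [DecidableEq ι] (t : Finset κ)
    (Q : κ → (ι → Bool) → ℝ) (y : ι → ℝ) :
    pav (fun τ => ∑ e ∈ t, Q e τ) y = ∑ e ∈ t, pav (Q e) y := by
  unfold pav
  rw [Finset.sum_comm]
  exact Finset.sum_congr rfl fun τ _ => by rw [Finset.sum_mul]

theorem pav_mem {ι : Type*} [Fintype ι] [DecidableEq ι] (Q : (ι → Bool) → ℝ) (y : ι → ℝ)
    (hy : ∀ j, |y j| ≤ 1) (lo hi : ℝ) (h : ∀ τ, lo ≤ Q τ ∧ Q τ ≤ hi) :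
    lo ≤ pav Q y ∧ pav Q y ≤ hi := by
  have h1 := pav_mono (fun _ => lo) Q y hy fun τ => (h τ).1
  have h2 := pav_mono Q (fun _ => hi) y hy fun τ => (h τ).2
  rw [pav_const] at h1 h2
  exact ⟨h1, h2⟩

theorem theta_mem (c : Clause K) (σ : Fin K → Bool) :
    -maxTheta c ≤ theta c σ ∧ theta c σ ≤ maxTheta c := abs_le.1 (abs_theta_le c σ)

theorem cavityFactor_mem (c : Clause K) (l : Fin K) (y : Fin K → ℝ) (hy : ∀ j, |y j| ≤ 1)
    (e : Bool) : Real.exp (-maxTheta c) ≤ cavityFactor c l y e ∧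
      cavityFactor c l y e ≤ Real.exp (maxTheta c) := by
  rw [cavityFactor_eq]
  exact pav_mem (fun τ => Real.exp (theta c (Function.update τ l e))) y hy _ _ fun τ =>
    ⟨Real.exp_le_exp.2 (theta_mem c _).1, Real.exp_le_exp.2 (theta_mem c _).2⟩

theorem edgeFactor_mem (c : Clause K) (y : Fin K → ℝ) (hy : ∀ j, |y j| ≤ 1) :
    Real.exp (-maxTheta c) ≤ edgeFactor c y ∧ edgeFactor c y ≤ Real.exp (maxTheta c) := by
  rw [edgeFactor_eq]
  exact pav_mem (fun τ => Real.exp (theta c τ)) y hy _ _ fun τ =>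
    ⟨Real.exp_le_exp.2 (theta_mem c _).1, Real.exp_le_exp.2 (theta_mem c _).2⟩

theorem log_abs_of_mem {x t : ℝ} (h1 : Real.exp (-t) ≤ x) (h2 : x ≤ Real.exp t) :
    |Real.log x| ≤ t := by
  have hx : 0 < x := lt_of_lt_of_le (Real.exp_pos _) h1
  rw [abs_le]
  constructor
  · rw [Real.le_log_iff_exp_le hx]; exact h1
  · rw [Real.log_le_iff_le_exp hx]; exact h2

/-- Product formula for product-measure averages over arrays. -/
theorem pav_arr {l : ℕ} (f : Fin l → (Fin K → Bool) → ℝ) (y : Fin l × Fin K → ℝ) :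
    pav (fun τ : Fin l × Fin K → Bool => ∏ k, f k (fun j => τ (k, j))) y =
      ∏ k, pav (f k) (fun j => y (k, j)) := by
  have h := Finset.prod_univ_sum (fun _ : Fin l => (Finset.univ : Finset (Fin K → Bool)))
    (fun k τ => f k τ * ∏ j, pr (y (k, j)) (τ j))
  rw [Fintype.piFinset_univ] at h
  unfold pav
  rw [h]
  refine Fintype.sum_equiv (Equiv.curry (Fin l) (Fin K) Bool) _ _ fun τ => ?_
  rw [Finset.prod_mul_distrib]
  congr 1
  rw [← Finset.univ_product_univ, Finset.prod_product]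
  rfl

end Factor

end Vale.Agent.P168
end
end

section

section

set_option autoImplicit false
set_option linter.unusedSectionVars false

open MeasureTheory ProbabilityTheory Finset Filter
open scoped NNReal Topology

namespace Vale.Agent.P168.MP

section Inj

theorem sum_comp_inj {X ι ι' : Type} [Fintype X] [DecidableEq X] [Fintype ι] [DecidableEq ι]
    [Fintype ι'] [DecidableEq ι'] (e : ι → ι') (he : Function.Injective e) (p : ι' → X → ℝ)
    (hp : ∀ j, ∑ x, p j x = 1) (F : (ι → X) → ℝ) :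
    ∑ s : ι' → X, F (fun i => s (e i)) * ∏ j, p j (s j) =
      ∑ σ : ι → X, F σ * ∏ i, p (e i) (σ i) := by
  classical
  have h1 : ∀ s : ι' → X, F (fun i => s (e i)) * ∏ j, p j (s j) =
      ∑ σ : ι → X, F σ * (if (fun i => s (e i)) = σ then ∏ j, p j (s j) else 0) := by
    intro s
    rw [Finset.sum_eq_single (fun i => s (e i))]
    · rw [if_pos rfl]
    · intro σ _ hσ
      rw [if_neg (Ne.symm hσ), mul_zero]
    · intro h
      exact absurd (Finset.mem_univ _) h
  simp_rw [h1]
  rw [Finset.sum_comm]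
  refine Finset.sum_congr rfl fun σ _ => ?_
  rw [← Finset.mul_sum]
  congr 1
  have h2 : ∀ s : ι' → X, (if (fun i => s (e i)) = σ then ∏ j, p j (s j) else 0) =
      ∏ j, (if (∀ i, e i = j → s j = σ i) then p j (s j) else 0) := by
    intro s
    rw [Finset.prod_ite_zero]
    congr 1
    simp only [Finset.mem_univ, true_implies, eq_iff_iff]
    constructor
    · intro h j i hi
      rw [← hi]
      exact congrFun h i
    · intro h
      funext i
      exact h (e i) i rfl
  simp_rw [h2]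
  have h3 := Finset.prod_univ_sum (fun _ : ι' => (Finset.univ : Finset X))
    (fun j x => if (∀ i, e i = j → x = σ i) then p j x else 0)
  rw [Fintype.piFinset_univ] at h3
  rw [← h3]
  refine (Fintype.prod_of_injective e he _ _ ?_ ?_).symm
  · intro j hj
    have : ∀ x : X, (if (∀ i, e i = j → x = σ i) then p j x else 0) = p j x := by
      intro x
      rw [if_pos]
      intro i hi
      exact absurd ⟨i, hi⟩ hj
    simp_rw [this]
    exact hp j
  · intro i
    rw [Finset.sum_eq_single (σ i)]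
    · rw [if_pos]
      intro i' hi'
      rw [he hi']
    · intro x _ hx
      rw [if_neg]
      intro h
      exact hx (h i rfl)
    · intro h
      exact absurd (Finset.mem_univ _) h

theorem mp_comp_inj {X ι ι' : Type} [MeasurableSpace X] [Fintype ι] [Fintype ι']
    (μ : Measure X) [IsProbabilityMeasure μ] (e : ι → ι') (he : Function.Injective e) :
    MeasurePreserving (fun (w : ι' → X) (i : ι) => w (e i)) (Measure.pi fun _ => μ)
      (Measure.pi fun _ => μ) := by
  classical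
  have hm : Measurable (fun (w : ι' → X) (i : ι) => w (e i)) :=
    measurable_pi_iff.2 fun i => measurable_pi_apply _
  refine ⟨hm, ?_⟩
  refine (Measure.pi_eq fun s hs => ?_).symm
  rw [Measure.map_apply hm (MeasurableSet.univ_pi hs)]
  have h1 : (fun (w : ι' → X) (i : ι) => w (e i)) ⁻¹' Set.univ.pi s =
      Set.univ.pi fun j => ⋂ i, ⋂ (_ : e i = j), s i := by
    ext w
    simp only [Set.mem_preimage, Set.mem_pi, Set.mem_univ, true_implies, Set.mem_iInter]
    constructor
    · intro h j i hi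
      rw [← hi]
      exact h i
    · intro h i
      exact h (e i) i rfl
  rw [h1, Measure.pi_pi]
  refine (Fintype.prod_of_injective e he _ _ ?_ ?_).symm
  · intro j hj
    have : (⋂ i, ⋂ (_ : e i = j), s i) = Set.univ := by
      ext x
      simp only [Set.mem_iInter, Set.mem_univ, iff_true]
      intro i hi
      exact absurd ⟨i, hi⟩ hj
    rw [this, measure_univ]
  · intro i
    congr 1
    ext x
    simp only [Set.mem_iInter]
    constructor
    · intro h i' hi'
      rw [he hi']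
      exact h
    · intro h
      exact h i rfl

end Inj

section Mlin

variable {ι : Type} [Fintype ι] [DecidableEq ι]

theorem mlin_eq_pav (w : (ι → Bool) → ℝ) (y : ι → ℝ) : mlin w y = pav w y := rfl

theorem mlin_comp_inj {ι' : Type} [Fintype ι'] [DecidableEq ι'] (e : ι → ι')
    (he : Function.Injective e) (w : (ι → Bool) → ℝ) (y : ι' → ℝ) :
    mlin (fun σ : ι' → Bool => w fun i => σ (e i)) y = mlin w fun i => y (e i) := by
  rw [mlin_eq_pav, mlin_eq_pav]
  unfold pav
  exact sum_comp_inj e he (fun j b => pr (y j) b) (fun j => pr_sum (y j)) w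

end Mlin

section Trial

variable {r : ℕ} {m : Fin r → ℝ} {x : (Fin (r + 1) → U01) → ℝ}

theorem measurable_message {ι : Type} (hx : Measurable x) (i : ι) :
    Measurable fun z : (ι → U01) × (Fin r → ι → U01) => message x z.1 z.2 i := by
  unfold message
  refine hx.comp ?_
  rw [measurable_pi_iff]
  intro p
  refine Fin.cases ?_ (fun j => ?_) p
  · simp only [Fin.cons_zero]
    exact (measurable_pi_apply i).comp measurable_fst
  · simp only [Fin.cons_succ]
    exact (measurable_pi_apply i).comp ((measurable_pi_apply j).comp measurable_snd)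

variable {ι : Type} [Fintype ι] [DecidableEq ι]

theorem measurable_mlin_message (hx : Measurable x) (w : (ι → Bool) → ℝ) :
    Measurable fun z : (ι → U01) × (Fin r → ι → U01) => mlin w (message x z.1 z.2) := by
  unfold mlin
  refine Finset.measurable_fun_sum _ fun σ _ => ?_
  refine Measurable.const_mul ?_ _
  refine Finset.measurable_fun_prod _ fun j _ => ?_
  exact (((measurable_message hx j).mul_const _).const_add _).div_const _

theorem measurable_message_v (hx : Measurable x) (w : ι → U01) (i : ι) :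
    Measurable fun v : Fin r → ι → U01 => message x w v i := by
  unfold message
  refine hx.comp ?_
  rw [measurable_pi_iff]
  intro p
  refine Fin.cases ?_ (fun j => ?_) p
  · simp only [Fin.cons_zero]
    exact measurable_const
  · simp only [Fin.cons_succ]
    exact (measurable_pi_apply i).comp (measurable_pi_apply j)

theorem measurable_mlin_v (hx : Measurable x) (w : (ι → Bool) → ℝ) (u : ι → U01) :
    Measurable fun v : Fin r → ι → U01 => mlin w (message x u v) := by
  unfold mlin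
  refine Finset.measurable_fun_sum _ fun σ _ => ?_
  refine Measurable.const_mul ?_ _
  refine Finset.measurable_fun_prod _ fun j _ => ?_
  exact (((measurable_message_v hx u j).mul_const _).const_add _).div_const _

theorem message_abs (hx : ∀ w, x w ∈ Set.Icc (-1 : ℝ) 1) (w : ι → U01) (v : Fin r → ι → U01)
    (j : ι) : |message x w v j| ≤ 1 := abs_le.2 ⟨(hx _).1, (hx _).2⟩

/-- The value of a logarithmic shape for the trial `x`. -/
noncomputable def trF (m : Fin r → ℝ) (x : (Fin (r + 1) → U01) → ℝ) (φ : (ι → Bool) → ℝ) : ℝ :=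
  hierLog r m fun w v => mlin (fun σ => Real.exp (φ σ)) (message x w v)

theorem trF_bd (h : IsTrial r m x) (φ : (ι → Bool) → ℝ) (w : ι → U01) :
    PT.Bd (Real.exp (-‖φ‖)) (Real.exp ‖φ‖) fun v : Fin r → ι → U01 =>
      mlin (fun σ => Real.exp (φ σ)) (message x w v) := by
  have hmem : ∀ v : Fin r → ι → U01, Real.exp (-‖φ‖) ≤
      mlin (fun σ => Real.exp (φ σ)) (message x w v) ∧
      mlin (fun σ => Real.exp (φ σ)) (message x w v) ≤ Real.exp ‖φ‖ := by
    intro v
    rw [mlin_eq_pav]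
    refine pav_mem _ _ (message_abs h.2.2.2 w v) _ _ fun τ => ?_
    have := abs_le.1 (abs_le_norm φ τ)
    exact ⟨Real.exp_le_exp.2 this.1, Real.exp_le_exp.2 this.2⟩
  exact ⟨measurable_mlin_v h.2.2.1 _ w, fun v => (hmem v).1, fun v => (hmem v).2⟩

theorem trF_measurable (h : IsTrial r m x) (φ : (ι → Bool) → ℝ) :
    Measurable fun w : ι → U01 => Real.log (nest volume r m fun v =>
      mlin (fun σ => Real.exp (φ σ)) (message x w v)) := by
  refine Measurable.log ?_
  exact PT.measurable_nest volume r m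
    (fun (w : ι → U01) (v : Fin r → ι → U01) => mlin (fun σ => Real.exp (φ σ)) (message x w v))
    (measurable_mlin_message h.2.2.1 _)

theorem trF_integrable (h : IsTrial r m x) (φ : (ι → Bool) → ℝ) :
    Integrable fun w : ι → U01 => Real.log (nest volume r m fun v =>
      mlin (fun σ => Real.exp (φ σ)) (message x w v)) := by
  refine Integrable.of_bound (C := ‖φ‖) (trF_measurable h φ).aestronglyMeasurable
    (Filter.Eventually.of_forall fun w => ?_)
  rw [Real.norm_eq_abs]
  have h1 := PT.nest_mem (P := (volume : Measure (ι → U01))) (Real.exp_pos _) r m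
    (fun p => (h.2.1 p).1) _ (trF_bd h φ w)
  exact log_abs_of_mem h1.1 h1.2

theorem trF_le (h : IsTrial r m x) (φ φ' : (ι → Bool) → ℝ) :
    trF m x φ ≤ trF m x φ' + ‖φ - φ'‖ := by
  unfold trF hierLog
  have e : (∫ w : ι → U01, Real.log (nest volume r m fun v =>
      mlin (fun σ => Real.exp (φ' σ)) (message x w v))) + ‖φ - φ'‖ =
      ∫ w : ι → U01, (Real.log (nest volume r m fun v =>
      mlin (fun σ => Real.exp (φ' σ)) (message x w v)) + ‖φ - φ'‖) := by
    rw [integral_add (trF_integrable h φ') (integrable_const _)]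
    simp
  rw [e]
  refine integral_mono (trF_integrable h φ) ((trF_integrable h φ').add (integrable_const _))
    fun w => ?_
  show Real.log (nest volume r m fun v => mlin (fun σ => Real.exp (φ σ)) (message x w v)) ≤
    Real.log (nest volume r m fun v => mlin (fun σ => Real.exp (φ' σ)) (message x w v)) +
      ‖φ - φ'‖
  rw [add_comm]
  refine PT.nest_log_close (Real.exp_pos _) (Real.exp_pos _) (fun p => (h.2.1 p).1)
    (trF_bd h φ w) (trF_bd h φ' w) fun v => ?_
  rw [mlin_eq_pav, mlin_eq_pav, ← pav_const_mul]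
  refine pav_mono _ _ _ (message_abs h.2.2.2 w v) fun τ => ?_
  rw [← Real.exp_add, Real.exp_le_exp]
  have := (abs_le.1 (abs_le_norm (φ - φ') τ)).2
  rw [Pi.sub_apply] at this
  linarith

theorem trF_lip (h : IsTrial r m x) : LipschitzWith 1 (trF m x : ((ι → Bool) → ℝ) → ℝ) := by
  refine LipschitzWith.of_dist_le_mul fun φ φ' => ?_
  rw [NNReal.coe_one, one_mul, Real.dist_eq, dist_eq_norm, abs_le]
  have h1 := trF_le h φ φ'
  have h2 := trF_le h φ' φ
  rw [norm_sub_rev] at h2
  constructor <;> linarith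

theorem trF_zero (h : IsTrial r m x) : trF m x (0 : (ι → Bool) → ℝ) = 0 := by
  unfold trF hierLog
  have e : ∀ (w : ι → U01) (v : Fin r → ι → U01),
      mlin (fun σ : ι → Bool => Real.exp ((0 : (ι → Bool) → ℝ) σ)) (message x w v) = 1 := by
    intro w v
    rw [mlin_eq_pav]
    simp only [Pi.zero_apply, Real.exp_zero]
    exact pav_const 1 _
  simp_rw [e]
  have e2 : nest (volume : Measure (ι → U01)) r m (fun _ => (1 : ℝ)) = 1 :=
    PT.nest_const one_pos r m fun p => (h.2.1 p).1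
  rw [e2, Real.log_one]
  simp

theorem trF_emb (h : IsTrial r m x) {ι' : Type} [Fintype ι'] [DecidableEq ι'] (e : ι → ι')
    (he : Function.Injective e) (φ : (ι → Bool) → ℝ) :
    trF m x (fun σ : ι' → Bool => φ fun i => σ (e i)) = trF m x φ := by
  unfold trF hierLog
  have e1 : ∀ (w : ι' → U01) (v : Fin r → ι' → U01),
      mlin (fun σ : ι' → Bool => Real.exp (φ fun i => σ (e i))) (message x w v) =
      mlin (fun σ => Real.exp (φ σ)) (message x (fun i => w (e i)) fun p i => v p (e i)) := by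
    intro w v
    exact mlin_comp_inj e he (fun σ => Real.exp (φ σ)) (message x w v)
  simp_rw [e1]
  have hmp := mp_comp_inj (volume : Measure U01) e he
  have hmp' : MeasurePreserving (fun (w : ι' → U01) (i : ι) => w (e i)) volume volume := hmp
  have e2 : ∀ w : ι' → U01, (nest (volume : Measure (ι' → U01)) r m fun v =>
      mlin (fun σ => Real.exp (φ σ)) (message x (fun i => w (e i)) fun p i => v p (e i))) =
      nest (volume : Measure (ι → U01)) r m fun v =>
        mlin (fun σ => Real.exp (φ σ)) (message x (fun i => w (e i)) v) := by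
    intro w
    exact PT.nest_comp hmp' r m
      (fun v => mlin (fun σ => Real.exp (φ σ)) (message x (fun i => w (e i)) v))
      (trF_bd h φ (fun i => w (e i))).meas
  simp_rw [e2]
  have h3 := integral_map (μ := (volume : Measure (ι' → U01))) hmp'.measurable.aemeasurable
    (f := fun w : ι → U01 => Real.log (nest volume r m fun v =>
      mlin (fun σ => Real.exp (φ σ)) (message x w v)))
    (trF_measurable h φ).aestronglyMeasurable
  rw [hmp'.map_eq] at h3
  exact h3.symm

/-- A trial as a functional of shapes. -/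
noncomputable def trSF (K : ℕ) (h : IsTrial r m x) : ShapeFun K where
  F l φ := trF m x φ
  lip l := trF_lip h
  zero l := trF_zero h
  emb {l D} hlD φ := trF_emb h (fun p : Fin l × Fin K => (Fin.castLE hlD p.1, p.2))
    (fun a b hab => by
      rw [Prod.mk.injEq] at hab
      exact Prod.ext (Fin.castLE_injective hlD hab.1) hab.2) φ

end Trial

end Vale.Agent.P168.MP
end
end

section

section

set_option autoImplicit false
set_option linter.unusedSectionVars false

open MeasureTheory ProbabilityTheory Finset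
open scoped NNReal

namespace Vale.Agent.P168

open KS (unifK integral_unif)

variable {K N : ℕ}

section Exp

variable [NeZero N] (ρ : Measure (Clause K)) [IsProbabilityMeasure ρ]

end Exp

end Vale.Agent.P168
end
end

section

section

set_option autoImplicit false

open MeasureTheory ProbabilityTheory
open scoped NNReal

namespace Vale.Agent.P168.PT

section curry

variable {ι κ X : Type} [Fintype ι] [Fintype κ] [MeasurableSpace X]

theorem mp_uncurry (μ : Measure X) [SigmaFinite μ] :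
    MeasurePreserving (fun (u : ι → κ → X) (p : ι × κ) => u p.1 p.2)
      (Measure.pi fun _ => Measure.pi fun _ => μ) (Measure.pi fun _ => μ) := by
  have hm : Measurable (fun (u : ι → κ → X) (p : ι × κ) => u p.1 p.2) :=
    measurable_pi_lambda _ fun p => (measurable_pi_apply p.2).comp (measurable_pi_apply p.1)
  refine ⟨hm, ?_⟩
  symm
  refine Measure.pi_eq fun s hs => ?_
  rw [Measure.map_apply hm (MeasurableSet.univ_pi hs)]
  have h1 : (fun (u : ι → κ → X) (p : ι × κ) => u p.1 p.2) ⁻¹' (Set.univ.pi s) =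
      Set.univ.pi fun i => Set.univ.pi fun j => s (i, j) := by
    ext u
    simp only [Set.mem_preimage, Set.mem_univ_pi, Prod.forall]
  rw [h1, Measure.pi_pi]
  simp_rw [Measure.pi_pi]
  rw [Fintype.prod_prod_type]

theorem mp_curry (μ : Measure X) [SigmaFinite μ] :
    MeasurePreserving (fun (u : ι × κ → X) (i : ι) (j : κ) => u (i, j))
      (Measure.pi fun _ => μ) (Measure.pi fun _ => Measure.pi fun _ => μ) := by
  have hm : Measurable (fun (u : ι × κ → X) (i : ι) (j : κ) => u (i, j)) :=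
    measurable_pi_lambda _ fun i => measurable_pi_lambda _ fun j => measurable_pi_apply (i, j)
  refine ⟨hm, ?_⟩
  have h := (mp_uncurry (ι := ι) (κ := κ) μ)
  rw [← h.map_eq, Measure.map_map hm h.measurable]
  have : (fun (u : ι × κ → X) (i : ι) (j : κ) => u (i, j)) ∘
      (fun (u : ι → κ → X) (p : ι × κ) => u p.1 p.2) = id := rfl
  rw [this, Measure.map_id]

end curry

section hier

variable {ι : Type} [Fintype ι] {r : ℕ} {m : Fin r → ℝ}

theorem measurable_hierLog {Θ : Type} [MeasurableSpace Θ]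
    {Y : Θ → (ι → U01) → (Fin r → ι → U01) → ℝ}
    (hY : Measurable fun z : (Θ × (ι → U01)) × (Fin r → ι → U01) => Y z.1.1 z.1.2 z.2) :
    Measurable fun θ => hierLog r m (Y θ) := by
  have h1 : Measurable fun z : Θ × (ι → U01) => nest volume r m (Y z.1 z.2) :=
    measurable_nest volume r m (fun z : Θ × (ι → U01) => Y z.1 z.2) hY
  have h2 : Measurable fun z : Θ × (ι → U01) => Real.log (nest volume r m (Y z.1 z.2)) :=
    Real.measurable_log.comp h1
  exact (StronglyMeasurable.integral_prod_right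
    (f := fun θ w => Real.log (nest volume r m (Y θ w))) h2.stronglyMeasurable).measurable

theorem log_nest_abs_le (hm : ∀ p, 0 < m p) {W : Type} [MeasurableSpace W] {P : Measure W}
    [IsProbabilityMeasure P] {t : ℝ} {Y : (Fin r → W) → ℝ}
    (hY : Bd (Real.exp (-t)) (Real.exp t) Y) : |Real.log (nest P r m Y)| ≤ t := by
  have h := nest_mem (P := P) (Real.exp_pos _) r m hm Y hY
  exact log_abs_of_mem h.1 h.2

theorem hierLog_abs_le (hm : ∀ p, 0 < m p) {t : ℝ} {Y : (ι → U01) → (Fin r → ι → U01) → ℝ}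
    (hY : ∀ w, Bd (Real.exp (-t)) (Real.exp t) (Y w)) : |hierLog r m Y| ≤ t := by
  unfold hierLog
  have h := norm_integral_le_of_norm_le_const (μ := (volume : Measure (ι → U01)))
    (f := fun w => Real.log (nest volume r m (Y w))) (C := t)
    (Filter.Eventually.of_forall fun w => log_nest_abs_le hm (hY w))
  simpa using h

/-- Products over independent groups of messages. -/
theorem hierLog_prod (hm : ∀ p, 0 < m p) {n : ℕ} {κ : Type} [Fintype κ] {t : Fin n → ℝ}
    {E : Fin n → (κ → U01) → (Fin r → κ → U01) → ℝ}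
    (hE : ∀ k, Measurable fun z : (κ → U01) × (Fin r → κ → U01) => E k z.1 z.2)
    (hlo : ∀ k w v, Real.exp (-t k) ≤ E k w v) (hhi : ∀ k w v, E k w v ≤ Real.exp (t k)) :
    hierLog r m (ι := Fin n × κ) (fun w v => ∏ k, E k (fun j => w (k, j)) fun p j => v p (k, j)) =
      ∑ k, hierLog r m (E k) := by
  have hBd : ∀ k w, Bd (Real.exp (-t k)) (Real.exp (t k)) (E k w) := fun k w =>
    ⟨(hE k).comp (measurable_const.prodMk measurable_id), hlo k w, hhi k w⟩
  have hmn : ∀ k, Measurable fun w : κ → U01 => nest volume r m (E k w) := fun k =>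
    measurable_nest volume r m (E k) (hE k)
  have hint : ∀ k, Integrable (fun w : κ → U01 => Real.log (nest volume r m (E k w))) volume := by
    intro k
    refine Integrable.of_bound (Real.measurable_log.comp (hmn k)).aestronglyMeasurable (t k)
      (Filter.Eventually.of_forall fun w => ?_)
    exact log_nest_abs_le hm (hBd k w)
  have key : ∀ w : Fin n × κ → U01, nest volume r m
      (fun v : Fin r → Fin n × κ → U01 => ∏ k, E k (fun j => w (k, j)) fun p j => v p (k, j)) =
      ∏ k, nest volume r m (E k fun j => w (k, j)) := by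
    intro w
    have h1 := nest_prod (P := fun _ : Fin n => (volume : Measure (κ → U01))) r m hm
      (fun k => E k fun j => w (k, j)) (fun k v => (Real.exp_pos _).le.trans (hlo k _ v))
    rw [← h1]
    have hmeas : Measurable fun v : Fin r → (Fin n → κ → U01) =>
        ∏ k, E k (fun j => w (k, j)) fun p => v p k := by
      refine Finset.measurable_prod _ fun k _ => ?_
      refine (hBd k fun j => w (k, j)).meas.comp ?_
      exact measurable_pi_lambda _ fun p => (measurable_pi_apply k).comp (measurable_pi_apply p)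
    exact nest_comp (P' := (volume : Measure (Fin n × κ → U01)))
      (P := Measure.pi fun _ : Fin n => (volume : Measure (κ → U01)))
      (φ := fun (u : Fin n × κ → U01) (i : Fin n) (j : κ) => u (i, j))
      (mp_curry volume) r m _ hmeas
  unfold hierLog
  simp_rw [key]
  have hlog : ∀ w : Fin n × κ → U01, Real.log (∏ k, nest volume r m (E k fun j => w (k, j))) =
      ∑ k, Real.log (nest volume r m (E k fun j => w (k, j))) := by
    intro w
    refine Real.log_prod fun k _ => ?_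
    exact (lt_of_lt_of_le (Real.exp_pos _) (nest_mem (P := volume) (Real.exp_pos _) r m hm _
      (hBd k _)).1).ne'
  simp_rw [hlog]
  have hmp : ∀ k : Fin n, MeasurePreserving (fun (w : Fin n × κ → U01) (j : κ) => w (k, j))
      volume volume := fun k =>
    (measurePreserving_eval (fun _ : Fin n => (volume : Measure (κ → U01))) k).comp
      (mp_curry volume)
  rw [integral_finsetSum]
  · refine Finset.sum_congr rfl fun k _ => ?_
    have := (hmp k).map_eq
    rw [← this, integral_map (hmp k).measurable.aemeasurable]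
    rw [this]
    exact (hint k).aestronglyMeasurable
  · intro k _
    exact (hmp k).integrable_comp_of_integrable (hint k)

end hier

section edge

variable {K r : ℕ} {m : Fin r → ℝ} {x : (Fin (r + 1) → U01) → ℝ}

theorem measurable_message {ι : Type} [Fintype ι] (hx : Measurable x) (i : ι) :
    Measurable fun z : (ι → U01) × (Fin r → ι → U01) => message x z.1 z.2 i := by
  unfold message
  refine hx.comp (measurable_pi_iff.2 fun p => ?_)
  refine Fin.cases ?_ (fun p => ?_) p
  · simpa only [Fin.cons_zero, Function.comp_def] using     (measurable_pi_apply i).comp (measurable_fst (α := ι → U01) (β := Fin r → ι → U01))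
  · simpa only [Fin.cons_succ, Function.comp_def] using     (measurable_pi_apply i).comp ((measurable_pi_apply p).comp (measurable_snd (α := ι → U01) (β := Fin r → ι → U01)))

theorem measurable_edge {Z : Type} [MeasurableSpace Z] {c : Z → Clause K} (hc : Measurable c)
    {y : Z → Fin K → ℝ} (hy : ∀ j, Measurable fun z => y z j) :
    Measurable fun z => edgeFactor (c z) (y z) := by
  unfold edgeFactor
  refine Finset.measurable_sum _ fun σ _ => ?_
  refine (Real.measurable_exp.comp ((measurable_theta σ).comp hc)).mul ?_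
  exact Finset.measurable_prod _ fun j _ => ((hy j).mul_const _ |>.const_add 1).div_const 2

/-- One edge term. -/
noncomputable def tv (r : ℕ) (m : Fin r → ℝ) (x : (Fin (r + 1) → U01) → ℝ) (c : Clause K) : ℝ :=
  hierLog r m fun (w : Fin K → U01) v => edgeFactor c fun j => message x w v j

/-- Mean edge term. -/
noncomputable def tV0 (ρ : Measure (Clause K)) (r : ℕ) (m : Fin r → ℝ)
    (x : (Fin (r + 1) → U01) → ℝ) : ℝ := ∫ c, tv r m x c ∂ρ

theorem measurable_tv (hx : Measurable x) : Measurable fun c : Clause K => tv r m x c := by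
  unfold tv
  refine measurable_hierLog (Y := fun c (w : Fin K → U01) v =>
    edgeFactor c fun j => message x w v j) ?_
  refine measurable_edge (c := fun z : (Clause K × (Fin K → U01)) × (Fin r → Fin K → U01) => z.1.1)
    (measurable_fst.comp measurable_fst) fun j => ?_
  exact (measurable_message hx j).comp ((measurable_snd.comp measurable_fst).prodMk measurable_snd)

theorem edge_bd (hx : Measurable x) (hx1 : ∀ w, x w ∈ Set.Icc (-1 : ℝ) 1) (c : Clause K)
    (w : Fin K → U01) : Bd (Real.exp (-maxTheta c)) (Real.exp (maxTheta c))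
      fun v : Fin r → Fin K → U01 => edgeFactor c fun j => message x w v j := by
  have hy : ∀ (v : Fin r → Fin K → U01) j, |message x w v j| ≤ 1 := fun v j => by
    rw [abs_le]; exact hx1 _
  refine ⟨?_, fun v => (edgeFactor_mem c _ (hy v)).1, fun v => (edgeFactor_mem c _ (hy v)).2⟩
  exact measurable_edge measurable_const fun j =>
    (measurable_message hx j).comp (measurable_const.prodMk measurable_id)

theorem abs_tv_le (hm : ∀ p, 0 < m p) (hx : Measurable x) (hx1 : ∀ w, x w ∈ Set.Icc (-1 : ℝ) 1)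
    (c : Clause K) : |tv r m x c| ≤ maxTheta c :=
  hierLog_abs_le hm fun w => edge_bd hx hx1 c w

theorem integrable_tv {ρ : Measure (Clause K)} (hρ : Integrable maxTheta ρ)
    (hm : ∀ p, 0 < m p) (hx : Measurable x) (hx1 : ∀ w, x w ∈ Set.Icc (-1 : ℝ) 1) :
    Integrable (fun c => tv r m x c) ρ :=
  hρ.mono' (measurable_tv hx).aestronglyMeasurable
    (Filter.Eventually.of_forall fun c => abs_tv_le hm hx hx1 c)

/-- The edge part of the trial functional is linear in the number of edges. -/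
theorem trialV_eq0 {lam : ℝ≥0} {ρ : Measure (Clause K)} [IsProbabilityMeasure ρ]
    (hρ : Integrable maxTheta ρ) (hx : IsTrial r m x) :
    trialV lam ρ r m x = ((K - 1 : ℕ) : ℝ) * lam * tV0 ρ r m x := by
  obtain ⟨-, hm', hxm, hx1⟩ := hx
  have hm : ∀ p, 0 < m p := fun p => (hm' p).1
  unfold trialV
  have h1 : ∀ n : ℕ, (∫ ω : Fin n → Clause K,
      hierLog r m (fun w v => ∏ k, edgeFactor (ω k) fun j => message x w v (k, j))
      ∂(Measure.pi fun _ => ρ)) = n * tV0 ρ r m x := by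
    intro n
    have h2 : ∀ ω : Fin n → Clause K,
        hierLog r m (fun w v => ∏ k, edgeFactor (ω k) fun j => message x w v (k, j)) =
        ∑ k, tv r m x (ω k) := by
      intro ω
      exact hierLog_prod hm (t := fun k => maxTheta (ω k))
        (E := fun k (w : Fin K → U01) v => edgeFactor (ω k) fun j => message x w v j)
        (fun k => measurable_edge measurable_const fun j => measurable_message hxm j)
        (fun k w v => (edge_bd hxm hx1 (ω k) w).lo v) (fun k w v => (edge_bd hxm hx1 (ω k) w).hi v)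
    simp_rw [h2]
    rw [integral_finsetSum]
    · have h3 : ∀ k : Fin n, ∫ ω : Fin n → Clause K, tv r m x (ω k) ∂(Measure.pi fun _ => ρ) =
          tV0 ρ r m x := by
        intro k
        have hmp := measurePreserving_eval (fun _ : Fin n => ρ) k
        have h4 := integral_map (μ := Measure.pi fun _ : Fin n => ρ) hmp.measurable.aemeasurable
          (f := fun c => tv r m x c) (measurable_tv hxm).aestronglyMeasurable
        rw [hmp.map_eq] at h4
        exact h4.symm
      simp_rw [h3]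
      simp only [Finset.sum_const, Finset.card_univ, Fintype.card_fin, nsmul_eq_mul]
    · intro k _
      exact (measurePreserving_eval (fun _ : Fin n => ρ) k).integrable_comp_of_integrable
        (integrable_tv hρ hm hxm hx1)
  simp_rw [h1]
  rw [integral_mul_const, pois_mean, NNReal.coe_mul, NNReal.coe_natCast]

theorem integrable_maxTheta {ρ : Measure (Clause K)} {ν : Measure ℝ} (h : InClass K ρ ν) :
    Integrable maxTheta ρ := by
  have h1 : Integrable (fun c : Clause K => ∑ σ : Fin K → Bool, |theta c σ|) ρ :=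
    integrable_finsetSum _ fun σ _ => (h.theta_int σ).abs
  refine h1.mono' measurable_maxTheta.aestronglyMeasurable (Filter.Eventually.of_forall fun c => ?_)
  rw [Real.norm_eq_abs, abs_of_nonneg (maxTheta_nonneg c)]
  exact maxTheta_le_sum c

theorem tV_eq_tV0 {ρ : Measure (Clause K)} [IsProbabilityMeasure ρ] (hρ : Integrable maxTheta ρ)
    (hx : IsTrial r m x) (N : ℕ) [NeZero N] : tV ρ m x N = tV0 ρ r m x := by
  obtain ⟨-, hm', hxm, hx1⟩ := hx
  have hm : ∀ p, 0 < m p := fun p => (hm' p).1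
  have hg : Measurable fun z : Clause K × (Fin K → U01) =>
      Real.log (nest (lvM K) r m fun v => edgeFactor z.1 (msgs x z.2 v)) := by
    refine Real.measurable_log.comp (measurable_nest (lvM K) r m
      (fun (z : Clause K × (Fin K → U01)) v => edgeFactor z.1 (msgs x z.2 v)) ?_)
    refine measurable_edge
      (c := fun z : (Clause K × (Fin K → U01)) × (Fin r → Fin K → U01) => z.1.1)
      (measurable_fst.comp measurable_fst) fun j => ?_
    exact (measurable_message hxm j).comp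
      ((measurable_snd.comp measurable_fst).prodMk measurable_snd)
  have hgi : Integrable (fun z : Clause K × (Fin K → U01) =>
      Real.log (nest (lvM K) r m fun v => edgeFactor z.1 (msgs x z.2 v))) (ρ.prod (lvM K)) := by
    refine (hρ.comp_fst (lvM K)).mono' hg.aestronglyMeasurable
      (Filter.Eventually.of_forall fun z => ?_)
    exact log_nest_abs_le hm (edge_bd hxm hx1 z.1 z.2)
  have hmp : MeasurePreserving (fun y : Y3 K N => (y.1.1, y.2)) (cl3 ρ N) (ρ.prod (lvM K)) := by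
    have h1 : MeasurePreserving (Prod.fst : Clause K × (Fin K → Fin N) → Clause K)
        (ρ.prod (Measure.pi fun _ : Fin K => unif N)) ρ := measurePreserving_fst
    exact h1.prod (MeasurePreserving.id (lvM K))
  have h2 := integral_map (μ := cl3 ρ N) hmp.measurable.aemeasurable
    (f := fun z : Clause K × (Fin K → U01) =>
      Real.log (nest (lvM K) r m fun v => edgeFactor z.1 (msgs x z.2 v))) hg.aestronglyMeasurable
  rw [hmp.map_eq, integral_prod _ hgi] at h2
  exact h2.symm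

/-- The edge part of the trial functional is linear in the number of edges. -/
theorem trialV_eq {ρ : Measure (Clause K)} {ν : Measure ℝ} (h : InClass K ρ ν)
    (hx : IsTrial r m x) (lam : ℝ≥0) (N : ℕ) [NeZero N] :
    trialV lam ρ r m x = ((K - 1 : ℕ) : ℝ) * lam * tV ρ m x N := by
  have := h.prob_clause
  rw [tV_eq_tV0 (integrable_maxTheta h) hx N]
  exact trialV_eq0 (integrable_maxTheta h) hx

end edge

end Vale.Agent.P168.PT
end
end

section

section

/-!
The cavity part of the trial functional: the system with `n` cavity clauses and no interaction.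
-/

set_option autoImplicit false

open MeasureTheory ProbabilityTheory
open scoped NNReal

namespace Vale.Agent.P168.PT

namespace TU

section inj

variable {ι κ X : Type} [Fintype ι] [Fintype κ] [MeasurableSpace X]

/-- Selecting distinct coordinates is measure preserving. -/
theorem mp_inj (μ : Measure X) [IsProbabilityMeasure μ] {f : κ → ι} (hf : Function.Injective f) :
    MeasurePreserving (fun (u : ι → X) (k : κ) => u (f k))
      (Measure.pi fun _ => μ) (Measure.pi fun _ => μ) := by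
  classical
  have hm : Measurable (fun (u : ι → X) (k : κ) => u (f k)) :=
    measurable_pi_lambda _ fun k => measurable_pi_apply (f k)
  refine ⟨hm, ?_⟩
  symm
  refine Measure.pi_eq fun s hs => ?_
  rw [Measure.map_apply hm (MeasurableSet.univ_pi hs)]
  have h1 : (fun (u : ι → X) (k : κ) => u (f k)) ⁻¹' (Set.univ.pi s) =
      Set.univ.pi fun i => if h : ∃ k, f k = i then s h.choose else Set.univ := by
    ext u
    simp only [Set.mem_preimage, Set.mem_univ_pi]
    constructor
    · intro h i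
      split_ifs with hi
      · have := h hi.choose
        rwa [hi.choose_spec] at this
      · trivial
    · intro h k
      have h2 := h (f k)
      have h3 : ∃ k', f k' = f k := ⟨k, rfl⟩
      rw [dif_pos h3] at h2
      rwa [hf h3.choose_spec] at h2
  rw [h1, Measure.pi_pi]
  have h4 : ∀ i, μ (if h : ∃ k, f k = i then s h.choose else Set.univ) =
      if h : ∃ k, f k = i then μ (s h.choose) else 1 := by
    intro i
    split_ifs with hi
    · rfl
    · exact measure_univ
  simp_rw [h4]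
  rw [← Finset.prod_subset (Finset.subset_univ (Finset.univ.image f))]
  · rw [Finset.prod_image fun a _ b _ h => hf h]
    refine Finset.prod_congr rfl fun k _ => ?_
    have h3 : ∃ k', f k' = f k := ⟨k, rfl⟩
    rw [dif_pos h3, hf h3.choose_spec]
  · intro i _ hi
    rw [dif_neg]
    rintro ⟨k, rfl⟩
    exact hi (Finset.mem_image_of_mem f (Finset.mem_univ k))

end inj

section cav

variable {K r : ℕ} {m : Fin r → ℝ} {x : (Fin (r + 1) → U01) → ℝ}

/-- clause, distinguished index, level-`0` variables. -/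
abbrev DD (K : ℕ) : Type := (Clause K × Fin K) × (Fin K → U01)

/-- The law on `DD`. -/
noncomputable def dd (ρ : Measure (Clause K)) : Measure (DD K) := (ρ.prod (unif K)).prod (lvM K)

/-- Cavity factor. -/
noncomputable def cavD (x : (Fin (r + 1) → U01) → ℝ) (δ : DD K) (v : Fin r → Lv K) (e : Bool) :
    ℝ := cavityFactor δ.1.1 δ.1.2 (msgs x δ.2 v) e

theorem measurable_cav {Z : Type} [MeasurableSpace Z] {c : Z → Clause K} (hc : Measurable c)
    {l : Z → Fin K} (hl : Measurable l) {y : Z → Fin K → ℝ} (hy : ∀ j, Measurable fun z => y z j)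
    (e : Bool) : Measurable fun z => cavityFactor (c z) (l z) (y z) e := by
  have h1 : ∀ l0 : Fin K, Measurable fun p : Clause K × (Fin K → ℝ) =>
      cavityFactor p.1 l0 p.2 e := by
    intro l0
    unfold cavityFactor
    refine Finset.measurable_fun_sum _ fun σ _ => ?_
    split_ifs
    · refine (Real.measurable_exp.comp ((measurable_theta σ).comp measurable_fst)).mul ?_
      exact Finset.measurable_fun_prod _ fun j _ =>
        ((((measurable_pi_apply j).comp measurable_snd).mul_const _).const_add 1).div_const 2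
    · exact measurable_const
  have h2 : Measurable fun p : (Clause K × (Fin K → ℝ)) × Fin K =>
      cavityFactor p.1.1 p.2 p.1.2 e :=
    measurable_from_prod_countable_left (fun l0 => h1 l0)
  exact h2.comp ((hc.prodMk (measurable_pi_lambda _ hy)).prodMk hl)

theorem measurable_cavD {Z : Type} [MeasurableSpace Z] (hx : Measurable x) {δ : Z → DD K}
    (hδ : Measurable δ) {v : Z → Fin r → Lv K} (hv : Measurable v) (e : Bool) :
    Measurable fun z => cavD x (δ z) (v z) e := by
  unfold cavD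
  refine measurable_cav (measurable_fst.comp (measurable_fst.comp hδ))
    (measurable_snd.comp (measurable_fst.comp hδ)) (fun j => ?_) e
  exact (measurable_message hx j).comp ((measurable_snd.comp hδ).prodMk hv)

theorem cavD_mem (hx1 : ∀ w, x w ∈ Set.Icc (-1 : ℝ) 1) (δ : DD K) (v : Fin r → Lv K) (e : Bool) :
    Real.exp (-maxTheta δ.1.1) ≤ cavD x δ v e ∧ cavD x δ v e ≤ Real.exp (maxTheta δ.1.1) :=
  cavityFactor_mem _ _ _ (fun j => by unfold msgs; rw [abs_le]; exact hx1 _) e

/-- The one site weight. -/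
noncomputable def YS {c : ℕ} (x : (Fin (r + 1) → U01) → ℝ) (δ : Fin c → DD K) (h : ℝ)
    (v : Fin r → Fin c → Lv K) : ℝ :=
  ∑ e : Bool, Real.exp (h * spin e) * ∏ k, cavD x (δ k) (fun p => v p k) e

/-- The one site free energy. -/
noncomputable def GS (m : Fin r → ℝ) (x : (Fin (r + 1) → U01) → ℝ) {c : ℕ} (δ : Fin c → DD K)
    (h : ℝ) : ℝ := Real.log (nest (Measure.pi fun _ : Fin c => lvM K) r m (YS x δ h))

theorem measurable_YS {Z : Type} [MeasurableSpace Z] (hx : Measurable x) {c : ℕ}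
    {δ : Z → Fin c → DD K} (hδ : Measurable δ) {h : Z → ℝ} (hh : Measurable h)
    {v : Z → Fin r → Fin c → Lv K} (hv : Measurable v) :
    Measurable fun z => YS x (δ z) (h z) (v z) := by
  unfold YS
  refine Finset.measurable_fun_sum _ fun e _ => ?_
  refine (Real.measurable_exp.comp (hh.mul_const _)).mul ?_
  refine Finset.measurable_fun_prod _ fun k _ => ?_
  refine measurable_cavD hx ((measurable_pi_apply k).comp hδ) ?_ e
  exact measurable_pi_lambda _ fun p => (measurable_pi_apply k).comp ((measurable_pi_apply p).comp hv)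

/-- Bound for the one site free energy. -/
noncomputable def bS {c : ℕ} (δ : Fin c → DD K) (h : ℝ) : ℝ :=
  |h| + Real.log 2 + ∑ k, maxTheta (δ k).1.1

theorem YS_mem (hx1 : ∀ w, x w ∈ Set.Icc (-1 : ℝ) 1) {c : ℕ} (δ : Fin c → DD K) (h : ℝ)
    (v : Fin r → Fin c → Lv K) :
    Real.exp (-bS δ h) ≤ YS x δ h v ∧ YS x δ h v ≤ Real.exp (bS δ h) := by
  have h1 : ∀ e, Real.exp (-|h|) ≤ Real.exp (h * spin e) ∧
      Real.exp (h * spin e) ≤ Real.exp |h| := by
    intro e
    have : |h * spin e| = |h| := by rw [abs_mul, KS.spin_abs, mul_one]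
    have h2 := abs_le.1 this.le
    exact ⟨Real.exp_le_exp.2 h2.1, Real.exp_le_exp.2 h2.2⟩
  have h2 : ∀ e, Real.exp (-∑ k, maxTheta (δ k).1.1) ≤ ∏ k, cavD x (δ k) (fun p => v p k) e ∧
      ∏ k, cavD x (δ k) (fun p => v p k) e ≤ Real.exp (∑ k, maxTheta (δ k).1.1) := by
    intro e
    rw [← Finset.sum_neg_distrib, Real.exp_sum, Real.exp_sum]
    constructor
    · exact Finset.prod_le_prod (fun k _ => (Real.exp_pos _).le)
        fun k _ => (cavD_mem hx1 (δ k) _ e).1
    · exact Finset.prod_le_prod (fun k _ => (Real.exp_pos _).le.trans (cavD_mem hx1 (δ k) _ e).1)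
        fun k _ => (cavD_mem hx1 (δ k) _ e).2
  have hB : Real.exp (bS δ h) = 2 * (Real.exp |h| * Real.exp (∑ k, maxTheta (δ k).1.1)) := by
    unfold bS
    rw [Real.exp_add, Real.exp_add, Real.exp_log (by norm_num)]
    ring
  unfold YS
  rw [Fintype.sum_bool]
  constructor
  · have h3 : Real.exp (-bS δ h) ≤ Real.exp (-|h|) * Real.exp (-∑ k, maxTheta (δ k).1.1) := by
      rw [← Real.exp_add]
      refine Real.exp_le_exp.2 ?_
      unfold bS
      have := Real.log_nonneg (x := 2) (by norm_num)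
      linarith
    have h4 := mul_le_mul (h1 true).1 (h2 true).1 (Real.exp_pos _).le (Real.exp_pos _).le
    have h5 : 0 ≤ Real.exp (h * spin false) * ∏ k, cavD x (δ k) (fun p => v p k) false :=
      mul_nonneg (Real.exp_pos _).le ((Real.exp_pos _).le.trans (h2 false).1)
    linarith
  · rw [hB]
    have h4 : ∀ e, Real.exp (h * spin e) * ∏ k, cavD x (δ k) (fun p => v p k) e ≤
        Real.exp |h| * Real.exp (∑ k, maxTheta (δ k).1.1) := fun e =>
      mul_le_mul (h1 e).2 (h2 e).2 ((Real.exp_pos _).le.trans (h2 e).1) (Real.exp_pos _).le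
    linarith [h4 true, h4 false]

theorem YS_bd (hx : Measurable x) (hx1 : ∀ w, x w ∈ Set.Icc (-1 : ℝ) 1) {c : ℕ}
    (δ : Fin c → DD K) (h : ℝ) : Bd (Real.exp (-bS δ h)) (Real.exp (bS δ h)) (YS x δ h) :=
  ⟨measurable_YS hx measurable_const measurable_const measurable_id, fun v => (YS_mem hx1 δ h v).1,
    fun v => (YS_mem hx1 δ h v).2⟩

theorem abs_GS_le (hm : ∀ p, 0 < m p) (hx : Measurable x) (hx1 : ∀ w, x w ∈ Set.Icc (-1 : ℝ) 1)
    {c : ℕ} (δ : Fin c → DD K) (h : ℝ) : |GS m x δ h| ≤ bS δ h :=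
  log_nest_abs_le hm (YS_bd hx hx1 δ h)

theorem measurable_GS {Z : Type} [MeasurableSpace Z] (hx : Measurable x) {c : ℕ}
    {δ : Z → Fin c → DD K} (hδ : Measurable δ) {h : Z → ℝ} (hh : Measurable h) :
    Measurable fun z => GS m x (δ z) (h z) := by
  unfold GS
  refine Real.measurable_log.comp (measurable_nest _ r m (fun z => YS x (δ z) (h z)) ?_)
  exact measurable_YS hx (hδ.comp measurable_fst) (hh.comp measurable_fst) measurable_snd

end cav

section enum

variable {N n : ℕ}

/-- Number of clauses attached to the site `u`. -/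
def cnt (s : Fin n → Fin N) (u : Fin N) : ℕ := (Finset.univ.filter fun k => s k = u).card

/-- Enumeration of the clauses attached to the site `u`. -/
def enm (s : Fin n → Fin N) (u : Fin N) : Fin (cnt s u) → Fin n :=
  (Finset.univ.filter fun k => s k = u).orderEmbOfFin rfl

theorem enm_inj (s : Fin n → Fin N) (u : Fin N) : Function.Injective (enm s u) :=
  ((Finset.univ.filter fun k => s k = u).orderEmbOfFin rfl).injective

theorem s_enm (s : Fin n → Fin N) (u : Fin N) (i : Fin (cnt s u)) : s (enm s u i) = u := by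
  have h := Finset.orderEmbOfFin_mem (Finset.univ.filter fun k => s k = u) rfl i
  exact (Finset.mem_filter.1 h).2

theorem prod_enm (s : Fin n → Fin N) (u : Fin N) (f : Fin n → ℝ) :
    ∏ i, f (enm s u i) = ∏ k, if s k = u then f k else 1 := by
  rw [← Finset.prod_filter]
  conv_rhs => rw [← Finset.map_orderEmbOfFin_univ (Finset.univ.filter fun k => s k = u) rfl]
  rw [Finset.prod_map]
  rfl

theorem sum_enm_le (s : Fin n → Fin N) (u : Fin N) (f : Fin n → ℝ) (hf : ∀ k, 0 ≤ f k) :
    ∑ i, f (enm s u i) ≤ ∑ k, f k := by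
  rw [← Finset.sum_image (f := f) (fun a _ b _ h => enm_inj s u h)]
  exact Finset.sum_le_sum_of_subset_of_nonneg (Finset.subset_univ _) fun k _ _ => hf k

theorem cnt_cons (i u : Fin N) (s : Fin n → Fin N) :
    cnt (Fin.cons i s : Fin (n + 1) → Fin N) u = (if i = u then 1 else 0) + cnt s u := by
  unfold cnt
  rw [Finset.card_filter, Finset.card_filter, Fin.sum_univ_succ]
  simp only [Fin.cons_zero, Fin.cons_succ]

end enum

section factor

variable {K N n r : ℕ} {m : Fin r → ℝ} {x : (Fin (r + 1) → U01) → ℝ}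

/-- Factorization over the sites. -/
theorem sum_factor (δ : Fin n → DD K) (s : Fin n → Fin N) (h : Fin N → ℝ)
    (v : Fin r → Fin n → Lv K) :
    (∑ σ : Fin N → Bool, Real.exp (∑ u, h u * spin (σ u)) *
      ∏ k, cavD x (δ k) (fun p => v p k) (σ (s k))) =
    ∏ u, YS x (fun i => δ (enm s u i)) (h u) (fun p i => v p (enm s u i)) := by
  unfold YS
  rw [Finset.prod_univ_sum, Fintype.piFinset_univ]
  refine Finset.sum_congr rfl fun σ _ => ?_
  rw [Finset.prod_mul_distrib, Real.exp_sum]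
  congr 1
  have h1 : ∀ u, ∏ i, cavD x (δ (enm s u i)) (fun p => v p (enm s u i)) (σ u) =
      ∏ k, if s k = u then cavD x (δ k) (fun p => v p k) (σ u) else 1 := fun u =>
    prod_enm s u fun k => cavD x (δ k) (fun p => v p k) (σ u)
  simp_rw [h1]
  rw [Finset.prod_comm]
  refine Finset.prod_congr rfl fun k _ => ?_
  rw [Finset.prod_ite_eq]
  simp only [Finset.mem_univ, ↓reduceIte]

theorem mp_site (s : Fin n → Fin N) {X : Type} [MeasurableSpace X] (μ : Measure X)
    [IsProbabilityMeasure μ] :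
    MeasurePreserving (fun (U : Fin N → Fin n → X) (k : Fin n) => U (s k) k)
      (Measure.pi fun _ => Measure.pi fun _ => μ) (Measure.pi fun _ => μ) := by
  have hf : Function.Injective fun k : Fin n => (s k, k) := fun a b h => (Prod.mk.inj h).2
  exact (mp_inj μ hf).comp (mp_uncurry μ)

theorem nest_factor (hm : ∀ p, 0 < m p) (hx : Measurable x)
    (hx1 : ∀ w, x w ∈ Set.Icc (-1 : ℝ) 1) (δ : Fin n → DD K) (s : Fin n → Fin N)
    (h : Fin N → ℝ) :
    nest (Measure.pi fun _ : Fin n => lvM K) r m (fun v => ∑ σ : Fin N → Bool,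
      Real.exp (∑ u, h u * spin (σ u)) * ∏ k, cavD x (δ k) (fun p => v p k) (σ (s k))) =
    ∏ u, nest (Measure.pi fun _ : Fin (cnt s u) => lvM K) r m
      (YS x (fun i => δ (enm s u i)) (h u)) := by
  have hF : ∀ u, Measurable fun v : Fin r → Fin n → Lv K =>
      YS x (fun i => δ (enm s u i)) (h u) (fun p i => v p (enm s u i)) := by
    intro u
    refine measurable_YS hx measurable_const measurable_const ?_
    exact measurable_pi_lambda _ fun p => measurable_pi_lambda _ fun i =>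
      (measurable_pi_apply _).comp (measurable_pi_apply p)
  simp_rw [sum_factor]
  rw [← nest_comp (P' := Measure.pi fun _ : Fin N => Measure.pi fun _ : Fin n => lvM K)
    (mp_site s (lvM K)) r m
    (fun v => ∏ u, YS x (fun i => δ (enm s u i)) (h u) (fun p i => v p (enm s u i)))
    (Finset.measurable_fun_prod _ fun u _ => hF u)]
  have h1 : ∀ V : Fin r → Fin N → Fin n → Lv K,
      (∏ u, YS x (fun i => δ (enm s u i)) (h u)
        (fun p i => (fun (U : Fin N → Fin n → Lv K) (k : Fin n) => U (s k) k) (V p)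
          (enm s u i))) =
      ∏ u, (fun (u : Fin N) (v : Fin r → Fin n → Lv K) =>
        YS x (fun i => δ (enm s u i)) (h u) (fun p i => v p (enm s u i))) u fun p => V p u := by
    intro V
    refine Finset.prod_congr rfl fun u _ => ?_
    dsimp only
    congr 1
    funext p i
    rw [s_enm s u i]
  simp_rw [h1]
  rw [nest_prod r m hm (fun (u : Fin N) (v : Fin r → Fin n → Lv K) =>
        YS x (fun i => δ (enm s u i)) (h u) (fun p i => v p (enm s u i)))
    fun u v => (Real.exp_pos _).le.trans (YS_mem hx1 _ _ _).1]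
  refine Finset.prod_congr rfl fun u _ => ?_
  exact nest_comp (P' := Measure.pi fun _ : Fin n => lvM K)
    (P := Measure.pi fun _ : Fin (cnt s u) => lvM K)
    (φ := fun (w : Fin n → Lv K) (i : Fin (cnt s u)) => w (enm s u i))
    (mp_inj (lvM K) (enm_inj s u)) r m _
    (measurable_YS hx measurable_const measurable_const measurable_id)

theorem FF_zero (hm : ∀ p, 0 < m p) (hx : Measurable x)
    (hx1 : ∀ w, x w ∈ Set.Icc (-1 : ℝ) 1) (ω : Om K N 0 n) :
    FF m x ω = ∑ u, GS m x (fun i => (ω.2.1 (enm (fun k => (ω.2.1 k).2) u i)).1) (ω.2.2 u) := by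
  unfold FF
  have h1 : ∀ (v : Fin r → Fin n → Lv K) (σ : Fin N → Bool), wt x ω v σ =
      Real.exp (∑ u, ω.2.2 u * spin (σ u)) *
        ∏ k, cavD x (ω.2.1 k).1 (fun p => v p k) (σ ((fun k => (ω.2.1 k).2) k)) := by
    intro v σ
    unfold wt
    rw [Finset.univ_eq_empty, Finset.prod_empty, one_mul]
    rfl
  simp_rw [h1]
  rw [nest_factor hm hx hx1 (fun k => (ω.2.1 k).1) (fun k => (ω.2.1 k).2) ω.2.2]
  unfold GS
  refine Real.log_prod fun u _ => ?_
  exact (lt_of_lt_of_le (Real.exp_pos _) (nest_mem (Real.exp_pos _) r m hm _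
    (YS_bd hx hx1 _ _)).1).ne'

end factor

section integrate

variable {K N r : ℕ} {m : Fin r → ℝ} {x : (Fin (r + 1) → U01) → ℝ}
  {ρ : Measure (Clause K)} {ν : Measure ℝ} [IsProbabilityMeasure ρ] [IsProbabilityMeasure ν]
  [NeZero N] [NeZero K]

instance dd_prob : IsProbabilityMeasure (dd ρ) := by
  unfold dd; infer_instance

/-- The mean one site free energy with `c` cavity clauses. -/
noncomputable def uC (ρ : Measure (Clause K)) (ν : Measure ℝ) (m : Fin r → ℝ)
    (x : (Fin (r + 1) → U01) → ℝ) (c : ℕ) : ℝ :=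
  ∫ z : (Fin c → DD K) × ℝ, GS m x z.1 z.2 ∂((Measure.pi fun _ => dd ρ).prod ν)

theorem integrable_theta_dd (hρ : Integrable maxTheta ρ) {n : ℕ} (k : Fin n) :
    Integrable (fun δ : Fin n → DD K => maxTheta (δ k).1.1) (Measure.pi fun _ => dd ρ) := by
  have h1 : MeasurePreserving (fun δ : DD K => δ.1.1) (dd ρ) ρ :=
    measurePreserving_fst.comp measurePreserving_fst
  exact ((h1.comp (measurePreserving_eval (fun _ : Fin n => dd ρ) k)).integrable_comp_of_integrable
    hρ)

theorem integrable_bS (hρ : Integrable maxTheta ρ) (hν : Integrable (fun h => h) ν) (c : ℕ) :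
    Integrable (fun z : (Fin c → DD K) × ℝ => bS z.1 z.2) ((Measure.pi fun _ => dd ρ).prod ν) := by
  unfold bS
  refine ((hν.abs.comp_snd _).add (integrable_const _)).add ?_
  exact (integrable_finsetSum _ fun k _ => integrable_theta_dd hρ k).comp_fst ν

theorem integrable_GS (hρ : Integrable maxTheta ρ) (hν : Integrable (fun h => h) ν)
    (hm : ∀ p, 0 < m p) (hx : Measurable x) (hx1 : ∀ w, x w ∈ Set.Icc (-1 : ℝ) 1) (c : ℕ) :
    Integrable (fun z : (Fin c → DD K) × ℝ => GS m x z.1 z.2)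
      ((Measure.pi fun _ => dd ρ).prod ν) :=
  (integrable_bS hρ hν c).mono' (measurable_GS hx measurable_fst measurable_snd).aestronglyMeasurable
    (Filter.Eventually.of_forall fun z => abs_GS_le hm hx hx1 z.1 z.2)

theorem abs_uC_le (hρ : Integrable maxTheta ρ) (hν : Integrable (fun h => h) ν)
    (hm : ∀ p, 0 < m p) (hx : Measurable x) (hx1 : ∀ w, x w ∈ Set.Icc (-1 : ℝ) 1) (c : ℕ) :
    |uC ρ ν m x c| ≤ ((∫ h, |h| ∂ν) + Real.log 2) + (∫ c, maxTheta c ∂ρ) * c := by
  unfold uC
  have h1 : |∫ z : (Fin c → DD K) × ℝ, GS m x z.1 z.2 ∂((Measure.pi fun _ => dd ρ).prod ν)| ≤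
      ∫ z : (Fin c → DD K) × ℝ, bS z.1 z.2 ∂((Measure.pi fun _ => dd ρ).prod ν) := by
    refine (abs_integral_le_integral_abs).trans ?_
    exact integral_mono (integrable_GS hρ hν hm hx hx1 c).abs (integrable_bS hρ hν c)
      fun z => abs_GS_le hm hx hx1 z.1 z.2
  refine h1.trans (le_of_eq ?_)
  unfold bS
  have i1 : Integrable (fun z : (Fin c → DD K) × ℝ => |z.2|) ((Measure.pi fun _ => dd ρ).prod ν) :=
    hν.abs.comp_snd _
  have i2 : Integrable (fun z : (Fin c → DD K) × ℝ => ∑ k, maxTheta (z.1 k).1.1)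
      ((Measure.pi fun _ => dd ρ).prod ν) :=
    (integrable_finsetSum _ fun k _ => integrable_theta_dd hρ k).comp_fst ν
  have i3 : Integrable (fun z : (Fin c → DD K) × ℝ => |z.2| + Real.log 2)
      ((Measure.pi fun _ => dd ρ).prod ν) := i1.add (integrable_const _)
  rw [integral_add i3 i2, integral_add i1 (integrable_const _)]
  have e1 : ∫ z : (Fin c → DD K) × ℝ, |z.2| ∂((Measure.pi fun _ => dd ρ).prod ν) = ∫ h, |h| ∂ν := by
    have := integral_fun_snd (μ := Measure.pi fun _ : Fin c => dd ρ) (ν := ν) fun h : ℝ => |h|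
    simpa using this
  have e2 : ∫ z : (Fin c → DD K) × ℝ, ∑ k, maxTheta (z.1 k).1.1
      ∂((Measure.pi fun _ => dd ρ).prod ν) = (∫ c, maxTheta c ∂ρ) * c := by
    have h2 := integral_fun_fst (μ := Measure.pi fun _ : Fin c => dd ρ) (ν := ν)
      fun δ : Fin c → DD K => ∑ k, maxTheta (δ k).1.1
    have h3 : ∫ δ : Fin c → DD K, ∑ k, maxTheta (δ k).1.1 ∂(Measure.pi fun _ => dd ρ) =
        (∫ c, maxTheta c ∂ρ) * c := by
      rw [integral_finsetSum _ fun k _ => integrable_theta_dd hρ k]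
      have h4 : ∀ k : Fin c, ∫ δ : Fin c → DD K, maxTheta (δ k).1.1 ∂(Measure.pi fun _ => dd ρ) =
          ∫ c, maxTheta c ∂ρ := by
        intro k
        have hmp : MeasurePreserving (fun δ : Fin c → DD K => (δ k).1.1)
            (Measure.pi fun _ => dd ρ) ρ :=
          (measurePreserving_fst.comp measurePreserving_fst).comp
            (measurePreserving_eval (fun _ : Fin c => dd ρ) k)
        have h5 := integral_map (μ := Measure.pi fun _ : Fin c => dd ρ)
          hmp.measurable.aemeasurable (f := maxTheta) measurable_maxTheta.aestronglyMeasurable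
        rw [hmp.map_eq] at h5
        exact h5.symm
      simp_rw [h4]
      simp only [Finset.sum_const, Finset.card_univ, Fintype.card_fin, nsmul_eq_mul, mul_comm]
    rw [h3] at h2
    simpa only [probReal_univ, smul_eq_mul, one_mul] using h2
  rw [e1, e2]
  simp

theorem expGrowth2_uC (hρ : Integrable maxTheta ρ) (hν : Integrable (fun h => h) ν)
    (hm : ∀ p, 0 < m p) (hx : Measurable x) (hx1 : ∀ w, x w ∈ Set.Icc (-1 : ℝ) 1) :
    ExpGrowth2 fun k _ => uC ρ ν m x k := by
  have h1 : ExpGrowth (uC ρ ν m x) := by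
    refine expGrowth_of_linear (abs_uC_le hρ hν hm hx hx1) ?_ ?_
    · have := integral_nonneg (μ := ν) (f := fun h : ℝ => |h|) fun h => abs_nonneg h
      have := Real.log_nonneg (x := 2) (by norm_num)
      positivity
    · exact integral_nonneg fun c => maxTheta_nonneg c
  obtain ⟨C, A, hC, hA, h⟩ := h1
  refine ⟨C, A, hC, hA, fun k l => (h k).trans ?_⟩
  refine mul_le_mul_of_nonneg_left ?_ hC
  exact le_mul_of_one_le_right (by positivity) (one_le_pow₀ hA)

/-- Separation of the sites. -/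
def sep {n : ℕ} (z : (Fin n → C4 K N) × (Fin N → ℝ)) :
    (Fin n → Fin N) × ((Fin n → DD K) × (Fin N → ℝ)) :=
  (fun k => (z.1 k).2, (fun k => (z.1 k).1, z.2))

theorem sep_mp (n : ℕ) : MeasurePreserving (sep (K := K) (N := N) (n := n))
    ((Measure.pi fun _ : Fin n => c4 ρ N).prod (Measure.pi fun _ : Fin N => ν))
    ((Measure.pi fun _ : Fin n => unif N).prod
      ((Measure.pi fun _ : Fin n => dd ρ).prod (Measure.pi fun _ : Fin N => ν))) := by
  have h1 : MeasurePreserving (fun η : Fin n → C4 K N => (fun k => (η k).1, fun k => (η k).2))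
      (Measure.pi fun _ : Fin n => c4 ρ N)
      ((Measure.pi fun _ : Fin n => dd ρ).prod (Measure.pi fun _ : Fin n => unif N)) :=
    measurePreserving_arrowProdEquivProdArrow (DD K) (Fin N) (Fin n) (fun _ => dd ρ)
      (fun _ => unif N)
  have h2 := (Measure.measurePreserving_swap (μ := Measure.pi fun _ : Fin n => dd ρ)
    (ν := Measure.pi fun _ : Fin n => unif N)).comp h1
  have h3 := h2.prod (MeasurePreserving.id (Measure.pi fun _ : Fin N => ν))
  exact (measurePreserving_prodAssoc (Measure.pi fun _ : Fin n => unif N)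
    (Measure.pi fun _ : Fin n => dd ρ) (Measure.pi fun _ : Fin N => ν)).comp h3

/-- The free energy as a sum over sites. -/
noncomputable def Gs (m : Fin r → ℝ) (x : (Fin (r + 1) → U01) → ℝ) {n : ℕ}
    (z : (Fin n → Fin N) × ((Fin n → DD K) × (Fin N → ℝ))) : ℝ :=
  ∑ u, GS m x (fun i => z.2.1 (enm z.1 u i)) (z.2.2 u)

omit [NeZero N] [NeZero K] in
theorem measurable_Gs (hx : Measurable x) {n : ℕ} :
    Measurable (Gs (K := K) (N := N) (n := n) m x) := by
  refine measurable_from_prod_countable_right (f := Gs m x) fun s => ?_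
  unfold Gs
  refine Finset.measurable_fun_sum _ fun u _ => ?_
  refine measurable_GS hx (δ := fun (z : (Fin n → DD K) × (Fin N → ℝ)) i => z.1 (enm s u i))
    (h := fun z => z.2 u) ?_ ((measurable_pi_apply u).comp measurable_snd)
  exact measurable_pi_lambda _ fun i => (measurable_pi_apply _).comp measurable_fst

theorem integrable_Gs (hρ : Integrable maxTheta ρ) (hν : Integrable (fun h => h) ν)
    (hm : ∀ p, 0 < m p) (hx : Measurable x) (hx1 : ∀ w, x w ∈ Set.Icc (-1 : ℝ) 1) (n : ℕ) :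
    Integrable (Gs (K := K) (N := N) (n := n) m x) ((Measure.pi fun _ : Fin n => unif N).prod
      ((Measure.pi fun _ : Fin n => dd ρ).prod (Measure.pi fun _ : Fin N => ν))) := by
  have h1 : Integrable (fun z : (Fin n → DD K) × (Fin N → ℝ) =>
      ∑ u : Fin N, (|z.2 u| + Real.log 2 + ∑ k, maxTheta (z.1 k).1.1))
      ((Measure.pi fun _ : Fin n => dd ρ).prod (Measure.pi fun _ : Fin N => ν)) := by
    refine integrable_finsetSum _ fun u _ => ((Integrable.comp_snd (f := fun h : Fin N → ℝ => |h u|)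
      ?_ _).add (integrable_const _)).add ?_
    · exact (measurePreserving_eval (fun _ : Fin N => ν) u).integrable_comp_of_integrable
        (g := fun h : ℝ => |h|) hν.abs
    · exact (integrable_finsetSum _ fun k _ => integrable_theta_dd hρ k).comp_fst _
  refine (h1.comp_snd _).mono' (measurable_Gs hx).aestronglyMeasurable
    (Filter.Eventually.of_forall fun z => ?_)
  unfold Gs
  refine (Finset.abs_sum_le_sum_abs _ _).trans (Finset.sum_le_sum fun u _ => ?_)
  refine (abs_GS_le hm hx hx1 _ _).trans ?_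
  unfold bS
  have := sum_enm_le z.1 u (fun k => maxTheta (z.2.1 k).1.1) fun k => maxTheta_nonneg _
  linarith

theorem TT_zero (hρ : Integrable maxTheta ρ) (hν : Integrable (fun h => h) ν)
    (hm : ∀ p, 0 < m p) (hx : Measurable x) (hx1 : ∀ w, x w ∈ Set.Icc (-1 : ℝ) 1) (n : ℕ) :
    TT ρ ν m x N 0 n =
      ∫ s : Fin n → Fin N, ∑ u, uC ρ ν m x (cnt s u) ∂(Measure.pi fun _ => unif N) := by
  have hmp : MeasurePreserving (fun ω : Om K N 0 n => sep ω.2) (om ρ ν N 0 n)
      ((Measure.pi fun _ : Fin n => unif N).prod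
        ((Measure.pi fun _ : Fin n => dd ρ).prod (Measure.pi fun _ : Fin N => ν))) :=
    (sep_mp n).comp measurePreserving_snd
  have h1 := integral_map (μ := om ρ ν N 0 n) hmp.measurable.aemeasurable (f := Gs m x)
    (measurable_Gs hx).aestronglyMeasurable
  rw [hmp.map_eq, integral_prod _ (integrable_Gs hρ hν hm hx hx1 n)] at h1
  have h2 : TT ρ ν m x N 0 n = ∫ ω, Gs m x (sep ω.2) ∂(om ρ ν N 0 n) := by
    unfold TT
    refine integral_congr_ae (Filter.Eventually.of_forall fun ω => ?_)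
    exact FF_zero hm hx hx1 ω
  rw [h2, ← h1]
  refine integral_congr_ae (Filter.Eventually.of_forall fun s => ?_)
  dsimp only
  unfold Gs
  have hmp2 : ∀ u, MeasurePreserving (fun z : (Fin n → DD K) × (Fin N → ℝ) =>
      ((fun i => z.1 (enm s u i), z.2 u) : (Fin (cnt s u) → DD K) × ℝ))
      ((Measure.pi fun _ : Fin n => dd ρ).prod (Measure.pi fun _ : Fin N => ν))
      ((Measure.pi fun _ : Fin (cnt s u) => dd ρ).prod ν) := fun u =>
    (mp_inj (dd ρ) (enm_inj s u)).prod (measurePreserving_eval (fun _ : Fin N => ν) u)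
  rw [integral_finsetSum]
  · refine Finset.sum_congr rfl fun u _ => ?_
    have h3 := integral_map (μ := (Measure.pi fun _ : Fin n => dd ρ).prod
      (Measure.pi fun _ : Fin N => ν)) (hmp2 u).measurable.aemeasurable
      (f := fun z : (Fin (cnt s u) → DD K) × ℝ => GS m x z.1 z.2)
      (measurable_GS hx measurable_fst measurable_snd).aestronglyMeasurable
    rw [(hmp2 u).map_eq] at h3
    exact h3.symm
  · intro u _
    exact (hmp2 u).integrable_comp_of_integrable (integrable_GS hρ hν hm hx hx1 _)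

end integrate

section average

/-- Averages over the sites of a function of the number of clauses attached to a site. -/
theorem integral_cnt {N : ℕ} [NeZero N] (f : ℕ → ℝ) (u : Fin N) (n : ℕ) :
    ∫ s : Fin n → Fin N, f (cnt s u) ∂(Measure.pi fun _ => unif N) =
      bmix (1 / (N : ℝ)) (1 - 1 / (N : ℝ)) (fun k _ => f k) n 0 0 := by
  have hN : (N : ℝ) ≠ 0 := by exact_mod_cast NeZero.ne N
  have key := binom_iter (fun n k _ => ∫ s : Fin n → Fin N, f (k + cnt s u)
    ∂(Measure.pi fun _ => unif N)) (1 / (N : ℝ)) (1 - 1 / (N : ℝ)) ?_ n 0 0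
  · simp only [zero_add] at key
    rw [key]
    have h0 : ∀ k : ℕ, ∫ s : Fin 0 → Fin N, f (k + cnt s u) ∂(Measure.pi fun _ => unif N) =
        f k := by
      intro k
      have : ∀ s : Fin 0 → Fin N, f (k + cnt s u) = f k := by
        intro s
        simp [cnt]
      simp_rw [this]
      simp
    simp_rw [h0]
  · intro n k l
    have hmp := cons_mp (unif N) n
    have h1 := integral_map (μ := (unif N).prod (Measure.pi fun _ : Fin n => unif N))
      hmp.measurable.aemeasurable (f := fun s : Fin (n + 1) → Fin N => f (k + cnt s u))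
      (Measurable.of_discrete (f := fun s : Fin (n + 1) → Fin N =>
        f (k + cnt s u))).aestronglyMeasurable
    rw [hmp.map_eq] at h1
    rw [h1, integral_prod _ Integrable.of_finite, KS.integral_unif]
    have h2 : ∀ i : Fin N, ∫ s : Fin n → Fin N, f (k + cnt (Fin.cons i s : Fin (n + 1) → Fin N) u)
        ∂(Measure.pi fun _ => unif N) =
        if i = u then ∫ s : Fin n → Fin N, f (k + 1 + cnt s u) ∂(Measure.pi fun _ => unif N)
        else ∫ s : Fin n → Fin N, f (k + cnt s u) ∂(Measure.pi fun _ => unif N) := by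
      intro i
      split_ifs with hi
      · refine integral_congr_ae (Filter.Eventually.of_forall fun s => ?_)
        dsimp only
        rw [cnt_cons, if_pos hi, ← add_assoc]
      · refine integral_congr_ae (Filter.Eventually.of_forall fun s => ?_)
        dsimp only
        rw [cnt_cons, if_neg hi, zero_add]
    simp_rw [h2]
    rw [Finset.sum_ite, Finset.sum_const, Finset.sum_const]
    have c1 : (Finset.univ.filter fun i : Fin N => i = u).card = 1 := by
      rw [Finset.filter_eq' Finset.univ u, if_pos (Finset.mem_univ u), Finset.card_singleton]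
    have c2 : ((Finset.univ.filter fun i : Fin N => ¬i = u).card : ℝ) = N - 1 := by
      have h3 := Finset.card_filter_add_card_filter_not (s := (Finset.univ : Finset (Fin N)))
        (fun i => i = u)
      rw [c1, Finset.card_univ, Fintype.card_fin] at h3
      have h4 : (((Finset.univ.filter fun i : Fin N => ¬i = u).card : ℕ) : ℝ) + 1 = N := by
        exact_mod_cast (by omega :
          (Finset.univ.filter fun i : Fin N => ¬i = u).card + 1 = N)
      linarith only [h4]
    rw [c1, nsmul_eq_mul, nsmul_eq_mul, c2]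
    field_simp
    push_cast
    ring

variable {K N r : ℕ} {m : Fin r → ℝ} {x : (Fin (r + 1) → U01) → ℝ}
  {ρ : Measure (Clause K)} {ν : Measure ℝ} [IsProbabilityMeasure ρ] [IsProbabilityMeasure ν]
  [NeZero N] [NeZero K]

theorem TT_zero' (hρ : Integrable maxTheta ρ) (hν : Integrable (fun h => h) ν)
    (hm : ∀ p, 0 < m p) (hx : Measurable x) (hx1 : ∀ w, x w ∈ Set.Icc (-1 : ℝ) 1) (n : ℕ) :
    TT ρ ν m x N 0 n =
      N * bmix (1 / (N : ℝ)) (1 - 1 / (N : ℝ)) (fun k _ => uC ρ ν m x k) n 0 0 := by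
  rw [TT_zero hρ hν hm hx hx1, integral_finsetSum _ fun u _ => Integrable.of_finite]
  simp_rw [integral_cnt]
  simp

theorem TT0_pois' (hρ : Integrable maxTheta ρ) (hν : Integrable (fun h => h) ν)
    (hm : ∀ p, 0 < m p) (hx : Measurable x) (hx1 : ∀ w, x w ∈ Set.Icc (-1 : ℝ) 1) (a : ℝ≥0) :
    ∫ n, TT ρ ν m x N 0 n ∂(poissonMeasure (a * N)) =
      N * ∫ n, uC ρ ν m x n ∂(poissonMeasure a) := by
  simp_rw [TT_zero' hρ hν hm hx hx1]
  rw [integral_const_mul]
  congr 1
  have hN : (N : ℝ≥0) ≠ 0 := by exact_mod_cast NeZero.ne N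
  have hN1 : 1 / (N : ℝ≥0) ≤ 1 := by
    rw [div_le_one (pos_iff_ne_zero.2 hN)]
    exact_mod_cast Nat.one_le_iff_ne_zero.2 (NeZero.ne N)
  have h := pois_bmix (expGrowth2_uC hρ hν hm hx hx1) (a * N) (1 / (N : ℝ≥0)) (1 - 1 / (N : ℝ≥0))
    (add_tsub_cancel_of_le hN1)
  have e1 : ((1 / (N : ℝ≥0) : ℝ≥0) : ℝ) = 1 / (N : ℝ) := by push_cast; rfl
  have e2 : ((1 - 1 / (N : ℝ≥0) : ℝ≥0) : ℝ) = 1 - 1 / (N : ℝ) := by
    rw [NNReal.coe_sub hN1, e1]; rfl
  rw [e1, e2] at h
  rw [h]
  have e3 : 1 / (N : ℝ≥0) * (a * N) = a := by field_simp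
  rw [e3]
  simp

/-- The integrand of `trialU`. -/
theorem trialU_integrand (hρ : Integrable maxTheta ρ) (hν : Integrable (fun h => h) ν)
    (hm : ∀ p, 0 < m p) (hx : Measurable x) (hx1 : ∀ w, x w ∈ Set.Icc (-1 : ℝ) 1) (n : ℕ) :
    (∫ ω : Fin n → Clause K × Fin K, (∫ h : ℝ,
      hierLog r m (fun w v => ∑ e : Bool, Real.exp (h * spin e) *
        ∏ k, cavityFactor (ω k).1 (ω k).2 (fun j => message x w v (k, j)) e)
      ∂ν) ∂(Measure.pi fun _ => ρ.prod (unif K))) = uC ρ ν m x n := by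
  have key : ∀ (ω : Fin n → Clause K × Fin K) (h : ℝ),
      hierLog r m (fun w v => ∑ e : Bool, Real.exp (h * spin e) *
        ∏ k, cavityFactor (ω k).1 (ω k).2 (fun j => message x w v (k, j)) e) =
      ∫ w' : Fin n → Lv K, GS m x (fun k => (ω k, w' k)) h ∂(Measure.pi fun _ => lvM K) := by
    intro ω h
    have h1 : ∀ w : Fin n × Fin K → U01,
        nest volume r m (fun v : Fin r → Fin n × Fin K → U01 =>
          ∑ e : Bool, Real.exp (h * spin e) *
          ∏ k, cavityFactor (ω k).1 (ω k).2 (fun j => message x w v (k, j)) e) =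
        nest (Measure.pi fun _ : Fin n => lvM K) r m
          (YS x (fun k => (ω k, fun j => w (k, j))) h) := by
      intro w
      exact nest_comp (P' := (volume : Measure (Fin n × Fin K → U01)))
        (P := Measure.pi fun _ : Fin n => lvM K)
        (φ := fun (u : Fin n × Fin K → U01) (i : Fin n) (j : Fin K) => u (i, j))
        (mp_curry volume) r m (YS x (fun k => (ω k, fun j => w (k, j))) h)
        (measurable_YS hx measurable_const measurable_const measurable_id)
    unfold hierLog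
    simp_rw [h1]
    have hmp : MeasurePreserving (fun (u : Fin n × Fin K → U01) (i : Fin n) (j : Fin K) => u (i, j))
        volume (Measure.pi fun _ : Fin n => lvM K) := mp_curry volume
    have h2 := integral_map (μ := (volume : Measure (Fin n × Fin K → U01)))
      hmp.measurable.aemeasurable (f := fun w' : Fin n → Lv K => GS m x (fun k => (ω k, w' k)) h)
      (measurable_GS hx (measurable_pi_lambda _ fun k => measurable_const.prodMk
        (measurable_pi_apply k)) measurable_const).aestronglyMeasurable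
    rw [hmp.map_eq] at h2
    exact h2.symm
  simp_rw [key]
  have i1 : IsProbabilityMeasure (Measure.pi fun _ : Fin n => ρ.prod (unif K)) := inferInstance
  have i2 : SFinite ((Measure.pi fun _ : Fin n => ρ.prod (unif K)).prod ν) :=
    Measure.prod.instSFinite
  have hmp : MeasurePreserving (fun z : ((Fin n → Clause K × Fin K) × ℝ) × (Fin n → Lv K) =>
      ((fun k => (z.1.1 k, z.2 k), z.1.2) : (Fin n → DD K) × ℝ))
      (((Measure.pi fun _ => ρ.prod (unif K)).prod ν).prod (Measure.pi fun _ => lvM K))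
      ((Measure.pi fun _ => dd ρ).prod ν) := by
    have a1 := measurePreserving_prodAssoc (Measure.pi fun _ : Fin n => ρ.prod (unif K)) ν
      (Measure.pi fun _ : Fin n => lvM K)
    have a2 := (MeasurePreserving.id (Measure.pi fun _ : Fin n => ρ.prod (unif K))).prod
      (Measure.measurePreserving_swap (μ := ν) (ν := Measure.pi fun _ : Fin n => lvM K))
    have a3 := (measurePreserving_prodAssoc (Measure.pi fun _ : Fin n => ρ.prod (unif K))
      (Measure.pi fun _ : Fin n => lvM K) ν).symm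
    have a4 := (measurePreserving_arrowProdEquivProdArrow (Clause K × Fin K) (Lv K) (Fin n)
      (fun _ => ρ.prod (unif K)) (fun _ => lvM K)).symm
    have a5 := a4.prod (MeasurePreserving.id ν)
    exact a5.comp (a3.comp (a2.comp a1))
  have h3 := integral_map (μ := ((Measure.pi fun _ => ρ.prod (unif K)).prod ν).prod
    (Measure.pi fun _ => lvM K)) hmp.measurable.aemeasurable
    (f := fun z : (Fin n → DD K) × ℝ => GS m x z.1 z.2)
    (measurable_GS hx measurable_fst measurable_snd).aestronglyMeasurable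
  rw [hmp.map_eq] at h3
  have hi := hmp.integrable_comp_of_integrable (integrable_GS hρ hν hm hx hx1 n)
  have h4 := integral_prod (μ := (Measure.pi fun _ : Fin n => ρ.prod (unif K)).prod ν)
    (ν := Measure.pi fun _ : Fin n => lvM K)
    (fun z : ((Fin n → Clause K × Fin K) × ℝ) × (Fin n → Lv K) =>
      GS m x (fun k => (z.1.1 k, z.2 k)) z.1.2) hi
  have h5 := integral_prod (μ := Measure.pi fun _ : Fin n => ρ.prod (unif K)) (ν := ν)
    (fun z : (Fin n → Clause K × Fin K) × ℝ => ∫ w' : Fin n → Lv K,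
      GS m x (fun k => (z.1 k, w' k)) z.2 ∂(Measure.pi fun _ => lvM K)) hi.integral_prod_left
  unfold uC
  rw [h3, ← h5, ← h4]

/-- The cavity part of the trial functional. -/
theorem trialU_eq (hρ : Integrable maxTheta ρ) (hν : Integrable (fun h => h) ν)
    (hm : ∀ p, 0 < m p) (hx : Measurable x) (hx1 : ∀ w, x w ∈ Set.Icc (-1 : ℝ) 1) (lam : ℝ≥0) :
    trialU lam ρ ν r m x = ∫ n, uC ρ ν m x n ∂(poissonMeasure (K * lam)) := by
  unfold trialU
  simp_rw [trialU_integrand hρ hν hm hx hx1]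

end average

/-- **Identification of `trialU`.** -/
theorem TT0_pois {K r : ℕ} {m : Fin r → ℝ} {x : (Fin (r + 1) → U01) → ℝ} {ρ : Measure (Clause K)}
    {ν : Measure ℝ} (h : InClass K ρ ν) (hx : IsTrial r m x) (lam : ℝ≥0) (N : ℕ) [NeZero N] :
    ∫ n, TT ρ ν m x N 0 n ∂(poissonMeasure (K * lam * N)) = N * trialU lam ρ ν r m x := by
  have := h.prob_clause
  have := h.prob_field
  have : NeZero K := ⟨by have := h.two_le; omega⟩
  obtain ⟨-, hm', hxm, hx1⟩ := hx
  have hm : ∀ p, 0 < m p := fun p => (hm' p).1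
  have hρ := integrable_maxTheta h
  rw [trialU_eq hρ h.field_int hm hxm hx1, TT0_pois' hρ h.field_int hm hxm hx1]

end TU

end Vale.Agent.P168.PT
end
end

section

section

set_option autoImplicit false
set_option linter.unusedSectionVars false

open Finset

namespace Vale.Agent.P168.MP

variable {S ι 𝒲 : Type} [Fintype S] [Nonempty S] [Fintype ι] [DecidableEq ι]
  [Fintype 𝒲] [Nonempty 𝒲]

/-- `F` is approximated within `e` (in `L¹` of the sites, summed over `𝒲`) by a function of the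
labels `q`. -/
def AppBy (q : S → ℕ) (e : ℝ) (F : 𝒲 → (ι → S) → ℝ) : Prop :=
  ∃ G : 𝒲 → (ι → ℕ) → ℝ, ∑ w, aS (fun s => |F w s - G w (q ∘ s)|) ≤ e

/-- Approximability with at most `L` labels. -/
def Appr (L : ℕ) (e : ℝ) (F : 𝒲 → (ι → S) → ℝ) : Prop := ∃ q : S → ℕ, nlab q ≤ L ∧ AppBy q e F

theorem AppBy.mono {q : S → ℕ} {e e' : ℝ} {F : 𝒲 → (ι → S) → ℝ} (h : AppBy q e F) (he : e ≤ e') :
    AppBy q e' F := by
  obtain ⟨G, hG⟩ := h
  exact ⟨G, hG.trans he⟩

/-- A finer labelling approximates as well. -/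
theorem AppBy.refine {q q' : S → ℕ} {e : ℝ} {F : 𝒲 → (ι → S) → ℝ} (h : AppBy q e F)
    (hq : ∀ i j, q' i = q' j → q i = q j) : AppBy q' e F := by
  classical
  obtain ⟨G, hG⟩ := h
  obtain ⟨ψ, hψ⟩ : ∃ ψ : ℕ → ℕ, ∀ i, ψ (q' i) = q i := by
    refine ⟨fun n => if h : ∃ i, q' i = n then q h.choose else 0, ?_⟩
    intro i
    have hex : ∃ j, q' j = q' i := ⟨i, rfl⟩
    simp only [hex, dite_true]
    exact hq _ _ hex.choose_spec
  refine ⟨fun w z => G w (ψ ∘ z), ?_⟩
  have e1 : ∀ s : ι → S, ψ ∘ q' ∘ s = q ∘ s := fun s => by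
    funext j
    exact hψ (s j)
  simpa only [e1] using hG

/-- Composition with a Lipschitz function. -/
theorem AppBy.comp {q : S → ℕ} {e : ℝ} {F : 𝒲 → (ι → S) → ℝ} (h : AppBy q e F) {lo hi Λ : ℝ}
    (hF : ∀ w s, F w s ∈ Set.Icc lo hi) {φ : ℝ → ℝ}
    (hφ : ∀ u ∈ Set.Icc lo hi, ∀ v ∈ Set.Icc lo hi, |φ u - φ v| ≤ Λ * |u - v|) (hΛ : 0 ≤ Λ) :
    AppBy q (Λ * e) (fun w s => φ (F w s)) := by
  obtain ⟨G, hG⟩ := h
  refine ⟨fun w z => φ (max lo (min hi (G w z))), ?_⟩
  refine le_trans ?_ (mul_le_mul_of_nonneg_left hG hΛ)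
  rw [Finset.mul_sum]
  apply Finset.sum_le_sum
  intro w _
  rw [← PE.smul]
  apply PE.mono
  intro s
  have hFs := hF w s
  have hlh : lo ≤ hi := hFs.1.trans hFs.2
  have hp : max lo (min hi (G w (q ∘ s))) ∈ Set.Icc lo hi :=
    ⟨le_max_left _ _, max_le hlh (min_le_left _ _)⟩
  refine (hφ _ hFs _ hp).trans (mul_le_mul_of_nonneg_left ?_ hΛ)
  have e1 : F w s = max lo (min hi (F w s)) := by
    rw [min_eq_right hFs.2, max_eq_right hFs.1]
  calc |F w s - max lo (min hi (G w (q ∘ s)))|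
      = |max lo (min hi (F w s)) - max lo (min hi (G w (q ∘ s)))| := by rw [← e1]
    _ ≤ max |lo - lo| |min hi (F w s) - min hi (G w (q ∘ s))| := abs_max_sub_max_le_max _ _ _ _
    _ ≤ max |lo - lo| (max |hi - hi| |F w s - G w (q ∘ s)|) :=
        max_le_max le_rfl (abs_min_sub_min_le_max _ _ _ _)
    _ = |F w s - G w (q ∘ s)| := by simp only [sub_self, abs_zero, abs_nonneg, sup_of_le_right]

/-- product functional on tuples -/
noncomputable def apow {Y : Type} (D : PE Y) : (k : ℕ) → PE (Fin k → Y)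
  | 0 => PE.dirac Fin.elim0
  | k + 1 => (apow D k).bind fun l => D.map fun y => Fin.cons y l

theorem apow_succ {Y : Type} (D : PE Y) (k : ℕ) (f : (Fin (k + 1) → Y) → ℝ) :
    (apow D (k + 1)).E f = (apow D k).E fun l => D.E fun y => f (Fin.cons y l) := rfl

theorem apow_sum {Y : Type} (D : PE Y) (g : Y → ℝ) (k : ℕ) :
    (apow D k).E (fun l => ∑ i, g (l i)) = k * D.E g := by
  induction k with
  | zero =>
    simp only [Finset.univ_eq_empty, Finset.sum_empty, Nat.cast_zero, zero_mul]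
    exact PE.const _ 0
  | succ k ih =>
    rw [apow_succ]
    simp only [Fin.sum_univ_succ, Fin.cons_zero, Fin.cons_succ]
    have : ∀ l : Fin k → Y, D.E (fun y => g y + ∑ i, g (l i)) = D.E g + ∑ i, g (l i) := by
      intro l
      rw [PE.add, PE.const]
    simp only [this]
    rw [PE.add, PE.const, ih]
    push_cast
    ring

theorem apow_sq {Y : Type} (D : PE Y) (g : Y → ℝ) (hg : D.E g = 0) {V : ℝ}
    (hV : D.E (fun y => g y ^ 2) ≤ V) (k : ℕ) :
    (apow D k).E (fun l => (∑ i, g (l i)) ^ 2) ≤ k * V := by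
  induction k with
  | zero =>
    simp only [Finset.univ_eq_empty, Finset.sum_empty, Nat.cast_zero, zero_mul]
    rw [PE.const]
    norm_num
  | succ k ih =>
    rw [apow_succ]
    simp only [Fin.sum_univ_succ, Fin.cons_zero, Fin.cons_succ]
    have : ∀ l : Fin k → Y, D.E (fun y => (g y + ∑ i, g (l i)) ^ 2) =
        D.E (fun y => g y ^ 2) + (∑ i, g (l i)) ^ 2 := by
      intro l
      have e1 : (fun y => (g y + ∑ i, g (l i)) ^ 2) =
          fun y => g y ^ 2 + ((2 * ∑ i, g (l i)) * g y + (∑ i, g (l i)) ^ 2) := by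
        funext y; ring
      rw [e1, PE.add, PE.add, PE.smul, PE.const, hg]
      ring
    simp only [this]
    rw [PE.add, PE.const]
    push_cast
    linarith

/-- iterated join -/
def jn : (k : ℕ) → (Fin k → S → ℕ) → S → ℕ
  | 0, _ => fun _ => 0
  | k + 1, Q => join (Q 0) (jn k (Fin.tail Q))

theorem jn_eq {k : ℕ} (Q : Fin k → S → ℕ) (a : Fin k) {i j : S} (h : jn k Q i = jn k Q j) :
    Q a i = Q a j := by
  induction k with
  | zero => exact a.elim0
  | succ k ih =>
    have h' : join (Q 0) (jn k (Fin.tail Q)) i = join (Q 0) (jn k (Fin.tail Q)) j := h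
    refine Fin.cases ?_ ?_ a
    · exact join_left h'
    · intro b
      exact ih (Fin.tail Q) b (join_right h')

theorem nlab_jn {k L : ℕ} (Q : Fin k → S → ℕ) (hQ : ∀ a, nlab (Q a) ≤ L) :
    nlab (jn k Q) ≤ L ^ k := by
  induction k with
  | zero =>
    simp only [pow_zero]
    unfold nlab
    have : (univ.image (jn 0 Q) : Finset ℕ) ⊆ {0} := by
      intro n hn
      simp only [mem_image, mem_univ, true_and] at hn
      obtain ⟨i, hi⟩ := hn
      rw [mem_singleton, ← hi]
      rfl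
    simpa using Finset.card_le_card this
  | succ k ih =>
    have h1 : nlab (jn (k + 1) Q) ≤ nlab (Q 0) * nlab (jn k (Fin.tail Q)) := nlab_join_le _ _
    have h2 := ih (Fin.tail Q) (fun a => hQ a.succ)
    calc _ ≤ _ := h1
      _ ≤ L * L ^ k := Nat.mul_le_mul (hQ 0) h2
      _ = L ^ (k + 1) := by rw [pow_succ, mul_comm]

/-- AVERAGING LEMMA (Monte Carlo). -/
theorem averaging {Y : Type} (D : PE Y) (F : Y → 𝒲 → (ι → S) → ℝ) {B : ℝ} (hB : 0 < B)
    (hF : ∀ y w s, |F y w s| ≤ B) {L : ℕ} {e : Y → ℝ} (he : ∀ y, Appr L (e y) (F y))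
    {K0 : ℕ} (hK : 0 < K0) :
    Appr (L ^ K0) (D.E e + 2 * Fintype.card 𝒲 * B / Real.sqrt K0)
      (fun w s => D.E fun y => F y w s) := by
  have hK0 : (0 : ℝ) < K0 := by exact_mod_cast hK
  have hsK : 0 < Real.sqrt K0 := Real.sqrt_pos.mpr hK0
  have hcW : (0 : ℝ) < Fintype.card 𝒲 := by exact_mod_cast Fintype.card_pos
  choose q hqL G hG using he
  -- the cost of a tuple
  set H : 𝒲 → (ι → S) → Y → ℝ := fun w s y => F y w s - D.E (fun y => F y w s) with hH
  set T1 : (Fin K0 → Y) → ℝ := fun l => ∑ w, aS fun s => |∑ i, H w s (l i)| / K0 with hT1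
  set T2 : (Fin K0 → Y) → ℝ := fun l => (∑ i, e (l i)) / K0 with hT2
  have hH0 : ∀ w s, D.E (H w s) = 0 := by
    intro w s
    simp only [hH]
    rw [PE.sub, PE.const, sub_self]
  have hHV : ∀ w s, D.E (fun y => H w s y ^ 2) ≤ B ^ 2 := by
    intro w s
    have h1 := D.var_eq (fun y => F y w s)
    have h2 : D.var (fun y => F y w s) ≤ D.E fun y => (F y w s - 0) ^ 2 := D.var_le _ 0
    have h3 : D.E (fun y => (F y w s - 0) ^ 2) ≤ B ^ 2 := by
      apply D.le_const
      intro y
      rw [sub_zero, ← sq_abs]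
      exact pow_le_pow_left₀ (abs_nonneg _) (hF y w s) 2
    simp only [hH]
    rw [← h1]
    exact h2.trans h3
  have hE1 : (apow D K0).E T1 ≤ Fintype.card 𝒲 * B / Real.sqrt K0 := by
    simp only [hT1]
    rw [PE.sum]
    have h1 : ∀ w ∈ (univ : Finset 𝒲),
        (apow D K0).E (fun l => aS fun s => |∑ i, H w s (l i)| / K0) ≤ B / Real.sqrt K0 := by
      intro w _
      rw [PE.comm_unif]
      apply PE.le_const
      intro s
      rw [PE.div_right]
      have h2 : (apow D K0).E (fun l => |∑ i, H w s (l i)|) ≤ Real.sqrt (K0 * B ^ 2) :=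
        ((apow D K0).abs_le_sqrt _).trans
          (Real.sqrt_le_sqrt (apow_sq D (H w s) (hH0 w s) (hHV w s) K0))
      rw [Real.sqrt_mul hK0.le, Real.sqrt_sq hB.le] at h2
      rw [div_le_div_iff₀ hK0 hsK]
      calc (apow D K0).E (fun l => |∑ i, H w s (l i)|) * Real.sqrt K0
          ≤ (Real.sqrt K0 * B) * Real.sqrt K0 := mul_le_mul_of_nonneg_right h2 hsK.le
        _ = B * (Real.sqrt K0 * Real.sqrt K0) := by ring
        _ = B * K0 := by rw [Real.mul_self_sqrt hK0.le]
    refine (Finset.sum_le_sum h1).trans (le_of_eq ?_)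
    rw [Finset.sum_const, nsmul_eq_mul, Finset.card_univ]
    ring
  have hE2 : (apow D K0).E T2 = D.E e := by
    simp only [hT2]
    rw [PE.div_right, apow_sum]
    field_simp
  obtain ⟨l, hl⟩ := (apow D K0).exists_le (fun l => T1 l + T2 l)
    (δ := Fintype.card 𝒲 * B / Real.sqrt K0) (by positivity)
  rw [PE.add, hE2] at hl
  refine ⟨jn K0 fun a => q (l a), nlab_jn _ fun a => hqL _, ?_⟩
  have hre : ∀ a : Fin K0, AppBy (jn K0 fun a => q (l a)) (e (l a)) (F (l a)) := by
    intro a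
    have h1 : AppBy (q (l a)) (e (l a)) (F (l a)) := ⟨G (l a), hG (l a)⟩
    exact h1.refine fun i j hij => jn_eq (fun a => q (l a)) a hij
  choose G' hG' using hre
  refine ⟨fun w z => (∑ a, G' a w z) / K0, ?_⟩
  have hpt : ∀ w s, |D.E (fun y => F y w s) - (∑ a, G' a w ((jn K0 fun a => q (l a)) ∘ s)) / K0| ≤
      |∑ i, H w s (l i)| / K0 +
        (∑ a, |F (l a) w s - G' a w ((jn K0 fun a => q (l a)) ∘ s)|) / K0 := by
    intro w s
    have e1 : D.E (fun y => F y w s) - (∑ a, G' a w ((jn K0 fun a => q (l a)) ∘ s)) / K0 =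
        -((∑ i, H w s (l i)) / K0) +
        (∑ a, (F (l a) w s - G' a w ((jn K0 fun a => q (l a)) ∘ s))) / K0 := by
      simp only [hH]
      rw [Finset.sum_sub_distrib, Finset.sum_sub_distrib, Finset.sum_const, nsmul_eq_mul,
        Finset.card_univ, Fintype.card_fin]
      field_simp
      ring
    rw [e1]
    refine (abs_add_le _ _).trans ?_
    rw [abs_neg, abs_div, abs_div, abs_of_pos hK0]
    gcongr
    exact Finset.abs_sum_le_sum_abs _ _
  have hsum : ∑ w, aS (fun s =>
      |D.E (fun y => F y w s) - (∑ a, G' a w ((jn K0 fun a => q (l a)) ∘ s)) / K0|) ≤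
      T1 l + T2 l := by
    calc _ ≤ ∑ w, aS (fun s => |∑ i, H w s (l i)| / K0 +
        (∑ a, |F (l a) w s - G' a w ((jn K0 fun a => q (l a)) ∘ s)|) / K0) :=
          Finset.sum_le_sum fun w _ => PE.mono _ (hpt w)
      _ = T1 l + (∑ a, ∑ w, aS (fun s =>
            |F (l a) w s - G' a w ((jn K0 fun a => q (l a)) ∘ s)|)) / K0 := by
          simp only [hT1, aS, PE.add, PE.div_right, PE.sum]
          rw [Finset.sum_add_distrib]
          congr 1
          rw [← Finset.sum_div]
          congr 1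
          exact Finset.sum_comm
      _ ≤ T1 l + T2 l := by
          simp only [hT2]
          gcongr with a _
          exact hG' a
  refine hsum.trans (hl.trans ?_)
  have : 2 * Fintype.card 𝒲 * B / Real.sqrt K0 =
    Fintype.card 𝒲 * B / Real.sqrt K0 + Fintype.card 𝒲 * B / Real.sqrt K0 := by ring
  rw [this]
  linarith only [hE1]

/-- The leaf: multilinear functions of `y` are approximable by quantizing `y`. -/
theorem appr_leaf (W : 𝒲 → (ι → Bool) → ℝ) {C : ℝ} (hW : ∀ w σ, |W w σ| ≤ C) (y : S → ℝ)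
    (hy : ∀ i, |y i| ≤ 1) {Dq : ℕ} (hD : 0 < Dq) :
    Appr (2 * Dq + 1) (Fintype.card 𝒲 * (C * (Fintype.card ι / Dq)))
      (fun w (s : ι → S) => mlin (W w) fun j => y (s j)) := by
  have hD0 : (0 : ℝ) < Dq := by exact_mod_cast hD
  have hC : 0 ≤ C := (abs_nonneg _).trans (hW (Classical.arbitrary 𝒲) fun _ => true)
  set q : S → ℕ := fun i => ⌊(y i + 1) * Dq⌋₊ with hq
  have hy1 : ∀ i, 0 ≤ (y i + 1) * Dq := by
    intro i
    have := (abs_le.mp (hy i)).1
    apply mul_nonneg _ hD0.le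
    linarith only [this]
  have hy2 : ∀ i, (y i + 1) * Dq ≤ 2 * Dq := by
    intro i
    have := (abs_le.mp (hy i)).2
    apply mul_le_mul_of_nonneg_right _ hD0.le
    linarith only [this]
  have hqle : ∀ i, q i ≤ 2 * Dq := by
    intro i
    have h1 : ((q i : ℕ) : ℝ) ≤ ((2 * Dq : ℕ) : ℝ) := by
      push_cast
      exact (Nat.floor_le (hy1 i)).trans (hy2 i)
    exact_mod_cast h1
  refine ⟨q, ?_, fun w z => mlin (W w) fun j => (z j : ℝ) / Dq - 1, ?_⟩
  · unfold nlab
    have h1 : (univ.image q : Finset ℕ) ⊆ Finset.range (2 * Dq + 1) := by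
      intro n hn
      simp only [mem_image, mem_univ, true_and] at hn
      obtain ⟨i, hi⟩ := hn
      rw [mem_range, ← hi]
      exact Nat.lt_succ_of_le (hqle i)
    simpa using Finset.card_le_card h1
  · have h1 : ∀ w (s : ι → S), |mlin (W w) (fun j => y (s j)) -
        mlin (W w) (fun j => (((q ∘ s) j : ℕ) : ℝ) / Dq - 1)| ≤ C * (Fintype.card ι / Dq) := by
      intro w s
      have hb : ∀ i, |((q i : ℕ) : ℝ) / Dq - 1| ≤ 1 := by
        intro i
        have h2 : ((q i : ℕ) : ℝ) ≤ 2 * Dq := by exact_mod_cast hqle i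
        have h3 : ((q i : ℕ) : ℝ) / Dq ≤ 2 := by
          rw [div_le_iff₀ hD0]; exact h2
        have h4 : 0 ≤ ((q i : ℕ) : ℝ) / Dq := by positivity
        rw [abs_le]
        constructor <;> linarith only [h3, h4]
      have hd : ∀ i, |y i - (((q i : ℕ) : ℝ) / Dq - 1)| ≤ 1 / Dq := by
        intro i
        have e1 : y i - (((q i : ℕ) : ℝ) / Dq - 1) = ((y i + 1) * Dq - (q i : ℕ)) / Dq := by
          field_simp
          ring
        have h2 := Nat.floor_le (hy1 i)
        have h3 := Nat.lt_floor_add_one ((y i + 1) * Dq)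
        rw [e1, abs_div, abs_of_pos hD0, abs_of_nonneg (by simp only [hq]; linarith only [h2])]
        apply div_le_div_of_nonneg_right _ hD0.le
        simp only [hq]
        linarith only [h3]
      refine (mlin_lip (hW w) (fun j => hy (s j)) (fun j => hb (s j))).trans ?_
      apply mul_le_mul_of_nonneg_left _ hC
      calc ∑ j, |y (s j) - ((((q ∘ s) j : ℕ) : ℝ) / Dq - 1)| ≤ ∑ _j : ι, (1 : ℝ) / Dq :=
            Finset.sum_le_sum fun j _ => hd (s j)
        _ = Fintype.card ι / Dq := by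
            rw [Finset.sum_const, nsmul_eq_mul, Finset.card_univ]
            ring
    calc _ ≤ ∑ _w : 𝒲, C * (Fintype.card ι / Dq) :=
          Finset.sum_le_sum fun w _ => PE.le_const _ (h1 w)
      _ = _ := by rw [Finset.sum_const, nsmul_eq_mul, Finset.card_univ]

end Vale.Agent.P168.MP
end
end

section

section

set_option autoImplicit false
set_option linter.unusedSectionVars false

open Finset

namespace Vale.Agent.P168.MP

/-- Levels `p = 0, …, R`: `a p x τ` is the value of the test `τ` at the node `x` of level `p`;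
`κ p` goes from a node of level `p` to the end of its block, `ρ p` from there to a node of level
`p + 1`. -/
structure Chain (𝒩 Ω : Type) where
  a : ℕ → 𝒩 → Ω → ℝ
  κ : ℕ → 𝒩 → PE 𝒩
  ρ : ℕ → 𝒩 → PE 𝒩

namespace Chain

variable {𝒩 Ω : Type} (C : Chain 𝒩 Ω)

/-- One full step. -/
def step (p : ℕ) (x : 𝒩) : PE 𝒩 := (C.κ p x).bind (C.ρ p)

/-- One full step, remembering the intermediate state. -/
def two (p : ℕ) (x : 𝒩) : PE (𝒩 × 𝒩) := (C.κ p x).bind fun y => (C.ρ p y).map fun z => (y, z)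

/-- `Ahat_p`. -/
def hat (p : ℕ) (y : 𝒩) (τ : Ω) : ℝ := (C.ρ p y).E fun z => C.a (p + 1) z τ

/-- `A_p`. -/
def A (p : ℕ) (x : 𝒩) (τ : Ω) : ℝ := (C.step p x).E fun z => C.a (p + 1) z τ

/-- Law of the node of level `p` started from the node `x` of level `0`. -/
def law (x : 𝒩) (p : ℕ) : PE 𝒩 :=
  Nat.rec (motive := fun _ => PE 𝒩) (PE.dirac x) (fun p P => P.bind (C.step p)) p

theorem law_zero (x : 𝒩) : C.law x 0 = PE.dirac x := rfl

theorem law_succ (x : 𝒩) (p : ℕ) : C.law x (p + 1) = (C.law x p).bind (C.step p) := rfl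

/-- The standing assumptions of section 3. -/
structure Ok (θ c : ℝ) (R : ℕ) : Prop where
  θ_pos : 0 < θ
  θ_lt : θ < 1
  c_pos : 0 < c
  c_le : c ≤ 1
  lo : ∀ p ≤ R, ∀ x τ, c ≤ C.a p x τ
  hi : ∀ p ≤ R, ∀ x τ, C.a p x τ ≤ c⁻¹
  rel : ∀ p < R, ∀ x τ, C.a p x τ = (C.κ p x).E fun y => (C.hat p y τ) ^ θ

/-- Conditional variance of `a_{p+1}` given the node of level `p`. -/
def vr (p : ℕ) (x : 𝒩) (τ : Ω) : ℝ := (C.step p x).var fun z => C.a (p + 1) z τ

/-- `I_p (τ', τ)`. -/
noncomputable def Ic (θ : ℝ) (p : ℕ) (x : 𝒩) (τ' τ : Ω) : ℝ :=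
  (C.two p x).cov (fun u => C.a (p + 1) u.2 τ')
    (fun u => C.a (p + 1) u.2 τ * (C.hat p u.1 τ) ^ (θ - 1))

variable {C} {θ c : ℝ} {R : ℕ}

section Sites

variable {S ι 𝒲 : Type} [Fintype S] [Nonempty S] [Fintype ι] [DecidableEq ι]
  [Fintype 𝒲] [Nonempty 𝒲] (C : Chain 𝒩 (𝒲 × (ι → S)))

/-- Purity error at a leaf: `W w` are the shapes, `xh x i` the local magnetizations at the node
`x` of level `R`. -/
noncomputable def leafErr (W : 𝒲 → (ι → Bool) → ℝ) (xh : 𝒩 → S → ℝ) (R : ℕ) (x : 𝒩) (w : 𝒲) : ℝ :=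
  aS fun s : ι → S => |C.a R x (w, s) - mlin (W w) fun j => xh x (s j)|

/-- Mean of `|I_p((w,s'),(w,s))|` over `s, s'`. -/
noncomputable def Iav (θ : ℝ) (p : ℕ) (x : 𝒩) (w : 𝒲) : ℝ :=
  aS fun s : ι → S => aS fun s' : ι → S => |C.Ic θ p x (w, s') (w, s)|

/-- Bound on the approximation errors, by recursion on `j = R - p`; `η` is the Monte Carlo error and
`d` the discretization error at the leaves. -/
noncomputable def er (W : 𝒲 → (ι → Bool) → ℝ) (xh : 𝒩 → S → ℝ) (R : ℕ) (c η d : ℝ) (j : ℕ) :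
    𝒩 → ℝ :=
  Nat.rec (motive := fun _ => 𝒩 → ℝ) (fun x => ∑ w, C.leafErr W xh R x w + d)
    (fun j e x => c⁻¹ * ((C.step (R - (j + 1)) x).E e + 2 * η)) j

/-- Number of labels. -/
def lab (K0 Dq : ℕ) (j : ℕ) : ℕ :=
  Nat.rec (motive := fun _ => ℕ) (2 * Dq + 1) (fun _ L => (L ^ K0) ^ K0 * L ^ K0) j

/-- Trial data: label maps of the levels `0, …, R - 1` and local magnetizations. -/
abbrev Data (R : ℕ) (S : Type) : Type := (Fin R → S → ℕ) × (S → Set.Icc (-1 : ℝ) 1)

/-- The leaf function of trial data. -/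
noncomputable def leafF (w : (ι → Bool) → ℝ) (y : S → Set.Icc (-1 : ℝ) 1) (s : ι → S) : ℝ :=
  mlin w fun j => (y (s j) : ℝ)

/-- Total error produced at level `p`. -/
noncomputable def errP (W : 𝒲 → (ι → Bool) → ℝ) (xh : 𝒩 → S → ℝ) (R : ℕ) (θ c η d : ℝ) (Λ : ℕ)
    (p : ℕ) (x : 𝒩) (w : 𝒲) : ℝ :=
  c⁻¹ ^ 3 * Real.sqrt ((Λ : ℝ) ^ Fintype.card ι) * Real.sqrt (C.Iav θ p x w) +
    c⁻¹ ^ 3 * (1 - θ) * (aS fun s : ι → S => Real.sqrt (C.vr p x (w, s))) +
    c⁻¹ ^ 3 * (1 - θ) * (aS fun s : ι → S => C.vr p x (w, s)) +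
    2 * C.er W xh R c η d (R - p) x

end Sites

end Chain

end Vale.Agent.P168.MP
end
end

section

section

set_option autoImplicit false
set_option linter.unusedSectionVars false

open Finset

namespace Vale.Agent.P168.MP

/-- A structure: blocks `0, …, R` of `n` slots each, with positions. -/
abbrev St (R n : ℕ) (Ω : Type) : Type := Fin (R + 1) → Blk n Ω

section St

variable {R n : ℕ} {Ω : Type}

/-- The block of level `p` (for `p ≤ R`). -/
def blkAt (st : St R n Ω) (p : ℕ) : Blk n Ω := st ⟨min p R, by omega⟩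

theorem blkAt_update_same [DecidableEq (Fin (R + 1))] (st : St R n Ω) {p : ℕ} (hp : p ≤ R)
    (b : Blk n Ω) : blkAt (Function.update st ⟨p, by omega⟩ b) p = b := by
  unfold blkAt
  have : (⟨min p R, by omega⟩ : Fin (R + 1)) = ⟨p, by omega⟩ := by
    ext
    simp [hp]
  rw [this, Function.update_self]

theorem blkAt_update_ne [DecidableEq (Fin (R + 1))] (st : St R n Ω) {p q : ℕ} (hp : p ≤ R)
    (hq : q ≤ R) (hqp : q ≠ p) (b : Blk n Ω) :
    blkAt (Function.update st ⟨p, by omega⟩ b) q = blkAt st q := by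
  unfold blkAt
  rw [Function.update_of_ne]
  intro h
  have := congrArg Fin.val h
  simp only at this
  omega

/-- The power of level `p`. -/
noncomputable def pw (θ : ℝ) (R p : ℕ) : ℝ := θ ^ (R - p)

/-- All slots of the block of level `p`. -/
noncomputable def full (θ : ℝ) (st : St R n Ω) (p : ℕ) : List (ℝ × Ω) :=
  blk (pw θ R p) (List.ofFn (blkAt st p).2)

/-- The slots of the levels `< p`. -/
noncomputable def before (θ : ℝ) (st : St R n Ω) (p : ℕ) : List (ℝ × Ω) :=
  (List.range p).flatMap (full θ st)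

/-- The slots of the levels `> p`. -/
noncomputable def rest (θ : ℝ) (st : St R n Ω) (p : ℕ) : List (ℝ × Ω) :=
  (List.range' (p + 1) (R - p)).flatMap (full θ st)

/-- The whole list of slots. -/
noncomputable def allSlots (θ : ℝ) (st : St R n Ω) : List (ℝ × Ω) :=
  (List.range (R + 1)).flatMap (full θ st)

/-- The slots after the node of level `p`. -/
noncomputable def remSlots (θ : ℝ) (st : St R n Ω) (p : ℕ) : List (ℝ × Ω) :=
  blk (pw θ R p) (blkAt st p).suf ++ rest θ st p

theorem before_zero (θ : ℝ) (st : St R n Ω) : before θ st 0 = [] := rfl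

theorem before_succ (θ : ℝ) (st : St R n Ω) (p : ℕ) :
    before θ st (p + 1) = before θ st p ++ full θ st p := by
  unfold before
  rw [List.range_succ, List.flatMap_append]
  simp

theorem rest_last (θ : ℝ) (st : St R n Ω) : rest θ st R = [] := by
  unfold rest
  simp

theorem rest_eq (θ : ℝ) (st : St R n Ω) {p : ℕ} (hp : p < R) :
    rest θ st p = full θ st (p + 1) ++ rest θ st (p + 1) := by
  unfold rest
  have : R - p = (R - (p + 1)) + 1 := by omega
  rw [this, List.range'_succ, List.flatMap_cons]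

theorem allSlots_eq (θ : ℝ) (st : St R n Ω) {p : ℕ} (hp : p ≤ R) :
    allSlots θ st = before θ st p ++ (full θ st p ++ rest θ st p) := by
  unfold allSlots before rest
  have e : List.range (R + 1) = List.range p ++ (p :: List.range' (p + 1) (R - p)) := by
    rw [← List.range'_succ, List.range_eq_range', List.range_eq_range']
    have h := List.range'_append (s := 0) (m := p) (n := R - p + 1) (step := 1)
    rw [one_mul, zero_add] at h
    rw [h]
    congr 1
    omega
  rw [e, List.flatMap_append, List.flatMap_cons]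

theorem full_eq (θ : ℝ) (st : St R n Ω) (p : ℕ) :
    full θ st p = blk (pw θ R p) (blkAt st p).pre ++ blk (pw θ R p) (blkAt st p).suf := by
  unfold full
  rw [← blk_append, Blk.pre_append_suf]

theorem pw_pos {θ : ℝ} (h0 : 0 < θ) (R p : ℕ) : 0 < pw θ R p := pow_pos h0 _

theorem pw_le_one {θ : ℝ} (h0 : 0 < θ) (h1 : θ < 1) (R p : ℕ) : pw θ R p ≤ 1 :=
  pow_le_one₀ h0.le h1.le

theorem pw_mono {θ : ℝ} (h0 : 0 < θ) (h1 : θ < 1) {R p q : ℕ} (hpq : p ≤ q) :
    pw θ R p ≤ pw θ R q :=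
  pow_le_pow_of_le_one h0.le h1.le (by omega)

theorem pw_succ {θ : ℝ} {R p : ℕ} (hp : p < R) : pw θ R p = θ * pw θ R (p + 1) := by
  unfold pw
  rw [← pow_succ']
  congr 1
  omega

theorem good_append {A B : List (ℝ × Ω)} (hA : Good A) (hB : Good B)
    (h : ∀ a ∈ A, ∀ b ∈ B, a.1 ≤ b.1) : Good (A ++ B) := by
  refine ⟨fun s hs => ?_, List.pairwise_append.2 ⟨hA.2, hB.2, h⟩⟩
  rcases List.mem_append.1 hs with h | h
  · exact hA.1 s h
  · exact hB.1 s h

theorem mem_blk {μ : ℝ} {l : List Ω} {s : ℝ × Ω} (h : s ∈ blk μ l) : s.1 = μ := by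
  obtain ⟨τ, _, rfl⟩ := List.mem_map.1 h
  rfl

theorem good_blk {μ : ℝ} (h0 : 0 < μ) (h1 : μ ≤ 1) (l : List Ω) : Good (blk μ l) := by
  refine ⟨fun s hs => ?_, ?_⟩
  · rw [mem_blk hs]
    exact ⟨h0, h1⟩
  · exact List.pairwise_of_forall_mem_list fun a ha b hb => by rw [mem_blk ha, mem_blk hb]

theorem mem_flatMap_full {θ : ℝ} {st : St R n Ω} {L : List ℕ} {s : ℝ × Ω}
    (h : s ∈ L.flatMap (full θ st)) : ∃ q ∈ L, s.1 = pw θ R q := by
  obtain ⟨q, hq, hs⟩ := List.mem_flatMap.1 h
  exact ⟨q, hq, mem_blk hs⟩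

theorem good_flatMap {θ : ℝ} (h0 : 0 < θ) (h1 : θ < 1) (st : St R n Ω) {L : List ℕ}
    (hL : L.Pairwise fun a b => a ≤ b) : Good (L.flatMap (full θ st)) := by
  induction L with
  | nil => exact ⟨fun s hs => absurd hs (by simp), by simp⟩
  | cons a L ih =>
    rw [List.pairwise_cons] at hL
    rw [List.flatMap_cons]
    refine good_append (good_blk (pw_pos h0 R a) (pw_le_one h0 h1 R a) _) (ih hL.2)
      fun s hs t ht => ?_
    obtain ⟨q, hq, ht'⟩ := mem_flatMap_full ht
    rw [mem_blk hs, ht']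
    exact pw_mono h0 h1 (hL.1 q hq)

theorem good_before {θ : ℝ} (h0 : 0 < θ) (h1 : θ < 1) (st : St R n Ω) (p : ℕ) :
    Good (before θ st p) :=
  good_flatMap h0 h1 st ((List.pairwise_lt_range).imp fun h => h.le)

theorem good_rest {θ : ℝ} (h0 : 0 < θ) (h1 : θ < 1) (st : St R n Ω) (p : ℕ) :
    Good (rest θ st p) :=
  good_flatMap h0 h1 st ((List.pairwise_lt_range' (s := p + 1) (n := R - p)).imp fun h => h.le)

theorem mem_before {θ : ℝ} (h0 : 0 < θ) (h1 : θ < 1) {st : St R n Ω} {p : ℕ} {s : ℝ × Ω}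
    (h : s ∈ before θ st p) : s.1 ≤ pw θ R p := by
  obtain ⟨q, hq, hs⟩ := mem_flatMap_full h
  rw [hs]
  exact pw_mono h0 h1 (List.mem_range.1 hq).le

theorem mem_rest {θ : ℝ} (h0 : 0 < θ) (h1 : θ < 1) {st : St R n Ω} {p : ℕ} {s : ℝ × Ω}
    (h : s ∈ rest θ st p) : pw θ R (p + 1) ≤ s.1 := by
  obtain ⟨q, hq, hs⟩ := mem_flatMap_full h
  rw [hs]
  obtain ⟨i, _, rfl⟩ := List.mem_range'.1 hq
  exact pw_mono h0 h1 (by omega)

/-- Any sub-structure obtained by changing the slots of the blocks is good. -/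
theorem good_split {θ : ℝ} (h0 : 0 < θ) (h1 : θ < 1) (st : St R n Ω) {p : ℕ} (hp : p ≤ R)
    (l : List Ω) : Good (before θ st p ++ (blk (pw θ R p) l ++ rest θ st p)) := by
  refine good_append (good_before h0 h1 st p)
    (good_append (good_blk (pw_pos h0 R p) (pw_le_one h0 h1 R p) l) (good_rest h0 h1 st p)
      fun a ha b hb => ?_) fun a ha b hb => ?_
  · rw [mem_blk ha]
    exact (pw_mono h0 h1 (Nat.le_succ p)).trans (mem_rest h0 h1 hb)
  · refine (mem_before h0 h1 ha).trans ?_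
    rcases List.mem_append.1 hb with h | h
    · rw [mem_blk h]
    · exact (pw_mono h0 h1 (Nat.le_succ p)).trans (mem_rest h0 h1 h)

theorem good_split2 {θ : ℝ} (h0 : 0 < θ) (h1 : θ < 1) (st : St R n Ω) {p : ℕ} (hp : p < R)
    (l l' : List Ω) : Good (before θ st p ++
      (blk (pw θ R p) l ++ (blk (pw θ R (p + 1)) l' ++ rest θ st (p + 1)))) := by
  have hm := pw_mono h0 h1 (R := R) (Nat.le_succ p)
  have hm' := pw_mono h0 h1 (R := R) (Nat.le_succ (p + 1))
  refine good_append (good_before h0 h1 st p)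
    (good_append (good_blk (pw_pos h0 R p) (pw_le_one h0 h1 R p) l)
      (good_append (good_blk (pw_pos h0 R (p + 1)) (pw_le_one h0 h1 R (p + 1)) l')
        (good_rest h0 h1 st (p + 1)) fun a ha b hb => ?_) fun a ha b hb => ?_) fun a ha b hb => ?_
  · rw [mem_blk ha]
    exact hm'.trans (mem_rest h0 h1 hb)
  · rw [mem_blk ha]
    rcases List.mem_append.1 hb with h | h
    · rw [mem_blk h]
      exact hm
    · exact hm.trans (hm'.trans (mem_rest h0 h1 h))
  · refine (mem_before h0 h1 ha).trans ?_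
    rcases List.mem_append.1 hb with h | h
    · rw [mem_blk h]
    · rcases List.mem_append.1 h with h | h
      · rw [mem_blk h]
        exact hm
      · exact hm.trans (hm'.trans (mem_rest h0 h1 h))

theorem rest_split (θ : ℝ) (st : St R n Ω) {p : ℕ} (hp : p < R) :
    rest θ st p = blk (pw θ R (p + 1)) (blkAt st (p + 1)).pre ++ remSlots θ st (p + 1) := by
  rw [rest_eq θ st hp, full_eq, List.append_assoc, remSlots]

theorem good_right {A B : List (ℝ × Ω)} (h : Good (A ++ B)) : Good B :=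
  ⟨fun s hs => h.1 s (List.mem_append_right _ hs), (List.pairwise_append.1 h.2).2.1⟩

theorem good_remSlots {θ : ℝ} (h0 : 0 < θ) (h1 : θ < 1) (st : St R n Ω) {p : ℕ} (hp : p ≤ R) :
    Good (remSlots θ st p) :=
  good_right (good_split h0 h1 st hp _)

theorem before_congr (θ : ℝ) {st st' : St R n Ω} {p : ℕ}
    (h : ∀ q < p, blkAt st q = blkAt st' q) : before θ st p = before θ st' p := by
  unfold before
  apply List.flatMap_congr
  intro q hq
  unfold full
  rw [h q (List.mem_range.1 hq)]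

theorem rest_congr (θ : ℝ) {st st' : St R n Ω} {p : ℕ}
    (h : ∀ q, p < q → q ≤ R → blkAt st q = blkAt st' q) : rest θ st p = rest θ st' p := by
  unfold rest
  apply List.flatMap_congr
  intro q hq
  unfold full
  rw [List.mem_range'_1] at hq
  rw [h q (by omega) (by omega)]

end St

namespace Slots

variable {𝒩 Ω : Type} (S : Slots 𝒩 Ω) {R n : ℕ}

/-- The chain attached to a structure of slots. -/
noncomputable def chain (θ : ℝ) (st : St R n Ω) : Chain 𝒩 Ω where
  a p x τ := S.av (pw θ R p) (remSlots θ st p) τ x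
  κ p x := S.exPE (blk (pw θ R p) (blkAt st p).suf) (rest θ st p) x
  ρ p y := S.exPE (blk (pw θ R (p + 1)) (blkAt st (p + 1)).pre) (remSlots θ st (p + 1)) y

/-- Law of the node of level `0`. -/
noncomputable def law0 (θ : ℝ) (st : St R n Ω) (x0 : 𝒩) : PE 𝒩 :=
  S.exPE (blk (pw θ R 0) (blkAt st 0).pre) (remSlots θ st 0) x0

/-- Law of the node of level `p`, as a path expectation. -/
noncomputable def lawP (θ : ℝ) (st : St R n Ω) (x0 : 𝒩) (p : ℕ) : PE 𝒩 :=
  S.exPE (before θ st p ++ blk (pw θ R p) (blkAt st p).pre) (remSlots θ st p) x0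

theorem chain_hat {θ : ℝ} (h0 : 0 < θ) (st : St R n Ω) {p : ℕ} (hp : p < R)
    (y : 𝒩) (τ : Ω) : (S.chain θ st).hat p y τ =
      Real.exp (pw θ R (p + 1) * S.val (rest θ st p) τ y) := by
  rw [rest_split θ st hp, S.exp_val_block (pw_pos h0 R (p + 1))]
  rfl

theorem abs_mul_val_le {μ : ℝ} (h0 : 0 < μ) (h1 : μ ≤ 1) {L : List (ℝ × Ω)} (hL : Pos L) (τ : Ω)
    (x : 𝒩) : |μ * S.val L τ x| ≤ S.M := by
  rw [abs_mul, abs_of_pos h0]
  calc μ * |S.val L τ x| ≤ 1 * |S.val L τ x| :=
        mul_le_mul_of_nonneg_right h1 (abs_nonneg _)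
    _ ≤ S.M := by rw [one_mul]; exact S.abs_val_le hL τ x

theorem chain_ok {θ : ℝ} (h0 : 0 < θ) (h1 : θ < 1) (st : St R n Ω) :
    (S.chain θ st).Ok θ (Real.exp (-S.M)) R where
  θ_pos := h0
  θ_lt := h1
  c_pos := Real.exp_pos _
  c_le := Real.exp_le_one_iff.2 (neg_nonpos.2 S.M_nonneg)
  lo p hp x τ := Real.exp_le_exp.2 (abs_le.1 (S.abs_mul_val_le (pw_pos h0 R p)
    (pw_le_one h0 h1 R p) (good_remSlots h0 h1 st hp).1 τ x)).1
  hi p hp x τ := by
    rw [← Real.exp_neg, neg_neg]
    exact Real.exp_le_exp.2 (abs_le.1 (S.abs_mul_val_le (pw_pos h0 R p)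
      (pw_le_one h0 h1 R p) (good_remSlots h0 h1 st hp).1 τ x)).2
  rel p hp x τ := by
    simp only [S.chain_hat h0 st hp, ← Real.exp_mul]
    have e : ∀ y, pw θ R (p + 1) * S.val (rest θ st p) τ y * θ =
        pw θ R p * S.val (rest θ st p) τ y := by
      intro y
      rw [pw_succ hp]
      ring
    simp only [e]
    exact S.exp_val_block (pw_pos h0 R p) _ _ τ x

theorem lawP_eq {θ : ℝ} (st : St R n Ω) (x0 : 𝒩) {p : ℕ} (hp : p ≤ R)
    (f : 𝒩 → ℝ) : (S.law0 θ st x0).E (fun x => ((S.chain θ st).law x p).E f) =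
      (S.lawP θ st x0 p).E f := by
  induction p generalizing f with
  | zero =>
    unfold lawP law0
    rw [before_zero, List.nil_append]
    rfl
  | succ p ih =>
    have hp' : p < R := hp
    have h := ih (Nat.le_of_succ_le hp) (fun y => ((S.chain θ st).step p y).E f)
    have e1 : (S.law0 θ st x0).E (fun x => ((S.chain θ st).law x (p + 1)).E f) =
        (S.law0 θ st x0).E (fun x => ((S.chain θ st).law x p).E
          fun y => ((S.chain θ st).step p y).E f) := rfl
    rw [e1, h]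
    unfold lawP
    rw [exPE_E, exPE_E, before_succ, full_eq, ← List.append_assoc,
      S.Ex_append (before θ st p ++ blk (pw θ R p) (blkAt st p).pre ++
        blk (pw θ R p) (blkAt st p).suf) (blk (pw θ R (p + 1)) (blkAt st (p + 1)).pre),
      ← rest_split θ st hp', S.Ex_append (before θ st p ++ blk (pw θ R p) (blkAt st p).pre)
        (blk (pw θ R p) (blkAt st p).suf)]
    rfl

/-- Root lemma: the value at the root is close to the mean of the log values at level `0`. -/
theorem root_near {θ : ℝ} (h0 : 0 < θ) (h1 : θ < 1) (st : St R n Ω) (x0 : 𝒩) (τ : Ω) :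
    |S.val (allSlots θ st) τ x0 - (S.law0 θ st x0).E fun x =>
      (1 / θ ^ R) * Real.log ((S.chain θ st).a 0 x τ)| ≤ θ ^ R * S.M ^ 2 * Real.exp S.M := by
  have hpw : pw θ R 0 = θ ^ R := by simp [pw]
  have hm : 0 < θ ^ R := pow_pos h0 R
  have hm1 : θ ^ R ≤ 1 := pow_le_one₀ h0.le h1.le
  have hG := good_remSlots h0 h1 st (Nat.zero_le R)
  have hall : allSlots θ st = blk (pw θ R 0) (blkAt st 0).pre ++ remSlots θ st 0 := by
    rw [allSlots_eq θ st (Nat.zero_le R), before_zero, List.nil_append, full_eq,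
      List.append_assoc, remSlots]
  have key := S.exp_val_block (pw_pos h0 R 0) (blkAt st 0).pre (remSlots θ st 0) τ x0
  rw [← hall] at key
  have hval : S.val (allSlots θ st) τ x0 = (1 / θ ^ R) * Real.log
      ((S.law0 θ st x0).E fun y => Real.exp (θ ^ R * S.val (remSlots θ st 0) τ y)) := by
    unfold law0
    rw [exPE_E, ← hpw, ← key, Real.log_exp, ← mul_assoc, one_div_mul_cancel (pw_pos h0 R 0).ne',
      one_mul]
  have hlog : ∀ x, (1 / θ ^ R) * Real.log ((S.chain θ st).a 0 x τ) =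
      S.val (remSlots θ st 0) τ x := by
    intro x
    have : (S.chain θ st).a 0 x τ = Real.exp (pw θ R 0 * S.val (remSlots θ st 0) τ x) := rfl
    rw [this, Real.log_exp, hpw, ← mul_assoc, one_div_mul_cancel hm.ne', one_mul]
  simp only [hlog]
  rw [hval]
  exact PE.log_exp_near _ hm hm1 S.M_nonneg fun x => S.abs_val_le hG.1 τ x

/-- The covariances of the chain are those of `Icov`. -/
theorem chain_Ic {θ : ℝ} (h0 : 0 < θ) (h1 : θ < 1) (st : St R n Ω) {p : ℕ} (hp : p < R) (x : 𝒩)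
    (τ' τ : Ω) : (S.chain θ st).Ic θ p x τ' τ =
      S.Icov (pw θ R p) (pw θ R (p + 1)) (blkAt st p).suf (blkAt st (p + 1)).pre
        (blkAt st (p + 1)).suf (rest θ st (p + 1)) τ' τ x := by
  have hr : blk (pw θ R (p + 1)) (blkAt st (p + 1)).pre ++
      (blk (pw θ R (p + 1)) (blkAt st (p + 1)).suf ++ rest θ st (p + 1)) = rest θ st p :=
    (rest_split θ st hp).symm
  have hE : ∀ f : 𝒩 → 𝒩 → ℝ, S.E2 (pw θ R p) (pw θ R (p + 1)) (blkAt st p).suf
      (blkAt st (p + 1)).pre (blkAt st (p + 1)).suf (rest θ st (p + 1)) f x =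
      ((S.chain θ st).two p x).E fun u => f u.1 u.2 := by
    intro f
    unfold E2
    rw [hr]
    rfl
  have hg : ∀ s z, S.av (pw θ R (p + 1)) (blk (pw θ R (p + 1)) (blkAt st (p + 1)).suf ++
      rest θ st (p + 1)) τ z * Real.exp ((pw θ R p - pw θ R (p + 1)) *
        S.val (blk (pw θ R (p + 1)) (blkAt st (p + 1)).pre ++
          (blk (pw θ R (p + 1)) (blkAt st (p + 1)).suf ++ rest θ st (p + 1))) τ s) =
      (S.chain θ st).a (p + 1) z τ * (S.chain θ st).hat p s τ ^ (θ - 1) := by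
    intro s z
    rw [S.chain_hat h0 st hp, ← Real.exp_mul, hr, pw_succ hp]
    congr 2
    ring
  unfold Icov Chain.Ic PE.cov
  simp only [hg, hE]
  rfl

variable [Fintype Ω] [Nonempty Ω]

/-- Resampling one coordinate of a uniform structure. -/
theorem unif_update (p : Fin (R + 1)) (f : St R n Ω → ℝ) :
    (PE.unif (St R n Ω)).E (fun st => (PE.unif (Blk n Ω)).E fun b =>
      f (Function.update st p b)) = (PE.unif (St R n Ω)).E f := by
  classical
  have hB : (Fintype.card (Blk n Ω) : ℝ) ≠ 0 := by exact_mod_cast Fintype.card_ne_zero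
  simp only [PE.unif_E]
  congr 1
  rw [← Finset.sum_div, div_eq_iff hB]
  let e := Equiv.funSplitAt p (Blk n Ω)
  have h1 : ∀ (st : St R n Ω) (b : Blk n Ω), Function.update st p b = e.symm (b, (e st).2) := by
    intro st b
    funext j
    by_cases hj : j = p
    · subst hj
      simp only [Function.update_self, ne_eq, Equiv.funSplitAt, Equiv.piSplitAt, eq_rec_constant, Equiv.symm_mk, Equiv.coe_fn_mk, ↓reduceDIte, e]
    · simp only [ne_eq, hj, not_false_eq_true, Function.update_of_ne, Equiv.funSplitAt, Equiv.piSplitAt, eq_rec_constant, Equiv.symm_mk, Equiv.coe_fn_mk, ↓reduceDIte, e]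
  have h2 : ∑ st : St R n Ω, ∑ b, f (Function.update st p b) =
      ∑ x : Blk n Ω × ({j // j ≠ p} → Blk n Ω), ∑ b, f (e.symm (b, x.2)) := by
    rw [← Equiv.sum_comp e]
    refine Finset.sum_congr rfl fun st _ => Finset.sum_congr rfl fun b _ => ?_
    rw [h1]
  rw [h2, Fintype.sum_prod_type]
  simp only [Finset.sum_const, card_univ, nsmul_eq_mul]
  rw [mul_comm]
  congr 1
  rw [← Equiv.sum_comp e.symm, Fintype.sum_prod_type, Finset.sum_comm]

/-- (M) for the last block (power `1`) of a random structure. -/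
theorem chain_M_avg {θ : ℝ} (h0 : 0 < θ) (h1 : θ < 1) (x0 : 𝒩) (τ' : Ω) :
    ((PE.unif (St R n Ω)).E fun st => (S.lawP θ st x0 R).E fun y => (PE.unif Ω).E fun τ =>
      ((S.chain θ st).a R (S.act τ y) τ' - (S.chain θ st).a R y τ') ^ 2) ≤
      S.CM / (n + 1) := by
  classical
  rw [← unif_update (⟨R, by omega⟩ : Fin (R + 1))]
  refine PE.le_const _ fun st => ?_
  have hpw : pw θ R R = 1 := by unfold pw; simp
  have hb : ∀ b : Blk n Ω, blkAt (Function.update st ⟨R, by omega⟩ b) R = b := fun b =>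
    blkAt_update_same st le_rfl b
  have hbe : ∀ b : Blk n Ω, before θ (Function.update st ⟨R, by omega⟩ b) R = before θ st R :=
    fun b => before_congr θ fun q hq => blkAt_update_ne st le_rfl hq.le (by omega) b
  have key := S.insertM (n := n) (μ := 1) (before θ st R) [] (fun l => by
    have := good_split h0 h1 st le_rfl l
    rwa [hpw, rest_last] at this) one_pos le_rfl τ' x0
  refine le_trans (le_of_eq ?_) key
  congr 1
  funext b
  have e1 : ∀ y τ, ((S.chain θ (Function.update st ⟨R, by omega⟩ b)).a R (S.act τ y) τ' -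
      (S.chain θ (Function.update st ⟨R, by omega⟩ b)).a R y τ') ^ 2 =
      (S.av 1 (blk 1 b.suf ++ []) τ' (S.act τ y) - S.av 1 (blk 1 b.suf ++ []) τ' y) ^ 2 := by
    intro y τ
    unfold chain remSlots
    simp only [hpw, hb, rest_last]
  simp_rw [e1]
  rw [PE.comm_unif]
  congr 1
  funext τ
  unfold lawP remSlots
  rw [exPE_E, hpw, hb, hbe, rest_last]

/-- (4.2) for the chain of a random structure. -/
theorem chain_I_avg {θ : ℝ} (h0 : 0 < θ) (h1 : θ < 1) {p : ℕ} (hp : p < R) (x0 : 𝒩) :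
    ((PE.unif (St R n Ω)).E fun st => (S.lawP θ st x0 p).E fun y =>
      (PE.unif Ω).E fun τ => (PE.unif Ω).E fun τ' => |(S.chain θ st).Ic θ p y τ' τ|) ≤
      S.CI / Real.sqrt (n + 1) := by
  classical
  rw [← unif_update (⟨p, by omega⟩ : Fin (R + 1))]
  have hsw : ∀ F : St R n Ω → ℝ, (PE.unif (St R n Ω)).E F =
      (PE.unif (St R n Ω)).E fun st => (PE.unif (Blk n Ω)).E fun b' =>
        F (Function.update st ⟨p + 1, by omega⟩ b') := fun F =>
    (unif_update (⟨p + 1, by omega⟩ : Fin (R + 1)) F).symm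
  rw [hsw]
  refine PE.le_const _ fun st => ?_
  rw [PE.comm_unif]
  have key := S.insertI (n := n) (μ := pw θ R p) (μ' := pw θ R (p + 1)) (before θ st p)
    (rest θ st (p + 1)) (fun l l' => good_split2 h0 h1 st hp l l') (pow_pos h0 _)
    (pow_le_pow_of_le_one h0.le h1.le (by omega)) (pow_le_one₀ h0.le h1.le) x0
  refine le_trans (le_of_eq ?_) key
  congr 1
  funext b
  congr 1
  funext b'
  set st' : St R n Ω := Function.update (Function.update st ⟨p + 1, by omega⟩ b') ⟨p, by omega⟩ b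
    with hst'
  have hb : blkAt st' p = b := blkAt_update_same _ hp.le b
  have hb' : blkAt st' (p + 1) = b' := by
    rw [hst', blkAt_update_ne _ hp.le (by omega) (by omega)]
    exact blkAt_update_same st (by omega) b'
  have hne : ∀ q, q ≤ R → q ≠ p → q ≠ p + 1 → blkAt st' q = blkAt st q := by
    intro q hq h2 h3
    rw [hst', blkAt_update_ne _ hp.le hq h2, blkAt_update_ne _ (by omega) hq h3]
  have hbe : before θ st' p = before θ st p :=
    before_congr θ fun q hq => hne q (by omega) (by omega) (by omega)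
  have hre : rest θ st' (p + 1) = rest θ st (p + 1) :=
    rest_congr θ fun q hq hq' => hne q hq' (by omega) (by omega)
  have e1 : ∀ y τ τ', |(S.chain θ st').Ic θ p y τ' τ| =
      |S.Icov (pw θ R p) (pw θ R (p + 1)) b.suf b'.pre b'.suf (rest θ st (p + 1)) τ' τ y| := by
    intro y τ τ'
    rw [S.chain_Ic h0 h1 st' hp, hb, hb', hre]
  simp_rw [e1]
  rw [PE.comm_unif]
  congr 1
  funext τ
  rw [PE.comm_unif]
  congr 1
  funext τ'
  unfold lawP remSlots
  rw [exPE_E, hb, hbe, rest_eq θ st' hp, hre]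
  unfold full
  rw [hb']

end Slots

end Vale.Agent.P168.MP
end
end

section

section

set_option autoImplicit false

open Finset Filter Topology

namespace Vale.Agent.P168.MP

/-- The total error bound of the construction. -/
noncomputable def totErr (c M cW cJ : ℝ) (nJ : ℕ) (CI CL : ℝ) (R : ℕ) (θ : ℝ) (K0 Dq Λ n : ℕ) : ℝ :=
  c⁻¹ / θ ^ R * c ^ (-(R * (1 - θ))) *
    (c⁻¹ ^ 3 * Real.sqrt ((Λ : ℝ) ^ nJ) * (R * Real.sqrt (CI / Real.sqrt (n + 1))) +
      c⁻¹ ^ 3 * (1 - θ) * (Real.sqrt R * Real.sqrt (5 * c⁻¹ ^ 5 * (1 + R * (1 - θ)))) +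
      c⁻¹ ^ 3 * (1 - θ) * (5 * c⁻¹ ^ 5 * (1 + R * (1 - θ))) +
      2 * (R * (c⁻¹ ^ R * (cW * (CL / Real.sqrt (n + 1)) + cW * (c⁻¹ * (cJ / Dq)) +
        2 * R * (2 * cW * c⁻¹ / Real.sqrt K0)))) +
      CL / Real.sqrt (n + 1)) +
  θ ^ R * (M ^ 2 * Real.exp M)

theorem tendsto_inv_sqrt_nat : Tendsto (fun n : ℕ => 1 / Real.sqrt ((n : ℝ) + 1)) atTop (𝓝 0) := by
  have h1 : Tendsto (fun n : ℕ => (n : ℝ) + 1) atTop atTop :=
    tendsto_atTop_add_const_right _ _ tendsto_natCast_atTop_atTop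
  have h2 := (Real.tendsto_sqrt_atTop.comp h1).inv_tendsto_atTop
  refine h2.congr fun n => ?_
  simp

theorem tendsto_inv_sqrt_nat' : Tendsto (fun n : ℕ => 1 / Real.sqrt (n : ℝ)) atTop (𝓝 0) := by
  have h2 := (Real.tendsto_sqrt_atTop.comp tendsto_natCast_atTop_atTop).inv_tendsto_atTop
  refine h2.congr fun n => ?_
  simp

/-- The parameter `θ = m ^ (1 / R)`. -/
theorem exists_theta {m : ℝ} (hm : 0 < m) (hm1 : m < 1) {R : ℕ} (hR : 0 < R) :
    ∃ θ : ℝ, 0 < θ ∧ θ < 1 ∧ θ ^ R = m ∧ R * (1 - θ) ≤ -Real.log m := by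
  have hR' : (0 : ℝ) < R := by exact_mod_cast hR
  refine ⟨m ^ (1 / (R : ℝ)), Real.rpow_pos_of_pos hm _,
    Real.rpow_lt_one hm.le hm1 (by positivity), ?_, ?_⟩
  · rw [← Real.rpow_natCast, ← Real.rpow_mul hm.le]
    rw [one_div_mul_cancel hR'.ne', Real.rpow_one]
  · have h1 : m ^ (1 / (R : ℝ)) = Real.exp (Real.log m * (1 / R)) := Real.rpow_def_of_pos hm _
    have h2 := Real.add_one_le_exp (Real.log m * (1 / R))
    rw [h1]
    have h3 : 1 - Real.exp (Real.log m * (1 / R)) ≤ -(Real.log m * (1 / R)) := by linarith only [h2]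
    calc (R : ℝ) * (1 - Real.exp (Real.log m * (1 / R))) ≤ R * -(Real.log m * (1 / R)) :=
          mul_le_mul_of_nonneg_left h3 hR'.le
      _ = _ := by (clear * - hR; field_simp)

/-- Choice of the parameters: first `m = θ ^ R` small, then `R` large, then `Dq` and `K0`, then
`n`. -/
theorem exists_params {c M cW cJ : ℝ} (nJ : ℕ) {CI CL : ℝ} (hc : 0 < c) (hc1 : c ≤ 1)
    (hcW : 0 ≤ cW) (hcJ : 0 ≤ cJ) (hCL : 0 ≤ CL) {ε : ℝ} (hε : 0 < ε) :
    ∃ (r : ℕ) (θ : ℝ) (K0 Dq Λ n0 : ℕ), 0 < θ ∧ θ < 1 ∧ 0 < K0 ∧ 0 < Dq ∧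
      (∀ j ≤ r + 1, Chain.lab K0 Dq j ≤ Λ) ∧
      ∀ n : ℕ, n0 ≤ n → totErr c M cW cJ nJ CI CL (r + 1) θ K0 Dq Λ n ≤ ε := by
  -- the root parameter
  obtain ⟨m, hm, hm1, hmε⟩ : ∃ m : ℝ, 0 < m ∧ m < 1 ∧ m * (M ^ 2 * Real.exp M) ≤ ε / 5 := by
    have hA : 0 ≤ M ^ 2 * Real.exp M := by positivity
    refine ⟨min (1 / 2) (ε / 5 / (M ^ 2 * Real.exp M + 1)), ?_, ?_, ?_⟩
    · apply lt_min <;> positivity
    · exact lt_of_le_of_lt (min_le_left _ _) (by norm_num)
    · calc _ ≤ (ε / 5 / (M ^ 2 * Real.exp M + 1)) * (M ^ 2 * Real.exp M) :=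
            mul_le_mul_of_nonneg_right (min_le_right _ _) hA
        _ ≤ (ε / 5 / (M ^ 2 * Real.exp M + 1)) * (M ^ 2 * Real.exp M + 1) :=
            mul_le_mul_of_nonneg_left (by linarith) (by positivity)
        _ = ε / 5 := by field_simp
  set ℓ : ℝ := -Real.log m with hℓ
  have hℓ0 : 0 < ℓ := by
    have := Real.log_neg hm hm1
    linarith only [this]
  have hci : 1 ≤ c⁻¹ := (one_le_inv₀ hc).2 hc1
  set B : ℝ := c⁻¹ / m * c ^ (-ℓ) with hB
  have hB0 : 0 < B := by positivity
  set K : ℝ := 5 * c⁻¹ ^ 5 * (1 + ℓ) with hK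
  have hK0 : 0 < K := by positivity
  -- choice of `R`
  obtain ⟨R, hR, hR2⟩ : ∃ R : ℕ, 0 < R ∧
      B * (c⁻¹ ^ 3 * (ℓ / R) * (Real.sqrt R * Real.sqrt K) + c⁻¹ ^ 3 * (ℓ / R) * K) ≤ ε / 5 := by
    have h1 : Tendsto (fun R : ℕ => B * c⁻¹ ^ 3 * ℓ * (Real.sqrt K + K) * (1 / Real.sqrt (R : ℝ)))
        atTop (𝓝 (B * c⁻¹ ^ 3 * ℓ * (Real.sqrt K + K) * 0)) :=
      tendsto_inv_sqrt_nat'.const_mul _
    rw [mul_zero] at h1
    obtain ⟨R, hR1, hR2⟩ := (((tendsto_order.1 h1).2 (ε / 5) (by positivity)).and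
      (eventually_ge_atTop 1)).exists
    refine ⟨R, hR2, le_trans ?_ hR1.le⟩
    have hR' : (1 : ℝ) ≤ R := by exact_mod_cast hR2
    have hs : 1 ≤ Real.sqrt R := Real.one_le_sqrt.2 hR'
    have hss : Real.sqrt R * Real.sqrt R = R := Real.mul_self_sqrt (by linarith only [])
    have e1 : ℓ / R * Real.sqrt R = ℓ * (1 / Real.sqrt R) := by
      have : Real.sqrt R ≠ 0 := by linarith only [hs]
      have : (R : ℝ) ≠ 0 := by linarith only [hR']
      field_simp
      nlinarith only [hss]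
    have e2 : ℓ / R ≤ ℓ * (1 / Real.sqrt R) := by
      rw [← e1]
      exact le_mul_of_one_le_right (by positivity) hs
    calc B * (c⁻¹ ^ 3 * (ℓ / R) * (Real.sqrt R * Real.sqrt K) + c⁻¹ ^ 3 * (ℓ / R) * K)
        = B * c⁻¹ ^ 3 * Real.sqrt K * (ℓ / R * Real.sqrt R) + B * c⁻¹ ^ 3 * K * (ℓ / R) := by ring
      _ ≤ B * c⁻¹ ^ 3 * Real.sqrt K * (ℓ * (1 / Real.sqrt R)) +
          B * c⁻¹ ^ 3 * K * (ℓ * (1 / Real.sqrt R)) := by
          rw [e1]
          (clear * - e2 hc hm hℓ0; gcongr)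
      _ = _ := by ring
  obtain ⟨r, rfl⟩ : ∃ r, R = r + 1 := ⟨R - 1, by omega⟩
  obtain ⟨θ, hθ0, hθ1, hθm, hθℓ⟩ := exists_theta hm hm1 hR
  have hR' : (0 : ℝ) < ((r + 1 : ℕ) : ℝ) := by exact_mod_cast hR
  have hu : 1 - θ ≤ ℓ / ((r + 1 : ℕ) : ℝ) := by
    rw [le_div_iff₀ hR', mul_comm]
    exact hθℓ
  have hu0 : 0 ≤ 1 - θ := by linarith only [hθ1]
  -- choice of `Dq` and `K0`
  obtain ⟨Dq, hDq, hDq2⟩ : ∃ Dq : ℕ, 0 < Dq ∧
      B * (2 * (((r + 1 : ℕ) : ℝ) * (c⁻¹ ^ (r + 1) * (cW * (c⁻¹ * (cJ / Dq)))))) ≤ ε / 5 := by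
    have h1 : Tendsto (fun D : ℕ => B * 2 * ((r + 1 : ℕ) : ℝ) * c⁻¹ ^ (r + 1) * cW * c⁻¹ *
        (cJ / (D : ℝ))) atTop (𝓝 (B * 2 * ((r + 1 : ℕ) : ℝ) * c⁻¹ ^ (r + 1) * cW * c⁻¹ * 0)) :=
      (tendsto_const_div_atTop_nhds_zero_nat cJ).const_mul _
    rw [mul_zero] at h1
    obtain ⟨D, h1, h2⟩ := (((tendsto_order.1 h1).2 (ε / 5) (by positivity)).and
      (eventually_ge_atTop 1)).exists
    exact ⟨D, h2, le_trans (le_of_eq (by ring)) h1.le⟩
  obtain ⟨K0, hK0', hK02⟩ : ∃ K0 : ℕ, 0 < K0 ∧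
      B * (2 * (((r + 1 : ℕ) : ℝ) * (c⁻¹ ^ (r + 1) *
        (2 * ((r + 1 : ℕ) : ℝ) * (2 * cW * c⁻¹ / Real.sqrt K0))))) ≤ ε / 5 := by
    have h1 : Tendsto (fun D : ℕ => B * 2 * ((r + 1 : ℕ) : ℝ) * c⁻¹ ^ (r + 1) * 2 *
        ((r + 1 : ℕ) : ℝ) * 2 * cW * c⁻¹ * (1 / Real.sqrt (D : ℝ))) atTop
        (𝓝 (B * 2 * ((r + 1 : ℕ) : ℝ) * c⁻¹ ^ (r + 1) * 2 *
        ((r + 1 : ℕ) : ℝ) * 2 * cW * c⁻¹ * 0)) :=
      tendsto_inv_sqrt_nat'.const_mul _
    rw [mul_zero] at h1
    obtain ⟨D, h1, h2⟩ := (((tendsto_order.1 h1).2 (ε / 5) (by positivity)).and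
      (eventually_ge_atTop 1)).exists
    exact ⟨D, h2, le_trans (le_of_eq (by ring)) h1.le⟩
  -- `Λ`
  set Λ : ℕ := ∑ j ∈ range (r + 2), Chain.lab K0 Dq j with hΛ
  -- choice of `n`
  obtain ⟨n0, hn0⟩ : ∃ n0 : ℕ, ∀ n : ℕ, n0 ≤ n →
      B * (c⁻¹ ^ 3 * Real.sqrt ((Λ : ℝ) ^ nJ) *
        (((r + 1 : ℕ) : ℝ) * Real.sqrt (CI / Real.sqrt (n + 1))) +
        2 * (((r + 1 : ℕ) : ℝ) * (c⁻¹ ^ (r + 1) * (cW * (CL / Real.sqrt (n + 1))))) +
        CL / Real.sqrt (n + 1)) ≤ ε / 5 := by
    have h0 := tendsto_inv_sqrt_nat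
    have h1 : Tendsto (fun n : ℕ => CI / Real.sqrt ((n : ℝ) + 1)) atTop (𝓝 0) := by
      have := h0.const_mul CI
      rw [mul_zero] at this
      exact this.congr fun n => by ring
    have h2 : Tendsto (fun n : ℕ => Real.sqrt (CI / Real.sqrt ((n : ℝ) + 1))) atTop (𝓝 0) := by
      have := (Real.continuous_sqrt.tendsto 0).comp h1
      rwa [Real.sqrt_zero] at this
    have h3 : Tendsto (fun n : ℕ => CL / Real.sqrt ((n : ℝ) + 1)) atTop (𝓝 0) := by
      have := h0.const_mul CL
      rw [mul_zero] at this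
      exact this.congr fun n => by ring
    have h4 : Tendsto (fun n : ℕ => B * (c⁻¹ ^ 3 * Real.sqrt ((Λ : ℝ) ^ nJ) *
        (((r + 1 : ℕ) : ℝ) * Real.sqrt (CI / Real.sqrt (n + 1))) +
        2 * (((r + 1 : ℕ) : ℝ) * (c⁻¹ ^ (r + 1) * (cW * (CL / Real.sqrt (n + 1))))) +
        CL / Real.sqrt (n + 1))) atTop (𝓝 (B * (c⁻¹ ^ 3 * Real.sqrt ((Λ : ℝ) ^ nJ) *
        (((r + 1 : ℕ) : ℝ) * 0) + 2 * (((r + 1 : ℕ) : ℝ) * (c⁻¹ ^ (r + 1) * (cW * 0))) + 0))) :=
      (((((h2.const_mul _).const_mul _).add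
        ((((h3.const_mul _).const_mul _).const_mul _).const_mul _)).add h3).const_mul _)
    simp only [mul_zero, add_zero] at h4
    obtain ⟨n0, hn0⟩ := eventually_atTop.1 ((tendsto_order.1 h4).2 (ε / 5) (by positivity))
    exact ⟨n0, fun n hn => (hn0 n hn).le⟩
  refine ⟨r, θ, K0, Dq, Λ, n0, hθ0, hθ1, hK0', hDq, ?_, ?_⟩
  · intro j hj
    exact Finset.single_le_sum (f := fun j => Chain.lab K0 Dq j) (fun _ _ => Nat.zero_le _)
      (Finset.mem_range.2 (by omega))
  · intro n hn
    have hn' := hn0 n hn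
    unfold totErr
    rw [hθm]
    have hpow : c ^ (-(((r + 1 : ℕ) : ℝ) * (1 - θ))) ≤ c ^ (-ℓ) :=
      Real.rpow_le_rpow_of_exponent_ge hc hc1 (by linarith only [hθℓ])
    have hfac : c⁻¹ / m * c ^ (-(((r + 1 : ℕ) : ℝ) * (1 - θ))) ≤ B :=
      mul_le_mul_of_nonneg_left hpow (by positivity)
    have hs5 : 5 * c⁻¹ ^ 5 * (1 + ((r + 1 : ℕ) : ℝ) * (1 - θ)) ≤ K := by
      refine mul_le_mul_of_nonneg_left ?_ (by positivity)
      linarith only [hθℓ]
    have hs6 : Real.sqrt (5 * c⁻¹ ^ 5 * (1 + ((r + 1 : ℕ) : ℝ) * (1 - θ))) ≤ Real.sqrt K :=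
      Real.sqrt_le_sqrt hs5
    have t2 : c⁻¹ ^ 3 * (1 - θ) * (Real.sqrt ((r + 1 : ℕ) : ℝ) *
        Real.sqrt (5 * c⁻¹ ^ 5 * (1 + ((r + 1 : ℕ) : ℝ) * (1 - θ)))) ≤
        c⁻¹ ^ 3 * (ℓ / ((r + 1 : ℕ) : ℝ)) * (Real.sqrt ((r + 1 : ℕ) : ℝ) * Real.sqrt K) := by
      (clear * - hu hc hs6 hθ1 hℓ0; gcongr)
    have t3 : c⁻¹ ^ 3 * (1 - θ) * (5 * c⁻¹ ^ 5 * (1 + ((r + 1 : ℕ) : ℝ) * (1 - θ))) ≤
        c⁻¹ ^ 3 * (ℓ / ((r + 1 : ℕ) : ℝ)) * K := by
      have : 0 ≤ 5 * c⁻¹ ^ 5 * (1 + ((r + 1 : ℕ) : ℝ) * (1 - θ)) := by (clear * - hc hθ1; positivity)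
      (clear * - hu hc hs5 hθ1 hℓ0; gcongr)
    have hbr0 : 0 ≤ c⁻¹ ^ 3 * Real.sqrt ((Λ : ℝ) ^ nJ) *
        (((r + 1 : ℕ) : ℝ) * Real.sqrt (CI / Real.sqrt (n + 1))) +
      c⁻¹ ^ 3 * (1 - θ) * (Real.sqrt ((r + 1 : ℕ) : ℝ) *
        Real.sqrt (5 * c⁻¹ ^ 5 * (1 + ((r + 1 : ℕ) : ℝ) * (1 - θ)))) +
      c⁻¹ ^ 3 * (1 - θ) * (5 * c⁻¹ ^ 5 * (1 + ((r + 1 : ℕ) : ℝ) * (1 - θ))) +
      2 * (((r + 1 : ℕ) : ℝ) * (c⁻¹ ^ (r + 1) * (cW * (CL / Real.sqrt (n + 1)) +
        cW * (c⁻¹ * (cJ / Dq)) + 2 * ((r + 1 : ℕ) : ℝ) * (2 * cW * c⁻¹ / Real.sqrt K0)))) +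
      CL / Real.sqrt (n + 1) := by (clear * - hc hθ1 hcW hCL hcJ hDq hK0'; positivity)
    refine (add_le_add (mul_le_mul_of_nonneg_right hfac hbr0) hmε).trans ?_
    have key : c⁻¹ ^ 3 * Real.sqrt ((Λ : ℝ) ^ nJ) *
        (((r + 1 : ℕ) : ℝ) * Real.sqrt (CI / Real.sqrt (n + 1))) +
      c⁻¹ ^ 3 * (1 - θ) * (Real.sqrt ((r + 1 : ℕ) : ℝ) *
        Real.sqrt (5 * c⁻¹ ^ 5 * (1 + ((r + 1 : ℕ) : ℝ) * (1 - θ)))) +
      c⁻¹ ^ 3 * (1 - θ) * (5 * c⁻¹ ^ 5 * (1 + ((r + 1 : ℕ) : ℝ) * (1 - θ))) +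
      2 * (((r + 1 : ℕ) : ℝ) * (c⁻¹ ^ (r + 1) * (cW * (CL / Real.sqrt (n + 1)) +
        cW * (c⁻¹ * (cJ / Dq)) + 2 * ((r + 1 : ℕ) : ℝ) * (2 * cW * c⁻¹ / Real.sqrt K0)))) +
      CL / Real.sqrt (n + 1) ≤
      (c⁻¹ ^ 3 * Real.sqrt ((Λ : ℝ) ^ nJ) *
        (((r + 1 : ℕ) : ℝ) * Real.sqrt (CI / Real.sqrt (n + 1))) +
        2 * (((r + 1 : ℕ) : ℝ) * (c⁻¹ ^ (r + 1) * (cW * (CL / Real.sqrt (n + 1))))) +
        CL / Real.sqrt (n + 1)) +
      (c⁻¹ ^ 3 * (ℓ / ((r + 1 : ℕ) : ℝ)) * (Real.sqrt ((r + 1 : ℕ) : ℝ) * Real.sqrt K) +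
        c⁻¹ ^ 3 * (ℓ / ((r + 1 : ℕ) : ℝ)) * K) +
      (2 * (((r + 1 : ℕ) : ℝ) * (c⁻¹ ^ (r + 1) * (cW * (c⁻¹ * (cJ / Dq)))))) +
      (2 * (((r + 1 : ℕ) : ℝ) * (c⁻¹ ^ (r + 1) *
        (2 * ((r + 1 : ℕ) : ℝ) * (2 * cW * c⁻¹ / Real.sqrt K0))))) := by
      have e : 2 * (((r + 1 : ℕ) : ℝ) * (c⁻¹ ^ (r + 1) * (cW * (CL / Real.sqrt (n + 1)) +
        cW * (c⁻¹ * (cJ / Dq)) + 2 * ((r + 1 : ℕ) : ℝ) * (2 * cW * c⁻¹ / Real.sqrt K0)))) =
        2 * (((r + 1 : ℕ) : ℝ) * (c⁻¹ ^ (r + 1) * (cW * (CL / Real.sqrt (n + 1))))) +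
        2 * (((r + 1 : ℕ) : ℝ) * (c⁻¹ ^ (r + 1) * (cW * (c⁻¹ * (cJ / Dq))))) +
        2 * (((r + 1 : ℕ) : ℝ) * (c⁻¹ ^ (r + 1) *
          (2 * ((r + 1 : ℕ) : ℝ) * (2 * cW * c⁻¹ / Real.sqrt K0)))) := by ring
      rw [e]
      linarith only [t2, t3]
    have key2 := mul_le_mul_of_nonneg_left key hB0.le
    rw [mul_add B, mul_add B, mul_add B] at key2
    linarith only [hR2, hDq2, hK02, hn', key2]

end Vale.Agent.P168.MP
end
end

section

section

set_option autoImplicit false
set_option linter.unusedSectionVars false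

open Finset

namespace Vale.Agent.P168.MP

namespace PE

/-- Total variance: the conditional mean has smaller variance. -/
theorem var_bind_le {α β : Type} (P : PE α) (Q : α → PE β) (f : β → ℝ) :
    (P.var fun y => (Q y).E f) ≤ (P.bind Q).var f := by
  unfold PE.var
  rw [PE.bind_E, PE.bind_E]
  have h : (P.E fun y => (Q y).E f ^ 2) ≤ P.E fun y => (Q y).E fun z => f z ^ 2 :=
    P.mono fun y => (Q y).sq_le f
  linarith

end PE

namespace Chain

variable {𝒩 Ω : Type} {C : Chain 𝒩 Ω} {θ c : ℝ} {R : ℕ}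

theorem Ok.hat_lo (h : C.Ok θ c R) {p : ℕ} (hp : p < R) (y : 𝒩) (τ : Ω) : c ≤ C.hat p y τ :=
  (C.ρ p y).const_le fun z => h.lo (p + 1) hp z τ

theorem Ok.hat_hi (h : C.Ok θ c R) {p : ℕ} (hp : p < R) (y : 𝒩) (τ : Ω) : C.hat p y τ ≤ c⁻¹ :=
  (C.ρ p y).le_const fun z => h.hi (p + 1) hp z τ

theorem A_eq (p : ℕ) (x : 𝒩) (τ : Ω) : C.A p x τ = (C.κ p x).E fun y => C.hat p y τ := rfl

theorem Ok.A_lo (h : C.Ok θ c R) {p : ℕ} (hp : p < R) (x : 𝒩) (τ : Ω) : c ≤ C.A p x τ :=
  (C.step p x).const_le fun z => h.lo (p + 1) hp z τ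

theorem Ok.A_hi (h : C.Ok θ c R) {p : ℕ} (hp : p < R) (x : 𝒩) (τ : Ω) : C.A p x τ ≤ c⁻¹ :=
  (C.step p x).le_const fun z => h.hi (p + 1) hp z τ

theorem vr_nonneg (p : ℕ) (x : 𝒩) (τ : Ω) : 0 ≤ C.vr p x τ := PE.var_nonneg _ _

/-- (F2). -/
theorem Ok.F2 (h : C.Ok θ c R) {p : ℕ} (hp : p < R) (x : 𝒩) (τ : Ω) :
    |C.a p x τ - (C.A p x τ) ^ θ| ≤ c⁻¹ ^ 2 * (1 - θ) * C.vr p x τ := by
  rw [h.rel p hp x τ, A_eq]
  refine ((C.κ p x).jensen_rpow h.θ_pos h.θ_lt.le h.c_pos h.c_le (h.hat_lo hp · τ)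
    (h.hat_hi hp · τ)).trans ?_
  apply mul_le_mul_of_nonneg_left _
    (mul_nonneg (pow_nonneg (inv_nonneg.2 h.c_pos.le) 2) (by linarith only [h.θ_lt]))
  exact PE.var_bind_le (C.κ p x) (C.ρ p) fun z => C.a (p + 1) z τ

/-- `a_p` is close to `A_p`. -/
theorem Ok.a_sub_A (h : C.Ok θ c R) {p : ℕ} (hp : p < R) (x : 𝒩) (τ : Ω) :
    |C.a p x τ - C.A p x τ| ≤ c⁻¹ ^ 3 * (1 - θ) := by
  rw [h.rel p hp x τ, A_eq]
  refine ((C.κ p x).abs_sub_le _ _).trans ?_
  exact (C.κ p x).le_const fun y =>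
    rpow_near h.θ_pos h.θ_lt.le h.c_pos h.c_le (h.hat_lo hp y τ) (h.hat_hi hp y τ)

/-- (F3). -/
theorem Ok.F3 (h : C.Ok θ c R) (x : 𝒩) (τ : Ω) :
    ∑ p ∈ range R, (C.law x p).E (fun y => C.vr p y τ) ≤ 5 * c⁻¹ ^ 5 * (1 + R * (1 - θ)) := by
  have hci : (1 : ℝ) ≤ c⁻¹ := (one_le_inv₀ h.c_pos).2 h.c_le
  have hc0 : (0 : ℝ) < c⁻¹ := by linarith
  have hθ : 0 ≤ 1 - θ := by linarith [h.θ_lt]
  have key : ∀ p < R, (C.law x p).E (fun y => C.vr p y τ) ≤
      ((C.law x (p + 1)).E (fun z => C.a (p + 1) z τ ^ 2) -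
        (C.law x p).E (fun z => C.a p z τ ^ 2)) + 2 * c⁻¹ ^ 4 * (1 - θ) := by
    intro p hp
    have e : (C.law x (p + 1)).E (fun z => C.a (p + 1) z τ ^ 2) =
        (C.law x p).E fun y => (C.step p y).E fun z => C.a (p + 1) z τ ^ 2 := rfl
    have h1 : ∀ y, C.vr p y τ ≤ ((C.step p y).E (fun z => C.a (p + 1) z τ ^ 2) -
        C.a p y τ ^ 2) + 2 * c⁻¹ ^ 4 * (1 - θ) := by
      intro y
      have h2 : C.vr p y τ = (C.step p y).E (fun z => C.a (p + 1) z τ ^ 2) - C.A p y τ ^ 2 := rfl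
      rw [h2]
      have h3 := h.a_sub_A hp y τ
      have h4 := h.lo p hp.le y τ
      have h5 := h.hi p hp.le y τ
      have h6 := h.A_lo hp y τ
      have h7 := h.A_hi hp y τ
      have h8 : C.a p y τ ^ 2 - C.A p y τ ^ 2 ≤ 2 * c⁻¹ ^ 4 * (1 - θ) := by
        have h9 : C.a p y τ ^ 2 - C.A p y τ ^ 2 ≤
            |C.a p y τ - C.A p y τ| * (C.a p y τ + C.A p y τ) := by
          have : C.a p y τ ^ 2 - C.A p y τ ^ 2 =
            (C.a p y τ - C.A p y τ) * (C.a p y τ + C.A p y τ) := by ring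
          rw [this]
          apply mul_le_mul_of_nonneg_right (le_abs_self _)
          linarith only [h4, h6, h.c_pos]
        refine h9.trans ?_
        calc |C.a p y τ - C.A p y τ| * (C.a p y τ + C.A p y τ) ≤
              (c⁻¹ ^ 3 * (1 - θ)) * (c⁻¹ + c⁻¹) :=
              mul_le_mul h3 (by linarith only [h5, h7]) (by linarith only [h4, h6, h.c_pos])
                (mul_nonneg (by positivity) hθ)
          _ = 2 * c⁻¹ ^ 4 * (1 - θ) := by ring
      linarith only [h8]
    refine ((C.law x p).mono h1).trans (le_of_eq ?_)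
    rw [PE.add, PE.sub, PE.const, e]
  have hsum : ∑ p ∈ range R, (C.law x p).E (fun y => C.vr p y τ) ≤
      ∑ p ∈ range R, (((C.law x (p + 1)).E (fun z => C.a (p + 1) z τ ^ 2) -
        (C.law x p).E (fun z => C.a p z τ ^ 2)) + 2 * c⁻¹ ^ 4 * (1 - θ)) :=
    Finset.sum_le_sum fun p hp => key p (Finset.mem_range.1 hp)
  refine hsum.trans ?_
  rw [Finset.sum_add_distrib,
    Finset.sum_range_sub (fun p => (C.law x p).E (fun z => C.a p z τ ^ 2)),
    Finset.sum_const, card_range, nsmul_eq_mul]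
  have h1 : (C.law x R).E (fun z => C.a R z τ ^ 2) ≤ c⁻¹ ^ 2 := by
    apply PE.le_const
    intro z
    exact pow_le_pow_left₀ (h.c_pos.le.trans (h.lo R le_rfl z τ)) (h.hi R le_rfl z τ) 2
  have h2 : 0 ≤ (C.law x 0).E (fun z => C.a 0 z τ ^ 2) := PE.nonneg _ fun z => sq_nonneg _
  have h3 : c⁻¹ ^ 2 ≤ c⁻¹ ^ 5 := pow_le_pow_right₀ hci (by norm_num)
  have h4 : c⁻¹ ^ 4 ≤ c⁻¹ ^ 5 := pow_le_pow_right₀ hci (by norm_num)
  have h5 : 0 ≤ (R : ℝ) * (1 - θ) := mul_nonneg (Nat.cast_nonneg _) hθ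
  have h6 : (0 : ℝ) < c⁻¹ ^ 5 := by positivity
  nlinarith only [h1, h2, h3, h4, h5]

/-- Consequence of (F3) for the standard deviations. -/
theorem Ok.F3sd (h : C.Ok θ c R) (x : 𝒩) (τ : Ω) :
    ∑ p ∈ range R, (C.law x p).E (fun y => Real.sqrt (C.vr p y τ)) ≤
      Real.sqrt R * Real.sqrt (5 * c⁻¹ ^ 5 * (1 + R * (1 - θ))) := by
  have h1 : ∑ p ∈ range R, (C.law x p).E (fun y => Real.sqrt (C.vr p y τ)) ≤
      ∑ p ∈ range R, Real.sqrt ((C.law x p).E fun y => C.vr p y τ) :=
    Finset.sum_le_sum fun p _ => (C.law x p).sqrt_le fun y => vr_nonneg p y τ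
  refine h1.trans ?_
  rw [← Real.sqrt_mul (Nat.cast_nonneg R)]
  apply Real.le_sqrt_of_sq_le
  have h2 := Finset.sum_mul_sq_le_sq_mul_sq (range R) (fun _ => (1 : ℝ))
    (fun p => Real.sqrt ((C.law x p).E fun y => C.vr p y τ))
  simp only [one_mul, one_pow, Finset.sum_const, card_range, nsmul_eq_mul, mul_one] at h2
  refine h2.trans ?_
  apply mul_le_mul_of_nonneg_left _ (Nat.cast_nonneg R)
  refine (le_of_eq ?_).trans (h.F3 x τ)
  apply Finset.sum_congr rfl
  intro p _
  exact Real.sq_sqrt (PE.nonneg _ fun y => vr_nonneg p y τ)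

end Chain

end Vale.Agent.P168.MP
end
end

section

section

set_option autoImplicit false
set_option linter.unusedSectionVars false

open Finset

namespace Vale.Agent.P168.MP

namespace Chain

variable {𝒩 : Type} {S ι 𝒲 : Type} [Fintype S] [Nonempty S] [Fintype ι] [DecidableEq ι]
  [Fintype 𝒲] [Nonempty 𝒲] {θ c : ℝ} {R : ℕ}

theorem appBy_nonneg {q : S → ℕ} {e : ℝ} {F : 𝒲 → (ι → S) → ℝ} (h : AppBy q e F) : 0 ≤ e := by
  obtain ⟨G, hG⟩ := h
  refine le_trans (Finset.sum_nonneg fun w _ => ?_) hG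
  exact PE.nonneg _ fun s => abs_nonneg _

theorem er_zero (C : Chain 𝒩 (𝒲 × (ι → S))) (W : 𝒲 → (ι → Bool) → ℝ) (xh : 𝒩 → S → ℝ)
    (c η d : ℝ) (x : 𝒩) :
    C.er W xh R c η d 0 x = ∑ w, C.leafErr W xh R x w + d := rfl

theorem er_succ (C : Chain 𝒩 (𝒲 × (ι → S))) (W : 𝒲 → (ι → Bool) → ℝ) (xh : 𝒩 → S → ℝ)
    (c η d : ℝ) (j : ℕ) (x : 𝒩) :
    C.er W xh R c η d (j + 1) x =
      c⁻¹ * ((C.step (R - (j + 1)) x).E (C.er W xh R c η d j) + 2 * η) := rfl

theorem lab_succ (K0 Dq j : ℕ) :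
    lab K0 Dq (j + 1) = (lab K0 Dq j ^ K0) ^ K0 * lab K0 Dq j ^ K0 := rfl

theorem rpow_lip_inv (h0 : 0 < θ) (h1 : θ < 1) (hc : 0 < c) (hc1 : c ≤ 1) {u v : ℝ}
    (hu : c ≤ u) (hv : c ≤ v) : |u ^ θ - v ^ θ| ≤ c⁻¹ * |u - v| := by
  refine (rpow_lip h0 h1.le hc hu hv).trans ?_
  refine mul_le_mul_of_nonneg_right ?_ (abs_nonneg _)
  rw [← Real.rpow_neg_one c]
  exact Real.rpow_le_rpow_of_exponent_ge hc hc1 (by linarith)

theorem hat_mem {C : Chain 𝒩 (𝒲 × (ι → S))} (h : C.Ok θ c R) {p : ℕ} (hp : p + 1 ≤ R) (y : 𝒩)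
    (τ : 𝒲 × (ι → S)) : C.hat p y τ ∈ Set.Icc c c⁻¹ :=
  ⟨PE.const_le _ fun z => h.lo (p + 1) hp z τ, PE.le_const _ fun z => h.hi (p + 1) hp z τ⟩

theorem abs_le_of_mem {c u : ℝ} (hc : 0 < c) (h : u ∈ Set.Icc c c⁻¹) : |u| ≤ c⁻¹ := by
  rw [abs_of_nonneg (hc.le.trans h.1)]
  exact h.2

/-- Approximability of `a_p` and `A_p` by the same labels (section 5). -/
theorem approx {C : Chain 𝒩 (𝒲 × (ι → S))} (h : C.Ok θ c R) {W : 𝒲 → (ι → Bool) → ℝ}
    {xh : 𝒩 → S → ℝ} (hW : ∀ w σ, |W w σ| ≤ c⁻¹) (hxh : ∀ x i, |xh x i| ≤ 1) {K0 Dq : ℕ}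
    (hK : 0 < K0) (hD : 0 < Dq) (j : ℕ) (hj : j ≤ R) (x : 𝒩) :
    ∃ q : S → ℕ, nlab q ≤ lab K0 Dq j ∧
      AppBy q (C.er W xh R c (2 * Fintype.card 𝒲 * c⁻¹ / Real.sqrt K0)
        (Fintype.card 𝒲 * (c⁻¹ * (Fintype.card ι / Dq))) j x)
        (fun w s => C.a (R - j) x (w, s)) ∧
      (0 < j → AppBy q (C.er W xh R c (2 * Fintype.card 𝒲 * c⁻¹ / Real.sqrt K0)
        (Fintype.card 𝒲 * (c⁻¹ * (Fintype.card ι / Dq))) j x)
        (fun w s => C.A (R - j) x (w, s))) := by
  have hc := h.c_pos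
  have hc1 := h.c_le
  have hci : 0 < c⁻¹ := inv_pos.2 hc
  have hci1 : 1 ≤ c⁻¹ := (one_le_inv₀ hc).2 hc1
  set η : ℝ := 2 * Fintype.card 𝒲 * c⁻¹ / Real.sqrt K0 with hη
  set d : ℝ := Fintype.card 𝒲 * (c⁻¹ * (Fintype.card ι / Dq)) with hd
  have hη0 : 0 ≤ η := by (clear W xh hW hxh Dq hD j hj x hc1 hci hci1 hη d hd; positivity)
  induction j generalizing x with
  | zero =>
    obtain ⟨q, hq, G, hG⟩ := appr_leaf (S := S) W hW (xh x) (hxh x) hD
    refine ⟨q, hq, ⟨G, ?_⟩, fun h0 => absurd h0 (lt_irrefl 0)⟩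
    rw [er_zero]
    refine le_trans ?_ (add_le_add_right hG _)
    rw [← Finset.sum_add_distrib]
    refine Finset.sum_le_sum fun w _ => ?_
    unfold leafErr
    rw [← PE.add]
    refine PE.mono _ fun s => ?_
    exact abs_sub_le _ _ _
  | succ j ih =>
    have hjR : j ≤ R := by omega
    have hp : R - (j + 1) + 1 = R - j := by omega
    have hpR : R - (j + 1) + 1 ≤ R := by omega
    have hpl : R - (j + 1) < R := by omega
    have ih' := ih hjR
    have hA : ∀ z : 𝒩, Appr (lab K0 Dq j) (C.er W xh R c η d j z)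
        (fun w (s : ι → S) => C.a (R - (j + 1) + 1) z (w, s)) := by
      intro z
      obtain ⟨q, h1, h2, _⟩ := ih' z
      rw [hp]
      exact ⟨q, h1, h2⟩
    have her : ∀ z : 𝒩, 0 ≤ C.er W xh R c η d j z := by
      intro z
      obtain ⟨q, _, h2⟩ := hA z
      exact appBy_nonneg h2
    have habs : ∀ (z : 𝒩) (w : 𝒲) (s : ι → S), |C.a (R - (j + 1) + 1) z (w, s)| ≤ c⁻¹ :=
      fun z w s => abs_le_of_mem hc ⟨h.lo _ hpR z (w, s), h.hi _ hpR z (w, s)⟩
    -- the function `A_p`
    obtain ⟨q2, hq2, hA2⟩ := averaging (C.step (R - (j + 1)) x)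
      (fun z w (s : ι → S) => C.a (R - (j + 1) + 1) z (w, s)) hci habs hA hK
    -- the function `Ahat_p`
    have hhat : ∀ y : 𝒩, Appr (lab K0 Dq j ^ K0)
        (c⁻¹ * ((C.ρ (R - (j + 1)) y).E (C.er W xh R c η d j) + η))
        (fun w (s : ι → S) => (C.hat (R - (j + 1)) y (w, s)) ^ θ) := by
      intro y
      obtain ⟨q, hq, hy⟩ := averaging (C.ρ (R - (j + 1)) y)
        (fun z w (s : ι → S) => C.a (R - (j + 1) + 1) z (w, s)) hci habs hA hK
      refine ⟨q, hq, ?_⟩
      have := AppBy.comp hy (lo := c) (hi := c⁻¹) (Λ := c⁻¹) (φ := fun u => u ^ θ)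
        (fun w s => hat_mem h hpR y (w, s))
        (fun u hu v hv => rpow_lip_inv h.θ_pos h.θ_lt hc hc1 hu.1 hv.1) hci.le
      exact this
    have habs' : ∀ (y : 𝒩) (w : 𝒲) (s : ι → S), |(C.hat (R - (j + 1)) y (w, s)) ^ θ| ≤ c⁻¹ := by
      intro y w s
      have h1 := hat_mem h hpR y (w, s)
      exact abs_le_of_mem hc (rpow_mem h.θ_pos.le h.θ_lt.le hc hc1 h1.1 h1.2)
    obtain ⟨q1, hq1, hA1⟩ := averaging (C.κ (R - (j + 1)) x)
      (fun y w (s : ι → S) => (C.hat (R - (j + 1)) y (w, s)) ^ θ) hci habs' hhat hK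
    have hE : (C.κ (R - (j + 1)) x).E (fun y => c⁻¹ *
        ((C.ρ (R - (j + 1)) y).E (C.er W xh R c η d j) + η)) =
        c⁻¹ * ((C.step (R - (j + 1)) x).E (C.er W xh R c η d j) + η) := by
      rw [PE.smul, PE.add, PE.const]
      rfl
    have hstep : 0 ≤ (C.step (R - (j + 1)) x).E (C.er W xh R c η d j) := PE.nonneg _ her
    refine ⟨join q1 q2, ?_, ?_, fun _ => ?_⟩
    · rw [lab_succ]
      exact (nlab_join_le q1 q2).trans (Nat.mul_le_mul hq1 hq2)
    · have h1 : AppBy (join q1 q2) _ _ := hA1.refine fun i j hij => join_left hij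
      rw [hE] at h1
      have h2 : (fun w (s : ι → S) => C.a (R - (j + 1)) x (w, s)) =
          fun w s => (C.κ (R - (j + 1)) x).E fun y => (C.hat (R - (j + 1)) y (w, s)) ^ θ := by
        funext w s
        exact h.rel _ hpl x (w, s)
      rw [h2, er_succ]
      refine h1.mono ?_
      have : η ≤ c⁻¹ * η := le_mul_of_one_le_left hη0 hci1
      have e : c⁻¹ * ((C.step (R - (j + 1)) x).E (C.er W xh R c η d j) + 2 * η) =
        c⁻¹ * ((C.step (R - (j + 1)) x).E (C.er W xh R c η d j) + η) + c⁻¹ * η := by ring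
      rw [e]
      exact add_le_add_right this _
    · have h1 : AppBy (join q1 q2) _ _ := hA2.refine fun i j hij => join_right hij
      rw [er_succ]
      refine h1.mono ?_
      have h3 : (C.step (R - (j + 1)) x).E (C.er W xh R c η d j) + η ≤
          (C.step (R - (j + 1)) x).E (C.er W xh R c η d j) + 2 * η := by (clear hW hxh hD hc1 hci hci1 hη hd ih hj hjR hp hpR hpl ih' hA her habs q2 hq2 hA2 hhat habs' q1 hq1 hA1 hE hstep h1; linarith)
      refine h3.trans ?_
      exact le_mul_of_one_le_left (by (clear hW hxh hD hc1 hci hci1 hη hd hη0 hpR hpl habs q2 hq2 hA2 hhat habs' q1 hq1 hA1 hE h1 h3; positivity)) hci1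

end Chain

end Vale.Agent.P168.MP
end
end

section

section

set_option autoImplicit false

open Finset

namespace Vale.Agent.P168.MP

/-- Realization of trial data by one measurable message function on the unit cube. -/
theorem realize_data {S : Type} [Fintype S] [Nonempty S] {θ : ℝ} (h0 : 0 < θ) (h1 : θ < 1) (r : ℕ)
    (data : Chain.Data (r + 1) S) :
    ∃ x : (Fin (r + 1) → U01) → ℝ, IsTrial r (fun i => θ ^ (r - (i : ℕ))) x ∧
      ∀ (ι : Type) [Fintype ι] [DecidableEq ι] (w : (ι → Bool) → ℝ), (∀ σ, 0 < w σ) →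
        hierLog r (fun i => θ ^ (r - (i : ℕ))) (fun u v => mlin w (message x u v)) =
          1 / θ ^ (r + 1) * aS fun s : ι → S =>
            Real.log (betaRec θ (r + 1) data.1 (Chain.leafF w data.2) s) := by
  obtain ⟨x, hx, hval⟩ := realize (θ := θ) ⟨h0, h1⟩ r data.1
    (fun i => (data.2 i : ℝ)) (fun i => (data.2 i).2)
  refine ⟨x, hx, fun ι _ _ w hw => ?_⟩
  rw [hval ι w hw, aS_eq]
  rfl

end Vale.Agent.P168.MP
end
end

section

section

set_option autoImplicit false

open Finset Polynomial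

namespace Vale.Agent.P168.PT

theorem choose_real (a : ℝ) (n : ℕ) :
    Ring.choose a (n + 1) * (n + 1) = Ring.choose a n * (a - n) := by
  have h : (descPochhammer ℤ (n + 1)).smeval a = (descPochhammer ℤ n).smeval a * (a - n) := by
    rw [descPochhammer_succ_right, smeval_mul, smeval_sub, smeval_X, smeval_natCast, npow_one,
      npow_zero, nsmul_one]
  rw [Ring.choose_eq_smul, Ring.choose_eq_smul, h, Nat.factorial_succ]
  have h1 : (n.factorial : ℝ) ≠ 0 := by exact_mod_cast Nat.factorial_ne_zero n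
  have h2 : (n : ℝ) + 1 ≠ 0 := by positivity
  push_cast
  simp only [smul_eq_mul]
  field_simp

theorem choose_sign {a : ℝ} (ha : 0 < a) (ha1 : a ≤ 1) (n : ℕ) :
    0 ≤ (-1 : ℝ) ^ n * Ring.choose a (n + 1) := by
  induction n with
  | zero => simpa only [pow_zero, zero_add, Ring.choose_one_right', pow_one, one_mul] using ha.le
  | succ n ih =>
    have h := choose_real a (n + 1)
    have h2 : (0 : ℝ) < (n : ℝ) + 1 + 1 := by positivity
    have h3 : Ring.choose a (n + 1 + 1) = Ring.choose a (n + 1) * (a - (n + 1)) / (n + 1 + 1) := by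
      rw [eq_div_iff h2.ne']
      push_cast at h
      exact h
    rw [h3]
    have h4 : (-1 : ℝ) ^ (n + 1) * (Ring.choose a (n + 1) * (a - (n + 1)) / (n + 1 + 1)) =
        ((-1 : ℝ) ^ n * Ring.choose a (n + 1)) * ((n + 1 - a) / (n + 1 + 1)) := by
      rw [pow_succ]; ring
    rw [h4]
    refine mul_nonneg ih (div_nonneg ?_ h2.le)
    have : (0 : ℝ) ≤ n := Nat.cast_nonneg n
    linarith only [ha1]

theorem one_sub_rpow_hasSum {a v : ℝ} (hv : |v| < 1) :
    HasSum (fun n : ℕ => ((-1 : ℝ) ^ n * Ring.choose a (n + 1)) * v ^ (n + 1))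
      (1 - (1 - v) ^ a) := by
  have hs := (Real.one_add_rpow_hasFPowerSeriesOnBall_zero (a := a)).hasSum (y := -v) (by
    rw [mem_eball_zero_iff]
    rw [← ofReal_norm, Real.norm_eq_abs, abs_neg]
    exact ENNReal.ofReal_lt_one.2 hv)
  have h1 : HasSum (fun n : ℕ => Ring.choose a n * (-v) ^ n) ((1 - v) ^ a) := by
    have e1 : (fun n : ℕ => Ring.choose a n * (-v) ^ n) =
        fun n => (binomialSeries ℝ a n) fun _ => -v := by
      funext n
      rw [binomialSeries_apply]
      simp only [List.ofFn_const, List.prod_replicate, smul_eq_mul]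
    rw [e1]
    simpa only [FormalMultilinearSeries.apply_eq_prod_smul_coeff, prod_const, card_univ, Fintype.card_fin,     smul_eq_mul, sub_eq_add_neg, zero_add] using hs
  have h2 := (hasSum_nat_add_iff' 1).2 h1
  have h3 := h2.neg
  have e : -((1 - v) ^ a - ∑ i ∈ range 1, Ring.choose a i * (-v) ^ i) = 1 - (1 - v) ^ a := by
    simp only [range_one, sum_singleton, Ring.choose_zero_right', pow_zero, mul_one, neg_sub]
  rw [e] at h3
  have e2 : (fun n : ℕ => ((-1 : ℝ) ^ n * Ring.choose a (n + 1)) * v ^ (n + 1)) =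
      fun n => -(Ring.choose a (n + 1) * (-v) ^ (n + 1)) := by
    funext n
    rw [neg_pow v, pow_succ (-1 : ℝ)]
    ring
  rw [e2]
  exact h3

end Vale.Agent.P168.PT
end
end

section

section

set_option autoImplicit false
set_option linter.unusedSectionVars false

open MeasureTheory ProbabilityTheory Filter
open scoped NNReal Topology

namespace Vale.Agent.P168.PT

/-- Bounded and measurable. -/
def Bdm {A : Type} [MeasurableSpace A] (Q : A → ℝ) : Prop := Measurable Q ∧ ∃ C, ∀ z, |Q z| ≤ C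

section Bdm

variable {A : Type} [MeasurableSpace A] {Q Q' : A → ℝ}

theorem Bdm.integrable (h : Bdm Q) (P : Measure A) [IsFiniteMeasure P] : Integrable Q P := by
  obtain ⟨hm, C, hC⟩ := h
  exact Integrable.of_bound hm.aestronglyMeasurable C (Eventually.of_forall hC)

theorem Bdm.mul (h : Bdm Q) (h' : Bdm Q') : Bdm fun z => Q z * Q' z := by
  obtain ⟨hm, C, hC⟩ := h
  obtain ⟨hm', C', hC'⟩ := h'
  refine ⟨hm.mul hm', |C| * |C'|, fun z => ?_⟩
  rw [abs_mul]
  exact mul_le_mul ((hC z).trans (le_abs_self C)) ((hC' z).trans (le_abs_self C'))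
    (abs_nonneg _) (abs_nonneg _)

theorem Bdm.add (h : Bdm Q) (h' : Bdm Q') : Bdm fun z => Q z + Q' z := by
  obtain ⟨hm, C, hC⟩ := h
  obtain ⟨hm', C', hC'⟩ := h'
  exact ⟨hm.add hm', C + C', fun z => (abs_add_le _ _).trans (add_le_add (hC z) (hC' z))⟩

theorem Bdm.const (c : ℝ) : Bdm (fun _ : A => c) := ⟨measurable_const, |c|, fun _ => le_rfl⟩

theorem Bdm.smul (h : Bdm Q) (c : ℝ) : Bdm fun z => c * Q z := (Bdm.const c).mul h

theorem Bdm.sub (h : Bdm Q) (h' : Bdm Q') : Bdm fun z => Q z - Q' z := by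
  have := h.add (h'.smul (-1))
  simpa [sub_eq_add_neg] using this

theorem Bdm.comp {B : Type} [MeasurableSpace B] (h : Bdm Q) {f : B → A} (hf : Measurable f) :
    Bdm fun b => Q (f b) := by
  obtain ⟨hm, C, hC⟩ := h
  exact ⟨hm.comp hf, C, fun z => hC _⟩

theorem Bdm.finprod {ι : Type*} (s : Finset ι) {F : ι → A → ℝ} (h : ∀ i ∈ s, Bdm (F i)) :
    Bdm fun z => ∏ i ∈ s, F i z := by
  classical
  induction s using Finset.induction_on with
  | empty => simpa using Bdm.const (A := A) 1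
  | insert i s hi ih =>
    have h1 := (h i (Finset.mem_insert_self i s)).mul
      (ih fun j hj => h j (Finset.mem_insert_of_mem hj))
    simpa [Finset.prod_insert hi] using h1

theorem Bdm.pow (h : Bdm Q) (n : ℕ) : Bdm fun z => Q z ^ n := by
  induction n with
  | zero => simpa using Bdm.const (A := A) 1
  | succ n ih => simpa [pow_succ] using ih.mul h

end Bdm

variable {K : ℕ} {𝔹 X : Type} [MeasurableSpace 𝔹] [MeasurableSpace X]

/-- The product measure. -/
noncomputable abbrev mm (K : ℕ) (β : Measure 𝔹) (PX : Measure X) : Measure (𝔹 × (Fin K → X)) :=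
  β.prod (Measure.pi fun _ : Fin K => PX)

/-- The generators. -/
def gen (bb : 𝔹 → ℝ) (n : ℕ) (φ : X → ℝ) (z : 𝔹 × (Fin K → X)) : ℝ :=
  (-bb z.1) ^ n * ∏ j, φ (z.2 j)

/-- Positivity against the generators. -/
def Pos (bb : 𝔹 → ℝ) (β : Measure 𝔹) (PX : Measure X) (L : 𝔹 × (Fin K → X) → ℝ) : Prop :=
  ∀ (n : ℕ) (φ : X → ℝ), Measurable φ → (∀ x, |φ x| ≤ 1) →
    0 ≤ ∫ z, L z * gen bb n φ z ∂(mm K β PX)

/-- The dual cone. -/
def Good (bb : 𝔹 → ℝ) (β : Measure 𝔹) (PX : Measure X) (Q : 𝔹 × (Fin K → X) → ℝ) : Prop :=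
  Bdm Q ∧ ∀ L : 𝔹 × (Fin K → X) → ℝ, Bdm L → Pos bb β PX L → 0 ≤ ∫ z, L z * Q z ∂(mm K β PX)

theorem gen_bdm {bb : 𝔹 → ℝ} (hb : Measurable bb) (hb1 : ∀ b, |bb b| ≤ 1) (n : ℕ) {φ : X → ℝ}
    (hφ : Measurable φ) (hφ1 : ∀ x, |φ x| ≤ 1) : Bdm (gen (K := K) bb n φ) := by
  refine Bdm.mul (Bdm.pow ⟨(hb.comp measurable_fst).neg, 1, fun z => ?_⟩ n)
    (Bdm.finprod _ fun j _ => ⟨hφ.comp ((measurable_pi_apply j).comp measurable_snd), 1,
      fun z => hφ1 _⟩)
  change |-(bb z.1)| ≤ 1
  rw [abs_neg]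
  exact hb1 _

theorem gen_mul (bb : 𝔹 → ℝ) (n n' : ℕ) (φ φ' : X → ℝ) (z : 𝔹 × (Fin K → X)) :
    gen bb n φ z * gen bb n' φ' z = gen bb (n + n') (fun x => φ x * φ' x) z := by
  unfold gen
  rw [Finset.prod_mul_distrib, pow_add]
  ring

section Good

variable {bb : 𝔹 → ℝ} {β : Measure 𝔹} {PX : Measure X} [IsProbabilityMeasure β]
  [IsFiniteMeasure PX] {Q Q' : 𝔹 × (Fin K → X) → ℝ}

theorem Good.of_gen (hb : Measurable bb) (hb1 : ∀ b, |bb b| ≤ 1) (n : ℕ) {φ : X → ℝ}
    (hφ : Measurable φ) (hφ1 : ∀ x, |φ x| ≤ 1) : Good bb β PX (gen (K := K) bb n φ) :=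
  ⟨gen_bdm hb hb1 n hφ hφ1, fun _ _ hL => hL n φ hφ hφ1⟩

theorem Good.one (hb : Measurable bb) (hb1 : ∀ b, |bb b| ≤ 1) :
    Good bb β PX (fun _ : 𝔹 × (Fin K → X) => (1 : ℝ)) := by
  have h := Good.of_gen (K := K) (β := β) (PX := PX) hb hb1 0 (φ := fun _ => (1 : ℝ))
    measurable_const (fun x => by simp)
  have e : gen (K := K) bb 0 (fun _ : X => (1 : ℝ)) = fun _ => 1 := by
    funext z; simp only [gen, pow_zero, Finset.prod_const_one, mul_one]
  rwa [e] at h

theorem Good.add (h : Good bb β PX Q) (h' : Good bb β PX Q') :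
    Good bb β PX fun z => Q z + Q' z := by
  refine ⟨h.1.add h'.1, fun L hL hP => ?_⟩
  simp_rw [mul_add]
  rw [integral_add ((hL.mul h.1).integrable _) ((hL.mul h'.1).integrable _)]
  exact add_nonneg (h.2 L hL hP) (h'.2 L hL hP)

theorem Good.smul (h : Good bb β PX Q) {c : ℝ} (hc : 0 ≤ c) :
    Good bb β PX fun z => c * Q z := by
  refine ⟨h.1.smul c, fun L hL hP => ?_⟩
  have : ∀ z, L z * (c * Q z) = c * (L z * Q z) := fun z => by ring
  simp_rw [this]
  rw [integral_const_mul]
  exact mul_nonneg hc (h.2 L hL hP)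

theorem Good.zero : Good bb β PX (fun _ : 𝔹 × (Fin K → X) => (0 : ℝ)) :=
  ⟨Bdm.const 0, fun L _ _ => by simp⟩

theorem Good.finsum {ι : Type*} (s : Finset ι) {F : ι → 𝔹 × (Fin K → X) → ℝ}
    (h : ∀ i ∈ s, Good bb β PX (F i)) : Good bb β PX fun z => ∑ i ∈ s, F i z := by
  classical
  induction s using Finset.induction_on with
  | empty => simpa using Good.zero (K := K) (bb := bb) (β := β) (PX := PX)
  | insert i s hi ih =>
    have h1 := (h i (Finset.mem_insert_self i s)).add
      (ih fun j hj => h j (Finset.mem_insert_of_mem hj))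
    simpa [Finset.sum_insert hi] using h1

theorem Good.mul (hb : Measurable bb) (hb1 : ∀ b, |bb b| ≤ 1) (h : Good bb β PX Q)
    (h' : Good bb β PX Q') : Good bb β PX fun z => Q z * Q' z := by
  refine ⟨h.1.mul h'.1, fun L hL hP => ?_⟩
  have h1 : ∀ z, L z * (Q z * Q' z) = (L z * Q z) * Q' z := fun z => by ring
  simp_rw [h1]
  refine h'.2 (fun z => L z * Q z) (hL.mul h.1) fun n φ hφ hφ1 => ?_
  have h2 : ∀ z, L z * Q z * gen bb n φ z = (L z * gen bb n φ z) * Q z := fun z => by ring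
  simp_rw [h2]
  refine h.2 (fun z => L z * gen bb n φ z) (hL.mul (gen_bdm hb hb1 n hφ hφ1))
    fun n' φ' hφ' hφ1' => ?_
  have h3 : ∀ z, L z * gen bb n φ z * gen bb n' φ' z =
      L z * gen bb (n + n') (fun x => φ x * φ' x) z := fun z => by
    rw [mul_assoc, gen_mul]
  simp_rw [h3]
  refine hP (n + n') _ (hφ.mul hφ') fun x => ?_
  rw [abs_mul]
  exact mul_le_one₀ (hφ1 x) (abs_nonneg _) (hφ1' x)

theorem Good.pow (hb : Measurable bb) (hb1 : ∀ b, |bb b| ≤ 1) (h : Good bb β PX Q) (n : ℕ) :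
    Good bb β PX fun z => Q z ^ n := by
  induction n with
  | zero => simpa using Good.one (K := K) (β := β) (PX := PX) hb hb1
  | succ n ih => simpa [pow_succ] using ih.mul hb hb1 h

theorem Good.of_tendsto {F : ℕ → 𝔹 × (Fin K → X) → ℝ} (hF : ∀ n, Good bb β PX (F n)) (C : ℝ)
    (hC : ∀ n z, |F n z| ≤ C) (hlim : ∀ z, Tendsto (fun n => F n z) atTop (𝓝 (Q z))) :
    Good bb β PX Q := by
  have hm : Measurable Q := measurable_of_tendsto_metrizable (fun n => (hF n).1.1)
    (tendsto_pi_nhds.2 hlim)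
  have hQC : ∀ z, |Q z| ≤ C := fun z => le_of_tendsto (hlim z).abs (Eventually.of_forall
    fun n => hC n z)
  refine ⟨⟨hm, C, hQC⟩, fun L hL hP => ?_⟩
  obtain ⟨hLm, D, hD⟩ := hL
  have hlim2 : Tendsto (fun n => ∫ z, L z * F n z ∂(mm K β PX)) atTop
      (𝓝 (∫ z, L z * Q z ∂(mm K β PX))) := by
    refine tendsto_integral_of_dominated_convergence (fun _ => |D| * |C|) (fun n => ?_)
      (integrable_const _) (fun n => Eventually.of_forall fun z => ?_)
      (Eventually.of_forall fun z => (hlim z).const_mul _)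
    · exact (hLm.mul (hF n).1.1).aestronglyMeasurable
    · rw [Real.norm_eq_abs, abs_mul]
      exact mul_le_mul ((hD z).trans (le_abs_self _)) ((hC n z).trans (le_abs_self _))
        (abs_nonneg _) (abs_nonneg _)
  exact ge_of_tendsto hlim2 (Eventually.of_forall fun n => (hF n).2 L ⟨hLm, D, hD⟩ hP)

theorem Good.series (hb : Measurable bb) (hb1 : ∀ b, |bb b| ≤ 1) (h : Good bb β PX Q)
    {c : ℕ → ℝ} (hc : ∀ n, 0 ≤ c n) {q : ℝ} (hq : ∀ z, |Q z| ≤ q)
    (hs : Summable fun n => c n * q ^ (n + 1)) {R : 𝔹 × (Fin K → X) → ℝ}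
    (hR : ∀ z, HasSum (fun n => c n * Q z ^ (n + 1)) (R z)) : Good bb β PX R := by
  refine Good.of_tendsto (F := fun N z => ∑ n ∈ Finset.range N, c n * Q z ^ (n + 1))
    (fun N => ?_) (∑' n, c n * q ^ (n + 1)) (fun N z => ?_) fun z => (hR z).tendsto_sum_nat
  · exact Good.finsum _ fun n _ => (h.pow hb hb1 (n + 1)).smul (hc n)
  · have hq0 : 0 ≤ q := (abs_nonneg _).trans (hq z)
    calc |∑ n ∈ Finset.range N, c n * Q z ^ (n + 1)|
        ≤ ∑ n ∈ Finset.range N, |c n * Q z ^ (n + 1)| := Finset.abs_sum_le_sum_abs _ _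
      _ ≤ ∑ n ∈ Finset.range N, c n * q ^ (n + 1) := by
          refine Finset.sum_le_sum fun n _ => ?_
          rw [abs_mul, abs_of_nonneg (hc n), abs_pow]
          exact mul_le_mul_of_nonneg_left (pow_le_pow_left₀ (abs_nonneg _) (hq z) _) (hc n)
      _ ≤ ∑' n, c n * q ^ (n + 1) :=
          hs.sum_le_tsum _ fun n _ => mul_nonneg (hc n) (pow_nonneg hq0 _)

theorem Good.one_sub_rpow (hb : Measurable bb) (hb1 : ∀ b, |bb b| ≤ 1) (h : Good bb β PX Q)
    {q : ℝ} (hq0 : 0 ≤ q) (hq1 : q < 1) (hq : ∀ z, |Q z| ≤ q) {a : ℝ} (ha : 0 < a) (ha1 : a ≤ 1) :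
    Good bb β PX fun z => 1 - (1 - Q z) ^ a := by
  refine h.series hb hb1 (choose_sign ha ha1) hq ?_ fun z =>
    one_sub_rpow_hasSum ((hq z).trans_lt hq1)
  exact (one_sub_rpow_hasSum (a := a) (by rwa [abs_of_nonneg hq0])).summable

theorem Good.neg_log (hb : Measurable bb) (hb1 : ∀ b, |bb b| ≤ 1) (h : Good bb β PX Q)
    {q : ℝ} (hq0 : 0 ≤ q) (hq1 : q < 1) (hq : ∀ z, |Q z| ≤ q) :
    Good bb β PX fun z => -Real.log (1 - Q z) := by
  have hh : ∀ {x : ℝ}, |x| < 1 →
      HasSum (fun n : ℕ => (1 / ((n : ℝ) + 1)) * x ^ (n + 1)) (-Real.log (1 - x)) := by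
    intro x hx
    have h1 := Real.hasSum_pow_div_log_of_abs_lt_one hx
    have e : (fun n : ℕ => (1 / ((n : ℝ) + 1)) * x ^ (n + 1)) =
        fun n : ℕ => x ^ (n + 1) / ((n : ℝ) + 1) := by
      funext n; ring
    rw [e]; exact h1
  refine h.series hb hb1 (c := fun n => 1 / ((n : ℝ) + 1)) (fun n => by positivity) hq
    (hh (by rwa [abs_of_nonneg hq0])).summable fun z => hh ((hq z).trans_lt hq1)

theorem Good.param {U : Type} [MeasurableSpace U] {PU : Measure U} [IsFiniteMeasure PU]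
    {F : U → 𝔹 × (Fin K → X) → ℝ} (hF : Bdm fun x : U × (𝔹 × (Fin K → X)) => F x.1 x.2)
    (hG : ∀ u, Good bb β PX (F u)) : Good bb β PX fun z => ∫ u, F u z ∂PU := by
  obtain ⟨hm, C, hC⟩ := hF
  have hm2 : Measurable fun x : (𝔹 × (Fin K → X)) × U => F x.2 x.1 := hm.comp measurable_swap
  refine ⟨⟨?_, |C| * PU.real Set.univ, fun z => ?_⟩, fun L hL hP => ?_⟩
  · exact (StronglyMeasurable.integral_prod_right (f := fun z u => F u z)
      hm2.stronglyMeasurable).measurable
  · have := norm_integral_le_of_norm_le_const (μ := PU) (f := fun u => F u z) (C := |C|)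
      (Eventually.of_forall fun u => (hC (u, z)).trans (le_abs_self C))
    exact this
  · have h1 : ∀ z, L z * ∫ u, F u z ∂PU = ∫ u, L z * F u z ∂PU := fun z =>
      (integral_const_mul _ _).symm
    simp_rw [h1]
    rw [integral_integral_swap]
    · exact integral_nonneg fun u => (hG u).2 L hL hP
    · have h2 : Bdm fun x : (𝔹 × (Fin K → X)) × U => L x.1 * F x.2 x.1 :=
        (hL.comp measurable_fst).mul ⟨hm2, C, fun x => hC (x.2, x.1)⟩
      exact h2.integrable _

end Good

section Coord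

variable {bb : 𝔹 → ℝ} {β : Measure 𝔹} {PX : Measure X} [IsProbabilityMeasure β]
  [IsFiniteMeasure PX] {Y : Type} [MeasurableSpace Y] {PY : Measure Y} [IsProbabilityMeasure PY]

/-- Zipping. -/
def zipp (z : (𝔹 × (Fin K → X)) × (Fin K → Y)) : 𝔹 × (Fin K → X × Y) :=
  (z.1.1, fun j => (z.1.2 j, z.2 j))

theorem zipp_mp : MeasurePreserving (zipp (K := K) (𝔹 := 𝔹) (X := X) (Y := Y))
    ((mm K β PX).prod (Measure.pi fun _ => PY)) (mm K β (PX.prod PY)) := by
  have h1 := (measurePreserving_arrowProdEquivProdArrow X Y (Fin K) (fun _ => PX)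
    (fun _ => PY)).symm
  have h2 := (measurePreserving_prodAssoc β (Measure.pi fun _ : Fin K => PX)
    (Measure.pi fun _ : Fin K => PY))
  have h3 := (MeasurePreserving.id β).prod h1
  exact h3.comp h2

theorem integral_zipp {F : 𝔹 × (Fin K → X × Y) → ℝ} (hF : Bdm F) :
    ∫ z, F z ∂(mm K β (PX.prod PY)) =
      ∫ z, (∫ y, F (zipp (z, y)) ∂(Measure.pi fun _ => PY)) ∂(mm K β PX) := by
  have hmp := zipp_mp (K := K) (β := β) (PX := PX) (PY := PY)
  rw [← hmp.map_eq, integral_map hmp.measurable.aemeasurable hF.1.aestronglyMeasurable,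
    integral_prod]
  exact (hF.comp hmp.measurable).integrable _

theorem Good.coord {Q' : 𝔹 × (Fin K → X × Y) → ℝ} (h : Good bb β (PX.prod PY) Q') 
    (hb : Measurable bb) (hb1 : ∀ b, |bb b| ≤ 1) :
    Good bb β PX fun z => ∫ y, Q' (zipp (z, y)) ∂(Measure.pi fun _ => PY) := by
  have hmz : Measurable (zipp (K := K) (𝔹 := 𝔹) (X := X) (Y := Y)) :=
    (zipp_mp (K := K) (β := β) (PX := PX) (PY := PY)).measurable
  obtain ⟨⟨hm, C, hC⟩, hG⟩ := h
  have hms : StronglyMeasurable fun z : 𝔹 × (Fin K → X) =>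
      ∫ y, Q' (zipp (z, y)) ∂(Measure.pi fun _ => PY) :=
    StronglyMeasurable.integral_prod_right (f := fun z y => Q' (zipp (z, y)))
      (hm.comp hmz).stronglyMeasurable
  refine ⟨⟨hms.measurable, C, fun z => ?_⟩, fun L hL hP => ?_⟩
  · have := norm_integral_le_of_norm_le_const (μ := Measure.pi fun _ : Fin K => PY)
      (f := fun y => Q' (zipp (z, y))) (C := C) (Eventually.of_forall fun u => hC _)
    simpa using this
  · have hL' : Bdm fun z : 𝔹 × (Fin K → X × Y) => L (z.1, fun j => (z.2 j).1) := by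
      refine hL.comp (measurable_fst.prodMk (measurable_pi_lambda _ fun j => ?_))
      exact measurable_fst.comp ((measurable_pi_apply j).comp measurable_snd)
    have h1 := hG (fun z => L (z.1, fun j => (z.2 j).1)) hL' ?_
    · rw [integral_zipp (hL'.mul ⟨hm, C, hC⟩)] at h1
      refine h1.trans_eq ?_
      congr 1
      funext z
      simp only [zipp]
      rw [integral_const_mul]
    · intro n φ hφ hφ1
      rw [integral_zipp (hL'.mul (gen_bdm hb hb1 n hφ hφ1))]
      have hφm : Measurable fun x => ∫ y, φ (x, y) ∂PY :=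
        (StronglyMeasurable.integral_prod_right (f := fun x y => φ (x, y))
          hφ.stronglyMeasurable).measurable
      have h2 := hP n (fun x => ∫ y, φ (x, y) ∂PY) hφm (fun x => by
        have := norm_integral_le_of_norm_le_const (μ := PY)
          (f := fun y => φ (x, y)) (C := 1) (Eventually.of_forall fun u => hφ1 _)
        simpa using this)
      refine h2.trans_eq ?_
      congr 1
      funext z
      simp only [zipp, gen]
      rw [integral_const_mul, integral_const_mul]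
      congr 2
      exact (integral_fintype_prod_eq_prod (𝕜 := ℝ) (fun j y => φ (z.2 j, y))).symm

end Coord

end Vale.Agent.P168.PT
end
end

section

section

set_option autoImplicit false
set_option linter.unusedSectionVars false

open MeasureTheory ProbabilityTheory Filter
open scoped NNReal Topology

namespace Vale.Agent.P168.PT

theorem one_sub_rpow_le {s R e : ℝ} (hs0 : 0 ≤ s) (hs1 : s < 1) (h1 : 1 - s ≤ R) (h2 : R ≤ 1 + s)
    (he : 0 < e) (he1 : e ≤ 1) : |1 - R ^ e| ≤ s := by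
  have hR : 0 < R := by linarith
  have a1 : R ^ e ≤ 1 + s := by
    calc R ^ e ≤ (1 + s) ^ e := Real.rpow_le_rpow hR.le h2 he.le
      _ ≤ (1 + s) ^ (1 : ℝ) := Real.rpow_le_rpow_of_exponent_le (by linarith) he1
      _ = 1 + s := Real.rpow_one _
  have a2 : 1 - s ≤ R ^ e := by
    calc 1 - s = (1 - s) ^ (1 : ℝ) := (Real.rpow_one _).symm
      _ ≤ (1 - s) ^ e := Real.rpow_le_rpow_of_exponent_ge (by linarith) (by linarith) he1
      _ ≤ R ^ e := Real.rpow_le_rpow (by linarith) h1 he.le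
  rw [abs_le]
  constructor <;> linarith

variable {K : ℕ} {𝔹 : Type} [MeasurableSpace 𝔹]

section Down

variable {X : Type} [MeasurableSpace X] {bb : 𝔹 → ℝ} {β : Measure 𝔹} {PX : Measure X}
  [IsProbabilityMeasure β] [IsFiniteMeasure PX] {s D : ℝ} {N : 𝔹 × (Fin K → X) → ℝ}

theorem div_bounds (hD : 0 < D) (h1 : ∀ z, (1 - s) * D ≤ N z) (h2 : ∀ z, N z ≤ (1 + s) * D)
    (z : 𝔹 × (Fin K → X)) : 1 - s ≤ N z / D ∧ N z / D ≤ 1 + s :=
  ⟨(le_div_iff₀ hD).2 (h1 z), (div_le_iff₀ hD).2 (h2 z)⟩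

theorem vGood (hD : 0 < D) (h1 : ∀ z, (1 - s) * D ≤ N z) (hs1 : s < 1)
    {e0 : ℝ} (hG : Good bb β PX fun z => D ^ e0 - N z ^ e0) :
    Good bb β PX fun z => 1 - (N z / D) ^ e0 := by
  have h := hG.smul (c := (D ^ e0)⁻¹) (inv_nonneg.2 (Real.rpow_nonneg hD.le _))
  have e : (fun z => (D ^ e0)⁻¹ * (D ^ e0 - N z ^ e0)) = fun z => 1 - (N z / D) ^ e0 := by
    funext z
    have hp : 0 < D ^ e0 := Real.rpow_pos_of_pos hD _
    have hN : 0 ≤ N z := le_trans (mul_nonneg (by linarith) hD.le) (h1 z)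
    rw [Real.div_rpow hN hD.le]
    field_simp
  rwa [e] at h

theorem down (hb : Measurable bb) (hb1 : ∀ b, |bb b| ≤ 1) (hs0 : 0 ≤ s) (hs1 : s < 1)
    (hD : 0 < D) (h1 : ∀ z, (1 - s) * D ≤ N z) (h2 : ∀ z, N z ≤ (1 + s) * D)
    {e0 e : ℝ} (he : 0 < e) (hee : e ≤ e0) (he0 : e0 ≤ 1)
    (hG : Good bb β PX fun z => D ^ e0 - N z ^ e0) : Good bb β PX fun z => D ^ e - N z ^ e := by
  have he00 : 0 < e0 := he.trans_le hee
  have hv := vGood hD h1 hs1 hG
  have hvb : ∀ z, |1 - (N z / D) ^ e0| ≤ s := fun z =>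
    one_sub_rpow_le hs0 hs1 (div_bounds hD h1 h2 z).1 (div_bounds hD h1 h2 z).2 he00 he0
  have h := (hv.one_sub_rpow hb hb1 hs0 hs1 hvb (a := e / e0) (by positivity)
    ((div_le_one he00).2 hee)).smul (c := D ^ e) (Real.rpow_nonneg hD.le _)
  have ee : (fun z => D ^ e * (1 - (1 - (1 - (N z / D) ^ e0)) ^ (e / e0))) =
      fun z => D ^ e - N z ^ e := by
    funext z
    have hN : 0 ≤ N z := le_trans (mul_nonneg (by linarith) hD.le) (h1 z)
    have hp : 0 < D ^ e := Real.rpow_pos_of_pos hD _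
    rw [sub_sub_cancel, ← Real.rpow_mul (div_nonneg hN hD.le), mul_div_cancel₀ _ he00.ne',
      Real.div_rpow hN hD.le]
    (clear * - hD; field_simp)
  rwa [ee] at h

theorem logGood (hb : Measurable bb) (hb1 : ∀ b, |bb b| ≤ 1) (hs0 : 0 ≤ s) (hs1 : s < 1)
    (hD : 0 < D) (h1 : ∀ z, (1 - s) * D ≤ N z) (h2 : ∀ z, N z ≤ (1 + s) * D)
    {e0 : ℝ} (he00 : 0 < e0) (he0 : e0 ≤ 1)
    (hG : Good bb β PX fun z => D ^ e0 - N z ^ e0) :
    Good bb β PX fun z => Real.log D - Real.log (N z) := by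
  have hv := vGood hD h1 hs1 hG
  have hvb : ∀ z, |1 - (N z / D) ^ e0| ≤ s := fun z =>
    one_sub_rpow_le hs0 hs1 (div_bounds hD h1 h2 z).1 (div_bounds hD h1 h2 z).2 he00 he0
  have h := (hv.neg_log hb hb1 hs0 hs1 hvb).smul (c := 1 / e0) (by positivity)
  have ee : (fun z => 1 / e0 * -Real.log (1 - (1 - (N z / D) ^ e0))) =
      fun z => Real.log D - Real.log (N z) := by
    funext z
    have hN : 0 < N z := lt_of_lt_of_le (mul_pos (by linarith) hD) (h1 z)
    rw [sub_sub_cancel, Real.log_rpow (div_pos hN hD), Real.log_div hN.ne' hD.ne']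
    field_simp
    ring
  rwa [ee] at h

end Down

variable {S : Type} [Fintype S] {W Y : Type} [MeasurableSpace W] [MeasurableSpace Y]

/-- The integrand of the numerator. -/
def numY {X : Type} {r : ℕ} (Z : (Fin r → W) → S → ℝ) (g : X → (Fin r → Y) → S → ℝ) (t : ℝ)
    (x : Fin K → X) (v : Fin r → W × (Fin K → Y)) : ℝ :=
  ∑ σ, Z (fun p => (v p).1) σ * (1 + t * ∏ j, g (x j) (fun p => (v p).2 j) σ)

/-- The numerator. -/
noncomputable def num {X : Type} (P : Measure W) (PY : Measure Y) (r : ℕ) (m : Fin r → ℝ)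
    (Z : (Fin r → W) → S → ℝ) (g : X → (Fin r → Y) → S → ℝ) (s : ℝ) (bb : 𝔹 → ℝ)
    (z : 𝔹 × (Fin K → X)) : ℝ :=
  nest (P.prod (Measure.pi fun _ : Fin K => PY)) r m (numY Z g (s * bb z.1) z.2)

theorem abs_prod_le_one {ι : Type*} (t : Finset ι) {f : ι → ℝ} (h : ∀ i ∈ t, |f i| ≤ 1) :
    |∏ i ∈ t, f i| ≤ 1 := by
  rw [Finset.abs_prod]
  exact Finset.prod_le_one (fun i _ => abs_nonneg _) h

theorem numY_bounds {X : Type} {r : ℕ} {Z : (Fin r → W) → S → ℝ}
    (hZ : ∀ v σ, 0 ≤ Z v σ) {g : X → (Fin r → Y) → S → ℝ} (hg1 : ∀ x v σ, |g x v σ| ≤ 1)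
    {s t : ℝ} (ht : |t| ≤ s) (x : Fin K → X) (v : Fin r → W × (Fin K → Y)) :
    (1 - s) * ∑ σ, Z (fun p => (v p).1) σ ≤ numY Z g t x v ∧
      numY Z g t x v ≤ (1 + s) * ∑ σ, Z (fun p => (v p).1) σ := by
  have hs0 : 0 ≤ s := (abs_nonneg _).trans ht
  have hkey : ∀ σ, |t * ∏ j, g (x j) (fun p => (v p).2 j) σ| ≤ s := by
    intro σ
    rw [abs_mul]
    calc |t| * |∏ j, g (x j) (fun p => (v p).2 j) σ| ≤ s * 1 :=
          mul_le_mul ht (abs_prod_le_one _ fun j _ => hg1 _ _ _) (abs_nonneg _) hs0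
      _ = s := mul_one s
  unfold numY
  rw [Finset.mul_sum, Finset.mul_sum]
  constructor
  · refine Finset.sum_le_sum fun σ _ => ?_
    rw [mul_comm]
    exact mul_le_mul_of_nonneg_left (by have := (abs_le.1 (hkey σ)).1; linarith) (hZ _ _)
  · refine Finset.sum_le_sum fun σ _ => ?_
    rw [mul_comm (1 + s)]
    exact mul_le_mul_of_nonneg_left (by have := (abs_le.1 (hkey σ)).2; linarith) (hZ _ _)

theorem measurable_numY {Θ X : Type} [MeasurableSpace Θ] [MeasurableSpace X] {r : ℕ}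
    {Z : Θ → (Fin r → W) → S → ℝ}
    (hZ : ∀ σ, Measurable fun z : Θ × (Fin r → W) => Z z.1 z.2 σ)
    {g : X → (Fin r → Y) → S → ℝ}
    (hg : ∀ σ, Measurable fun z : X × (Fin r → Y) => g z.1 z.2 σ)
    {t : Θ → ℝ} (ht : Measurable t) {x : Θ → Fin K → X} (hx : Measurable x) :
    Measurable fun z : Θ × (Fin r → W × (Fin K → Y)) => numY (Z z.1) g (t z.1) (x z.1) z.2 := by
  unfold numY
  refine Finset.measurable_fun_sum _ fun σ _ => ?_
  refine Measurable.mul ?_ ?_
  · refine (hZ σ).comp (measurable_fst.prodMk (measurable_pi_lambda _ fun p => ?_))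
    exact measurable_fst.comp ((measurable_pi_apply p).comp measurable_snd)
  · refine measurable_const.add ((ht.comp measurable_fst).mul
      (Finset.measurable_fun_prod _ fun j _ => ?_))
    refine (hg σ).comp (((measurable_pi_apply j).comp (hx.comp measurable_fst)).prodMk
      (measurable_pi_lambda _ fun p => ?_))
    exact (measurable_pi_apply j).comp
      (measurable_snd.comp ((measurable_pi_apply p).comp measurable_snd))

theorem sum_bd {r : ℕ} {Z : (Fin r → W) → S → ℝ} {z0 z1 : ℝ}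
    (hZ : ∀ σ, Bd z0 z1 fun v => Z v σ) :
    Bd (Fintype.card S * z0) (Fintype.card S * z1) fun v => ∑ σ, Z v σ := by
  refine ⟨Finset.measurable_fun_sum _ fun σ _ => (hZ σ).meas, fun v => ?_, fun v => ?_⟩
  · calc (Fintype.card S * z0 : ℝ) = ∑ _σ : S, z0 := by simp only [Finset.sum_const, Finset.card_univ, nsmul_eq_mul]
      _ ≤ _ := Finset.sum_le_sum fun σ _ => (hZ σ).lo v
  · calc ∑ σ, Z v σ ≤ ∑ _σ : S, z1 := Finset.sum_le_sum fun σ _ => (hZ σ).hi v
      _ = (Fintype.card S * z1 : ℝ) := by simp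

theorem fst_mp {P : Measure W} {PY : Measure Y} [IsProbabilityMeasure P]
    [IsProbabilityMeasure PY] :
    MeasurePreserving (Prod.fst : W × (Fin K → Y) → W)
      (P.prod (Measure.pi fun _ : Fin K => PY)) P := measurePreserving_fst

section Num

variable {X : Type} [MeasurableSpace X] {P : Measure W} {PY : Measure Y} [IsProbabilityMeasure P]
  [IsProbabilityMeasure PY] [Nonempty S] {r : ℕ} {m : Fin r → ℝ} {Z : (Fin r → W) → S → ℝ}
  {g : X → (Fin r → Y) → S → ℝ} {z0 z1 s : ℝ}

theorem numY_bd (hz : 0 < z0) (hZ : ∀ σ, Bd z0 z1 fun v => Z v σ)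
    (hg : ∀ σ, Measurable fun z : X × (Fin r → Y) => g z.1 z.2 σ) (hg1 : ∀ x v σ, |g x v σ| ≤ 1)
    {t : ℝ} (ht : |t| ≤ s) (hs1 : s < 1) (x : Fin K → X) :
    Bd ((1 - s) * (Fintype.card S * z0)) ((1 + s) * (Fintype.card S * z1)) (numY Z g t x) := by
  have hZ0 : ∀ v σ, 0 ≤ Z v σ := fun v σ => hz.le.trans ((hZ σ).lo v)
  have hs0 : 0 ≤ s := (abs_nonneg _).trans ht
  refine ⟨?_, fun v => ?_, fun v => ?_⟩
  · have h := measurable_numY (Θ := Unit) (K := K) (Z := fun _ => Z)
      (fun σ => (hZ σ).meas.comp measurable_snd) hg (t := fun _ => t) measurable_const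
      (x := fun _ => x) measurable_const
    exact h.comp ((measurable_const (a := ())).prodMk measurable_id)
  · refine le_trans ?_ (numY_bounds hZ0 hg1 ht x v).1
    exact mul_le_mul_of_nonneg_left ((sum_bd hZ).lo _) (by linarith)
  · refine (numY_bounds hZ0 hg1 ht x v).2.trans ?_
    exact mul_le_mul_of_nonneg_left ((sum_bd hZ).hi _) (by linarith)

theorem num_bounds (hz : 0 < z0) (hZ : ∀ σ, Bd z0 z1 fun v => Z v σ)
    (hg : ∀ σ, Measurable fun z : X × (Fin r → Y) => g z.1 z.2 σ) (hg1 : ∀ x v σ, |g x v σ| ≤ 1)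
    (hm : ∀ p, 0 < m p) (hs0 : 0 ≤ s) (hs1 : s < 1) {t : ℝ} (ht : |t| ≤ s) (x : Fin K → X) :
    (1 - s) * nest P r m (fun v => ∑ σ, Z v σ) ≤
        nest (P.prod (Measure.pi fun _ : Fin K => PY)) r m (numY Z g t x) ∧
      nest (P.prod (Measure.pi fun _ : Fin K => PY)) r m (numY Z g t x) ≤
        (1 + s) * nest P r m fun v => ∑ σ, Z v σ := by
  have hc : (0 : ℝ) < Fintype.card S := by exact_mod_cast Fintype.card_pos
  have hZ0 : ∀ v σ, 0 ≤ Z v σ := fun v σ => hz.le.trans ((hZ σ).lo v)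
  have hnn : ∀ v : Fin r → W, 0 ≤ ∑ σ, Z v σ := fun v => Finset.sum_nonneg fun σ _ => hZ0 v σ
  have hbd := numY_bd (K := K) hz hZ hg hg1 ht hs1 x
  have e : nest (P.prod (Measure.pi fun _ : Fin K => PY)) r m
      (fun v => ∑ σ, Z (fun p => (v p).1) σ) = nest P r m fun v => ∑ σ, Z v σ :=
    nest_comp fst_mp r m (fun v => ∑ σ, Z v σ) (sum_bd hZ).meas
  have hmeas : Measurable fun v : Fin r → W × (Fin K → Y) => ∑ σ, Z (fun p => (v p).1) σ :=
    (sum_bd hZ).meas.comp (measurable_pi_lambda _ fun p =>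
      measurable_fst.comp (measurable_pi_apply p))
  have hB : ∀ c : ℝ, 0 < c → Bd (c * (Fintype.card S * z0)) (c * (Fintype.card S * z1))
      fun v : Fin r → W × (Fin K → Y) => c * ∑ σ, Z (fun p => (v p).1) σ := fun c hc0 =>
    ⟨hmeas.const_mul c, fun v => mul_le_mul_of_nonneg_left ((sum_bd hZ).lo _) hc0.le,
      fun v => mul_le_mul_of_nonneg_left ((sum_bd hZ).hi _) hc0.le⟩
  have h1s : 0 < 1 - s := by linarith
  have h1s' : 0 < 1 + s := by linarith
  constructor
  · rw [← e, ← nest_smul h1s.le r m hm _ fun v => hnn _]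
    exact nest_mono (by positivity) (by positivity) r m hm _ _ (hB (1 - s) h1s) hbd
      fun v => (numY_bounds hZ0 hg1 ht x v).1
  · rw [← e, ← nest_smul h1s'.le r m hm _ fun v => hnn _]
    exact nest_mono (by positivity) (by positivity) r m hm _ _ hbd (hB (1 + s) h1s')
      fun v => (numY_bounds hZ0 hg1 ht x v).2

end Num

theorem Bd.bdm {A : Type} [MeasurableSpace A] {a b : ℝ} {f : A → ℝ} (h : Bd a b f) : Bdm f :=
  ⟨h.meas, max |a| |b|, fun z => abs_le_max_abs_abs (h.lo z) (h.hi z)⟩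

theorem measurable_zipp {X : Type} [MeasurableSpace X] :
    Measurable (zipp (K := K) (𝔹 := 𝔹) (X := X) (Y := Y)) := by
  refine (measurable_fst.comp measurable_fst).prodMk (measurable_pi_lambda _ fun j => ?_)
  exact ((measurable_pi_apply j).comp (measurable_snd.comp measurable_fst)).prodMk
    ((measurable_pi_apply j).comp measurable_snd)

/-- The shifted `g`. -/
def shg {X : Type} {r : ℕ} (g : X → (Fin (r + 1) → Y) → S → ℝ) :
    X × Y → (Fin r → Y) → S → ℝ := fun x v => g x.1 (Fin.cons x.2 v)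

theorem shg_meas {X : Type} [MeasurableSpace X] {r : ℕ} {g : X → (Fin (r + 1) → Y) → S → ℝ}
    (hg : ∀ σ, Measurable fun z : X × (Fin (r + 1) → Y) => g z.1 z.2 σ) (σ : S) :
    Measurable fun z : (X × Y) × (Fin r → Y) => shg g z.1 z.2 σ :=
  (hg σ).comp ((measurable_fst.comp measurable_fst).prodMk
    (measurable_cons.comp ((measurable_snd.comp measurable_fst).prodMk measurable_snd)))

theorem Good.param_coord {X : Type} [MeasurableSpace X] {bb : 𝔹 → ℝ} {β : Measure 𝔹}
    [IsProbabilityMeasure β] {PX : Measure X} [IsFiniteMeasure PX] {PY : Measure Y}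
    [IsProbabilityMeasure PY] (hb : Measurable bb) (hb1 : ∀ b, |bb b| ≤ 1)
    {U : Type} [MeasurableSpace U] {PU : Measure U} [IsFiniteMeasure PU]
    {F : U → 𝔹 × (Fin K → X × Y) → ℝ}
    (hF : Bdm fun x : U × (𝔹 × (Fin K → X × Y)) => F x.1 x.2)
    (hG : ∀ u, Good bb β (PX.prod PY) (F u)) :
    Good bb β PX fun z => ∫ u, (∫ y, F u (zipp (z, y)) ∂(Measure.pi fun _ => PY)) ∂PU := by
  refine Good.param (F := fun u z => ∫ y, F u (zipp (z, y)) ∂(Measure.pi fun _ => PY)) ?_
    fun u => (hG u).coord hb hb1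
  obtain ⟨hFm, C, hC⟩ := hF
  refine ⟨?_, C, fun x => ?_⟩
  · refine (StronglyMeasurable.integral_prod_right
      (f := fun (x : U × (𝔹 × (Fin K → X))) y => F x.1 (zipp (x.2, y)))
      (Measurable.stronglyMeasurable ?_)).measurable
    exact hFm.comp ((measurable_fst.comp measurable_fst).prodMk
      (measurable_zipp.comp ((measurable_snd.comp measurable_fst).prodMk measurable_snd)))
  · have := norm_integral_le_of_norm_le_const (μ := Measure.pi fun _ : Fin K => PY)
      (f := fun y => F x.1 (zipp (x.2, y))) (C := C)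
      (Eventually.of_forall fun u => hC (x.1, _))
    simpa only [ge_iff_le, Real.norm_eq_abs, probReal_univ, mul_one] using this

section Step

variable {X : Type} [MeasurableSpace X] {P : Measure W} {PY : Measure Y} [IsProbabilityMeasure P]
  [IsProbabilityMeasure PY] [Nonempty S] {r : ℕ} {m : Fin (r + 1) → ℝ}
  {Z : (Fin (r + 1) → W) → S → ℝ}
  {g : X → (Fin (r + 1) → Y) → S → ℝ} {z0 z1 s : ℝ} {bb : 𝔹 → ℝ}

theorem measurable_num_cons (hZ : ∀ σ, Bd z0 z1 fun v => Z v σ)
    (hg : ∀ σ, Measurable fun z : X × (Fin (r + 1) → Y) => g z.1 z.2 σ)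
    (hb : Measurable bb) (m' : Fin r → ℝ) :
    Measurable fun x : W × (𝔹 × (Fin K → X × Y)) =>
      num P PY r m' (fun v => Z (Fin.cons x.1 v)) (shg g) s bb x.2 := by
  unfold num
  refine measurable_nest _ r m'
    (fun (x : W × (𝔹 × (Fin K → X × Y))) => numY (fun v => Z (Fin.cons x.1 v)) (shg g)
      (s * bb x.2.1) x.2.2) ?_
  refine measurable_numY (Θ := W × (𝔹 × (Fin K → X × Y)))
    (Z := fun x v => Z (Fin.cons x.1 v)) (fun σ => ?_) (shg_meas hg)
    (t := fun x => s * bb x.2.1) ?_ (x := fun x => x.2.2) ?_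
  · exact (hZ σ).meas.comp (measurable_cons.comp
      ((measurable_fst.comp measurable_fst).prodMk measurable_snd))
  · exact (hb.comp (measurable_fst.comp measurable_snd)).const_mul s
  · exact measurable_snd.comp measurable_snd

theorem cons_den_bd (hz : 0 < z0) (hZ : ∀ σ, Bd z0 z1 fun v => Z v σ) (hm : ∀ p, 0 < m p) :
    Bd (Fintype.card S * z0) (Fintype.card S * z1)
        fun u => nest P r (Fin.tail m) fun v => ∑ σ, Z (Fin.cons u v) σ := by
  have hc : (0 : ℝ) < Fintype.card S := by exact_mod_cast Fintype.card_pos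
  exact nest_cons_bd (by positivity) (Fin.tail m) (fun p => hm _) (fun v => ∑ σ, Z v σ) (sum_bd hZ)

theorem num_cons_bd (hz : 0 < z0) (hZ : ∀ σ, Bd z0 z1 fun v => Z v σ)
    (hg : ∀ σ, Measurable fun z : X × (Fin (r + 1) → Y) => g z.1 z.2 σ)
    (hg1 : ∀ x v σ, |g x v σ| ≤ 1) (hm : ∀ p, 0 < m p)
    (hb : Measurable bb) (hsb : ∀ b, |s * bb b| ≤ s) (hs0 : 0 ≤ s) (hs1 : s < 1) :
    Bd ((1 - s) * (Fintype.card S * z0)) ((1 + s) * (Fintype.card S * z1))
      fun x : W × (𝔹 × (Fin K → X × Y)) =>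
        num P PY r (Fin.tail m) (fun v => Z (Fin.cons x.1 v)) (shg g) s bb x.2 := by
  have hDb := cons_den_bd (P := P) hz hZ hm
  have hb1 := fun x : W × (𝔹 × (Fin K → X × Y)) => num_bounds (K := K) (P := P) (PY := PY) hz
    (Z := fun v => Z (Fin.cons x.1 v)) (fun σ => (hZ σ).comp (measurable_consr x.1))
    (shg_meas hg) (fun x v σ => hg1 _ _ _)
    (m := Fin.tail m) (fun p => hm _) hs0 hs1 (hsb x.2.1) x.2.2
  refine ⟨measurable_num_cons hZ hg hb _, fun x => ?_, fun x => ?_⟩
  · refine le_trans ?_ (hb1 x).1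
    exact mul_le_mul_of_nonneg_left (hDb.lo x.1) (by linarith)
  · refine (hb1 x).2.trans ?_
    exact mul_le_mul_of_nonneg_left (hDb.hi x.1) (by linarith)

theorem num_succ (z : 𝔹 × (Fin K → X)) :
    num P PY (r + 1) m Z g s bb z =
      pm (P.prod (Measure.pi fun _ : Fin K => PY)) (m 0) fun w =>
        num P PY r (Fin.tail m) (fun v => Z (Fin.cons w.1 v)) (shg g) s bb (zipp (z, w.2)) := by
  unfold num
  rw [nest_succ']
  congr 1
  funext w
  congr 1
  funext v
  unfold numY
  refine Finset.sum_congr rfl fun σ _ => ?_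
  have a1 : (fun p => ((Fin.cons w v : Fin (r + 1) → W × (Fin K → Y)) p).1) =
      (Fin.cons w.1 (fun p => (v p).1) : Fin (r + 1) → W) := by
    funext p
    refine Fin.cases ?_ (fun j => ?_) p
    · simp
    · simp
  have a2 : ∀ j : Fin K, (fun p => ((Fin.cons w v : Fin (r + 1) → W × (Fin K → Y)) p).2 j) =
      (Fin.cons (w.2 j) (fun p => (v p).2 j) : Fin (r + 1) → Y) := by
    intro j
    funext p
    refine Fin.cases ?_ (fun j => ?_) p
    · simp
    · simp
  rw [a1]
  simp_rw [a2]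
  rfl

theorem step_eq (hz : 0 < z0) (hZ : ∀ σ, Bd z0 z1 fun v => Z v σ)
    (hg : ∀ σ, Measurable fun z : X × (Fin (r + 1) → Y) => g z.1 z.2 σ)
    (hg1 : ∀ x v σ, |g x v σ| ≤ 1) (hm : ∀ p, 0 < m p)
    (hb : Measurable bb) (hsb : ∀ b, |s * bb b| ≤ s) (hs0 : 0 ≤ s) (hs1 : s < 1)
    (z : 𝔹 × (Fin K → X)) :
    ∫ u, (∫ y, ((nest P r (Fin.tail m) fun v => ∑ σ, Z (Fin.cons u v) σ) ^ m 0 -
        num P PY r (Fin.tail m) (fun v => Z (Fin.cons u v)) (shg g) s bb (zipp (z, y)) ^ m 0)
          ∂(Measure.pi fun _ => PY)) ∂P =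
      (nest P (r + 1) m fun v => ∑ σ, Z v σ) ^ m 0 - num P PY (r + 1) m Z g s bb z ^ m 0 := by
  have hc : (0 : ℝ) < Fintype.card S := by exact_mod_cast Fintype.card_pos
  have h1s : 0 < 1 - s := by linarith
  have hNz : Bd ((1 - s) * (Fintype.card S * z0)) ((1 + s) * (Fintype.card S * z1))
      fun w : W × (Fin K → Y) =>
      num P PY r (Fin.tail m) (fun v => Z (Fin.cons w.1 v)) (shg g) s bb (zipp (z, w.2)) :=
    (num_cons_bd hz hZ hg hg1 hm hb hsb hs0 hs1).comp
      (measurable_fst.prodMk (measurable_zipp.comp (measurable_const.prodMk measurable_snd)))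
  have hDb := cons_den_bd (P := P) hz hZ hm
  have hNz' := hNz.rpow (by positivity) (hm 0)
  have hDb' := hDb.rpow (by positivity) (hm 0)
  have e2 : (nest P (r + 1) m fun v => ∑ σ, Z v σ) ^ m 0 =
      ∫ u, (nest P r (Fin.tail m) fun v => ∑ σ, Z (Fin.cons u v) σ) ^ m 0 ∂P := by
    rw [nest_succ']
    exact pm_rpow hDb (by positivity) (hm 0)
  rw [num_succ, e2, pm_rpow hNz (by positivity) (hm 0), integral_prod _ (hNz'.integrable _),
    ← integral_sub (hDb'.integrable _) (hNz'.integrable _).integral_prod_left]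
  congr 1
  funext u
  rw [integral_sub (integrable_const _)]
  · simp
  · exact (hNz'.comp (measurable_const.prodMk measurable_id)).integrable _

theorem step_good {β : Measure 𝔹} [IsProbabilityMeasure β] {PX : Measure X} [IsFiniteMeasure PX]
    (hz : 0 < z0) (hZ : ∀ σ, Bd z0 z1 fun v => Z v σ)
    (hg : ∀ σ, Measurable fun z : X × (Fin (r + 1) → Y) => g z.1 z.2 σ)
    (hg1 : ∀ x v σ, |g x v σ| ≤ 1) (hm : ∀ p, 0 < m p)
    (hb : Measurable bb) (hb1 : ∀ b, |bb b| ≤ 1) (hsb : ∀ b, |s * bb b| ≤ s) (hs0 : 0 ≤ s)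
    (hs1 : s < 1)
    (hF : ∀ u, Good (K := K) bb β (PX.prod PY) fun z' =>
      (nest P r (Fin.tail m) fun v => ∑ σ, Z (Fin.cons u v) σ) ^ m 0 -
        num P PY r (Fin.tail m) (fun v => Z (Fin.cons u v)) (shg g) s bb z' ^ m 0) :
    Good (K := K) bb β PX fun z =>
      (nest P (r + 1) m fun v => ∑ σ, Z v σ) ^ m 0 - num P PY (r + 1) m Z g s bb z ^ m 0 := by
  have hc : (0 : ℝ) < Fintype.card S := by exact_mod_cast Fintype.card_pos
  have h1s : 0 < 1 - s := by linarith
  have hNb' := (num_cons_bd (K := K) (P := P) (PY := PY) hz hZ hg hg1 hm hb hsb hs0 hs1).rpow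
    (by positivity) (hm 0)
  have hDb' := (cons_den_bd (P := P) hz hZ hm).rpow (by positivity) (hm 0)
  have hFb : Bdm fun x : W × (𝔹 × (Fin K → X × Y)) =>
      (nest P r (Fin.tail m) fun v => ∑ σ, Z (Fin.cons x.1 v) σ) ^ m 0 -
        num P PY r (Fin.tail m) (fun v => Z (Fin.cons x.1 v)) (shg g) s bb x.2 ^ m 0 :=
    (hDb'.bdm.comp measurable_fst).sub hNb'.bdm
  have hGood := Good.param_coord (K := K) (PU := P) (PY := PY) (PX := PX) hb hb1 hFb hF
  have ee := funext fun z => step_eq (K := K) (P := P) (PY := PY) hz hZ hg hg1 hm hb hsb hs0 hs1 z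
  rw [ee] at hGood
  exact hGood

end Step

theorem core {β : Measure 𝔹} [IsProbabilityMeasure β] {bb : 𝔹 → ℝ} (hb : Measurable bb)
    (hb1 : ∀ b, |bb b| ≤ 1) {P : Measure W} {PY : Measure Y} [IsProbabilityMeasure P]
    [IsProbabilityMeasure PY] [Nonempty S] {z0 z1 s : ℝ} (hz : 0 < z0) (hs0 : 0 ≤ s)
    (hs1 : s < 1) (r : ℕ) :
    ∀ (m : Fin r → ℝ) (_ : ∀ p, 0 < m p) (_ : ∀ p, m p ≤ 1) (_ : Monotone m)
      {X : Type} [MeasurableSpace X] (PX : Measure X) [IsFiniteMeasure PX]
      (Z : (Fin r → W) → S → ℝ) (_ : ∀ σ, Bd z0 z1 fun v => Z v σ)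
      (g : X → (Fin r → Y) → S → ℝ)
      (_ : ∀ σ, Measurable fun z : X × (Fin r → Y) => g z.1 z.2 σ) (_ : ∀ x v σ, |g x v σ| ≤ 1)
      (e : ℝ) (_ : 0 < e) (_ : e ≤ 1) (_ : ∀ p, e ≤ m p),
      Good (K := K) bb β PX fun z =>
        (nest P r m fun v => ∑ σ, Z v σ) ^ e - num P PY r m Z g s bb z ^ e := by
  have hsb : ∀ b, |s * bb b| ≤ s := fun b => by
    rw [abs_mul, abs_of_nonneg hs0]
    exact mul_le_of_le_one_right hs0 (hb1 b)
  have hc : (0 : ℝ) < Fintype.card S := by exact_mod_cast Fintype.card_pos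
  induction r with
  | zero =>
    intro m hm hm1 hmono X _ PX _ Z hZ g hg hg1 e he he1 hee
    have hD : 0 < nest P 0 m fun v => ∑ σ, Z v σ :=
      lt_of_lt_of_le (by positivity) (nest_mem (by positivity) 0 m hm _ (sum_bd hZ)).1
    refine down hb hb1 hs0 hs1 hD
      (fun z => (num_bounds (K := K) (PY := PY) hz hZ hg hg1 hm hs0 hs1 (hsb z.1) z.2).1)
      (fun z => (num_bounds (K := K) (PY := PY) hz hZ hg hg1 hm hs0 hs1 (hsb z.1) z.2).2)
      he he1 le_rfl ?_
    have h1 : ∀ σ ∈ (Finset.univ : Finset S), Good (K := K) bb β PX fun z =>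
        (Z Fin.elim0 σ * s) * gen bb 1 (fun x => g x Fin.elim0 σ) z := by
      intro σ _
      refine (Good.of_gen hb hb1 1 ?_ fun x => hg1 _ _ _).smul
        (mul_nonneg (hz.le.trans ((hZ σ).lo _)) hs0)
      exact (hg σ).comp (measurable_id.prodMk measurable_const)
    have h2 := Good.finsum (K := K) Finset.univ h1
    have ee : (fun z : 𝔹 × (Fin K → X) => ∑ σ, (Z Fin.elim0 σ * s) *
        gen bb 1 (fun x => g x Fin.elim0 σ) z) = fun z =>
        (nest P 0 m fun v => ∑ σ, Z v σ) ^ (1 : ℝ) - num P PY 0 m Z g s bb z ^ (1 : ℝ) := by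
      funext z
      unfold num numY
      rw [Real.rpow_one, Real.rpow_one, nest_zero, nest_zero, ← Finset.sum_sub_distrib]
      refine Finset.sum_congr rfl fun σ _ => ?_
      have e1 : (fun p : Fin 0 => ((Fin.elim0 : Fin 0 → W × (Fin K → Y)) p).1) =
          (Fin.elim0 : Fin 0 → W) := Subsingleton.elim _ _
      have e2 : ∀ j : Fin K, (fun p : Fin 0 => ((Fin.elim0 : Fin 0 → W × (Fin K → Y)) p).2 j) =
          (Fin.elim0 : Fin 0 → Y) := fun j => Subsingleton.elim _ _
      simp only [e1, e2, gen]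
      ring
    rwa [ee] at h2
  | succ r ih =>
    intro m hm hm1 hmono X _ PX _ Z hZ g hg hg1 e he he1 hee
    have hD : 0 < nest P (r + 1) m fun v => ∑ σ, Z v σ :=
      lt_of_lt_of_le (by positivity) (nest_mem (by positivity) (r + 1) m hm _ (sum_bd hZ)).1
    refine down hb hb1 hs0 hs1 hD
      (fun z => (num_bounds (K := K) (PY := PY) hz hZ hg hg1 hm hs0 hs1 (hsb z.1) z.2).1)
      (fun z => (num_bounds (K := K) (PY := PY) hz hZ hg hg1 hm hs0 hs1 (hsb z.1) z.2).2)
      he (hee 0) (hm1 0) ?_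
    exact step_good hz hZ hg hg1 hm hb hb1 hsb hs0 hs1 fun u =>
      ih (Fin.tail m) (fun p => hm _) (fun p => hm1 _)
        (fun i j hij => hmono (Fin.succ_le_succ_iff.2 hij)) (PX.prod PY) _
        (fun σ => (hZ σ).comp (measurable_consr u)) (shg g) (shg_meas hg)
        (fun x v σ => hg1 _ _ _) (m 0) (hm 0) (hm1 0) (fun p => hmono (Fin.zero_le _))

theorem core_log {β : Measure 𝔹} [IsProbabilityMeasure β] {bb : 𝔹 → ℝ} (hb : Measurable bb)
    (hb1 : ∀ b, |bb b| ≤ 1) {P : Measure W} {PY : Measure Y} [IsProbabilityMeasure P]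
    [IsProbabilityMeasure PY] [Nonempty S] {z0 z1 s : ℝ} (hz : 0 < z0) (hs0 : 0 ≤ s)
    (hs1 : s < 1) (r : ℕ) (m : Fin r → ℝ) (hm : ∀ p, 0 < m p) (hm1 : ∀ p, m p ≤ 1)
    (hmono : Monotone m) {X : Type} [MeasurableSpace X] (PX : Measure X) [IsFiniteMeasure PX]
    (Z : (Fin r → W) → S → ℝ) (hZ : ∀ σ, Bd z0 z1 fun v => Z v σ)
    (g : X → (Fin r → Y) → S → ℝ)
    (hg : ∀ σ, Measurable fun z : X × (Fin r → Y) => g z.1 z.2 σ) (hg1 : ∀ x v σ, |g x v σ| ≤ 1) :
    Good (K := K) bb β PX fun z =>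
      Real.log (nest P r m fun v => ∑ σ, Z v σ) - Real.log (num P PY r m Z g s bb z) := by
  have hsb : ∀ b, |s * bb b| ≤ s := fun b => by
    rw [abs_mul, abs_of_nonneg hs0]
    exact mul_le_of_le_one_right hs0 (hb1 b)
  have hc : (0 : ℝ) < Fintype.card S := by exact_mod_cast Fintype.card_pos
  have hD : 0 < nest P r m fun v => ∑ σ, Z v σ :=
    lt_of_lt_of_le (by positivity) (nest_mem (by positivity) r m hm _ (sum_bd hZ)).1
  obtain ⟨e, he, he1, hee⟩ : ∃ e : ℝ, 0 < e ∧ e ≤ 1 ∧ ∀ p, e ≤ m p := by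
    cases r with
    | zero => exact ⟨1, one_pos, le_rfl, fun p => p.elim0⟩
    | succ r => exact ⟨m 0, hm 0, hm1 0, fun p => hmono (Fin.zero_le _)⟩
  exact logGood hb hb1 hs0 hs1 hD
    (fun z => (num_bounds (K := K) (PY := PY) hz hZ hg hg1 hm hs0 hs1 (hsb z.1) z.2).1)
    (fun z => (num_bounds (K := K) (PY := PY) hz hZ hg hg1 hm hs0 hs1 (hsb z.1) z.2).2)
    he he1 (core hb hb1 hz hs0 hs1 r m hm hm1 hmono PX Z hZ g hg hg1 e he he1 hee)

end Vale.Agent.P168.PT
end
end

section

section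

set_option autoImplicit false
set_option linter.unusedSectionVars false

open MeasureTheory ProbabilityTheory Filter
open scoped NNReal Topology

namespace Vale.Agent.P168.PT

theorem even_ineq {K : ℕ} (hK : Even K) (A B : ℝ) :
    0 ≤ A ^ K - K * (A * B ^ (K - 1)) + ((K : ℝ) - 1) * B ^ K := by
  rcases Nat.eq_zero_or_pos K with h0 | h0
  · subst h0; simp
  obtain ⟨k, rfl⟩ : ∃ k, K = k + 1 := ⟨K - 1, by omega⟩
  rw [Nat.add_sub_cancel]
  have hk : (0 : ℝ) ≤ k := Nat.cast_nonneg k
  rcases eq_or_ne B 0 with hB | hB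
  · subst hB
    have hk0 : k ≠ 0 := by
      rintro rfl
      exact absurd hK (by decide)
    rw [zero_pow hk0, zero_pow (Nat.succ_ne_zero k)]
    have := hK.pow_nonneg A
    linarith only [this]
  · have hBK : 0 < B ^ (k + 1) := hK.pow_pos hB
    have hx : 0 ≤ (A / B) ^ (k + 1) - ((k + 1 : ℕ) : ℝ) * (A / B) + (((k + 1 : ℕ) : ℝ) - 1) := by
      rcases le_or_gt (-1) (A / B) with h1 | h1
      · have := one_add_mul_le_pow (a := A / B - 1) (by linarith only [h1]) (k + 1)
        rw [add_sub_cancel] at this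
        linarith only [this]
      · have h2 := hK.pow_nonneg (A / B)
        push_cast
        nlinarith only [h1, h2]
    have e : A ^ (k + 1) - ((k + 1 : ℕ) : ℝ) * (A * B ^ k) + (((k + 1 : ℕ) : ℝ) - 1) * B ^ (k + 1) =
        B ^ (k + 1) * ((A / B) ^ (k + 1) - ((k + 1 : ℕ) : ℝ) * (A / B) +
          (((k + 1 : ℕ) : ℝ) - 1)) := by
      rw [div_pow]
      field_simp
      ring
    rw [e]
    exact mul_nonneg hBK.le hx

variable {K : ℕ} {𝔹 X0 : Type} [MeasurableSpace 𝔹] [MeasurableSpace X0]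
  {β : Measure 𝔹} [IsProbabilityMeasure β] {PX0 : Measure X0} [IsProbabilityMeasure PX0]

/-- Indicator of a type pattern. -/
def tyI (τ t : Fin K → Bool) : ℝ := ∏ j, if t j = τ j then 1 else 0

theorem tyI_eq (τ t : Fin K → Bool) : tyI τ t = if t = τ then 1 else 0 := by
  unfold tyI
  split_ifs with h
  · subst h; simp only [↓reduceIte, Finset.prod_const_one]
  · obtain ⟨j, hj⟩ := Function.ne_iff.1 h
    exact Finset.prod_eq_zero (Finset.mem_univ j) (if_neg hj)

theorem integral_boolK (F : (Fin K → Bool) → ℝ) :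
    ∫ t, F t ∂(Measure.pi fun _ : Fin K => (Measure.count : Measure Bool)) = ∑ t, F t := by
  rw [integral_fintype Integrable.of_finite]
  refine Finset.sum_congr rfl fun t _ => ?_
  have : (Measure.pi fun _ : Fin K => (Measure.count : Measure Bool)).real {t} = 1 := by
    rw [measureReal_def, Measure.pi_singleton]
    simp only [MeasurableSpace.measurableSet_top, Measure.count_singleton', Finset.prod_const_one, ENNReal.toReal_one]
  rw [this, one_smul]

theorem integral_type (τ : Fin K → Bool) {Q : 𝔹 × (Fin K → Bool × X0) → ℝ} (hQ : Bdm Q) :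
    ∫ z, tyI τ (fun j => (z.2 j).1) * Q z ∂(mm K β ((Measure.count : Measure Bool).prod PX0)) =
      ∫ z, Q (z.1, fun j => (τ j, z.2 j)) ∂(mm K β PX0) := by
  have hty : Bdm fun z : 𝔹 × (Fin K → Bool × X0) => tyI τ fun j => (z.2 j).1 := by
    have h1 : Measurable (tyI τ) := measurable_of_finite _
    refine ⟨h1.comp (measurable_pi_lambda _ fun j =>
      measurable_fst.comp ((measurable_pi_apply j).comp measurable_snd)), 1, fun z => ?_⟩
    simp only [tyI_eq]
    split_ifs <;> simp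
  have hF := hty.mul hQ
  rw [integral_zipp (PX := (Measure.count : Measure Bool)) (PY := PX0) hF]
  have hF2 : Bdm fun z : (𝔹 × (Fin K → Bool)) × (Fin K → X0) => 
      tyI τ (fun j => ((zipp z).2 j).1) * Q (zipp z) := hF.comp measurable_zipp
  rw [integral_prod _ (hF2.integrable _).integral_prod_left,
    integral_prod _ (((hQ.comp (f := fun z : 𝔹 × (Fin K → X0) =>
      ((z.1, fun j => (τ j, z.2 j)) : 𝔹 × (Fin K → Bool × X0))) ?_)).integrable _)]
  · congr 1
    funext b
    rw [integral_boolK]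
    rw [Finset.sum_eq_single τ]
    · simp only [zipp, tyI_eq, if_true, one_mul]
    · intro t _ ht
      simp only [zipp, tyI_eq, if_neg ht, zero_mul, integral_zero]
    · intro h; exact absurd (Finset.mem_univ _) h
  · refine measurable_fst.prodMk (measurable_pi_lambda _ fun j => ?_)
    exact measurable_const.prodMk ((measurable_pi_apply j).comp measurable_snd)

/-- The weight of the types. -/
def lamT (K : ℕ) (t : Fin K → Bool) : ℝ :=
  tyI (fun _ => true) t - ∑ l, tyI (fun j => decide (j = l)) t +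
    ((K : ℝ) - 1) * tyI (fun _ => false) t

theorem lamT_bdm : Bdm fun z : 𝔹 × (Fin K → Bool × X0) => lamT K fun j => (z.2 j).1 := by
  have h1 : Measurable (lamT K) := measurable_of_finite _
  refine ⟨h1.comp (measurable_pi_lambda _ fun j =>
    measurable_fst.comp ((measurable_pi_apply j).comp measurable_snd)),
    ∑ t, |lamT K t|, fun z => ?_⟩
  exact Finset.single_le_sum (f := fun t => |lamT K t|) (fun t _ => abs_nonneg _)
    (Finset.mem_univ _)

theorem tyI_bdm (τ : Fin K → Bool) :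
    Bdm fun z : 𝔹 × (Fin K → Bool × X0) => tyI τ fun j => (z.2 j).1 := by
  have h1 : Measurable (tyI τ) := measurable_of_finite _
  refine ⟨h1.comp (measurable_pi_lambda _ fun j =>
    measurable_fst.comp ((measurable_pi_apply j).comp measurable_snd)), 1, fun z => ?_⟩
  simp only [tyI_eq]
  split_ifs <;> simp

theorem pat_bdm (τ : Fin K → Bool) {Q : 𝔹 × (Fin K → Bool × X0) → ℝ} (hQ : Bdm Q) :
    Bdm fun z : 𝔹 × (Fin K → X0) => Q (z.1, fun j => (τ j, z.2 j)) := by
  refine hQ.comp (measurable_fst.prodMk (measurable_pi_lambda _ fun j => ?_))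
  exact measurable_const.prodMk ((measurable_pi_apply j).comp measurable_snd)

theorem integral_lamT {Q : 𝔹 × (Fin K → Bool × X0) → ℝ} (hQ : Bdm Q) :
    ∫ z, lamT K (fun j => (z.2 j).1) * Q z ∂(mm K β ((Measure.count : Measure Bool).prod PX0)) =
      (∫ z, Q (z.1, fun j => (true, z.2 j)) ∂(mm K β PX0)) -
        (∑ l, ∫ z, Q (z.1, fun j => (decide (j = l), z.2 j)) ∂(mm K β PX0)) +
        ((K : ℝ) - 1) * ∫ z, Q (z.1, fun j => (false, z.2 j)) ∂(mm K β PX0) := by
  have e : ∀ z : 𝔹 × (Fin K → Bool × X0), lamT K (fun j => (z.2 j).1) * Q z =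
      tyI (fun _ => true) (fun j => (z.2 j).1) * Q z -
        (∑ l, tyI (fun j => decide (j = l)) (fun j => (z.2 j).1) * Q z) +
        ((K : ℝ) - 1) * (tyI (fun _ => false) (fun j => (z.2 j).1) * Q z) := by
    intro z
    unfold lamT
    rw [← Finset.sum_mul]
    ring
  simp_rw [e]
  have hB : ∀ τ : Fin K → Bool, Integrable (fun z : 𝔹 × (Fin K → Bool × X0) =>
      tyI τ (fun j => (z.2 j).1) * Q z) (mm K β ((Measure.count : Measure Bool).prod PX0)) :=
    fun τ => ((tyI_bdm τ).mul hQ).integrable _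
  have i1 : Integrable (fun z : 𝔹 × (Fin K → Bool × X0) =>
      ∑ l, tyI (fun j => decide (j = l)) (fun j => (z.2 j).1) * Q z)
      (mm K β ((Measure.count : Measure Bool).prod PX0)) :=
    integrable_finsetSum _ fun l _ => hB _
  have i2 : Integrable (fun z : 𝔹 × (Fin K → Bool × X0) =>
      tyI (fun _ => true) (fun j => (z.2 j).1) * Q z -
      ∑ l, tyI (fun j => decide (j = l)) (fun j => (z.2 j).1) * Q z)
      (mm K β ((Measure.count : Measure Bool).prod PX0)) := (hB _).sub i1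
  rw [integral_add i2 ((hB _).const_mul _), integral_sub (hB _) i1,
    integral_finsetSum _ fun l _ => hB _, integral_const_mul, integral_type _ hQ,
    integral_type _ hQ]
  congr 2
  refine Finset.sum_congr rfl fun l _ => ?_
  rw [integral_type _ hQ]

theorem integral_gen_pat (bb : 𝔹 → ℝ) (n : ℕ) (φ : Bool × X0 → ℝ) (τ : Fin K → Bool) :
    ∫ z, gen bb n φ (z.1, fun j => (τ j, z.2 j)) ∂(mm K β PX0) =
      (∫ b, (-bb b) ^ n ∂β) * ∏ j, ∫ x, φ (τ j, x) ∂PX0 := by
  unfold gen
  simp only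
  rw [integral_prod_mul (μ := β) (ν := Measure.pi fun _ : Fin K => PX0)
    (fun b => (-bb b) ^ n) (fun x : Fin K → X0 => ∏ j, φ (τ j, x j)),
    integral_fintype_prod_eq_prod (𝕜 := ℝ) (fun j x => φ (τ j, x))]

theorem lamT_pos (hK : Even K) {bb : 𝔹 → ℝ} (hb : Measurable bb) (hb1 : ∀ b, |bb b| ≤ 1)
    (hn : ∀ n : ℕ, 0 ≤ ∫ b, (-bb b) ^ n ∂β) :
    Pos bb β ((Measure.count : Measure Bool).prod PX0)
      fun z : 𝔹 × (Fin K → Bool × X0) => lamT K fun j => (z.2 j).1 := by
  intro n φ hφ hφ1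
  rw [integral_lamT (gen_bdm hb hb1 n hφ hφ1), integral_gen_pat, integral_gen_pat]
  have h1 : ∀ l : Fin K, ∫ z, gen bb n φ (z.1, fun j => (decide (j = l), z.2 j)) ∂(mm K β PX0) =
      (∫ b, (-bb b) ^ n ∂β) * ((∫ x, φ (true, x) ∂PX0) * (∫ x, φ (false, x) ∂PX0) ^ (K - 1)) := by
    intro l
    rw [integral_gen_pat, ← Finset.mul_prod_erase _ _ (Finset.mem_univ l)]
    congr 2
    · simp
    · rw [Finset.prod_congr rfl (g := fun _ => ∫ x, φ (false, x) ∂PX0)]
      · rw [Finset.prod_const, Finset.card_erase_of_mem (Finset.mem_univ l), Finset.card_univ,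
          Fintype.card_fin]
      · intro j hj
        simp [Finset.ne_of_mem_erase hj]
  simp_rw [h1]
  rw [Finset.prod_const, Finset.prod_const, Finset.sum_const, Finset.card_univ, Fintype.card_fin,
    nsmul_eq_mul]
  have h2 := mul_nonneg (hn n) (even_ineq hK (∫ x, φ (true, x) ∂PX0) (∫ x, φ (false, x) ∂PX0))
  refine h2.trans_eq ?_
  ring

end Vale.Agent.P168.PT
end
end

section

section

set_option autoImplicit false
set_option linter.unusedSectionVars false

open MeasureTheory ProbabilityTheory Filter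
open scoped NNReal Topology

namespace Vale.Agent.P168.PT

/-- Expansion of a product of averages. -/
theorem expand {K : ℕ} (f q : Fin K → Bool → ℝ) (hq1 : ∀ j, ∑ e, q j e = 1) (t : ℝ) :
    1 + t * ∏ j, ∑ e, f j e * q j e =
      ∑ ε : Fin K → Bool, (∏ j, q j (ε j)) * (1 + t * ∏ j, f j (ε j)) := by
  have h1 : ∏ j, ∑ e, f j e * q j e = ∑ ε : Fin K → Bool, ∏ j, (f j (ε j) * q j (ε j)) := by
    rw [Finset.prod_univ_sum, Fintype.piFinset_univ]
  have h2 : ∑ ε : Fin K → Bool, ∏ j, q j (ε j) = 1 := by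
    have := Finset.prod_univ_sum (fun _ : Fin K => (Finset.univ : Finset Bool)) (fun j e => q j e)
    rw [Fintype.piFinset_univ] at this
    rw [← this]
    exact Finset.prod_eq_one fun j _ => hq1 j
  rw [h1]
  simp_rw [mul_add, Finset.sum_add_distrib, mul_one, h2, Finset.mul_sum, Finset.prod_mul_distrib]
  congr 1
  exact Finset.sum_congr rfl fun ε _ => by ring

variable {K : ℕ} {𝔹 : Type} [MeasurableSpace 𝔹] {X0 : Type} [MeasurableSpace X0]
  {S : Type} [Fintype S] {W Y : Type} [MeasurableSpace W] [MeasurableSpace Y] {r : ℕ}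

/-- The function `g` given by the weights. -/
def gq (fv : X0 → Bool → ℝ) (q : Bool → X0 → (Fin r → Y) → S → Bool → ℝ) :
    Bool × X0 → (Fin r → Y) → S → ℝ := fun x v σ => ∑ e, fv x.2 e * q x.1 x.2 v σ e

/-- The assumptions on the weights. -/
structure WData (fv : X0 → Bool → ℝ) (q : Bool → X0 → (Fin r → Y) → S → Bool → ℝ) : Prop where
  fle : ∀ x e, |fv x e| ≤ 1
  fmeas : ∀ e, Measurable fun x => fv x e
  qnn : ∀ t x v σ e, 0 ≤ q t x v σ e
  qsum : ∀ t x v σ, ∑ e, q t x v σ e = 1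
  qmeas : ∀ t σ e, Measurable fun z : X0 × (Fin r → Y) => q t z.1 z.2 σ e

variable {fv : X0 → Bool → ℝ} {q : Bool → X0 → (Fin r → Y) → S → Bool → ℝ}

theorem WData.gle (h : WData fv q) (x : Bool × X0) (v : Fin r → Y) (σ : S) :
    |gq fv q x v σ| ≤ 1 := by
  unfold gq
  calc |∑ e, fv x.2 e * q x.1 x.2 v σ e| ≤ ∑ e, |fv x.2 e * q x.1 x.2 v σ e| :=
        Finset.abs_sum_le_sum_abs _ _
    _ ≤ ∑ e, q x.1 x.2 v σ e := by
        refine Finset.sum_le_sum fun e _ => ?_
        rw [abs_mul, abs_of_nonneg (h.qnn _ _ _ _ _)]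
        exact mul_le_of_le_one_left (h.qnn _ _ _ _ _) (h.fle _ _)
    _ = 1 := h.qsum _ _ _ _

theorem WData.gmeas (h : WData fv q) (σ : S) :
    Measurable fun z : (Bool × X0) × (Fin r → Y) => gq fv q z.1 z.2 σ := by
  unfold gq
  refine Finset.measurable_fun_sum _ fun e _ => ?_
  refine ((h.fmeas e).comp (measurable_snd.comp measurable_fst)).mul ?_
  have e1 : (fun z : (Bool × X0) × (Fin r → Y) => q z.1.1 z.1.2 z.2 σ e) = fun z =>
      if z.1.1 = true then q true z.1.2 z.2 σ e else q false z.1.2 z.2 σ e := by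
    funext z
    rcases z with ⟨⟨t, x⟩, v⟩
    cases t <;> simp
  rw [e1]
  have hm : Measurable fun z : (Bool × X0) × (Fin r → Y) => (z.1.2, z.2) :=
    (measurable_snd.comp measurable_fst).prodMk measurable_snd
  refine Measurable.ite ?_ ((h.qmeas true σ e).comp hm) ((h.qmeas false σ e).comp hm)
  exact (measurableSet_singleton true).preimage (measurable_fst.comp measurable_fst)

/-- The values of the interaction. -/
def DD (fv : X0 → Bool → ℝ) (t : ℝ) (x0 : Fin K → X0) (ε : Fin K → Bool) : ℝ :=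
  1 + t * ∏ j, fv (x0 j) (ε j)

theorem WData.prod_le (h : WData fv q) (x0 : Fin K → X0) (ε : Fin K → Bool) :
    |∏ j, fv (x0 j) (ε j)| ≤ 1 := abs_prod_le_one _ fun _ _ => h.fle _ _

theorem WData.DD_pos (h : WData fv q) {t : ℝ} (ht : |t| < 1) (x0 : Fin K → X0)
    (ε : Fin K → Bool) : 0 < DD fv t x0 ε := by
  unfold DD
  have h1 : |t * ∏ j, fv (x0 j) (ε j)| < 1 := by
    rw [abs_mul]
    exact mul_lt_one_of_nonneg_of_lt_one_left (abs_nonneg _) ht (h.prod_le x0 ε)
  have := (abs_lt.1 h1).1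
  linarith

theorem numY_expand (h : WData fv q) (Z : (Fin r → W) → S → ℝ) (t : ℝ) (τ : Fin K → Bool)
    (x0 : Fin K → X0) (v : Fin r → W × (Fin K → Y)) :
    numY Z (gq fv q) t (fun j => (τ j, x0 j)) v =
      ∑ σ, Z (fun p => (v p).1) σ * ∑ ε : Fin K → Bool,
        (∏ j, q (τ j) (x0 j) (fun p => (v p).2 j) σ (ε j)) * DD fv t x0 ε := by
  unfold numY
  refine Finset.sum_congr rfl fun σ _ => ?_
  congr 1
  exact expand (fun j e => fv (x0 j) e) (fun j e => q (τ j) (x0 j) (fun p => (v p).2 j) σ e)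
    (fun j => h.qsum _ _ _ _) t

theorem numY_cmp (h : WData fv q) {Z : (Fin r → W) → S → ℝ} (hZ : ∀ v σ, 0 ≤ Z v σ)
    {t t' C : ℝ} (τ : Fin K → Bool) (x0 : Fin K → X0)
    (hC : ∀ ε, DD fv t x0 ε ≤ C * DD fv t' x0 ε) (v : Fin r → W × (Fin K → Y)) :
    numY Z (gq fv q) t (fun j => (τ j, x0 j)) v ≤
      C * numY Z (gq fv q) t' (fun j => (τ j, x0 j)) v := by
  rw [numY_expand h, numY_expand h, Finset.mul_sum]
  refine Finset.sum_le_sum fun σ _ => ?_
  rw [mul_left_comm]
  refine mul_le_mul_of_nonneg_left ?_ (hZ _ _)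
  rw [Finset.mul_sum]
  refine Finset.sum_le_sum fun ε _ => ?_
  rw [mul_left_comm]
  exact mul_le_mul_of_nonneg_left (hC ε) (Finset.prod_nonneg fun _ _ => h.qnn _ _ _ _ _)

variable {P : Measure W} {PY : Measure Y} [IsProbabilityMeasure P]
  [IsProbabilityMeasure PY] [Nonempty S] {m : Fin r → ℝ} {Z : (Fin r → W) → S → ℝ} {z0 z1 : ℝ}

/-- Logarithm of the nested mean. -/
noncomputable def LN (P : Measure W) (PY : Measure Y) (m : Fin r → ℝ) (Z : (Fin r → W) → S → ℝ)
    (g : Bool × X0 → (Fin r → Y) → S → ℝ) (τ : Fin K → Bool) (t : ℝ) (x0 : Fin K → X0) : ℝ :=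
  Real.log (nest (P.prod (Measure.pi fun _ : Fin K => PY)) r m
    (numY Z g t fun j => (τ j, x0 j)))

theorem LN_cmp (h : WData fv q) (hz : 0 < z0) (hZ : ∀ σ, Bd z0 z1 fun v => Z v σ)
    (hm : ∀ p, 0 < m p) {t t' δ : ℝ} (ht : |t| < 1) (ht' : |t'| < 1) (τ : Fin K → Bool)
    (x0 : Fin K → X0) (hδ : ∀ ε, DD fv t x0 ε ≤ Real.exp δ * DD fv t' x0 ε) :
    LN P PY m Z (gq fv q) τ t x0 ≤ δ + LN P PY m Z (gq fv q) τ t' x0 := by
  have hc : (0 : ℝ) < Fintype.card S := by exact_mod_cast Fintype.card_pos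
  unfold LN
  have h1 : 0 < 1 - |t| := by linarith
  have h2 : 0 < 1 - |t'| := by linarith
  exact nest_log_close (by positivity) (by positivity) hm
    (numY_bd hz hZ h.gmeas h.gle le_rfl ht _) (numY_bd hz hZ h.gmeas h.gle le_rfl ht' _)
    (numY_cmp h (fun v σ => hz.le.trans ((hZ σ).lo v)) τ x0 hδ)

/-- The combination. -/
noncomputable def CC (P : Measure W) (PY : Measure Y) (m : Fin r → ℝ) (Z : (Fin r → W) → S → ℝ)
    (g : Bool × X0 → (Fin r → Y) → S → ℝ) (t : ℝ) (x0 : Fin K → X0) : ℝ :=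
  LN P PY m Z g (fun _ => true) t x0 + ((K : ℝ) - 1) * LN P PY m Z g (fun _ => false) t x0 -
    ∑ l, LN P PY m Z g (fun j => decide (j = l)) t x0

theorem DD_zero (x0 : Fin K → X0) (ε : Fin K → Bool) : DD fv 0 x0 ε = 1 := by simp only [DD, zero_mul, add_zero]

theorem LN_zero (τ τ' : Fin K → Bool) (x0 : Fin K → X0) :
    LN P PY m Z (gq fv q) τ 0 x0 = LN P PY m Z (gq fv q) τ' 0 x0 := by
  unfold LN
  congr 2
  funext v
  simp only [numY, zero_mul, add_zero, mul_one]

/-- The error bound. -/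
noncomputable def EE (fv : X0 → Bool → ℝ) (t : ℝ) (x0 : Fin K → X0) : ℝ :=
  ∑ ε : Fin K → Bool, |Real.log (DD fv t x0 ε) - Real.log (DD fv t x0 fun _ => true)|

theorem log_ratio {a b s : ℝ} (ha : -1 < a) (hb : -1 < b) (hs0 : 0 ≤ s)
    (hs1 : s ≤ 1) : |Real.log (1 + s * a) - Real.log (1 + s * b)| ≤
      |Real.log (1 + a) - Real.log (1 + b)| := by
  have key : ∀ a b : ℝ, -1 < a → -1 < b → b ≤ a →
      |Real.log (1 + s * a) - Real.log (1 + s * b)| ≤ |Real.log (1 + a) - Real.log (1 + b)| := by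
    intro a b ha hb hab
    have p1 : 0 < 1 + a := by linarith
    have p2 : 0 < 1 + b := by linarith
    have pp : ∀ c : ℝ, 0 < 1 + c → 0 < 1 + s * c := by
      intro c hc
      rcases eq_or_lt_of_le hs1 with h | h
      · rw [h, one_mul]; exact hc
      · have := mul_nonneg hs0 hc.le
        linarith
    have p3 : 0 < 1 + s * a := pp a p1
    have p4 : 0 < 1 + s * b := pp b p2
    have l1 : Real.log (1 + s * b) ≤ Real.log (1 + s * a) :=
      Real.log_le_log p4 (by nlinarith only [hs0, hab])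
    have l2 : Real.log (1 + b) ≤ Real.log (1 + a) := Real.log_le_log p2 (by linarith)
    rw [abs_of_nonneg (by linarith), abs_of_nonneg (by linarith)]
    have l3 : Real.log ((1 + s * a) * (1 + b)) ≤ Real.log ((1 + a) * (1 + s * b)) :=
      Real.log_le_log (by (clear * - p3 p2; positivity)) (by nlinarith only [hs1, hab])
    rw [Real.log_mul p3.ne' p2.ne', Real.log_mul p1.ne' p4.ne'] at l3
    linarith
  rcases le_total b a with hab | hab
  · exact key a b ha hb hab
  · rw [abs_sub_comm, abs_sub_comm (Real.log (1 + a))]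
    exact key b a hb ha hab

theorem LN_bound (h : WData fv q) (hz : 0 < z0) (hZ : ∀ σ, Bd z0 z1 fun v => Z v σ)
    (hm : ∀ p, 0 < m p) {t s : ℝ} (ht : |t| < 1) (hs0 : 0 ≤ s) (hs1 : s ≤ 1) (τ : Fin K → Bool)
    (x0 : Fin K → X0) :
    |LN P PY m Z (gq fv q) τ (s * t) x0 - LN P PY m Z (gq fv q) τ 0 x0 -
      Real.log (DD fv (s * t) x0 fun _ => true)| ≤ EE fv t x0 := by
  have hst : |s * t| < 1 := by
    rw [abs_mul, abs_of_nonneg hs0]
    calc s * |t| ≤ 1 * |t| := mul_le_mul_of_nonneg_right hs1 (abs_nonneg _)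
      _ < 1 := by linarith
  have hq1 : ∀ ε : Fin K → Bool, -1 < t * ∏ j, fv (x0 j) (ε j) := by
    intro ε
    have := h.DD_pos ht x0 ε
    unfold DD at this
    linarith
  have hE : ∀ ε : Fin K → Bool, |Real.log (DD fv (s * t) x0 ε) -
      Real.log (DD fv (s * t) x0 fun _ => true)| ≤ EE fv t x0 := by
    intro ε
    have h1 := log_ratio (hq1 ε) (hq1 fun _ => true) hs0 hs1
    have h2 : |Real.log (DD fv t x0 ε) - Real.log (DD fv t x0 fun _ => true)| ≤ EE fv t x0 :=
      Finset.single_le_sum (f := fun ε : Fin K → Bool =>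
        |Real.log (DD fv t x0 ε) - Real.log (DD fv t x0 fun _ => true)|)
        (fun _ _ => abs_nonneg _) (Finset.mem_univ ε)
    unfold DD at *
    simp only [mul_assoc] at *
    exact h1.trans h2
  have u1 := LN_cmp (P := P) (PY := PY) h hz hZ hm (t := s * t) (t' := 0)
    (δ := Real.log (DD fv (s * t) x0 fun _ => true) + EE fv t x0) hst (by simp) τ x0 (by
      intro ε
      rw [DD_zero, mul_one]
      have p := h.DD_pos hst x0 ε
      rw [← Real.log_le_iff_le_exp p]
      have := (abs_le.1 (hE ε)).2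
      linarith)
  have u2 := LN_cmp (P := P) (PY := PY) h hz hZ hm (t := 0) (t' := s * t)
    (δ := -Real.log (DD fv (s * t) x0 fun _ => true) + EE fv t x0) (by simp) hst τ x0 (by
      intro ε
      rw [DD_zero]
      have p := h.DD_pos hst x0 ε
      have := (abs_le.1 (hE ε)).1
      calc (1 : ℝ) = Real.exp (-Real.log (DD fv (s * t) x0 ε)) * DD fv (s * t) x0 ε := by
            rw [Real.exp_neg, Real.exp_log p, inv_mul_cancel₀ p.ne']
        _ ≤ _ := mul_le_mul_of_nonneg_right (Real.exp_le_exp.2 (by linarith)) p.le)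
  rw [abs_le]
  constructor <;> linarith

theorem CC_bound (hK : 1 ≤ K) (h : WData fv q) (hz : 0 < z0) (hZ : ∀ σ, Bd z0 z1 fun v => Z v σ)
    (hm : ∀ p, 0 < m p) {t s : ℝ} (ht : |t| < 1) (hs0 : 0 ≤ s) (hs1 : s ≤ 1)
    (x0 : Fin K → X0) :
    |CC P PY m Z (gq fv q) (s * t) x0| ≤ 2 * K * EE fv t x0 := by
  have hK' : (1 : ℝ) ≤ K := by exact_mod_cast hK
  set d : (Fin K → Bool) → ℝ := fun τ => LN P PY m Z (gq fv q) τ (s * t) x0 -
    LN P PY m Z (gq fv q) τ 0 x0 - Real.log (DD fv (s * t) x0 fun _ => true) with hd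
  have hb : ∀ τ, |d τ| ≤ EE fv t x0 := fun τ => LN_bound h hz hZ hm ht hs0 hs1 τ x0
  have e : CC P PY m Z (gq fv q) (s * t) x0 = d (fun _ => true) + ((K : ℝ) - 1) *
      d (fun _ => false) - ∑ l, d fun j => decide (j = l) := by
    have h0 : ∀ τ, LN P PY m Z (gq fv q) τ 0 x0 = LN P PY m Z (gq fv q) (fun _ => true) 0 x0 :=
      fun τ => LN_zero _ _ _
    unfold CC
    simp only [hd, h0]
    rw [Finset.sum_sub_distrib, Finset.sum_sub_distrib]
    simp only [Finset.sum_const, Finset.card_univ, Fintype.card_fin, nsmul_eq_mul]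
    ring
  rw [e]
  have h1 := hb fun _ => true
  have h2 : |((K : ℝ) - 1) * d (fun _ => false)| ≤ ((K : ℝ) - 1) * EE fv t x0 := by
    rw [abs_mul, abs_of_nonneg (by linarith only [hK'] : (0 : ℝ) ≤ (K : ℝ) - 1)]
    exact mul_le_mul_of_nonneg_left (hb _) (by linarith only [hK'])
  have h3 : |∑ l : Fin K, d fun j => decide (j = l)| ≤ K * EE fv t x0 := by
    calc |∑ l : Fin K, d fun j => decide (j = l)| ≤ ∑ l : Fin K, |d fun j => decide (j = l)| :=
          Finset.abs_sum_le_sum_abs _ _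
      _ ≤ ∑ _l : Fin K, EE fv t x0 := Finset.sum_le_sum fun l _ => hb _
      _ = K * EE fv t x0 := by simp only [Finset.sum_const, Finset.card_univ, Fintype.card_fin, nsmul_eq_mul]
  have h4 := abs_sub (d (fun _ => true) + ((K : ℝ) - 1) * d (fun _ => false))
    (∑ l : Fin K, d fun j => decide (j = l))
  have h5 := abs_add_le (d fun _ => true) (((K : ℝ) - 1) * d fun _ => false)
  linarith only [h1, h2, h3, h4, h5]

theorem LN_tendsto (h : WData fv q) (hz : 0 < z0) (hZ : ∀ σ, Bd z0 z1 fun v => Z v σ)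
    (hm : ∀ p, 0 < m p) {t s : ℝ} (ht : |t| < 1) (hs0 : 0 ≤ s) (hs1 : s ≤ 1) (τ : Fin K → Bool)
    (x0 : Fin K → X0) :
    |LN P PY m Z (gq fv q) τ (s * t) x0 - LN P PY m Z (gq fv q) τ t x0| ≤
      (1 - s) * (|t| / (1 - |t|)) := by
  have hst : |s * t| < 1 := by
    rw [abs_mul, abs_of_nonneg hs0]
    calc s * |t| ≤ 1 * |t| := mul_le_mul_of_nonneg_right hs1 (abs_nonneg _)
      _ < 1 := by linarith
  have h1t : 0 < 1 - |t| := by linarith
  set κ := |t| / (1 - |t|) with hκ
  have hκ0 : 0 ≤ κ := by positivity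
  have hκe : κ * (1 - |t|) = |t| := by rw [hκ]; field_simp
  have hQ : ∀ ε : Fin K → Bool, |t * ∏ j, fv (x0 j) (ε j)| ≤ |t| := by
    intro ε
    rw [abs_mul]
    exact mul_le_of_le_one_right (abs_nonneg _) (h.prod_le x0 ε)
  have hexp : 1 + (1 - s) * κ ≤ Real.exp ((1 - s) * κ) := by
    have := Real.add_one_le_exp ((1 - s) * κ)
    linarith only [this]
  have hs1' : 0 ≤ 1 - s := by linarith
  have u1 := LN_cmp (P := P) (PY := PY) h hz hZ hm (t := s * t) (t' := t)
    (δ := (1 - s) * κ) hst ht τ x0 (by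
      intro ε
      have p := h.DD_pos ht x0 ε
      refine le_trans ?_ (mul_le_mul_of_nonneg_right hexp p.le)
      unfold DD at *
      have hq := abs_le.1 (hQ ε)
      set a := t * ∏ j, fv (x0 j) (ε j)
      rw [mul_assoc]
      have h3 : -a ≤ κ * (1 + a) := by
        have h4 : κ * (1 - |t|) ≤ κ * (1 + a) := mul_le_mul_of_nonneg_left (by linarith only [hq]) hκ0
        linarith only [hκe, hq, h4]
      have h5 := mul_le_mul_of_nonneg_left h3 hs1'
      linarith)
  have u2 := LN_cmp (P := P) (PY := PY) h hz hZ hm (t := t) (t' := s * t)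
    (δ := (1 - s) * κ) ht hst τ x0 (by
      intro ε
      have p := h.DD_pos hst x0 ε
      refine le_trans ?_ (mul_le_mul_of_nonneg_right hexp p.le)
      unfold DD at *
      have hq := abs_le.1 (hQ ε)
      rw [mul_assoc]
      set a := t * ∏ j, fv (x0 j) (ε j)
      have h3 : a ≤ κ * (1 + s * a) := by
        have h4 : κ * (1 - |t|) ≤ κ * (1 + s * a) := by
          refine mul_le_mul_of_nonneg_left ?_ hκ0
          nlinarith only [hq, hs0, hs1]
        linarith only [hκe, hq, h4]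
      have h5 := mul_le_mul_of_nonneg_left h3 hs1'
      nlinarith only [h5])
  rw [abs_le]
  constructor <;> linarith only [u1, u2]

end Vale.Agent.P168.PT
end
end

section

section

set_option autoImplicit false
set_option linter.unusedSectionVars false

open MeasureTheory ProbabilityTheory Filter
open scoped NNReal Topology

namespace Vale.Agent.P168.PT

variable {K : ℕ} {𝔹 : Type} [MeasurableSpace 𝔹] {X0 : Type} [MeasurableSpace X0]
  {S : Type} [Fintype S] {W Y : Type} [MeasurableSpace W] [MeasurableSpace Y] {r : ℕ}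
  {fv : X0 → Bool → ℝ} {q : Bool → X0 → (Fin r → Y) → S → Bool → ℝ}
  {P : Measure W} {PY : Measure Y} [IsProbabilityMeasure P]
  [IsProbabilityMeasure PY] [Nonempty S] {m : Fin r → ℝ} {Z : (Fin r → W) → S → ℝ} {z0 z1 : ℝ}
  {β : Measure 𝔹} [IsProbabilityMeasure β] {PX0 : Measure X0} [IsProbabilityMeasure PX0]
  {bb : 𝔹 → ℝ}

theorem measurable_LN (h : WData fv q) (hZ : ∀ σ, Bd z0 z1 fun v => Z v σ)
    (τ : Fin K → Bool) :
    Measurable fun z : ℝ × (Fin K → X0) => LN P PY m Z (gq fv q) τ z.1 z.2 := by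
  unfold LN
  refine Real.measurable_log.comp (measurable_nest _ r m
    (fun (z : ℝ × (Fin K → X0)) => numY Z (gq fv q) z.1 fun j => (τ j, z.2 j)) ?_)
  refine measurable_numY (Θ := ℝ × (Fin K → X0)) (Z := fun _ => Z)
    (fun σ => (hZ σ).meas.comp measurable_snd) h.gmeas (t := fun z => z.1) measurable_fst
    (x := fun z j => (τ j, z.2 j)) ?_
  exact measurable_pi_lambda _ fun j =>
    measurable_const.prodMk ((measurable_pi_apply j).comp measurable_snd)

theorem measurable_CC (h : WData fv q) (hZ : ∀ σ, Bd z0 z1 fun v => Z v σ) :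
    Measurable fun z : ℝ × (Fin K → X0) => CC P PY m Z (gq fv q) z.1 z.2 := by
  unfold CC
  exact ((measurable_LN h hZ _).add ((measurable_LN h hZ _).const_mul _)).sub
    (Finset.measurable_fun_sum _ fun l _ => measurable_LN h hZ _)

theorem measurable_CCs (h : WData fv q) (hZ : ∀ σ, Bd z0 z1 fun v => Z v σ)
    {b' : 𝔹 → ℝ} (hb : Measurable b') :
    Measurable fun z : 𝔹 × (Fin K → X0) => CC P PY m Z (gq fv q) (b' z.1) z.2 := by
  have h1 := measurable_CC (K := K) (P := P) (PY := PY) (m := m) h hZ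
  have h2 : Measurable fun z : 𝔹 × (Fin K → X0) => (b' z.1, z.2) :=
    (hb.comp measurable_fst).prodMk measurable_snd
  have h3 := h1.comp h2
  exact h3

theorem D1 (hK : Even K) (h : WData fv q) (hz : 0 < z0) (hZ : ∀ σ, Bd z0 z1 fun v => Z v σ)
    (hm : ∀ p, 0 < m p) (hm1 : ∀ p, m p ≤ 1) (hmono : Monotone m) (hb : Measurable bb)
    (hb1 : ∀ b, |bb b| ≤ 1) (hn : ∀ n : ℕ, 0 ≤ ∫ b, (-bb b) ^ n ∂β) {s : ℝ} (hs0 : 0 ≤ s)
    (hs1 : s < 1) :
    ∫ z, CC P PY m Z (gq fv q) (s * bb z.1) z.2 ∂(mm K β PX0) ≤ 0 := by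
  have hg := core_log (K := K) (β := β) (bb := bb) hb hb1 (P := P) (PY := PY) hz hs0 hs1 r m hm
    hm1 hmono ((Measure.count : Measure Bool).prod PX0) Z hZ (gq fv q) h.gmeas h.gle
  have h1 := hg.2 _ lamT_bdm (lamT_pos (PX0 := PX0) hK hb hb1 hn)
  rw [integral_lamT hg.1] at h1
  set LD : ℝ := Real.log (nest P r m fun v => ∑ σ, Z v σ) with hLD
  have hI : ∀ τ : Fin K → Bool, Integrable (fun z : 𝔹 × (Fin K → X0) =>
      LD - LN P PY m Z (gq fv q) τ (s * bb z.1) z.2) (mm K β PX0) := fun τ =>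
    (pat_bdm τ hg.1).integrable _
  have e : ∀ z : 𝔹 × (Fin K → X0), CC P PY m Z (gq fv q) (s * bb z.1) z.2 =
      -(((LD - LN P PY m Z (gq fv q) (fun _ => true) (s * bb z.1) z.2) -
        ∑ l, (LD - LN P PY m Z (gq fv q) (fun j => decide (j = l)) (s * bb z.1) z.2)) +
        ((K : ℝ) - 1) * (LD - LN P PY m Z (gq fv q) (fun _ => false) (s * bb z.1) z.2)) := by
    intro z
    unfold CC
    rw [Finset.sum_sub_distrib]
    simp only [Finset.sum_const, Finset.card_univ, Fintype.card_fin, nsmul_eq_mul]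
    ring
  simp_rw [e]
  have i1 : Integrable (fun z : 𝔹 × (Fin K → X0) =>
      ∑ l, (LD - LN P PY m Z (gq fv q) (fun j => decide (j = l)) (s * bb z.1) z.2))
      (mm K β PX0) := integrable_finsetSum _ fun l _ => hI _
  have i2 : Integrable (fun z : 𝔹 × (Fin K → X0) =>
      (LD - LN P PY m Z (gq fv q) (fun _ => true) (s * bb z.1) z.2) -
      ∑ l, (LD - LN P PY m Z (gq fv q) (fun j => decide (j = l)) (s * bb z.1) z.2))
      (mm K β PX0) := (hI _).sub i1
  rw [integral_neg, integral_add i2 ((hI _).const_mul _), integral_sub (hI _) i1,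
    integral_finsetSum _ fun l _ => hI _, integral_const_mul]
  have h2 : ∀ τ : Fin K → Bool, ∫ z : 𝔹 × (Fin K → X0), (LD -
      Real.log (num P PY r m Z (gq fv q) s bb (z.1, fun j => (τ j, z.2 j)))) ∂(mm K β PX0) =
      ∫ z, (LD - LN P PY m Z (gq fv q) τ (s * bb z.1) z.2) ∂(mm K β PX0) := fun τ => rfl
  simp only [h2] at h1
  linarith only [h1]

/-- Approximation of `1`. -/
noncomputable def sq (n : ℕ) : ℝ := 1 - 1 / ((n : ℝ) + 1)

theorem sq_nonneg' (n : ℕ) : 0 ≤ sq n := by
  have : 1 / ((n : ℝ) + 1) ≤ 1 := by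
    rw [div_le_one (by positivity)]
    have : (0 : ℝ) ≤ n := Nat.cast_nonneg n
    linarith
  unfold sq; linarith only [this]

theorem sq_lt (n : ℕ) : sq n < 1 := by
  have : 0 < 1 / ((n : ℝ) + 1) := by positivity
  unfold sq; linarith

theorem sq_lim : Tendsto (fun n => 1 - sq n) atTop (𝓝 0) := by
  simp only [sq, sub_sub_cancel]
  exact tendsto_one_div_add_atTop_nhds_zero_nat

theorem LN_lim (h : WData fv q) (hz : 0 < z0) (hZ : ∀ σ, Bd z0 z1 fun v => Z v σ)
    (hm : ∀ p, 0 < m p) {t : ℝ} (ht : |t| < 1) (τ : Fin K → Bool) (x0 : Fin K → X0) :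
    Tendsto (fun n => LN P PY m Z (gq fv q) τ (sq n * t) x0) atTop
      (𝓝 (LN P PY m Z (gq fv q) τ t x0)) := by
  rw [tendsto_iff_dist_tendsto_zero]
  refine squeeze_zero (fun _ => dist_nonneg) (fun n => ?_) (g := fun n =>
    (1 - sq n) * (|t| / (1 - |t|))) ?_
  · rw [Real.dist_eq]
    exact LN_tendsto h hz hZ hm ht (sq_nonneg' n) (sq_lt n).le τ x0
  · have := sq_lim.mul_const (|t| / (1 - |t|))
    simpa using this

theorem CC_lim (h : WData fv q) (hz : 0 < z0) (hZ : ∀ σ, Bd z0 z1 fun v => Z v σ)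
    (hm : ∀ p, 0 < m p) {t : ℝ} (ht : |t| < 1) (x0 : Fin K → X0) :
    Tendsto (fun n => CC P PY m Z (gq fv q) (sq n * t) x0) atTop
      (𝓝 (CC P PY m Z (gq fv q) t x0)) := by
  unfold CC
  exact ((LN_lim h hz hZ hm ht _ x0).add ((LN_lim h hz hZ hm ht _ x0).const_mul _)).sub
    (tendsto_finsetSum _ fun l _ => LN_lim h hz hZ hm ht _ x0)

theorem CC_integrable (hK1 : 1 ≤ K) (h : WData fv q) (hz : 0 < z0)
    (hZ : ∀ σ, Bd z0 z1 fun v => Z v σ) (hm : ∀ p, 0 < m p) (hb : Measurable bb)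
    (hbad : ∀ᵐ z ∂(mm K β PX0), |bb z.1| < 1)
    (hE : Integrable (fun z : 𝔹 × (Fin K → X0) => EE fv (bb z.1) z.2) (mm K β PX0)) :
    Integrable (fun z : 𝔹 × (Fin K → X0) => CC P PY m Z (gq fv q) (bb z.1) z.2) (mm K β PX0) := by
  have hmeas := measurable_CCs (K := K) (P := P) (PY := PY) (m := m) h hZ hb
  refine Integrable.mono' (hE.const_mul (2 * K)) hmeas.aestronglyMeasurable ?_
  refine hbad.mono fun z hzb => ?_
  have := CC_bound (P := P) (PY := PY) hK1 h hz hZ hm hzb zero_le_one le_rfl z.2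
  rwa [one_mul] at this

theorem CC_lim_integral (hK1 : 1 ≤ K) (h : WData fv q) (hz : 0 < z0)
    (hZ : ∀ σ, Bd z0 z1 fun v => Z v σ) (hm : ∀ p, 0 < m p) (hb : Measurable bb)
    (hbad : ∀ᵐ z ∂(mm K β PX0), |bb z.1| < 1)
    (hE : Integrable (fun z : 𝔹 × (Fin K → X0) => EE fv (bb z.1) z.2) (mm K β PX0)) :
    Tendsto (fun n => ∫ z, CC P PY m Z (gq fv q) (sq n * bb z.1) z.2 ∂(mm K β PX0)) atTop
      (𝓝 (∫ z, CC P PY m Z (gq fv q) (bb z.1) z.2 ∂(mm K β PX0))) := by
  refine tendsto_integral_of_dominated_convergence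
    (fun z => 2 * K * EE fv (bb z.1) z.2) (fun n => ?_) (hE.const_mul (2 * K)) (fun n => ?_) ?_
  · exact (measurable_CCs (K := K) (P := P) (PY := PY) (m := m) h hZ
      (hb.const_mul (sq n))).aestronglyMeasurable
  · refine hbad.mono fun z hzb => ?_
    exact CC_bound (P := P) (PY := PY) hK1 h hz hZ hm hzb (sq_nonneg' n) (sq_lt n).le z.2
  · exact hbad.mono fun z hzb => CC_lim h hz hZ hm hzb z.2

theorem D2 (hK : Even K) (hK1 : 1 ≤ K) (h : WData fv q) (hz : 0 < z0)
    (hZ : ∀ σ, Bd z0 z1 fun v => Z v σ)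
    (hm : ∀ p, 0 < m p) (hm1 : ∀ p, m p ≤ 1) (hmono : Monotone m) (hb : Measurable bb)
    (hb1 : ∀ b, |bb b| ≤ 1) (hn : ∀ n : ℕ, 0 ≤ ∫ b, (-bb b) ^ n ∂β)
    (hbad : ∀ᵐ b ∂β, |bb b| < 1)
    (hE : Integrable (fun z : 𝔹 × (Fin K → X0) => EE fv (bb z.1) z.2) (mm K β PX0)) :
    Integrable (fun z : 𝔹 × (Fin K → X0) => CC P PY m Z (gq fv q) (bb z.1) z.2) (mm K β PX0) ∧
    ∫ z, CC P PY m Z (gq fv q) (bb z.1) z.2 ∂(mm K β PX0) ≤ 0 := by
  have hbad' : ∀ᵐ z ∂(mm K β PX0), |bb z.1| < 1 :=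
    Measure.quasiMeasurePreserving_fst.ae hbad
  refine ⟨CC_integrable hK1 h hz hZ hm hb hbad' hE, ?_⟩
  exact le_of_tendsto (CC_lim_integral hK1 h hz hZ hm hb hbad' hE) (Eventually.of_forall fun n =>
    D1 hK h hz hZ hm hm1 hmono hb hb1 hn (sq_nonneg' n) (sq_lt n))

end Vale.Agent.P168.PT
end
end

section

section

set_option autoImplicit false

open MeasureTheory ProbabilityTheory Filter
open scoped NNReal Topology

namespace Vale.Agent.P168.PT

/-- Clipping to `[-1, 1]`. -/
def clip (b : ℝ) : ℝ := max (-1) (min 1 b)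

theorem clip_abs (b : ℝ) : |clip b| ≤ 1 := by
  unfold clip
  rw [abs_le]
  constructor
  · exact le_max_left _ _
  · exact max_le (by norm_num) (min_le_left _ _)

theorem clip_meas : Measurable clip :=
  measurable_const.max (measurable_const.min measurable_id)

theorem clip_eq {b : ℝ} (h : b ∈ Set.Icc (-1 : ℝ) 1) : clip b = b := by
  unfold clip
  rw [min_eq_right h.2, max_eq_right h.1]

variable {K N r : ℕ}

/-- Static data of one variable of a clause. -/
abbrev XX (N : ℕ) : Type := ((Bool → ℝ) × Fin N) × U01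

/-- The values of `f`. -/
def fvv {N : ℕ} (x : XX N) (e : Bool) : ℝ := clip (x.1.1 e)

/-- The weights. -/
noncomputable def qvv (xx : (Fin (r + 1) → U01) → ℝ) (t : Bool) (x : XX N) (v : Fin r → U01)
    (σ : Fin N → Bool) (e : Bool) : ℝ :=
  if t = true then (if e = σ x.1.2 then 1 else 0)
  else (1 + xx (Fin.cons x.2 v) * spin e) / 2

theorem wdata {xx : (Fin (r + 1) → U01) → ℝ} (hm : Measurable xx)
    (hx : ∀ w, xx w ∈ Set.Icc (-1 : ℝ) 1) : WData (fvv (N := N)) (qvv xx) where
  fle x e := clip_abs _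
  fmeas e := clip_meas.comp ((measurable_pi_apply e).comp (measurable_fst.comp measurable_fst))
  qnn t x v σ e := by
    unfold qvv
    split_ifs
    · exact zero_le_one
    · exact le_rfl
    · have h := hx (Fin.cons x.2 v)
      have h1 : -1 ≤ xx (Fin.cons x.2 v) := h.1
      have h2 : xx (Fin.cons x.2 v) ≤ 1 := h.2
      cases e <;> simp only [spin] <;> norm_num <;> linarith
  qsum t x v σ := by
    rw [Fintype.sum_bool]
    unfold qvv
    cases t
    · simp only [spin, Bool.false_eq_true, if_false, if_true]; ring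
    · cases σ x.1.2 <;> simp
  qmeas t σ e := by
    unfold qvv
    cases t
    · simp only [Bool.false_eq_true, if_false]
      refine (((measurable_const.add ((hm.comp ?_).mul_const _))).div_const _)
      exact measurable_cons.comp ((measurable_snd.comp measurable_fst).prodMk measurable_snd)
    · simp only [if_true]
      have h1 : Measurable fun i : Fin N => if e = σ i then (1 : ℝ) else 0 :=
        measurable_of_finite _
      exact h1.comp (measurable_snd.comp (measurable_fst.comp measurable_fst))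

/-- Regrouping. -/
def Psi (y : (Clause K × (Fin K → Fin N)) × (Fin K → U01)) : ℝ × (Fin K → XX N) :=
  zipp (zipp (y.1.1.2, y.1.2), y.2)

/-- A clause for which the class assumptions hold. -/
def Nice (c : Clause K) : Prop :=
  0 < c.1 ∧ c.2.1 ∈ Set.Ioo (-1 : ℝ) 1 ∧ ∀ j s, c.2.2 j s ∈ Set.Icc (-1 : ℝ) 1

theorem Nice.clipb {c : Clause K} (h : Nice c) : PT.clip c.2.1 = c.2.1 :=
  clip_eq ⟨h.2.1.1.le, h.2.1.2.le⟩

theorem Nice.blt {c : Clause K} (h : Nice c) : |PT.clip c.2.1| < 1 := by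
  rw [h.clipb, abs_lt]
  exact ⟨h.2.1.1, h.2.1.2⟩

theorem Nice.DD_eq {c : Clause K} (h : Nice c) (I : Fin K → Fin N) (w : Fin K → U01)
    (ε : Fin K → Bool) :
    DD fvv (PT.clip (Psi ((c, I), w)).1) (Psi ((c, I), w)).2 ε =
      1 + c.2.1 * ∏ j, c.2.2 j (ε j) := by
  unfold DD Psi zipp fvv
  simp only [h.clipb]
  congr 2
  exact Finset.prod_congr rfl fun j _ => clip_eq (h.2.2 j (ε j))

theorem Nice.DD_pos {c : Clause K} (h : Nice c) (ε : Fin K → Bool) :
    0 < 1 + c.2.1 * ∏ j, c.2.2 j (ε j) := by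
  have h1 : |∏ j, c.2.2 j (ε j)| ≤ 1 := abs_prod_le_one _ fun j _ =>
    abs_le.2 ⟨(h.2.2 j (ε j)).1, (h.2.2 j (ε j)).2⟩
  have h2 : |c.2.1 * ∏ j, c.2.2 j (ε j)| < 1 := by
    rw [abs_mul]
    exact mul_lt_one_of_nonneg_of_lt_one_left (abs_nonneg _)
      (abs_lt.2 ⟨h.2.1.1, h.2.1.2⟩) h1
  have := (abs_lt.1 h2).1
  linarith

theorem Nice.exp_theta {c : Clause K} (h : Nice c) (ε : Fin K → Bool) :
    Real.exp (theta c ε) = c.1 * (1 + c.2.1 * ∏ j, c.2.2 j (ε j)) := by
  unfold theta
  exact Real.exp_log (mul_pos h.1 (h.DD_pos ε))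

theorem Nice.theta_eq {c : Clause K} (h : Nice c) (ε : Fin K → Bool) :
    theta c ε = Real.log c.1 + Real.log (1 + c.2.1 * ∏ j, c.2.2 j (ε j)) := by
  unfold theta
  exact Real.log_mul h.1.ne' (h.DD_pos ε).ne'

/-- The generalized factor. -/
noncomputable def genF (xx : (Fin (r + 1) → U01) → ℝ)
    (y : (Clause K × (Fin K → Fin N)) × (Fin K → U01)) (τ : Fin K → Bool)
    (v : Fin r → Fin K → U01) (σ : Fin N → Bool) : ℝ :=
  ∑ ε : Fin K → Bool, (∏ j, qvv xx (τ j) ((Psi y).2 j) (fun p => v p j) σ (ε j)) *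
    Real.exp (theta y.1.1 ε)

theorem genF_true (xx : (Fin (r + 1) → U01) → ℝ)
    (y : (Clause K × (Fin K → Fin N)) × (Fin K → U01)) (v : Fin r → Fin K → U01)
    (σ : Fin N → Bool) : genF xx y (fun _ => true) v σ = intF y σ := by
  unfold genF intF
  rw [Finset.sum_eq_single fun j => σ (y.1.2 j)]
  · have : ∏ j, qvv xx true ((Psi y).2 j) (fun p => v p j) σ (σ (y.1.2 j)) = 1 :=
      Finset.prod_eq_one fun j _ => by simp [qvv, Psi, zipp]
    rw [this, one_mul]
  · intro ε _ hε
    obtain ⟨j, hj⟩ := Function.ne_iff.1 hε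
    have : ∏ j, qvv xx true ((Psi y).2 j) (fun p => v p j) σ (ε j) = 0 := by
      refine Finset.prod_eq_zero (Finset.mem_univ j) ?_
      simp only [qvv, Psi, zipp, if_true]
      exact if_neg hj
    rw [this, zero_mul]
  · intro h; exact absurd (Finset.mem_univ _) h

theorem genF_false (xx : (Fin (r + 1) → U01) → ℝ)
    (y : (Clause K × (Fin K → Fin N)) × (Fin K → U01)) (v : Fin r → Fin K → U01)
    (σ : Fin N → Bool) : genF xx y (fun _ => false) v σ = edgF xx y v := by
  unfold genF edgF edgeFactor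
  refine Finset.sum_congr rfl fun ε _ => ?_
  rw [mul_comm]
  congr 1

theorem genF_one (xx : (Fin (r + 1) → U01) → ℝ)
    (y : (Clause K × (Fin K → Fin N)) × (Fin K → U01)) (l : Fin K) (v : Fin r → Fin K → U01)
    (σ : Fin N → Bool) : genF xx y (fun j => decide (j = l)) v σ = cavF xx y l v σ := by
  unfold genF cavF cavityFactor
  refine Finset.sum_congr rfl fun ε _ => ?_
  rw [← Finset.mul_prod_erase _ _ (Finset.mem_univ l)]
  have h1 : ∏ j ∈ Finset.univ.erase l, qvv xx (decide (j = l)) ((Psi y).2 j) (fun p => v p j) σ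
      (ε j) = ∏ j ∈ Finset.univ.erase l, (1 + msgs xx y.2 v j * spin (ε j)) / 2 := by
    refine Finset.prod_congr rfl fun j hj => ?_
    have hjl : decide (j = l) = false := decide_eq_false (Finset.ne_of_mem_erase hj)
    rw [hjl]
    rfl
  rw [h1]
  have h2 : qvv xx (decide (l = l)) ((Psi y).2 l) (fun p => v p l) σ (ε l) =
      if ε l = σ (y.1.2 l) then 1 else 0 := by
    by_cases hh : ε l = σ (y.1.2 l)
    · simp [qvv, Psi, zipp, hh]
    · simp [qvv, Psi, zipp, hh]
  rw [h2]
  split_ifs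
  · ring
  · ring

end Vale.Agent.P168.PT
end
end

section

section

set_option autoImplicit false
set_option linter.unusedSectionVars false

open MeasureTheory ProbabilityTheory Filter
open scoped NNReal Topology

namespace Vale.Agent.P168.PT

variable {K N r : ℕ}

theorem measurable_Psi : Measurable (Psi (K := K) (N := N)) := by
  unfold Psi
  exact measurable_zipp.comp ((measurable_zipp.comp
    ((measurable_snd.comp (measurable_fst.comp measurable_fst)).prodMk
      (measurable_snd.comp measurable_fst))).prodMk measurable_snd)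

theorem Psi_mp {ρ : Measure (Clause K)} [IsProbabilityMeasure ρ] {β : Measure ℝ}
    {φ : Measure (Bool → ℝ)} [IsProbabilityMeasure β] [IsProbabilityMeasure φ] [NeZero N]
    (h : ρ.map Prod.snd = β.prod (Measure.pi fun _ : Fin K => φ)) :
    MeasurePreserving (Psi (K := K) (N := N)) (cl3 ρ N)
      (mm K β ((φ.prod (unif N)).prod volume)) := by
  have h1 : MeasurePreserving (Prod.snd : Clause K → ℝ × (Fin K → Bool → ℝ)) ρ (mm K β φ) :=
    ⟨measurable_snd, h⟩
  have h2 := h1.prod (MeasurePreserving.id (Measure.pi fun _ : Fin K => unif N))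
  have h3 := (zipp_mp (K := K) (β := β) (PX := φ) (PY := unif N)).comp h2
  have h4 := h3.prod (MeasurePreserving.id (Measure.pi fun _ : Fin K => (volume : Measure U01)))
  exact (zipp_mp (K := K) (β := β) (PX := φ.prod (unif N)) (PY := (volume : Measure U01))).comp h4

theorem sum_prod_q {X0 Y S : Type} [MeasurableSpace X0] [MeasurableSpace Y] 
    {fv : X0 → Bool → ℝ} {q : Bool → X0 → (Fin r → Y) → S → Bool → ℝ} (h : WData fv q)
    (τ : Fin K → Bool) (x0 : Fin K → X0) (v : Fin r → Fin K → Y) (σ : S) :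
    ∑ ε : Fin K → Bool, ∏ j, q (τ j) (x0 j) (fun p => v p j) σ (ε j) = 1 := by
  have := Finset.prod_univ_sum (fun _ : Fin K => (Finset.univ : Finset Bool))
    (fun j e => q (τ j) (x0 j) (fun p => v p j) σ e)
  rw [Fintype.piFinset_univ] at this
  rw [← this]
  exact Finset.prod_eq_one fun j _ => h.qsum _ _ _ _

section GenF

variable {xx : (Fin (r + 1) → U01) → ℝ} (hm : Measurable xx)
  (hx : ∀ w, xx w ∈ Set.Icc (-1 : ℝ) 1)

include hm hx in
theorem genF_mem (y : (Clause K × (Fin K → Fin N)) × (Fin K → U01)) (τ : Fin K → Bool)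
    (v : Fin r → Fin K → U01) (σ : Fin N → Bool) :
    Real.exp (-maxTheta y.1.1) ≤ genF xx y τ v σ ∧ genF xx y τ v σ ≤ Real.exp (maxTheta y.1.1) := by
  have hw := wdata (N := N) hm hx
  have h1 := sum_prod_q hw τ (Psi y).2 v σ
  have h0 : ∀ ε : Fin K → Bool,
      0 ≤ ∏ j, qvv xx (τ j) ((Psi y).2 j) (fun p => v p j) σ (ε j) := fun ε =>
    Finset.prod_nonneg fun j _ => hw.qnn _ _ _ _ _
  have h2 : ∀ ε, -maxTheta y.1.1 ≤ theta y.1.1 ε ∧ theta y.1.1 ε ≤ maxTheta y.1.1 := fun ε =>
    abs_le.1 (abs_theta_le y.1.1 ε)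
  unfold genF
  constructor
  · calc Real.exp (-maxTheta y.1.1) = (∑ ε : Fin K → Bool,
          ∏ j, qvv xx (τ j) ((Psi y).2 j) (fun p => v p j) σ (ε j)) *
            Real.exp (-maxTheta y.1.1) := by rw [h1, one_mul]
      _ ≤ _ := by
          rw [Finset.sum_mul]
          exact Finset.sum_le_sum fun ε _ =>
            mul_le_mul_of_nonneg_left (Real.exp_le_exp.2 (h2 ε).1) (h0 ε)
  · have h3 : (∑ ε : Fin K → Bool,
        ∏ j, qvv xx (τ j) ((Psi y).2 j) (fun p => v p j) σ (ε j)) *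
          Real.exp (maxTheta y.1.1) = Real.exp (maxTheta y.1.1) := by rw [h1, one_mul]
    rw [← h3, Finset.sum_mul]
    exact Finset.sum_le_sum fun ε _ =>
      mul_le_mul_of_nonneg_left (Real.exp_le_exp.2 (h2 ε).2) (h0 ε)

include hm hx in
theorem measurable_genF (τ : Fin K → Bool) (σ : Fin N → Bool) :
    Measurable fun z : ((Clause K × (Fin K → Fin N)) × (Fin K → U01)) ×
      (Fin r → Fin K → U01) => genF xx z.1 τ z.2 σ := by
  have hw := wdata (N := N) hm hx
  unfold genF
  refine Finset.measurable_fun_sum _ fun ε _ => Measurable.mul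
    (Finset.measurable_fun_prod _ fun j _ => ?_) ?_
  · refine (hw.qmeas (τ j) σ (ε j)).comp (Measurable.prodMk ?_ ?_)
    · exact (measurable_pi_apply j).comp (measurable_snd.comp (measurable_Psi.comp measurable_fst))
    · exact measurable_pi_lambda _ fun p =>
        (measurable_pi_apply j).comp ((measurable_pi_apply p).comp measurable_snd)
  · exact ((measurable_theta ε).comp (measurable_fst.comp
      (measurable_fst.comp measurable_fst))).exp

variable {W : Type} [MeasurableSpace W] {Z : (Fin r → W) → (Fin N → Bool) → ℝ} {z0 z1 : ℝ}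

/-- The weight with one more factor. -/
noncomputable def SG (xx : (Fin (r + 1) → U01) → ℝ) (Z : (Fin r → W) → (Fin N → Bool) → ℝ)
    (τ : Fin K → Bool) (y : (Clause K × (Fin K → Fin N)) × (Fin K → U01))
    (v : Fin r → W × (Fin K → U01)) : ℝ :=
  ∑ σ, Z (fun p => (v p).1) σ * genF xx y τ (fun p => (v p).2) σ

include hm hx in
theorem measurable_SG (hZ : ∀ σ, Bd z0 z1 fun v => Z v σ) (τ : Fin K → Bool) :
    Measurable fun z : ((Clause K × (Fin K → Fin N)) × (Fin K → U01)) ×
      (Fin r → W × (Fin K → U01)) => SG xx Z τ z.1 z.2 := by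
  unfold SG
  refine Finset.measurable_fun_sum _ fun σ _ => Measurable.mul ?_ ?_
  · exact (hZ σ).meas.comp (measurable_pi_lambda _ fun p =>
      measurable_fst.comp ((measurable_pi_apply p).comp measurable_snd))
  · have h1 := measurable_genF (K := K) (N := N) hm hx τ σ
    have h2 : Measurable fun z : ((Clause K × (Fin K → Fin N)) × (Fin K → U01)) ×
        (Fin r → W × (Fin K → U01)) => (z.1, fun p => (z.2 p).2) :=
      measurable_fst.prodMk (measurable_pi_lambda _ fun p =>
        measurable_snd.comp ((measurable_pi_apply p).comp measurable_snd))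
    have h3 := h1.comp h2
    exact h3

include hm hx in
theorem SG_bd (hz : 0 < z0) (hZ : ∀ σ, Bd z0 z1 fun v => Z v σ) (τ : Fin K → Bool)
    (y : (Clause K × (Fin K → Fin N)) × (Fin K → U01)) :
    Bd (Real.exp (-maxTheta y.1.1) * (Fintype.card (Fin N → Bool) * z0))
      (Real.exp (maxTheta y.1.1) * (Fintype.card (Fin N → Bool) * z1)) (SG xx Z τ y) := by
  have hs := sum_bd hZ
  have h0 : ∀ v σ, 0 ≤ Z v σ := fun v σ => hz.le.trans ((hZ σ).lo v)
  have hmm := measurable_SG (K := K) hm hx hZ τ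
  have hpm : Measurable fun v : Fin r → W × (Fin K → U01) => (y, v) :=
    measurable_const.prodMk measurable_id
  have hmm2 := hmm.comp hpm
  refine ⟨hmm2, fun v => ?_, fun v => ?_⟩
  · calc _ ≤ Real.exp (-maxTheta y.1.1) * ∑ σ, Z (fun p => (v p).1) σ :=
          mul_le_mul_of_nonneg_left (hs.lo _) (Real.exp_nonneg _)
      _ ≤ _ := by
          unfold SG
          rw [Finset.mul_sum]
          refine Finset.sum_le_sum fun σ _ => ?_
          rw [mul_comm]
          exact mul_le_mul_of_nonneg_left (genF_mem hm hx y τ _ σ).1 (h0 _ _)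
  · calc _ ≤ Real.exp (maxTheta y.1.1) * ∑ σ, Z (fun p => (v p).1) σ := by
          unfold SG
          rw [Finset.mul_sum]
          refine Finset.sum_le_sum fun σ _ => ?_
          rw [mul_comm (Real.exp _)]
          exact mul_le_mul_of_nonneg_left (genF_mem hm hx y τ _ σ).2 (h0 _ _)
      _ ≤ _ := mul_le_mul_of_nonneg_left (hs.hi _) (Real.exp_nonneg _)

/-- Its log nested mean. -/
noncomputable def LG (P : Measure W) (m : Fin r → ℝ) (xx : (Fin (r + 1) → U01) → ℝ)
    (Z : (Fin r → W) → (Fin N → Bool) → ℝ) (τ : Fin K → Bool)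
    (y : (Clause K × (Fin K → Fin N)) × (Fin K → U01)) : ℝ :=
  Real.log (nest (P.prod (Measure.pi fun _ : Fin K => volume)) r m (SG xx Z τ y))

variable {P : Measure W} [IsProbabilityMeasure P] {m : Fin r → ℝ}

include hm hx in
theorem measurable_LG (hZ : ∀ σ, Bd z0 z1 fun v => Z v σ) (τ : Fin K → Bool) :
    Measurable (LG P m xx Z τ) :=
  Real.measurable_log.comp (measurable_nest _ r m _ (measurable_SG hm hx hZ τ))

include hm hx in
theorem LG_abs (hz : 0 < z0) (hz1 : 0 < z1) (hmp : ∀ p, 0 < m p)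
    (hZ : ∀ σ, Bd z0 z1 fun v => Z v σ) (τ : Fin K → Bool)
    (y : (Clause K × (Fin K → Fin N)) × (Fin K → U01)) :
    |LG P m xx Z τ y| ≤ maxTheta y.1.1 + (|Real.log (Fintype.card (Fin N → Bool) * z0)| +
      |Real.log (Fintype.card (Fin N → Bool) * z1)|) := by
  have hc : (0 : ℝ) < Fintype.card (Fin N → Bool) := by exact_mod_cast Fintype.card_pos
  have h := nest_mem (P := P.prod (Measure.pi fun _ : Fin K => volume)) (by positivity) r m hmp _
    (SG_bd hm hx hz hZ τ y)
  have hp : 0 < nest (P.prod (Measure.pi fun _ : Fin K => volume)) r m (SG xx Z τ y) :=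
    lt_of_lt_of_le (by positivity) h.1
  have h1 := Real.log_le_log (by positivity) h.1
  have h2 := Real.log_le_log hp h.2
  rw [Real.log_mul (Real.exp_pos _).ne' (by positivity), Real.log_exp] at h1 h2
  have a1 := neg_abs_le (Real.log (Fintype.card (Fin N → Bool) * z0))
  have a2 := le_abs_self (Real.log (Fintype.card (Fin N → Bool) * z1))
  have a3 := abs_nonneg (Real.log (Fintype.card (Fin N → Bool) * z0))
  have a4 := abs_nonneg (Real.log (Fintype.card (Fin N → Bool) * z1))
  unfold LG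
  rw [abs_le]
  constructor <;> linarith only [h1, a1, a4, h2, a2, a3]

include hm hx in
theorem LG_integrable {ρ : Measure (Clause K)} [IsProbabilityMeasure ρ] [NeZero N]
    (hρ : Integrable (maxTheta : Clause K → ℝ) ρ) (hz : 0 < z0) (hz1 : 0 < z1)
    (hmp : ∀ p, 0 < m p)
    (hZ : ∀ σ, Bd z0 z1 fun v => Z v σ) (τ : Fin K → Bool) :
    Integrable (LG P m xx Z τ) (cl3 ρ N) := by
  have h1 : Integrable (fun y : (Clause K × (Fin K → Fin N)) × (Fin K → U01) =>
      maxTheta y.1.1) (cl3 ρ N) :=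
    (hρ.comp_fst (Measure.pi fun _ : Fin K => unif N)).comp_fst
      (Measure.pi fun _ : Fin K => (volume : Measure U01))
  have : IsProbabilityMeasure (cl3 ρ N) := by unfold cl3; infer_instance
  refine Integrable.mono' (h1.add (integrable_const (|Real.log (Fintype.card (Fin N → Bool) * z0)| +
      |Real.log (Fintype.card (Fin N → Bool) * z1)|)))
    (measurable_LG hm hx hZ τ).aestronglyMeasurable (Eventually.of_forall fun y => ?_)
  exact LG_abs hm hx hz hz1 hmp hZ τ y

include hm hx in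
theorem LG_eq (hz : 0 < z0) (hmp : ∀ p, 0 < m p) (hZ : ∀ σ, Bd z0 z1 fun v => Z v σ)
    (τ : Fin K → Bool) {y : (Clause K × (Fin K → Fin N)) × (Fin K → U01)} (hy : Nice y.1.1) :
    LG P m xx Z τ y = Real.log y.1.1.1 +
      LN P volume m Z (gq fvv (qvv xx)) τ (clip (Psi y).1) (Psi y).2 := by
  have hw := wdata (N := N) hm hx
  have hc : (0 : ℝ) < Fintype.card (Fin N → Bool) := by exact_mod_cast Fintype.card_pos
  have e1 : SG xx Z τ y = fun v => y.1.1.1 * numY Z (gq fvv (qvv xx)) (clip (Psi y).1)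
      (fun j => (τ j, (Psi y).2 j)) v := by
    funext v
    rw [numY_expand hw, Finset.mul_sum]
    unfold SG genF
    refine Finset.sum_congr rfl fun σ _ => ?_
    rw [mul_left_comm, Finset.mul_sum (a := y.1.1.1)]
    congr 1
    refine Finset.sum_congr rfl fun ε _ => ?_
    rw [hy.exp_theta, hy.DD_eq y.1.2 y.2 ε]
    ring
  have ht : |clip (Psi y).1| < 1 := hy.blt
  have hbd := numY_bd (K := K) hz hZ hw.gmeas hw.gle le_rfl ht fun j => (τ j, (Psi y).2 j)
  have h1t : 0 < 1 - |clip (Psi y).1| := by linarith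
  have hmem := nest_mem (P := P.prod (Measure.pi fun _ : Fin K => (volume : Measure U01)))
    (by positivity) r m hmp _ hbd
  have hpos := lt_of_lt_of_le (by positivity) hmem.1
  unfold LG LN
  rw [e1, nest_smul hy.1.le r m hmp _ fun v => le_trans (by positivity) (hbd.lo v),
    Real.log_mul hy.1.ne' hpos.ne']

end GenF

theorem maxTheta_int {ρ : Measure (Clause K)} {ν : Measure ℝ} (h : InClass K ρ ν) :
    Integrable (maxTheta : Clause K → ℝ) ρ := by
  refine Integrable.mono' (integrable_finsetSum Finset.univ fun σ _ => (h.theta_int σ).abs)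
    measurable_maxTheta.aestronglyMeasurable (Eventually.of_forall fun c => ?_)
  rw [Real.norm_eq_abs, abs_of_nonneg (maxTheta_nonneg c)]
  exact maxTheta_le_sum c

theorem nice_ae {ρ : Measure (Clause K)} {ν : Measure ℝ} (h : InClass K ρ ν) :
    ∀ᵐ c ∂ρ, Nice c := by
  filter_upwards [h.a_pos, h.b_mem, h.f_mem] with c h1 h2 h3
  exact ⟨h1, h2, h3⟩

theorem nice_ae3 {ρ : Measure (Clause K)} {ν : Measure ℝ} (h : InClass K ρ ν) [NeZero N] :
    ∀ᵐ y ∂(cl3 ρ N), Nice y.1.1 := by
  have := h.prob_clause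
  have h1 : ∀ᵐ z ∂(ρ.prod (Measure.pi fun _ : Fin K => unif N)), Nice z.1 :=
    Measure.quasiMeasurePreserving_fst.ae (nice_ae h)
  exact Measure.quasiMeasurePreserving_fst.ae h1

theorem b_mp {ρ : Measure (Clause K)} {β : Measure ℝ}
    {φ : Measure (Bool → ℝ)} [IsProbabilityMeasure β] [IsProbabilityMeasure φ]
    (h : ρ.map Prod.snd = β.prod (Measure.pi fun _ : Fin K => φ)) :
    MeasurePreserving (fun c : Clause K => c.2.1) ρ β := by
  have h1 : MeasurePreserving (Prod.snd : Clause K → ℝ × (Fin K → Bool → ℝ)) ρ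
    (β.prod (Measure.pi fun _ : Fin K => φ)) := ⟨measurable_snd, h⟩
  exact measurePreserving_fst.comp h1

theorem clip_ae {ρ : Measure (Clause K)} {ν : Measure ℝ} (h : InClass K ρ ν) {β : Measure ℝ}
    {φ : Measure (Bool → ℝ)} [IsProbabilityMeasure β] [IsProbabilityMeasure φ]
    (hind : ρ.map Prod.snd = β.prod (Measure.pi fun _ : Fin K => φ)) :
    ∀ᵐ b ∂β, |clip b| < 1 := by
  have hb := b_mp hind
  rw [← hb.map_eq, ae_map_iff hb.measurable.aemeasurable
    (measurableSet_lt clip_meas.abs measurable_const)]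
  exact (nice_ae h).mono fun c hc => hc.blt

theorem clip_pow {ρ : Measure (Clause K)} {ν : Measure ℝ} (h : InClass K ρ ν) {β : Measure ℝ}
    {φ : Measure (Bool → ℝ)} [IsProbabilityMeasure β] [IsProbabilityMeasure φ]
    (hind : ρ.map Prod.snd = β.prod (Measure.pi fun _ : Fin K => φ)) (n : ℕ) :
    0 ≤ ∫ b, (-clip b) ^ n ∂β := by
  rcases Nat.eq_zero_or_pos n with h0 | h0
  · subst h0; simp
  have hb := b_mp hind
  have hmc : Measurable fun b => (-clip b) ^ n := clip_meas.neg.pow_const n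
  rw [← hb.map_eq, integral_map hb.measurable.aemeasurable hmc.aestronglyMeasurable]
  refine (h.positivity n h0).trans_eq ?_
  refine integral_congr_ae ((nice_ae h).mono fun c hc => ?_)
  simp only [hc.clipb]

theorem measurable_EE : Measurable fun z : ℝ × (Fin K → XX N) => EE fvv (clip z.1) z.2 := by
  unfold EE
  have hD : ∀ ε : Fin K → Bool, Measurable fun z : ℝ × (Fin K → XX N) =>
      Real.log (DD fvv (clip z.1) z.2 ε) := by
    intro ε
    refine Real.measurable_log.comp ?_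
    unfold DD fvv
    refine measurable_const.add ((clip_meas.comp measurable_fst).mul
      (Finset.measurable_fun_prod _ fun j _ => ?_))
    exact clip_meas.comp ((measurable_pi_apply (ε j)).comp (measurable_fst.comp
      (measurable_fst.comp ((measurable_pi_apply j).comp measurable_snd))))
  exact Finset.measurable_fun_sum _ fun ε _ => ((hD ε).sub (hD _)).abs

theorem EE_int {ρ : Measure (Clause K)} {ν : Measure ℝ} (h : InClass K ρ ν) {β : Measure ℝ}
    {φ : Measure (Bool → ℝ)} [IsProbabilityMeasure β] [IsProbabilityMeasure φ] [NeZero N]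
    (hind : ρ.map Prod.snd = β.prod (Measure.pi fun _ : Fin K => φ)) :
    Integrable (fun z : ℝ × (Fin K → XX N) => EE fvv (clip z.1) z.2)
      (mm K β ((φ.prod (unif N)).prod volume)) := by
  have := h.prob_clause
  have hΨ := Psi_mp (N := N) hind
  rw [← hΨ.integrable_comp measurable_EE.aestronglyMeasurable]
  have h1 : Integrable (fun y : (Clause K × (Fin K → Fin N)) × (Fin K → U01) =>
      maxTheta y.1.1) (cl3 ρ N) :=
    ((maxTheta_int h).comp_fst (Measure.pi fun _ : Fin K => unif N)).comp_fst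
      (Measure.pi fun _ : Fin K => (volume : Measure U01))
  refine Integrable.mono' (h1.const_mul (Fintype.card (Fin K → Bool) * 2))
    (measurable_EE.comp measurable_Psi).aestronglyMeasurable ((nice_ae3 h).mono fun y hy => ?_)
  have e : ∀ ε : Fin K → Bool, Real.log (DD fvv (clip (Psi y).1) (Psi y).2 ε) =
      theta y.1.1 ε - Real.log y.1.1.1 := by
    intro ε
    rw [hy.DD_eq y.1.2 y.2 ε, hy.theta_eq]
    ring
  have h2 : 0 ≤ EE fvv (clip (Psi y).1) (Psi y).2 := Finset.sum_nonneg fun _ _ => abs_nonneg _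
  change ‖EE fvv (clip (Psi y).1) (Psi y).2‖ ≤ _
  rw [Real.norm_eq_abs, abs_of_nonneg h2]
  unfold EE
  calc ∑ ε : Fin K → Bool, |Real.log (DD fvv (clip (Psi y).1) (Psi y).2 ε) -
        Real.log (DD fvv (clip (Psi y).1) (Psi y).2 fun _ => true)|
      ≤ ∑ _ε : Fin K → Bool, 2 * maxTheta y.1.1 := by
        refine Finset.sum_le_sum fun ε _ => ?_
        rw [e, e, sub_sub_sub_cancel_right]
        have a1 := abs_theta_le y.1.1 ε
        have a2 := abs_theta_le y.1.1 fun _ => true
        have a3 := abs_sub (theta y.1.1 ε) (theta y.1.1 fun _ => true)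
        linarith only [a1, a2, a3]
    _ = _ := by
        rw [Finset.sum_const, Finset.card_univ, nsmul_eq_mul]
        ring

theorem star {ρ : Measure (Clause K)} {ν : Measure ℝ} (h : InClass K ρ ν)
    {m : Fin r → ℝ} {x : (Fin (r + 1) → U01) → ℝ} (hx : IsTrial r m x) [NeZero N]
    {W : Type} [MeasurableSpace W] {P : Measure W} [IsProbabilityMeasure P]
    {z0 z1 : ℝ} (hz : 0 < z0) {Z : (Fin r → W) → (Fin N → Bool) → ℝ}
    (hZ : ∀ σ, Bd z0 z1 fun v => Z v σ) :
    (∫ y, Real.log (nest P r m fun v => ∑ σ, Z v σ * intF y σ) ∂(cl3 ρ N)) +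
      ((K : ℝ) - 1) * (∫ y, Real.log (nest (P.prod (Measure.pi fun _ : Fin K => volume)) r m
        fun v => ∑ σ, Z (fun p => (v p).1) σ * edgF x y fun p => (v p).2) ∂(cl3 ρ N)) ≤
      ∑ l : Fin K, ∫ y, Real.log (nest (P.prod (Measure.pi fun _ : Fin K => volume)) r m
        fun v => ∑ σ, Z (fun p => (v p).1) σ * cavF x y l (fun p => (v p).2) σ) ∂(cl3 ρ N) := by
  have := h.prob_clause
  obtain ⟨β, φ, hβ, hφ, hind⟩ := h.indep
  obtain ⟨hmono, hm, hxm, hx1⟩ := hx
  have hmp : ∀ p, 0 < m p := fun p => (hm p).1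
  have hK1 : 1 ≤ K := le_trans (by norm_num) h.two_le
  have hρ := maxTheta_int h
  have hz1 : 0 < z1 := by
    obtain ⟨w⟩ : Nonempty W := P.nonempty_of_neZero
    have h1 := (hZ fun _ => true).lo fun _ => w
    have h2 := (hZ fun _ => true).hi fun _ => w
    linarith only [hz, h1, h2]
  have hΨ := Psi_mp (N := N) hind
  obtain ⟨hCi, hC⟩ := D2 (K := K) (P := P) (PY := (volume : Measure U01)) (β := β)
    (PX0 := (φ.prod (unif N)).prod (volume : Measure U01)) (bb := clip) h.even hK1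
    (wdata (N := N) hxm hx1) hz hZ hmp (fun p => (hm p).2.le) hmono.monotone clip_meas clip_abs
    (clip_pow h hind) (clip_ae h hind) (EE_int h hind)
  have hCm := measurable_CCs (K := K) (P := P) (PY := (volume : Measure U01)) (m := m)
    (wdata (N := N) hxm hx1) hZ clip_meas
  have hI : ∀ τ : Fin K → Bool, Integrable (LG P m x Z τ) (cl3 ρ N) := fun τ =>
    LG_integrable hxm hx1 hρ hz hz1 hmp hZ τ
  have hcomb : (∫ y, LG P m x Z (fun _ => true) y ∂(cl3 ρ N)) + ((K : ℝ) - 1) *
      (∫ y, LG P m x Z (fun _ => false) y ∂(cl3 ρ N)) -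
      ∑ l : Fin K, ∫ y, LG P m x Z (fun j => decide (j = l)) y ∂(cl3 ρ N) ≤ 0 := by
    rw [← integral_const_mul, ← integral_finsetSum _ fun l _ => hI _,
      ← integral_add (hI _) ((hI _).const_mul _)]
    have i1 : Integrable (fun y => LG P m x Z (fun _ => true) y +
        ((K : ℝ) - 1) * LG P m x Z (fun _ => false) y) (cl3 ρ N) :=
      (hI _).add ((hI _).const_mul _)
    rw [← integral_sub i1 (integrable_finsetSum _ fun l _ => hI _)]
    refine le_trans (le_of_eq ?_) hC
    rw [← hΨ.map_eq, integral_map hΨ.measurable.aemeasurable hCm.aestronglyMeasurable]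
    refine integral_congr_ae ((nice_ae3 h).mono fun y hy => ?_)
    have e := fun τ => LG_eq hxm hx1 hz (P := P) hmp hZ τ hy
    simp only [e, CC, Finset.sum_add_distrib, Finset.sum_const, Finset.card_univ,
      Fintype.card_fin, nsmul_eq_mul]
    ring
  have f1 : ∀ y : (Clause K × (Fin K → Fin N)) × (Fin K → U01), LG P m x Z (fun _ => true) y =
      Real.log (nest P r m fun v => ∑ σ, Z v σ * intF y σ) := by
    intro y
    unfold LG
    have h1 : SG x Z (fun _ => true) y = fun v : Fin r → W × (Fin K → U01) =>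
        (fun u : Fin r → W => ∑ σ, Z u σ * intF y σ) fun p => (v p).1 := by
      funext v
      unfold SG
      simp only [genF_true]
    rw [h1, nest_comp fst_mp r m (fun u : Fin r → W => ∑ σ, Z u σ * intF y σ)]
    exact Finset.measurable_fun_sum _ fun σ _ => (hZ σ).meas.mul_const _
  have f2 : ∀ y : (Clause K × (Fin K → Fin N)) × (Fin K → U01), LG P m x Z (fun _ => false) y =
      Real.log (nest (P.prod (Measure.pi fun _ : Fin K => volume)) r m
        fun v => ∑ σ, Z (fun p => (v p).1) σ * edgF x y fun p => (v p).2) := by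
    intro y
    unfold LG SG
    simp only [genF_false]
  have f3 : ∀ (l : Fin K) (y : (Clause K × (Fin K → Fin N)) × (Fin K → U01)), LG P m x Z (fun j => decide (j = l)) y =
      Real.log (nest (P.prod (Measure.pi fun _ : Fin K => volume)) r m
        fun v => ∑ σ, Z (fun p => (v p).1) σ * cavF x y l (fun p => (v p).2) σ) := by
    intro l y
    unfold LG SG
    simp only [genF_one]
  simp only [f1, f2, f3] at hcomb
  linarith only [hcomb]

end Vale.Agent.P168.PT
end
end

section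

section

set_option autoImplicit false
set_option linter.unusedSectionVars false

open MeasureTheory ProbabilityTheory Finset
open scoped NNReal

namespace Vale.Agent.P168

open KS (unifK integral_unif)

/-- Energies on `N` sites. -/
abbrev Egy (N : ℕ) : Type := (Fin N → Bool) → ℝ

section LogZ

variable {N : ℕ}

/-- Log partition function of an energy. -/
noncomputable def logZ (H : Egy N) : ℝ := Real.log (∑ σ, Real.exp (H σ))

theorem logZ_mono {H H' : Egy N} {c : ℝ} (h : ∀ σ, H σ ≤ H' σ + c) : logZ H ≤ logZ H' + c := by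
  unfold logZ
  have h1 : ∑ σ, Real.exp (H σ) ≤ Real.exp c * ∑ σ, Real.exp (H' σ) := by
    rw [Finset.mul_sum]
    refine Finset.sum_le_sum fun σ _ => ?_
    rw [← Real.exp_add, Real.exp_le_exp]
    linarith [h σ]
  have h2 : 0 < ∑ σ, Real.exp (H σ) :=
    Finset.sum_pos (fun σ _ => Real.exp_pos _) Finset.univ_nonempty
  have h3 : 0 < ∑ σ, Real.exp (H' σ) :=
    Finset.sum_pos (fun σ _ => Real.exp_pos _) Finset.univ_nonempty
  calc Real.log (∑ σ, Real.exp (H σ)) ≤ Real.log (Real.exp c * ∑ σ, Real.exp (H' σ)) :=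
        Real.log_le_log h2 h1
    _ = _ := by rw [Real.log_mul (Real.exp_pos c).ne' h3.ne', Real.log_exp]; ring

theorem logZ_lip : LipschitzWith 1 (logZ : Egy N → ℝ) := by
  refine LipschitzWith.of_dist_le_mul fun x y => ?_
  rw [NNReal.coe_one, one_mul, Real.dist_eq, abs_le]
  have h : ∀ a b : Egy N, ∀ σ, a σ ≤ b σ + dist a b := by
    intro a b σ
    have := (abs_le.1 ((Real.dist_eq (a σ) (b σ)) ▸ dist_le_pi_dist a b σ)).2
    linarith
  have h1 := logZ_mono (h x y)
  have h2 := logZ_mono (h y x)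
  rw [dist_comm y x] at h2
  constructor <;> linarith

/-- `logZ` as an element of `LipS`. -/
noncomputable def PhiL (N : ℕ) : LipS (Egy N) := ⟨logZ, 1, logZ_lip⟩

end LogZ

section Energies

variable {K N : ℕ}

theorem norm_clauseE_le (x : Clause K × (Fin K → Fin N)) :
    ‖(clauseE x : Egy N)‖ ≤ maxTheta x.1 := by
  rw [pi_norm_le_iff_of_nonneg (maxTheta_nonneg _)]
  intro σ
  rw [Real.norm_eq_abs]
  exact abs_clauseE_le x σ

theorem measurable_clauseE' :
    Measurable (clauseE : Clause K × (Fin K → Fin N) → Egy N) := by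
  rw [measurable_pi_iff]
  exact fun σ => measurable_clauseE σ

/-- Energy of the fields. -/
noncomputable def fieldE (h : Fin N → ℝ) : Egy N := fun σ => ∑ v, h v * spin (σ v)

theorem norm_fieldE_le (h : Fin N → ℝ) : ‖(fieldE h : Egy N)‖ ≤ ∑ v, |h v| := by
  rw [pi_norm_le_iff_of_nonneg (Finset.sum_nonneg fun _ _ => abs_nonneg _)]
  intro σ
  rw [Real.norm_eq_abs]
  unfold fieldE
  refine (Finset.abs_sum_le_sum_abs _ _).trans (Finset.sum_le_sum fun v _ => ?_)
  rw [abs_mul, spin_abs_one, mul_one]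

theorem measurable_fieldE : Measurable (fieldE : (Fin N → ℝ) → Egy N) := by
  rw [measurable_pi_iff]
  intro σ
  unfold fieldE
  exact Finset.measurable_fun_sum _ fun v _ => (measurable_pi_apply v).mul_const _

/-- Energy of an interaction on `N + 1` sites, with a mask for the extra site `0`. -/
noncomputable def maskE (s : Fin K → Bool) (x : Clause K × (Fin K → Fin N)) : Egy (N + 1) :=
  fun σ => theta x.1 fun j => σ (merge s x.2 j)

theorem norm_maskE_le (s : Fin K → Bool) (x : Clause K × (Fin K → Fin N)) :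
    ‖(maskE s x : Egy (N + 1))‖ ≤ maxTheta x.1 := by
  rw [pi_norm_le_iff_of_nonneg (maxTheta_nonneg _)]
  intro σ
  rw [Real.norm_eq_abs]
  exact abs_theta_le _ _

theorem measurable_maskE (s : Fin K → Bool) :
    Measurable (maskE s : Clause K × (Fin K → Fin N) → Egy (N + 1)) := by
  rw [measurable_pi_iff]
  intro σ
  refine measurable_from_prod_countable_left (α := Clause K) (β := Fin K → Fin N)
    (f := fun x => maskE s x σ) fun I => ?_
  exact measurable_theta (fun j => σ (merge s I j))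

/-- Energy of a cavity interaction: the position `y.1.2` is occupied by the extra site. -/
noncomputable def cavE (y : (Clause K × Fin K) × (Fin K → Fin N)) : Egy (N + 1) :=
  fun σ => theta y.1.1 fun j => σ (merge (emask y.1.2) y.2 j)

theorem norm_cavE_le (y : (Clause K × Fin K) × (Fin K → Fin N)) :
    ‖(cavE y : Egy (N + 1))‖ ≤ maxTheta y.1.1 := by
  rw [pi_norm_le_iff_of_nonneg (maxTheta_nonneg _)]
  intro σ
  rw [Real.norm_eq_abs]
  exact abs_theta_le _ _

theorem measurable_cavE :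
    Measurable (cavE : (Clause K × Fin K) × (Fin K → Fin N) → Egy (N + 1)) := by
  rw [measurable_pi_iff]
  intro σ
  refine measurable_from_prod_countable_left (α := Clause K × Fin K) (β := Fin K → Fin N)
    (f := fun x => cavE x σ) fun I => ?_
  refine measurable_from_prod_countable_left (α := Clause K) (β := Fin K)
    (f := fun x => cavE (x, I) σ) fun l => ?_
  exact measurable_theta (fun j => σ (merge (emask l) I j))

/-- Energy of the field on the extra site. -/
noncomputable def fE0 (h : ℝ) : Egy (N + 1) := fun σ => h * spin (σ 0)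

theorem norm_fE0_le (h : ℝ) : ‖(fE0 h : Egy (N + 1))‖ ≤ |h| := by
  rw [pi_norm_le_iff_of_nonneg (abs_nonneg _)]
  intro σ
  rw [Real.norm_eq_abs]
  unfold fE0
  rw [abs_mul, spin_abs_one, mul_one]

theorem measurable_fE0 : Measurable (fE0 : ℝ → Egy (N + 1)) := by
  rw [measurable_pi_iff]
  intro σ
  unfold fE0
  exact measurable_id.mul_const _

/-- Lift of an energy on `N` sites to `N + 1` sites. -/
def liftE (H : Egy N) : Egy (N + 1) := fun σ => H fun i => σ i.succ

theorem liftE_add (H H' : Egy N) : liftE (H + H') = liftE H + liftE H' := rfl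

theorem liftE_sum {ι : Type*} (t : Finset ι) (H : ι → Egy N) :
    liftE (∑ i ∈ t, H i) = ∑ i ∈ t, liftE (H i) := by
  funext σ
  simp [liftE, Finset.sum_apply]

theorem norm_liftE_le (H : Egy N) : ‖liftE H‖ ≤ ‖H‖ := by
  rw [pi_norm_le_iff_of_nonneg (norm_nonneg _)]
  intro σ
  exact norm_le_pi_norm H _

theorem liftE_lip : LipschitzWith 1 (liftE : Egy N → Egy (N + 1)) := by
  refine LipschitzWith.of_dist_le_mul fun x y => ?_
  rw [NNReal.coe_one, one_mul, dist_eq_norm, dist_eq_norm]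
  exact norm_liftE_le (x - y)

variable (ρ : Measure (Clause K)) [IsProbabilityMeasure ρ] (ν : Measure ℝ) [IsProbabilityMeasure ν]

theorem integrable_maxTheta_of (h : ∀ σ, Integrable (fun c : Clause K => theta c σ) ρ) :
    Integrable (maxTheta : Clause K → ℝ) ρ := by
  have h1 : Integrable (fun c : Clause K => ∑ σ : Fin K → Bool, |theta c σ|) ρ :=
    integrable_finsetSum _ fun σ _ => (h σ).abs
  refine h1.mono' measurable_maxTheta.aestronglyMeasurable ?_
  refine Filter.Eventually.of_forall fun c => ?_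
  rw [Real.norm_eq_abs, abs_of_nonneg (maxTheta_nonneg c)]
  exact maxTheta_le_sum c

theorem integrable_clauseE [NeZero N] (hρ : Integrable (maxTheta : Clause K → ℝ) ρ) :
    Integrable (clauseE : _ → Egy N) (ρ.prod (unifK K N)) := by
  have h1 : Integrable (fun x : Clause K × (Fin K → Fin N) => maxTheta x.1)
    (ρ.prod (unifK K N)) := hρ.comp_fst _
  exact h1.mono' measurable_clauseE'.aestronglyMeasurable
    (Filter.Eventually.of_forall norm_clauseE_le)

theorem integral_norm_clauseE [NeZero N] (hρ : Integrable (maxTheta : Clause K → ℝ) ρ) :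
    ∫ x, ‖(clauseE x : Egy N)‖ ∂(ρ.prod (unifK K N)) ≤ ∫ c, maxTheta c ∂ρ := by
  have h1 : Integrable (fun x : Clause K × (Fin K → Fin N) => maxTheta x.1)
    (ρ.prod (unifK K N)) := hρ.comp_fst _
  calc ∫ x, ‖(clauseE x : Egy N)‖ ∂(ρ.prod (unifK K N))
      ≤ ∫ x, maxTheta x.1 ∂(ρ.prod (unifK K N)) :=
        integral_mono (integrable_clauseE ρ hρ).norm h1 norm_clauseE_le
    _ = _ := by
        have := integral_prod_mul (μ := ρ) (ν := unifK K N) (fun c : Clause K => maxTheta c)
          (fun _ => (1 : ℝ))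
        simpa using this

theorem integrable_maskE [NeZero N] (hρ : Integrable (maxTheta : Clause K → ℝ) ρ)
    (s : Fin K → Bool) : Integrable (maskE s : _ → Egy (N + 1)) (ρ.prod (unifK K N)) := by
  have h1 : Integrable (fun x : Clause K × (Fin K → Fin N) => maxTheta x.1)
    (ρ.prod (unifK K N)) := hρ.comp_fst _
  exact h1.mono' (measurable_maskE s).aestronglyMeasurable
    (Filter.Eventually.of_forall (norm_maskE_le s))

theorem integral_norm_maskE [NeZero N] (hρ : Integrable (maxTheta : Clause K → ℝ) ρ)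
    (s : Fin K → Bool) :
    ∫ x, ‖(maskE s x : Egy (N + 1))‖ ∂(ρ.prod (unifK K N)) ≤ ∫ c, maxTheta c ∂ρ := by
  have h1 : Integrable (fun x : Clause K × (Fin K → Fin N) => maxTheta x.1)
    (ρ.prod (unifK K N)) := hρ.comp_fst _
  calc ∫ x, ‖(maskE s x : Egy (N + 1))‖ ∂(ρ.prod (unifK K N))
      ≤ ∫ x, maxTheta x.1 ∂(ρ.prod (unifK K N)) :=
        integral_mono (integrable_maskE ρ hρ s).norm h1 (norm_maskE_le s)
    _ = _ := by
        have := integral_prod_mul (μ := ρ) (ν := unifK K N) (fun c : Clause K => maxTheta c)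
          (fun _ => (1 : ℝ))
        simpa using this

theorem integrable_cavE [NeZero N] [NeZero K] (hρ : Integrable (maxTheta : Clause K → ℝ) ρ) :
    Integrable (cavE : _ → Egy (N + 1)) ((ρ.prod (unif K)).prod (unifK K N)) := by
  have h1 : Integrable (fun x : (Clause K × Fin K) × (Fin K → Fin N) => maxTheta x.1.1)
    ((ρ.prod (unif K)).prod (unifK K N)) := (hρ.comp_fst (unif K)).comp_fst _
  exact h1.mono' measurable_cavE.aestronglyMeasurable
    (Filter.Eventually.of_forall norm_cavE_le)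

theorem integrable_fE0 (hν : Integrable (fun h : ℝ => h) ν) :
    Integrable (fE0 : ℝ → Egy (N + 1)) ν :=
  hν.abs.mono' measurable_fE0.aestronglyMeasurable (Filter.Eventually.of_forall norm_fE0_le)

theorem integrable_fieldE (hν : Integrable (fun h : ℝ => h) ν) :
    Integrable (fieldE : (Fin N → ℝ) → Egy N) (Measure.pi fun _ => ν) := by
  have h1 : Integrable (fun h : Fin N → ℝ => ∑ v, |h v|) (Measure.pi fun _ => ν) :=
    integrable_finsetSum _ fun v _ => integrable_comp_eval (μ := fun _ : Fin N => ν) (i := v) hν.abs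
  exact h1.mono' measurable_fieldE.aestronglyMeasurable
    (Filter.Eventually.of_forall norm_fieldE_le)

end Energies

end Vale.Agent.P168
end
end

section

section

set_option autoImplicit false
set_option linter.unusedSectionVars false

open MeasureTheory ProbabilityTheory Finset
open scoped NNReal

namespace Vale.Agent.P168

open KS (unifK integral_unif)

section Ops

variable {K N : ℕ} [NeZero K] [NeZero N] (ρ : Measure (Clause K)) [IsProbabilityMeasure ρ]
  (hρ : Integrable (maxTheta : Clause K → ℝ) ρ)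

/-- Averaging over one interaction on `M` sites. -/
noncomputable def Tc (M : ℕ) [NeZero M] : Module.End ℝ (LipS (Egy M)) :=
  Top (ρ.prod (unifK K M)) clauseE (integrable_clauseE ρ hρ)

/-- Averaging over one interaction with mask `s`. -/
noncomputable def Tm (N : ℕ) [NeZero N] (s : Fin K → Bool) : Module.End ℝ (LipS (Egy (N + 1))) :=
  Top (ρ.prod (unifK K N)) (maskE s) (integrable_maskE ρ hρ s)

/-- Averaging over one cavity interaction. -/
noncomputable def TB (N : ℕ) [NeZero N] : Module.End ℝ (LipS (Egy (N + 1))) :=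
  Top ((ρ.prod (unif K)).prod (unifK K N)) cavE (integrable_cavE ρ hρ)

theorem isAvg_Tc (M : ℕ) [NeZero M] : IsAvg (Tc ρ hρ M) (∫ c, maxTheta c ∂ρ) :=
  isAvg_top _ _ _ _ (integral_norm_clauseE ρ hρ)

theorem isAvg_Tm (s : Fin K → Bool) : IsAvg (Tm ρ hρ N s) (∫ c, maxTheta c ∂ρ) :=
  isAvg_top _ _ _ _ (integral_norm_maskE ρ hρ s)

theorem Tc_succ : Tc ρ hρ (N + 1) =
    ∑ s : Fin K → Bool, mw (1 / ((N + 1 : ℕ) : ℝ)) s • Tm ρ hρ N s := by
  ext G h
  obtain ⟨C, hC⟩ := G.2
  rw [comb_apply]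
  unfold Tc Tm
  simp_rw [Top_apply]
  rw [integral_prod _ (lip_integrable hC (integrable_clauseE ρ hρ) h)]
  have h1 : ∀ c : Clause K, ∫ I, G.1 (h + clauseE (c, I)) ∂(unifK K (N + 1)) =
      ∑ s : Fin K → Bool, mw (1 / ((N + 1 : ℕ) : ℝ)) s *
        ∫ I, G.1 (h + maskE s (c, I)) ∂(unifK K N) := by
    intro c
    rw [integral_unifK_succ K N (fun I => G.1 (h + clauseE (c, I)))]
    rfl
  simp_rw [h1]
  rw [integral_finsetSum]
  · refine Finset.sum_congr rfl fun s _ => ?_
    rw [integral_const_mul, integral_prod _ (lip_integrable hC (integrable_maskE ρ hρ s) h)]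
  · intro s _
    refine Integrable.const_mul ?_ _
    exact (lip_integrable hC (integrable_maskE ρ hρ s) h).integral_prod_left

theorem TB_apply (G : LipS (Egy (N + 1))) (h : Egy (N + 1)) :
    (TB ρ hρ N G).1 h = (1 / (K : ℝ)) * ∑ l : Fin K, (Tm ρ hρ N (emask l) G).1 h := by
  obtain ⟨C, hC⟩ := G.2
  unfold TB Tm
  simp_rw [Top_apply]
  rw [integral_prod _ (lip_integrable hC (integrable_cavE ρ hρ) h)]
  have hi : Integrable (fun x : Clause K × Fin K => ∫ I, G.1 (h + cavE (x, I)) ∂(unifK K N))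
      (ρ.prod (unif K)) := (lip_integrable hC (integrable_cavE ρ hρ) h).integral_prod_left
  rw [integral_prod _ hi]
  have h1 : ∀ c : Clause K, ∫ l, (∫ I, G.1 (h + cavE ((c, l), I)) ∂(unifK K N)) ∂(unif K) =
      (1 / (K : ℝ)) * ∑ l : Fin K, ∫ I, G.1 (h + maskE (emask l) (c, I)) ∂(unifK K N) := by
    intro c
    rw [integral_unif K (fun l => ∫ I, G.1 (h + cavE ((c, l), I)) ∂(unifK K N))]
    rfl
  simp_rw [h1]
  rw [integral_const_mul, integral_finsetSum]
  · congr 1
    refine Finset.sum_congr rfl fun l _ => ?_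
    rw [integral_prod _ (lip_integrable hC (integrable_maskE ρ hρ (emask l)) h)]
  · intro l _
    exact (lip_integrable hC (integrable_maskE ρ hρ (emask l)) h).integral_prod_left

/-- Probability that an interaction touches the extra site. -/
noncomputable def qR (K N : ℕ) : ℝ := 1 - (1 - 1 / ((N + 1 : ℕ) : ℝ)) ^ K

/-- Averaging over one interaction touching the extra site. -/
noncomputable def TR (N : ℕ) [NeZero N] : Module.End ℝ (LipS (Egy (N + 1))) :=
  ∑ s ∈ Finset.univ.erase (fun _ : Fin K => false),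
    (mw (1 / ((N + 1 : ℕ) : ℝ)) s / qR K N) • Tm ρ hρ N s

theorem p0_pos (N : ℕ) : 0 < 1 / ((N + 1 : ℕ) : ℝ) := by positivity

theorem p0_le (N : ℕ) : 1 / ((N + 1 : ℕ) : ℝ) ≤ 1 := by
  rw [div_le_one (by positivity)]
  push_cast
  have : (0 : ℝ) ≤ N := Nat.cast_nonneg N
  linarith

theorem p0_le_qR (K N : ℕ) [NeZero K] : 1 / ((N + 1 : ℕ) : ℝ) ≤ qR K N := by
  unfold qR
  have h0 := p0_pos N
  have h1 := p0_le N
  have hK : 1 ≤ K := Nat.one_le_iff_ne_zero.2 (NeZero.ne K)
  have : (1 - 1 / ((N + 1 : ℕ) : ℝ)) ^ K ≤ (1 - 1 / ((N + 1 : ℕ) : ℝ)) ^ 1 :=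
    pow_le_pow_of_le_one (by linarith only [h1]) (by linarith only [h0]) hK
  rw [pow_one] at this
  linarith only [this]

theorem qR_pos (K N : ℕ) [NeZero K] : 0 < qR K N := lt_of_lt_of_le (p0_pos N) (p0_le_qR K N)

theorem qR_le_one (K N : ℕ) : qR K N ≤ 1 := by
  unfold qR
  have h1 := p0_le N
  have : 0 ≤ (1 - 1 / ((N + 1 : ℕ) : ℝ)) ^ K := pow_nonneg (by linarith) K
  linarith only [this]

theorem sum_erase_mw (K N : ℕ) [NeZero K] :
    ∑ s ∈ Finset.univ.erase (fun _ : Fin K => false), mw (1 / ((N + 1 : ℕ) : ℝ)) s = qR K N := by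
  have h1 := mw_sum (K := K) (1 / ((N + 1 : ℕ) : ℝ))
  rw [← Finset.add_sum_erase _ _ (Finset.mem_univ (fun _ : Fin K => false)), mw_zero] at h1
  unfold qR
  linarith

theorem isAvg_TR : IsAvg (TR ρ hρ N) (∫ c, maxTheta c ∂ρ) := by
  unfold TR
  refine isAvg_comb _ _ (fun s _ => ?_) ?_ _ _ (fun s _ => isAvg_Tm ρ hρ s)
  · exact div_nonneg (mw_nonneg (p0_pos N).le (p0_le N) s) (qR_pos K N).le
  · rw [← Finset.sum_div, sum_erase_mw, div_self (qR_pos K N).ne']

theorem isAvg_TB : IsAvg (TB ρ hρ N) (∫ c, maxTheta c ∂ρ) := by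
  have hK : (K : ℝ) ≠ 0 := by exact_mod_cast NeZero.ne K
  have h : TB ρ hρ N = ∑ l : Fin K, (1 / (K : ℝ)) • Tm ρ hρ N (emask l) := by
    ext G h
    rw [comb_apply, TB_apply, Finset.mul_sum]
  rw [h]
  refine isAvg_comb _ _ (fun _ _ => by positivity) ?_ _ _ (fun l _ => isAvg_Tm ρ hρ (emask l))
  simp only [one_div, sum_const, card_univ, Fintype.card_fin, nsmul_eq_mul, ne_eq, hK, not_false_eq_true, mul_inv_cancel₀]

theorem Tc_succ' : Tc ρ hρ (N + 1) =
    (1 - qR K N) • Tm ρ hρ N (fun _ => false) + qR K N • TR ρ hρ N := by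
  have hq := (qR_pos K N).ne'
  rw [Tc_succ, ← Finset.add_sum_erase _ _ (Finset.mem_univ (fun _ : Fin K => false)), mw_zero]
  congr 1
  · congr 1
    unfold qR; ring
  · unfold TR
    rw [Finset.smul_sum]
    refine Finset.sum_congr rfl fun s _ => ?_
    rw [smul_smul, mul_div_cancel₀ _ hq]

theorem TR_near_TB (G : LipS (Egy (N + 1))) (C : ℝ≥0) (hC : LipschitzWith C G.1)
    (h : Egy (N + 1)) :
    |(TR ρ hρ N G).1 h - (TB ρ hρ N G).1 h| ≤
      C * (2 * (K : ℝ) ^ 2 * (1 / ((N + 1 : ℕ) : ℝ)) * ∫ c, maxTheta c ∂ρ) := by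
  set L := ∫ c, maxTheta c ∂ρ with hL
  set p : ℝ := 1 / ((N + 1 : ℕ) : ℝ) with hp
  have hp0 : 0 < p := p0_pos N
  have hp1 : p ≤ 1 := p0_le N
  have hq := qR_pos K N
  have hpq : p ≤ qR K N := p0_le_qR K N
  have hK : 1 ≤ K := Nat.one_le_iff_ne_zero.2 (NeZero.ne K)
  have hK0 : (0 : ℝ) < K := by exact_mod_cast hK
  have hL0 : 0 ≤ L := integral_nonneg fun c => maxTheta_nonneg c
  set w1 : ℝ := p * (1 - p) ^ (K - 1) with hw1
  have hw10 : 0 ≤ w1 := mul_nonneg hp0.le (pow_nonneg (by linarith only [hp1]) _)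
  set D : (Fin K → Bool) → ℝ := fun s => (Tm ρ hρ N s G).1 h - G.1 h with hD
  have hDle : ∀ s, |D s| ≤ C * L := fun s => (isAvg_Tm ρ hρ s).near G C hC h
  -- expansions
  have e1 : (TR ρ hρ N G).1 h - G.1 h =
      ∑ s ∈ Finset.univ.erase (fun _ : Fin K => false), (mw p s / qR K N) * D s := by
    unfold TR
    rw [comb_apply]
    simp only [hD, mul_sub]
    rw [Finset.sum_sub_distrib, ← Finset.sum_mul, ← Finset.sum_div, ← hp, hp, sum_erase_mw,
      div_self hq.ne', one_mul]
  have e2 : (TB ρ hρ N G).1 h - G.1 h = ∑ l : Fin K, (1 / (K : ℝ)) * D (emask l) := by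
    rw [TB_apply]
    simp only [hD, mul_sub]
    rw [Finset.sum_sub_distrib, ← Finset.mul_sum]
    simp only [one_div, sum_const, card_univ, Fintype.card_fin, nsmul_eq_mul, sub_right_inj]
    (clear * - hK; field_simp)
  have hsub : Finset.univ.image (emask : Fin K → Fin K → Bool) ⊆
      Finset.univ.erase (fun _ : Fin K => false) := by
    intro s hs
    obtain ⟨l, _, rfl⟩ := Finset.mem_image.1 hs
    exact Finset.mem_erase.2 ⟨emask_ne l, Finset.mem_univ _⟩
  have e3 : ∑ s ∈ Finset.univ.erase (fun _ : Fin K => false), (mw p s / qR K N) * D s =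
      ∑ s ∈ Finset.univ.erase (fun _ : Fin K => false) \ Finset.univ.image emask,
        (mw p s / qR K N) * D s + ∑ l : Fin K, (w1 / qR K N) * D (emask l) := by
    rw [← Finset.sum_sdiff hsub]
    congr 1
    rw [Finset.sum_image (fun a _ b _ h => emask_inj h)]
    refine Finset.sum_congr rfl fun l _ => ?_
    rw [mw_emask]
  have e4 : ∑ s ∈ Finset.univ.erase (fun _ : Fin K => false) \ Finset.univ.image emask,
      mw p s = qR K N - K * w1 := by
    have h1 := Finset.sum_sdiff (f := fun s => mw p s) hsub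
    rw [hp, sum_erase_mw, ← hp, Finset.sum_image (fun a _ b _ h => emask_inj h)] at h1
    have h2 : ∑ l : Fin K, mw p (emask l) = K * w1 := by
      simp_rw [mw_emask, ← hw1]
      simp
    rw [h2] at h1
    linarith only [h1]
  have hmulti : qR K N - K * w1 ≤ (K * p) * (K * p) := multi_le K hp0.le hp1 hK
  have hmulti0 : 0 ≤ qR K N - K * w1 := by
    rw [← e4]
    exact Finset.sum_nonneg fun s _ => mw_nonneg hp0.le hp1 s
  have e5 : (TR ρ hρ N G).1 h - (TB ρ hρ N G).1 h =
      ∑ s ∈ Finset.univ.erase (fun _ : Fin K => false) \ Finset.univ.image emask,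
        (mw p s / qR K N) * D s + ∑ l : Fin K, (w1 / qR K N - 1 / K) * D (emask l) := by
    have : (TR ρ hρ N G).1 h - (TB ρ hρ N G).1 h =
        ((TR ρ hρ N G).1 h - G.1 h) - ((TB ρ hρ N G).1 h - G.1 h) := by ring
    rw [this, e1, e2, e3, add_sub_assoc, ← Finset.sum_sub_distrib]
    congr 1
    exact Finset.sum_congr rfl fun l _ => by ring
  rw [e5]
  have hfr : w1 / qR K N ≤ 1 / K := by
    rw [div_le_div_iff₀ hq hK0]
    linarith only [hmulti0]
  calc |∑ s ∈ Finset.univ.erase (fun _ : Fin K => false) \ Finset.univ.image emask,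
        (mw p s / qR K N) * D s + ∑ l : Fin K, (w1 / qR K N - 1 / K) * D (emask l)|
      ≤ ∑ s ∈ Finset.univ.erase (fun _ : Fin K => false) \ Finset.univ.image emask,
        (mw p s / qR K N) * (C * L) + ∑ _l : Fin K, (1 / K - w1 / qR K N) * (C * L) := by
        refine (abs_add_le _ _).trans (add_le_add ?_ ?_)
        · refine (Finset.abs_sum_le_sum_abs _ _).trans (Finset.sum_le_sum fun s _ => ?_)
          have : 0 ≤ mw p s / qR K N := div_nonneg (mw_nonneg hp0.le hp1 s) hq.le
          rw [abs_mul, abs_of_nonneg this]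
          exact mul_le_mul_of_nonneg_left (hDle s) this
        · refine (Finset.abs_sum_le_sum_abs _ _).trans (Finset.sum_le_sum fun l _ => ?_)
          rw [abs_mul, abs_sub_comm, abs_of_nonneg (by linarith only [hfr])]
          exact mul_le_mul_of_nonneg_left (hDle _) (by linarith only [hfr])
    _ = 2 * ((qR K N - K * w1) / qR K N) * (C * L) := by
        rw [← Finset.sum_mul, ← Finset.sum_div, e4]
        simp only [one_div, sum_const, card_univ, Fintype.card_fin, nsmul_eq_mul]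
        field_simp
        ring
    _ ≤ 2 * ((K * p) * (K * p) / p) * (C * L) := by
        have hCL : 0 ≤ (C : ℝ) * L := mul_nonneg (NNReal.coe_nonneg C) hL0
        apply mul_le_mul_of_nonneg_right _ hCL
        apply mul_le_mul_of_nonneg_left _ (by norm_num)
        exact div_le_div₀ (by (clear * - hK; positivity)) hmulti hp0 hpq
    _ = _ := by
        (clear * - hp0 hK; field_simp)

theorem Tm_commute (s s' : Fin K → Bool) : Commute (Tm ρ hρ N s) (Tm ρ hρ N s') :=
  Top_commute _ _ _ _ _ _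

theorem Tm_TR_commute : Commute (Tm ρ hρ N (fun _ => false)) (TR ρ hρ N) := by
  unfold TR
  refine Commute.sum_right _ _ _ fun s _ => ?_
  exact (Tm_commute ρ hρ _ s).smul_right _

/-- Binomial expansion of the iterates of the averaging operator on `N + 1` sites. -/
theorem Tc_pow (n : ℕ) (G : LipS (Egy (N + 1))) (h : Egy (N + 1)) :
    ((Tc ρ hρ (N + 1) ^ n) G).1 h =
      bmix (1 - qR K N) (qR K N) (fun k l =>
        ((Tm ρ hρ N (fun _ => false) ^ k) ((TR ρ hρ N ^ l) G)).1 h) n 0 0 := by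
  rw [Tc_succ']
  have hcomm : Commute ((1 - qR K N) • Tm ρ hρ N (fun _ => false)) (qR K N • TR ρ hρ N) :=
    ((Tm_TR_commute ρ hρ).smul_left _).smul_right _
  rw [hcomm.add_pow', LinearMap.sum_apply]
  unfold bmix
  rw [AddSubmonoidClass.coe_finsetSum, Finset.sum_apply]
  refine Finset.sum_congr rfl fun ij _ => ?_
  rw [smul_pow, smul_pow, smul_mul_smul_comm]
  simp only [LinearMap.smul_apply, zero_add]
  rw [← Nat.cast_smul_eq_nsmul ℝ]
  simp only [SetLike.val_smul, Pi.smul_apply, smul_eq_mul]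
  rfl

end Ops

end Vale.Agent.P168
end
end

section

section

set_option autoImplicit false
set_option linter.unusedSectionVars false

open MeasureTheory ProbabilityTheory Finset
open scoped NNReal

namespace Vale.Agent.P168

open KS (unifK integral_unif)

theorem log_partitionFn {K N n : ℕ} (ω : Fin n → Clause K × (Fin K → Fin N)) (h : Fin N → ℝ) :
    Real.log (partitionFn ω h) = logZ (∑ k, clauseE (ω k) + fieldE h) := by
  unfold partitionFn logZ fieldE clauseE
  simp only [Pi.add_apply, Finset.sum_apply]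

theorem En_eq {K N n : ℕ} (ω : Fin n → Clause K × (Fin K → Fin N)) (h : Fin N → ℝ) :
    En ω h = ∑ k, clauseE (ω k) + fieldE h := by
  funext σ
  unfold En fieldE
  simp only [Pi.add_apply, Finset.sum_apply]

/-- Swapping a Poisson average and an expectation. -/
theorem swap_pois {H : Type} [NormedAddCommGroup H] [MeasurableSpace H] [BorelSpace H]
    [SecondCountableTopology H] {Z : Type} [MeasurableSpace Z] (μ : Measure Z)
    [IsProbabilityMeasure μ] (E : Z → H) (hEm : Measurable E) (hE : Integrable E μ)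
    (Y : ℕ → LipS H) (C : ℝ≥0) (hY : ∀ l, LipschitzWith C (Y l).1) (A B : ℝ) (hA : 0 ≤ A)
    (hB : 0 ≤ B) (hY0 : ∀ l, |(Y l).1 0| ≤ A + B * l) (a : ℝ≥0) :
    ∫ l, (∫ z, (Y l).1 (E z) ∂μ) ∂(poissonMeasure a) =
      ∫ z, (∫ l, (Y l).1 (E z) ∂(poissonMeasure a)) ∂μ := by
  rw [integral_integral_swap]
  have hdom : Integrable (fun x : ℕ × Z => (A + B * x.1) + C * ‖E x.2‖)
      ((poissonMeasure a).prod μ) := by
    refine Integrable.add ?_ ?_
    · refine Integrable.comp_fst (f := fun l : ℕ => A + B * (l : ℝ)) ?_ μ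
      exact (expGrowth_of_linear (fun n => by
        rw [abs_of_nonneg (by (clear * - hA hB; positivity))]) hA hB).integrable a
    · exact Integrable.comp_snd (f := fun z => C * ‖E z‖) (hE.norm.const_mul _) (poissonMeasure a)
  refine hdom.mono' ?_ ?_
  · refine Measurable.aestronglyMeasurable ?_
    refine measurable_from_prod_countable_right (α := ℕ) (β := Z)
      (f := fun x => (Y x.1).1 (E x.2)) fun l => ?_
    exact (hY l).continuous.measurable.comp hEm
  · refine Filter.Eventually.of_forall fun x => ?_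
    rw [Real.norm_eq_abs]
    have h1 := lip_bound (hY x.1) 0 (E x.2)
    rw [zero_add] at h1
    have h2 := abs_add_le ((Y x.1).1 (E x.2) - (Y x.1).1 0) ((Y x.1).1 0)
    rw [sub_add_cancel] at h2
    have h3 := hY0 x.1
    show |(Y x.1).1 (E x.2)| ≤ _
    linarith

section Inc

variable {K N : ℕ} [NeZero K] [NeZero N] (ρ : Measure (Clause K)) [IsProbabilityMeasure ρ]
  (hρ : Integrable (maxTheta : Clause K → ℝ) ρ) (ν : Measure ℝ) [IsProbabilityMeasure ν]
  (hν : Integrable (fun h : ℝ => h) ν)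

/-- Averaging over the fields. -/
noncomputable def Tf (M : ℕ) : Module.End ℝ (LipS (Egy M)) :=
  Top (Measure.pi fun _ => ν) fieldE (integrable_fieldE ν hν)

/-- Averaging over the field at the extra site. -/
noncomputable def Tf0 (N : ℕ) : Module.End ℝ (LipS (Egy (N + 1))) :=
  Top ν fE0 (integrable_fE0 ν hν)

include hν in
theorem integrable_liftField : Integrable (fun h : Fin N → ℝ => liftE (fieldE h : Egy N))
    (Measure.pi fun _ => ν) := by
  refine (integrable_fieldE ν hν).norm.mono' ?_ (Filter.Eventually.of_forall fun h =>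
    norm_liftE_le _)
  exact (liftE_lip.continuous.measurable.comp measurable_fieldE).aestronglyMeasurable

/-- Averaging over the fields at the ordinary sites. -/
noncomputable def Tf' (N : ℕ) [NeZero N] : Module.End ℝ (LipS (Egy (N + 1))) :=
  Top (Measure.pi fun _ : Fin N => ν) (fun h => liftE (fieldE h : Egy N))
    (integrable_liftField ν hν)

theorem Tf_succ : Tf ν hν (N + 1) = Tf0 ν hν N * Tf' ν hν N := by
  ext G h
  obtain ⟨C, hC⟩ := G.2
  show (Tf ν hν (N + 1) G).1 h = (Tf0 ν hν N (Tf' ν hν N G)).1 h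
  unfold Tf Tf0 Tf'
  simp_rw [Top_apply]
  have hmp := measurePreserving_piFinSuccAbove (fun _ : Fin (N + 1) => ν) 0
  have hemb := (MeasurableEquiv.piFinSuccAbove (fun _ : Fin (N + 1) => ℝ) 0).measurableEmbedding
  have h1 := hmp.integral_comp hemb (g := fun z : ℝ × (Fin N → ℝ) =>
    G.1 (h + fE0 z.1 + liftE (fieldE z.2)))
  have h2 : ∀ x : Fin (N + 1) → ℝ,
      G.1 (h + fE0 ((MeasurableEquiv.piFinSuccAbove (fun _ : Fin (N + 1) => ℝ) 0) x).1 +
        liftE (fieldE ((MeasurableEquiv.piFinSuccAbove (fun _ : Fin (N + 1) => ℝ) 0) x).2)) =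
      G.1 (h + fieldE x) := by
    intro x
    rw [add_assoc]
    have e1 : (fE0 ((MeasurableEquiv.piFinSuccAbove (fun _ : Fin (N + 1) => ℝ) 0) x).1 +
        liftE (fieldE ((MeasurableEquiv.piFinSuccAbove (fun _ : Fin (N + 1) => ℝ) 0) x).2 :
          Egy N) : Egy (N + 1)) = fieldE x := by
      funext σ
      show x 0 * spin (σ 0) + ∑ v : Fin N, x v.succ * spin (σ v.succ) = fieldE x σ
      unfold fieldE
      rw [Fin.sum_univ_succ]
    rw [e1]
  simp_rw [h2] at h1
  rw [h1, integral_prod]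
  have hsum : Integrable (fun z : ℝ × (Fin N → ℝ) => (fE0 z.1 : Egy (N + 1)) +
      liftE (fieldE z.2 : Egy N)) (ν.prod (Measure.pi fun _ : Fin N => ν)) :=
    ((integrable_fE0 ν hν).comp_fst _).add ((integrable_liftField ν hν).comp_snd _)
  refine (lip_integrable hC hsum h).congr (Filter.Eventually.of_forall fun z => ?_)
  show G.1 (h + (fE0 z.1 + liftE (fieldE z.2))) = G.1 (h + fE0 z.1 + liftE (fieldE z.2))
  rw [add_assoc]

theorem mul_pressure (M : ℕ) [NeZero M] (lam : ℝ≥0) :
    (M : ℝ) * pressure lam ρ ν M =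
      ∫ n, ((Tc ρ hρ M ^ n) (Tf ν hν M (PhiL M))).1 0 ∂(poissonMeasure (lam * M)) := by
  have hM : (M : ℝ) ≠ 0 := by exact_mod_cast NeZero.ne M
  unfold pressure
  rw [← mul_assoc, mul_one_div_cancel hM, one_mul]
  congr 1
  funext n
  unfold Tc
  rw [Top_pow]
  congr 1
  funext ω
  unfold Tf
  rw [Top_apply]
  congr 1
  funext h
  rw [log_partitionFn, zero_add]
  rfl

end Inc

end Vale.Agent.P168
end
end

section

section

set_option autoImplicit false
set_option linter.unusedSectionVars false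

open MeasureTheory ProbabilityTheory Finset
open scoped NNReal

namespace Vale.Agent.P168

open KS (unifK integral_unif)

section LogZLift

end LogZLift

section CmpU

variable {K N : ℕ} [NeZero K] [NeZero N]

variable (ρ : Measure (Clause K)) [IsProbabilityMeasure ρ]
  (hρ : Integrable (maxTheta : Clause K → ℝ) ρ) (ν : Measure ℝ) [IsProbabilityMeasure ν]
  (hν : Integrable (fun h : ℝ => h) ν) (m : Fin N → ℝ) (hm : ∀ i, |m i| ≤ 1)

theorem swap_fin {ι : Type} [Fintype ι] [DecidableEq ι] (f : (ι → Fin N) → ℝ → ℝ)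
    (hf : ∀ i, Integrable (f i) ν) :
    ∫ i, (∫ h, f i h ∂ν) ∂(Measure.pi fun _ : ι => unif N) =
      ∫ h, (∫ i, f i h ∂(Measure.pi fun _ : ι => unif N)) ∂ν := by
  simp_rw [integral_pi_unif]
  rw [integral_const_mul, integral_finsetSum _ fun i _ => hf i]

/-- The random function of the spins of the ordinary sites. -/
noncomputable def QU {l : ℕ} (ω : Fin l → Clause K × Fin K) (h : ℝ)
    (τ : Fin l × Fin K → Bool) : ℝ :=
  ∑ e, Real.exp (h * spin e) *
    ∏ k, Real.exp (theta (ω k).1 (Function.update (fun j => τ (k, j)) (ω k).2 e))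

theorem cavE_cons (y : (Clause K × Fin K) × (Fin K → Fin N)) (e : Bool) (σ : Fin N → Bool) :
    cavE y (Fin.cons e σ : Fin (N + 1) → Bool) =
      theta y.1.1 (Function.update (fun j => σ (y.2 j)) y.1.2 e) := by
  unfold cavE
  congr 1
  funext j
  unfold merge emask
  by_cases h : j = y.1.2
  · rw [h]; simp
  · rw [Function.update_of_ne h]; simp [h]

theorem pav_QU {l : ℕ} (ω : Fin l → Clause K × Fin K) (h : ℝ) (y : Fin l × Fin K → ℝ) :
    pav (QU ω h) y = ∑ e, Real.exp (h * spin e) *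
      ∏ k, cavityFactor (ω k).1 (ω k).2 (fun j => y (k, j)) e := by
  unfold QU
  rw [pav_sum]
  refine Finset.sum_congr rfl fun e _ => ?_
  rw [pav_const_mul]
  congr 1
  rw [pav_arr (fun k τ => Real.exp (theta (ω k).1 (Function.update τ (ω k).2 e))) y]
  refine Finset.prod_congr rfl fun k _ => ?_
  rw [cavityFactor_eq]
  rfl

theorem QU_mem {l : ℕ} (ω : Fin l → Clause K × Fin K) (h : ℝ) (τ : Fin l × Fin K → Bool) :
    (∑ e, Real.exp (h * spin e)) * Real.exp (-∑ k, maxTheta (ω k).1) ≤ QU ω h τ ∧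
      QU ω h τ ≤ (∑ e, Real.exp (h * spin e)) * Real.exp (∑ k, maxTheta (ω k).1) := by
  unfold QU
  rw [Finset.sum_mul, Finset.sum_mul]
  constructor
  · refine Finset.sum_le_sum fun e _ => ?_
    refine mul_le_mul_of_nonneg_left ?_ (Real.exp_pos _).le
    rw [← Real.exp_sum, Real.exp_le_exp, ← Finset.sum_neg_distrib]
    exact Finset.sum_le_sum fun k _ => (theta_mem _ _).1
  · refine Finset.sum_le_sum fun e _ => ?_
    refine mul_le_mul_of_nonneg_left ?_ (Real.exp_pos _).le
    rw [← Real.exp_sum, Real.exp_le_exp]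
    exact Finset.sum_le_sum fun k _ => (theta_mem _ _).2

end CmpU

end Vale.Agent.P168
end
end

section

section

set_option autoImplicit false
set_option linter.unusedSectionVars false

open MeasureTheory ProbabilityTheory Finset
open scoped NNReal

namespace Vale.Agent.P168

open KS (unifK integral_unif)

section CmpV

variable {K N : ℕ} [NeZero K] [NeZero N]

variable (ρ : Measure (Clause K)) [IsProbabilityMeasure ρ]
  (hρ : Integrable (maxTheta : Clause K → ℝ) ρ) (m : Fin N → ℝ) (hm : ∀ i, |m i| ≤ 1)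

/-- The random function of the spins. -/
noncomputable def QV {l : ℕ} (ω : Fin l → Clause K) (τ : Fin l × Fin K → Bool) : ℝ :=
  ∏ k, Real.exp (theta (ω k) (fun j => τ (k, j)))

theorem pav_QV {l : ℕ} (ω : Fin l → Clause K) (y : Fin l × Fin K → ℝ) :
    pav (QV ω) y = ∏ k, edgeFactor (ω k) (fun j => y (k, j)) := by
  unfold QV
  rw [pav_arr (fun k τ => Real.exp (theta (ω k) τ)) y]
  refine Finset.prod_congr rfl fun k _ => ?_
  rw [edgeFactor_eq]
  rfl

theorem QV_mem {l : ℕ} (ω : Fin l → Clause K) (τ : Fin l × Fin K → Bool) :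
    Real.exp (-∑ k, maxTheta (ω k)) ≤ QV ω τ ∧ QV ω τ ≤ Real.exp (∑ k, maxTheta (ω k)) := by
  unfold QV
  rw [← Real.exp_sum, Real.exp_le_exp, Real.exp_le_exp, ← Finset.sum_neg_distrib]
  exact ⟨Finset.sum_le_sum fun k _ => (theta_mem _ _).1,
    Finset.sum_le_sum fun k _ => (theta_mem _ _).2⟩

end CmpV

end Vale.Agent.P168
end
end

section

section

set_option autoImplicit false
set_option linter.unusedSectionVars false

open MeasureTheory ProbabilityTheory Finset
open scoped NNReal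

namespace Vale.Agent.P168

open KS (unifK integral_unif)

section Trial0

variable {K N : ℕ} [NeZero K] [NeZero N]

variable (ρ : Measure (Clause K)) [IsProbabilityMeasure ρ]
  (hρ : Integrable (maxTheta : Clause K → ℝ) ρ) (ν : Measure ℝ) [IsProbabilityMeasure ν]
  (hν : Integrable (fun h : ℝ => h) ν) (m : Fin N → ℝ) (hm : ∀ i, |m i| ≤ 1)

end Trial0

end Vale.Agent.P168
end
end

section

section

set_option autoImplicit false
set_option linter.unusedSectionVars false

open MeasureTheory ProbabilityTheory Finset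
open scoped NNReal

namespace Vale.Agent.P168

open KS (unifK integral_unif)

section Basic

theorem growth_cast : ExpGrowth fun l : ℕ => (l : ℝ) :=
  expGrowth_of_linear (c := 0) (d := 1) (fun n => by
    rw [abs_of_nonneg (Nat.cast_nonneg n)]; linarith) le_rfl zero_le_one

end Basic

section Point

variable {K N : ℕ} [NeZero K] [NeZero N] (ρ : Measure (Clause K)) [IsProbabilityMeasure ρ]
  (hρ : Integrable (maxTheta : Clause K → ℝ) ρ) (ν : Measure ℝ) [IsProbabilityMeasure ν]
  (hν : Integrable (fun h : ℝ => h) ν)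

theorem Lbar_nonneg : 0 ≤ ∫ c, maxTheta c ∂ρ := integral_nonneg fun c => maxTheta_nonneg c

end Point

end Vale.Agent.P168
end
end

section

section

set_option autoImplicit false
set_option linter.unusedSectionVars false

open MeasureTheory ProbabilityTheory Finset
open scoped NNReal

namespace Vale.Agent.P168

open KS (unifK integral_unif)

section General

variable {H : Type} [NormedAddCommGroup H]

theorem pois_lip_fun (Y : ℕ → LipS H) (C : ℝ≥0) (hY : ∀ l, LipschitzWith C (Y l).1)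
    (hg : ∀ x, ExpGrowth fun l => (Y l).1 x) (a : ℝ≥0) :
    LipschitzWith C (fun x => ∫ l, (Y l).1 x ∂(poissonMeasure a)) := by
  refine LipschitzWith.of_dist_le_mul fun x y => ?_
  rw [Real.dist_eq, ← integral_sub ((hg x).integrable a) ((hg y).integrable a), ← Real.norm_eq_abs]
  have := norm_integral_le_of_norm_le_const (μ := poissonMeasure a)
    (f := fun l => (Y l).1 x - (Y l).1 y) (C := C * dist x y)
    (Filter.Eventually.of_forall fun l => by
      have := (hY l).dist_le_mul x y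
      rwa [Real.dist_eq, ← Real.norm_eq_abs] at this)
  simpa only [Real.norm_eq_abs, ge_iff_le, probReal_univ, mul_one] using this

end General

section Incr

variable {K N : ℕ} [NeZero K] [NeZero N] (ρ : Measure (Clause K)) [IsProbabilityMeasure ρ]
  (hρ : Integrable (maxTheta : Clause K → ℝ) ρ) (ν : Measure ℝ) [IsProbabilityMeasure ν]
  (hν : Integrable (fun h : ℝ => h) ν)

/-- The law of the randomness. -/
noncomputable def muZ (N : ℕ) [NeZero N] (k : ℕ) :
    Measure ((Fin k → Clause K × (Fin K → Fin N)) × (Fin N → ℝ)) :=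
  (Measure.pi fun _ => ρ.prod (unifK K N)).prod (Measure.pi fun _ => ν)

instance instProbMuZ (k : ℕ) : IsProbabilityMeasure (muZ ρ ν N k) := by
  unfold muZ; infer_instance

include hρ hν in
theorem integrable_EZ (k : ℕ) :
    Integrable (fun z : (Fin k → Clause K × (Fin K → Fin N)) × (Fin N → ℝ) =>
      (En z.1 z.2 : Egy N)) (muZ ρ ν N k) := by
  have h1 : Integrable (fun ω : Fin k → Clause K × (Fin K → Fin N) =>
      ∑ c, (clauseE (ω c) : Egy N)) (Measure.pi fun _ => ρ.prod (unifK K N)) :=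
    integrable_finsetSum _ fun c _ => integrable_comp_eval (integrable_clauseE ρ hρ)
  have h2 := (h1.comp_fst (Measure.pi fun _ : Fin N => ν)).add
    ((integrable_fieldE (N := N) ν hν).comp_snd
      (Measure.pi fun _ : Fin k => ρ.prod (unifK K N)))
  refine h2.congr (Filter.Eventually.of_forall fun z => ?_)
  exact (En_eq z.1 z.2).symm

include hρ hν in
theorem iterZ (k : ℕ) {G : Egy N → ℝ} {C : ℝ≥0} (hG : LipschitzWith C G) :
    ∫ z, G (En z.1 z.2) ∂(muZ ρ ν N k) =
      ∫ ω : Fin k → Clause K × (Fin K → Fin N), (∫ h : Fin N → ℝ, G (En ω h)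
        ∂(Measure.pi fun _ => ν)) ∂(Measure.pi fun _ => ρ.prod (unifK K N)) := by
  unfold muZ
  rw [integral_prod]
  have := lip_integrable hG (integrable_EZ ρ hρ ν hν k) 0
  refine this.congr (Filter.Eventually.of_forall fun z => ?_)
  show G (0 + En z.1 z.2) = _
  rw [zero_add]

theorem growth2_of {B : ℕ → ℕ → ℝ} {A L : ℝ} (hA : 0 ≤ A) (hL : 0 ≤ L)
    (h : ∀ k l, |B k l| ≤ A + L * (k + l)) : ExpGrowth2 B := by
  refine ⟨A + L, 2, by linarith, by norm_num, fun k l => ?_⟩
  refine (h k l).trans ?_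
  rw [← pow_add]
  have h1 := nat_le_two_pow_real (k + l)
  have h2 : (1 : ℝ) ≤ 2 ^ (k + l) := one_le_pow₀ (by norm_num)
  push_cast at h1
  nlinarith only [hA, h2, hL, h1]

end Incr

end Vale.Agent.P168
end
end

section

section

set_option autoImplicit false
set_option linter.unusedSectionVars false

open MeasureTheory ProbabilityTheory Finset
open scoped NNReal

namespace Vale.Agent.P168

open KS (unifK integral_unif)

variable {K N : ℕ}

variable [NeZero N] (ρ : Measure (Clause K)) [IsProbabilityMeasure ρ]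
  (ν : Measure ℝ) [IsProbabilityMeasure ν]

end Vale.Agent.P168
end
end

section

section

set_option autoImplicit false
set_option linter.unusedSectionVars false

open MeasureTheory ProbabilityTheory Finset
open scoped NNReal

namespace Vale.Agent.P168

open KS (unifK integral_unif)

section Reals

theorem one_sub_pow_ge {p : ℝ} (h1 : p ≤ 1) (K : ℕ) : 1 - K * p ≤ (1 - p) ^ K := by
  have := one_add_mul_le_pow (a := -p) (by linarith) K
  rw [← sub_eq_add_neg] at this
  linarith

theorem one_sub_pow_le {p : ℝ} (h0 : 0 ≤ p) (h1 : p ≤ 1) (K : ℕ) :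
    (1 - p) ^ K ≤ 1 - K * p + (K : ℝ) ^ 2 * p ^ 2 := by
  induction K with
  | zero => simp
  | succ K ih =>
    have hK : (0 : ℝ) ≤ K := Nat.cast_nonneg K
    rw [pow_succ]
    have h2 : (1 - p) ^ K * (1 - p) ≤ (1 - K * p + (K : ℝ) ^ 2 * p ^ 2) * (1 - p) :=
      mul_le_mul_of_nonneg_right ih (by linarith)
    refine h2.trans ?_
    push_cast
    have h3 : 0 ≤ (K : ℝ) ^ 2 * p ^ 3 := by positivity
    have h4 : 0 ≤ (K : ℝ) * p ^ 2 := by positivity
    have h5 : 0 ≤ p ^ 2 := by positivity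
    linarith

theorem qR_le (K N : ℕ) : qR K N ≤ K * (1 / ((N + 1 : ℕ) : ℝ)) := by
  unfold qR
  have := one_sub_pow_ge (p0_le N) K
  linarith

theorem qR_ge (K N : ℕ) :
    K * (1 / ((N + 1 : ℕ) : ℝ)) - (K : ℝ) ^ 2 * (1 / ((N + 1 : ℕ) : ℝ)) ^ 2 ≤ qR K N := by
  unfold qR
  have := one_sub_pow_le (p0_pos N).le (p0_le N) K
  linarith

end Reals

section Bound

variable {K N : ℕ} [NeZero K] [NeZero N] (ρ : Measure (Clause K)) [IsProbabilityMeasure ρ]
  (hρ : Integrable (maxTheta : Clause K → ℝ) ρ) (ν : Measure ℝ) [IsProbabilityMeasure ν]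
  (hν : Integrable (fun h : ℝ => h) ν)

theorem iterTop (k : ℕ) (G : LipS (Egy N)) :
    ((Tc ρ hρ N ^ k) (Tf ν hν N G)).1 0 = ∫ z, G.1 (En z.1 z.2) ∂(muZ ρ ν N k) := by
  obtain ⟨C, hC⟩ := G.2
  rw [iterZ ρ hρ ν hν k hC]
  unfold Tc
  rw [Top_pow]
  congr 1
  funext ω
  unfold Tf
  rw [Top_apply]
  congr 1
  funext h
  rw [En_eq, zero_add]

include hρ hν in
theorem growthZ (G : Egy N → ℝ) (hG : LipschitzWith 1 G) :
    ExpGrowth fun k => ∫ z, G (En z.1 z.2) ∂(muZ ρ ν N k) := by
  set Gs : LipS (Egy N) := ⟨G, 1, hG⟩ with hGs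
  have hGl : LipschitzWith 1 (Tf ν hν N Gs).1 := Top_lip _ _ _ _ hG
  have e : ∀ k, ∫ z, G (En z.1 z.2) ∂(muZ ρ ν N k) = ((Tc ρ hρ N ^ k) (Tf ν hν N Gs)).1 0 :=
    fun k => (iterTop ρ hρ ν hν k Gs).symm
  simp_rw [e]
  refine expGrowth_of_linear (c := |(Tf ν hν N Gs).1 0|) (d := ∫ c, maxTheta c ∂ρ) (fun n => ?_)
    (abs_nonneg _) (Lbar_nonneg ρ)
  have h1 := (isAvg_Tc ρ hρ N).pow_near n (Tf ν hν N Gs) 1 hGl 0
  rw [NNReal.coe_one, one_mul] at h1
  rw [abs_le] at h1 ⊢
  have h3 := abs_le.1 (le_refl |(Tf ν hν N Gs).1 0|)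
  constructor <;> (clear hGs hGl e; linarith)

end Bound

end Vale.Agent.P168
end
end

section

section

set_option autoImplicit false
set_option linter.unusedSectionVars false

open MeasureTheory ProbabilityTheory Finset
open scoped NNReal

namespace Vale.Agent.P168

open KS (unifK integral_unif)

section Main

variable {K N : ℕ} [NeZero K] [NeZero N] (ρ : Measure (Clause K)) [IsProbabilityMeasure ρ]
  (hρ : Integrable (maxTheta : Clause K → ℝ) ρ) (ν : Measure ℝ) [IsProbabilityMeasure ν]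
  (hν : Integrable (fun h : ℝ => h) ν)

end Main

end Vale.Agent.P168
end
end

section

section

set_option autoImplicit false
set_option linter.unusedSectionVars false

open MeasureTheory ProbabilityTheory Finset Filter
open scoped NNReal Topology

namespace Vale.Agent.P168

open KS (unifK integral_unif)

section Cesaro

theorem sqrt_step (n : ℕ) :
    2 * Real.sqrt n + 1 / Real.sqrt ((n + 1 : ℕ) : ℝ) ≤ 2 * Real.sqrt ((n + 1 : ℕ) : ℝ) := by
  set a := Real.sqrt n with ha
  set b := Real.sqrt ((n + 1 : ℕ) : ℝ) with hb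
  have hb0 : 0 < b := Real.sqrt_pos.2 (by positivity)
  have ha0 : 0 ≤ a := Real.sqrt_nonneg _
  have haa : a * a = n := Real.mul_self_sqrt (Nat.cast_nonneg n)
  have hbb : b * b = n + 1 := by
    rw [hb, Real.mul_self_sqrt (by positivity)]; push_cast; ring
  have hab : a ≤ b := Real.sqrt_le_sqrt (by push_cast; linarith)
  have h1 : (b - a) * (b + a) = 1 := by linear_combination hbb - haa
  have h2 : (b - a) * (b + a) ≤ (b - a) * (2 * b) :=
    mul_le_mul_of_nonneg_left (by linarith) (by linarith)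
  have h3 : 1 / b ≤ 2 * (b - a) := by
    rw [div_le_iff₀ hb0]
    linarith
  linarith only [h3]

theorem cesaro_bound (F : ℕ → ℝ) (M0 C : ℝ) (hC : 0 ≤ C)
    (h : ∀ N : ℕ, 1 ≤ N → M0 - C / Real.sqrt N ≤
      ((N + 1 : ℕ) : ℝ) * F (N + 1) - (N : ℝ) * F N) (n : ℕ) :
    F 1 + n * M0 - 2 * C * Real.sqrt n ≤ ((n + 1 : ℕ) : ℝ) * F (n + 1) := by
  induction n with
  | zero => simp
  | succ n ih =>
    have h1 := h (n + 1) (by omega)
    have h2 := mul_le_mul_of_nonneg_left (sqrt_step n) hC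
    have h3 : C * (1 / Real.sqrt ((n + 1 : ℕ) : ℝ)) = C / Real.sqrt ((n + 1 : ℕ) : ℝ) := by ring
    have h4 : (((n + 1 : ℕ) : ℝ)) * M0 = n * M0 + M0 := by push_cast; ring
    rw [mul_add, h3] at h2
    rw [h4]
    linarith only [ih, h1, h2]

end Cesaro

section Lower

variable {K : ℕ} [NeZero K] (ρ : Measure (Clause K)) [IsProbabilityMeasure ρ]
  (ν : Measure ℝ) [IsProbabilityMeasure ν]

end Lower

end Vale.Agent.P168
end
end

section

section

set_option autoImplicit false
set_option linter.unusedSectionVars false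

open MeasureTheory ProbabilityTheory Finset Filter
open scoped NNReal Topology

namespace Vale.Agent.P168

open KS (unifK integral_unif)

section Gen

variable {K N : ℕ} [NeZero K] [NeZero N] (ρ : Measure (Clause K)) [IsProbabilityMeasure ρ]
  (hρ : Integrable (maxTheta : Clause K → ℝ) ρ) (ν : Measure ℝ) [IsProbabilityMeasure ν]
  (hν : Integrable (fun h : ℝ => h) ν)

/-- The averaged value of a functional of the random Hamiltonian. -/
noncomputable def aG (M : ℕ) [NeZero M] (G : LipS (Egy M)) (lam : ℝ≥0) : ℝ :=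
  ∫ n, ((Tc ρ hρ M ^ n) (Tf ν hν M G)).1 0 ∂(poissonMeasure (lam * M))

/-- The cavity functional for the extra site. -/
noncomputable def YRG (G : LipS (Egy (N + 1))) (l : ℕ) : LipS (Egy (N + 1)) :=
  (TR ρ hρ N ^ l) (Tf0 ν hν N G)

theorem T0_pow_eqG (G : LipS (Egy (N + 1))) (k l : ℕ) :
    ((Tm ρ hρ N (fun _ => false) ^ k) ((TR ρ hρ N ^ l) (Tf ν hν (N + 1) G))).1 0 =
      ∫ ω : Fin k → Clause K × (Fin K → Fin N), (∫ h : Fin N → ℝ,
        (YRG ρ hρ ν hν G l).1 (liftE (En ω h)) ∂(Measure.pi fun _ => ν))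
        ∂(Measure.pi fun _ => ρ.prod (unifK K N)) := by
  have hc1 : Commute (Tf0 ν hν N) (Tf' ν hν N) := Top_commute _ _ _ _ _ _
  have hc2 : Commute (TR ρ hρ N ^ l) (Tf' ν hν N) := by
    refine Commute.pow_left ?_ l
    unfold TR
    refine Commute.sum_left _ _ _ fun s _ => ?_
    refine Commute.smul_left ?_ _
    exact Top_commute _ _ _ _ _ _
  have e1 : (TR ρ hρ N ^ l) (Tf ν hν (N + 1) G) =
      Tf' ν hν N (YRG ρ hρ ν hν G l) := by
    rw [Tf_succ, hc1.eq]
    show ((TR ρ hρ N ^ l) * Tf' ν hν N) (Tf0 ν hν N G) = _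
    rw [hc2.eq]
    rfl
  rw [e1]
  unfold Tm
  rw [Top_pow]
  congr 1
  funext ω
  unfold Tf'
  rw [Top_apply]
  congr 1
  funext h
  rw [En_eq, liftE_add, liftE_sum, zero_add]
  congr 2

/-- The interaction functional. -/
noncomputable def YVG (G : LipS (Egy N)) (l : ℕ) : LipS (Egy N) := (Tc ρ hρ N ^ l) G

theorem Tc_pow_eqG (G : LipS (Egy N)) (k l : ℕ) :
    ((Tc ρ hρ N ^ (k + l)) (Tf ν hν N G)).1 0 =
      ∫ ω : Fin k → Clause K × (Fin K → Fin N), (∫ h : Fin N → ℝ,
        (YVG ρ hρ G l).1 (En ω h) ∂(Measure.pi fun _ => ν))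
        ∂(Measure.pi fun _ => ρ.prod (unifK K N)) := by
  have hc : Commute (Tc ρ hρ N ^ l) (Tf ν hν N) := by
    refine Commute.pow_left ?_ l
    exact Top_commute _ _ _ _ _ _
  have e1 : (Tc ρ hρ N ^ (k + l)) (Tf ν hν N G) =
      (Tc ρ hρ N ^ k) (Tf ν hν N (YVG ρ hρ G l)) := by
    rw [pow_add]
    show (Tc ρ hρ N ^ k) (((Tc ρ hρ N ^ l) * Tf ν hν N) G) = _
    rw [hc.eq]
    rfl
  rw [e1]
  unfold Tc
  rw [Top_pow]
  congr 1
  funext ω
  unfold Tf
  rw [Top_apply]
  congr 1
  funext h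
  rw [En_eq, zero_add]

theorem lip_Tf0G (G : LipS (Egy (N + 1))) (hG : LipschitzWith 1 G.1) :
    LipschitzWith 1 (Tf0 ν hν N G).1 := Top_lip _ _ _ _ hG

theorem YRG_lip (G : LipS (Egy (N + 1))) (hG : LipschitzWith 1 G.1) (l : ℕ) :
    LipschitzWith 1 (YRG ρ hρ ν hν G l).1 :=
  (isAvg_TR ρ hρ (N := N)).pow_lip l _ 1 (lip_Tf0G ν hν G hG)

theorem YVG_lip (G : LipS (Egy N)) (hG : LipschitzWith 1 G.1) (l : ℕ) :
    LipschitzWith 1 (YVG ρ hρ G l).1 :=
  (isAvg_Tc ρ hρ N).pow_lip l _ 1 hG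

theorem YRG_growth (G : LipS (Egy (N + 1))) (hG : LipschitzWith 1 G.1) (l : ℕ) (x : Egy (N + 1)) :
    |(YRG ρ hρ ν hν G l).1 x| ≤ |(Tf0 ν hν N G).1 x| + (∫ c, maxTheta c ∂ρ) * l := by
  have h := (isAvg_TR ρ hρ (N := N)).pow_near l (Tf0 ν hν N G) 1 (lip_Tf0G ν hν G hG) x
  rw [NNReal.coe_one, one_mul] at h
  have h2 := abs_add_le ((YRG ρ hρ ν hν G l).1 x - (Tf0 ν hν N G).1 x)
    ((Tf0 ν hν N G).1 x)
  rw [sub_add_cancel] at h2
  have h3 : |(YRG ρ hρ ν hν G l).1 x - (Tf0 ν hν N G).1 x| ≤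
      l * ∫ c, maxTheta c ∂ρ := h
  linarith

theorem YVG_growth (G : LipS (Egy N)) (hG : LipschitzWith 1 G.1) (l : ℕ) (x : Egy N) :
    |(YVG ρ hρ G l).1 x| ≤ |G.1 x| + (∫ c, maxTheta c ∂ρ) * l := by
  have h := (isAvg_Tc ρ hρ N).pow_near l G 1 hG x
  rw [NNReal.coe_one, one_mul] at h
  have h2 := abs_add_le ((YVG ρ hρ G l).1 x - G.1 x) (G.1 x)
  rw [sub_add_cancel] at h2
  have h3 : |(YVG ρ hρ G l).1 x - G.1 x| ≤ l * ∫ c, maxTheta c ∂ρ := h
  linarith

theorem YRG_eg (G : LipS (Egy (N + 1))) (hG : LipschitzWith 1 G.1) (x : Egy (N + 1)) :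
    ExpGrowth fun l => (YRG ρ hρ ν hν G l).1 x :=
  expGrowth_of_linear (YRG_growth ρ hρ ν hν G hG · x) (abs_nonneg _) (Lbar_nonneg ρ)

theorem YVG_eg (G : LipS (Egy N)) (hG : LipschitzWith 1 G.1) (x : Egy N) :
    ExpGrowth fun l => (YVG ρ hρ G l).1 x :=
  expGrowth_of_linear (YVG_growth ρ hρ G hG · x) (abs_nonneg _) (Lbar_nonneg ρ)

/-- Composition of a Lipschitz function with the lift. -/
noncomputable def YRlG (G : LipS (Egy (N + 1))) (hG : LipschitzWith 1 G.1) (l : ℕ) :
    LipS (Egy N) :=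
  ⟨fun x => (YRG ρ hρ ν hν G l).1 (liftE x), 1, by
    have := (YRG_lip ρ hρ ν hν G hG l).comp (liftE_lip (N := N))
    rw [one_mul] at this
    exact this⟩

theorem YRlG_lip (G : LipS (Egy (N + 1))) (hG : LipschitzWith 1 G.1) (l : ℕ) :
    LipschitzWith 1 (YRlG ρ hρ ν hν G hG l : LipS (Egy N)).1 := by
  have := (YRG_lip ρ hρ ν hν G hG l).comp (liftE_lip (N := N))
  rw [one_mul] at this
  exact this

theorem B_growthG (G : LipS (Egy (N + 1))) (hG : LipschitzWith 1 G.1) : ExpGrowth2 fun k l =>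
    ((Tm ρ hρ N (fun _ => false) ^ k)
      ((TR ρ hρ N ^ l) (Tf ν hν (N + 1) G))).1 0 := by
  set G' := Tf ν hν (N + 1) G with hG'
  have hGl : LipschitzWith 1 G'.1 := Top_lip _ _ _ _ hG
  refine growth2_of (A := |G'.1 0|) (L := ∫ c, maxTheta c ∂ρ) (abs_nonneg _) (Lbar_nonneg ρ)
    fun k l => ?_
  have h1 := (isAvg_TR ρ hρ (N := N)).pow_near l G' 1 hGl 0
  have h2 := (isAvg_Tm ρ hρ (N := N) (fun _ => false)).pow_near k ((TR ρ hρ N ^ l) G') 1
    ((isAvg_TR ρ hρ (N := N)).pow_lip l G' 1 hGl) 0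
  rw [NNReal.coe_one, one_mul] at h1 h2
  rw [abs_le] at h1 h2 ⊢
  have h3 := abs_le.1 (le_refl |G'.1 0|)
  constructor <;> (clear hG hG' hGl; linarith)

theorem A_growthG (G : LipS (Egy N)) (hG : LipschitzWith 1 G.1) :
    ExpGrowth fun n => ((Tc ρ hρ N ^ n) (Tf ν hν N G)).1 0 := by
  set G' := Tf ν hν N G with hG'
  have hGl : LipschitzWith 1 G'.1 := Top_lip _ _ _ _ hG
  refine expGrowth_of_linear (c := |G'.1 0|) (d := ∫ c, maxTheta c ∂ρ) (fun n => ?_)
    (abs_nonneg _) (Lbar_nonneg ρ)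
  have h1 := (isAvg_Tc ρ hρ N).pow_near n G' 1 hGl 0
  rw [NNReal.coe_one, one_mul] at h1
  rw [abs_le] at h1 ⊢
  have h3 := abs_le.1 (le_refl |G'.1 0|)
  constructor <;> (clear hG hG' hGl; linarith)

theorem upper_formG (G : LipS (Egy (N + 1))) (hG : LipschitzWith 1 G.1)
    (lam p q : ℝ≥0) (hp : (p : ℝ) = 1 - qR K N) (hq : (q : ℝ) = qR K N) :
    aG ρ hρ ν hν (N + 1) G lam =
      ∫ k, (∫ z, (∫ l, (YRG ρ hρ ν hν G l).1 (liftE (En z.1 z.2))
        ∂(poissonMeasure (q * (lam * ((N + 1 : ℕ) : ℝ≥0))))) ∂(muZ ρ ν N k))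
        ∂(poissonMeasure (p * (lam * ((N + 1 : ℕ) : ℝ≥0)))) := by
  have hpq : p + q = 1 := by
    apply NNReal.coe_injective
    push_cast
    rw [hp, hq]
    ring
  unfold aG
  simp_rw [Tc_pow ρ hρ]
  rw [← hp, ← hq, pois_bmix (B_growthG ρ hρ ν hν G hG) _ p q hpq]
  congr 1
  funext k
  simp_rw [T0_pow_eqG ρ hρ ν hν]
  have e1 : ∀ l, ∫ ω : Fin k → Clause K × (Fin K → Fin N), (∫ h : Fin N → ℝ,
        (YRG ρ hρ ν hν G l).1 (liftE (En ω h)) ∂(Measure.pi fun _ => ν))
        ∂(Measure.pi fun _ => ρ.prod (unifK K N)) =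
      ∫ z, (YRlG ρ hρ ν hν G hG l : LipS (Egy N)).1 (En z.1 z.2) ∂(muZ ρ ν N k) := by
    intro l
    exact (iterZ ρ hρ ν hν k (YRlG_lip ρ hρ ν hν G hG l)).symm
  simp_rw [e1]
  exact swap_pois (muZ ρ ν N k) (fun z => (En z.1 z.2 : Egy N)) measurable_En
    (integrable_EZ ρ hρ ν hν k) (fun l => YRlG ρ hρ ν hν G hG l) 1
    (fun l => YRlG_lip ρ hρ ν hν G hG l)
    _ _ (abs_nonneg _) (Lbar_nonneg ρ) (fun l => YRG_growth ρ hρ ν hν G hG l (liftE 0)) _

theorem lower_formG (G : LipS (Egy N)) (hG : LipschitzWith 1 G.1)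
    (lam pa b : ℝ≥0) (hab : lam * (N : ℝ≥0) = pa + b) :
    aG ρ hρ ν hν N G lam =
      ∫ k, (∫ z, (∫ l, (YVG ρ hρ G l).1 (En z.1 z.2)
        ∂(poissonMeasure b)) ∂(muZ ρ ν N k)) ∂(poissonMeasure pa) := by
  unfold aG
  rw [hab, pois_super (A_growthG ρ hρ ν hν G hG)]
  congr 1
  funext k
  simp_rw [Tc_pow_eqG ρ hρ ν hν]
  have e1 : ∀ l, ∫ ω : Fin k → Clause K × (Fin K → Fin N), (∫ h : Fin N → ℝ,
        (YVG ρ hρ G l).1 (En ω h) ∂(Measure.pi fun _ => ν))
        ∂(Measure.pi fun _ => ρ.prod (unifK K N)) =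
      ∫ z, (YVG ρ hρ G l).1 (En z.1 z.2) ∂(muZ ρ ν N k) := by
    intro l
    exact (iterZ ρ hρ ν hν k (YVG_lip ρ hρ G hG l)).symm
  simp_rw [e1]
  exact swap_pois (muZ ρ ν N k) (fun z => (En z.1 z.2 : Egy N)) measurable_En
    (integrable_EZ ρ hρ ν hν k) (fun l => YVG ρ hρ G l) 1 (fun l => YVG_lip ρ hρ G hG l)
    _ _ (abs_nonneg _) (Lbar_nonneg ρ) (fun l => YVG_growth ρ hρ G hG l 0) _

end Gen

end Vale.Agent.P168
end
end

section

section

set_option autoImplicit false
set_option linter.unusedSectionVars false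

open MeasureTheory ProbabilityTheory Finset Filter
open scoped NNReal Topology

namespace Vale.Agent.P168

open KS (unifK integral_unif)

section IncrG

variable {K N : ℕ} [NeZero K] [NeZero N] (ρ : Measure (Clause K)) [IsProbabilityMeasure ρ]
  (hρ : Integrable (maxTheta : Clause K → ℝ) ρ) (ν : Measure ℝ) [IsProbabilityMeasure ν]
  (hν : Integrable (fun h : ℝ => h) ν)

/-- The cavity term with `l` interactions at the extra site. -/
noncomputable def uG (G : LipS (Egy (N + 1))) (H : Egy N) (l : ℕ) : ℝ :=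
  ((TB ρ hρ N ^ l) (Tf0 ν hν N G)).1 (liftE H)

/-- The term with `l` extra interactions. -/
noncomputable def vG (G : LipS (Egy N)) (H : Egy N) (l : ℕ) : ℝ :=
  ((Tc ρ hρ N ^ l) G).1 H

theorem uG_lip (G : LipS (Egy (N + 1))) (hG : LipschitzWith 1 G.1) (H : Egy N) (l : ℕ) :
    |uG ρ hρ ν hν G H (l + 1) - uG ρ hρ ν hν G H l| ≤ ∫ c, maxTheta c ∂ρ := by
  unfold uG
  rw [pow_succ']
  have h := (isAvg_TB ρ hρ (N := N)).near ((TB ρ hρ N ^ l) (Tf0 ν hν N G)) 1
    ((isAvg_TB ρ hρ (N := N)).pow_lip l _ 1 (lip_Tf0G ν hν G hG)) (liftE H)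
  rw [NNReal.coe_one, one_mul] at h
  exact h

theorem vG_lip (G : LipS (Egy N)) (hG : LipschitzWith 1 G.1) (H : Egy N) (l : ℕ) :
    |vG ρ hρ G H (l + 1) - vG ρ hρ G H l| ≤ ∫ c, maxTheta c ∂ρ := by
  unfold vG
  rw [pow_succ']
  have h := (isAvg_Tc ρ hρ N).near ((Tc ρ hρ N ^ l) G) 1
    ((isAvg_Tc ρ hρ N).pow_lip l _ 1 hG) H
  rw [NNReal.coe_one, one_mul] at h
  exact h

theorem Tf0_bdd (G G' : LipS (Egy (N + 1))) {κ : ℝ} (hκ : ∀ x, |G.1 x - G'.1 x| ≤ κ) (x) :
    |(Tf0 ν hν N G).1 x - (Tf0 ν hν N G').1 x| ≤ κ := by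
  have h := (isAvg_top ν fE0 (integrable_fE0 ν hν) _ le_rfl).bdd (G - G') κ (fun h => hκ h) x
  rw [map_sub] at h
  exact h

/-- The pointwise comparison. -/
theorem point_gen (lam : ℝ≥0) (G1 : LipS (Egy (N + 1))) (hG1 : LipschitzWith 1 G1.1)
    (Gh : LipS (Egy (N + 1))) (hGh : LipschitzWith 1 Gh.1) (κ : ℝ)
    (hκ : ∀ x, |G1.1 x - Gh.1 x| ≤ κ) (G0 : LipS (Egy N)) (hG0 : LipschitzWith 1 G0.1) (M0 : ℝ)
    (a b : ℝ≥0) (δ : ℝ)
    (ha : |(a : ℝ) - K * lam| ≤ δ) (hb : |(b : ℝ) - ((K - 1 : ℕ) : ℝ) * lam| ≤ δ)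
    (ha' : (a : ℝ) ≤ K * lam) (H : Egy N)
    (hM : M0 ≤ (∫ l, uG ρ hρ ν hν Gh H l ∂(poissonMeasure (K * lam))) -
      ∫ l, vG ρ hρ G0 H l ∂(poissonMeasure (((K - 1 : ℕ) : ℝ≥0) * lam))) :
    M0 - (κ + 2 * (∫ c, maxTheta c ∂ρ) * δ +
      (K * lam) * (2 * (K : ℝ) ^ 2 * (1 / ((N + 1 : ℕ) : ℝ)) * ∫ c, maxTheta c ∂ρ)) ≤
    (∫ l, (YRG ρ hρ ν hν G1 l).1 (liftE H) ∂(poissonMeasure a)) -
      ∫ l, (YVG ρ hρ G0 l).1 H ∂(poissonMeasure b) := by
  set L := ∫ c, maxTheta c ∂ρ with hL
  have hL0 : 0 ≤ L := Lbar_nonneg ρ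
  set ε := 2 * (K : ℝ) ^ 2 * (1 / ((N + 1 : ℕ) : ℝ)) * L with hε
  have hε0 : 0 ≤ ε := by
    rw [hε]
    have := p0_pos N
    (clear * - hL0; positivity)
  have hκ0 : 0 ≤ κ := (abs_nonneg _).trans (hκ 0)
  have hgu : ExpGrowth fun l => uG ρ hρ ν hν Gh H l := growth_of_lip (uG_lip ρ hρ ν hν Gh hGh H)
  have hgY := YRG_eg ρ hρ ν hν G1 hG1 (liftE H)
  have hg1 : ExpGrowth fun l : ℕ => (-ε) * (l : ℝ) := growth_cast.const_mul (-ε)
  have hgf := (hgu.add (expGrowth_const (-κ))).add hg1
  have key := pois_mono hgf hgY a fun l => by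
    have h2 := (isAvg_TR ρ hρ (N := N)).pow_compare (isAvg_TB ρ hρ (N := N)) ε
      (TR_near_TB ρ hρ) l (Tf0 ν hν N G1) 1 (lip_Tf0G ν hν G1 hG1) (liftE H)
    rw [NNReal.coe_one, one_mul] at h2
    have h3 := (isAvg_TB ρ hρ (N := N)).pow_bdd l (Tf0 ν hν N G1 - Tf0 ν hν N Gh) κ
      (fun x => Tf0_bdd ν hν G1 Gh hκ x) (liftE H)
    rw [map_sub] at h3
    have h3' : |((TB ρ hρ N ^ l) (Tf0 ν hν N G1)).1 (liftE H) - uG ρ hρ ν hν Gh H l| ≤ κ := h3
    have h4 := (abs_le.1 h2).1
    have h5 := (abs_le.1 h3').1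
    have h6 : (YRG ρ hρ ν hν G1 l).1 (liftE H) =
      ((TR ρ hρ N ^ l) (Tf0 ν hν N G1)).1 (liftE H) := rfl
    rw [h6]
    (clear lam hG1 hGh hκ G0 hG0 M0 a b δ ha hb ha' hM hL hL0 hε hε0 hκ0 hgu hgY hg1 hgf h6; linarith)
  rw [integral_add ((hgu.add (expGrowth_const (-κ))).integrable a) (hg1.integrable a),
    integral_add (hgu.integrable a) ((expGrowth_const (-κ)).integrable a),
    integral_const_mul, pois_mean, pois_const] at key
  have lU := pois_lip (uG_lip ρ hρ ν hν Gh hGh H) a (K * lam)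
  have lV := pois_lip (vG_lip ρ hρ G0 hG0 H) b (((K - 1 : ℕ) : ℝ≥0) * lam)
  have lU' : L * |(a : ℝ) - ((K * lam : ℝ≥0) : ℝ)| ≤ L * δ := by
    apply mul_le_mul_of_nonneg_left _ hL0
    push_cast
    exact ha
  have lV' : L * |(b : ℝ) - ((((K - 1 : ℕ) : ℝ≥0) * lam : ℝ≥0) : ℝ)| ≤ L * δ := by
    apply mul_le_mul_of_nonneg_left _ hL0
    rw [NNReal.coe_mul, NNReal.coe_natCast]
    exact hb
  have lU2 := (abs_le.1 lU).1
  have lV2 := (abs_le.1 lV).2
  have e1 : (a : ℝ) * ε ≤ (K * lam) * ε := mul_le_mul_of_nonneg_right ha' hε0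
  have e2 : (∫ l, (YVG ρ hρ G0 l).1 H ∂(poissonMeasure b)) =
      ∫ l, vG ρ hρ G0 H l ∂(poissonMeasure b) := rfl
  rw [e2]
  linarith

theorem incr_gen (lam : ℝ≥0) (G1 : LipS (Egy (N + 1))) (hG1 : LipschitzWith 1 G1.1)
    (Gh : LipS (Egy (N + 1))) (hGh : LipschitzWith 1 Gh.1) (κ : ℝ)
    (hκ : ∀ x, |G1.1 x - Gh.1 x| ≤ κ) (G0 : LipS (Egy N)) (hG0 : LipschitzWith 1 G0.1) (M0 : ℝ)
    (hM : ∀ H : Egy N, M0 ≤ (∫ l, uG ρ hρ ν hν Gh H l ∂(poissonMeasure (K * lam))) -
      ∫ l, vG ρ hρ G0 H l ∂(poissonMeasure (((K - 1 : ℕ) : ℝ≥0) * lam))) :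
    M0 - (κ + (2 * (∫ c, maxTheta c ∂ρ) * (lam * (K : ℝ) ^ 2) +
      (K * lam) * (2 * (K : ℝ) ^ 2 * ∫ c, maxTheta c ∂ρ)) * (1 / ((N + 1 : ℕ) : ℝ))) ≤
    aG ρ hρ ν hν (N + 1) G1 lam - aG ρ hρ ν hν N G0 lam := by
  have hN : (0 : ℝ) < N := by exact_mod_cast Nat.pos_of_ne_zero (NeZero.ne N)
  have hK1 : 1 ≤ K := Nat.one_le_iff_ne_zero.2 (NeZero.ne K)
  have hK1' : (1 : ℝ) ≤ K := by exact_mod_cast hK1
  set x : ℝ := 1 / ((N + 1 : ℕ) : ℝ) with hx
  have hx0 : 0 < x := p0_pos N
  have hxN : x * (N + 1) = 1 := by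
    rw [hx]; push_cast; field_simp
  have hq0 := (qR_pos K N).le
  have hq1 := qR_le_one K N
  set q : ℝ≥0 := ⟨qR K N, hq0⟩ with hq
  set p : ℝ≥0 := ⟨1 - qR K N, by linarith only [hq1]⟩ with hp
  set Λ : ℝ≥0 := lam * ((N + 1 : ℕ) : ℝ≥0) with hΛ
  have hΛr : (Λ : ℝ) = lam * (N + 1) := by rw [hΛ]; push_cast; ring
  have hpr : (p : ℝ) = 1 - qR K N := rfl
  have hqr : (q : ℝ) = qR K N := rfl
  have hlam : (0 : ℝ) ≤ lam := NNReal.coe_nonneg lam
  have hqx : x ≤ qR K N := p0_le_qR K N
  have hpaN : ((p * Λ : ℝ≥0) : ℝ) ≤ lam * N := by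
    rw [NNReal.coe_mul, hΛr, hpr]
    have h1 : (1 - qR K N) * (N + 1) ≤ N := by
      have : x * (N + 1) ≤ qR K N * (N + 1) := mul_le_mul_of_nonneg_right hqx (by linarith only [])
      linarith only [hxN, this]
    calc (1 - qR K N) * (lam * (N + 1)) = lam * ((1 - qR K N) * (N + 1)) := by ring
      _ ≤ lam * N := mul_le_mul_of_nonneg_left h1 hlam
  have hpaN' : p * Λ ≤ lam * (N : ℝ≥0) := by
    rw [← NNReal.coe_le_coe]
    push_cast at hpaN ⊢
    exact hpaN
  obtain ⟨b, hb⟩ := exists_add_of_le hpaN'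
  have hbr : (b : ℝ) = qR K N * (lam * (N + 1)) - lam := by
    have h1 : ((lam * (N : ℝ≥0) : ℝ≥0) : ℝ) = ((p * Λ + b : ℝ≥0) : ℝ) := by rw [hb]
    rw [NNReal.coe_add, NNReal.coe_mul, NNReal.coe_mul, hΛr, hpr, NNReal.coe_natCast] at h1
    linarith only [h1]
  have har : ((q * Λ : ℝ≥0) : ℝ) = qR K N * (lam * (N + 1)) := by
    rw [NNReal.coe_mul, hΛr, hqr]
  have hale : ((q * Λ : ℝ≥0) : ℝ) ≤ K * lam := by
    rw [har]
    calc qR K N * (lam * (N + 1)) ≤ (K * x) * (lam * (N + 1)) :=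
          mul_le_mul_of_nonneg_right (qR_le K N) (by (clear * - hN; positivity))
      _ = K * lam * (x * (N + 1)) := by ring
      _ = K * lam := by rw [hxN, mul_one]
  have hage : K * lam - ((q * Λ : ℝ≥0) : ℝ) ≤ lam * (K : ℝ) ^ 2 * x := by
    rw [har]
    have h1 : (K * x - (K : ℝ) ^ 2 * x ^ 2) * (lam * (N + 1)) ≤ qR K N * (lam * (N + 1)) :=
      mul_le_mul_of_nonneg_right (qR_ge K N) (by (clear * - hN; positivity))
    have h2 : (K * x - (K : ℝ) ^ 2 * x ^ 2) * (lam * (N + 1)) =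
        K * lam * (x * (N + 1)) - lam * (K : ℝ) ^ 2 * x * (x * (N + 1)) := by ring
    rw [h2, hxN] at h1
    linarith only [h1]
  set δ : ℝ := lam * (K : ℝ) ^ 2 * x with hδ
  have ha : |((q * Λ : ℝ≥0) : ℝ) - K * lam| ≤ δ := by
    rw [abs_le]
    have hδ0 : 0 ≤ δ := by (clear * - hK1; positivity)
    constructor <;> linarith only [hage, hale]
  have hKm : (((K - 1 : ℕ) : ℝ)) = (K : ℝ) - 1 := by
    rw [Nat.cast_sub hK1, Nat.cast_one]
  have hbb : |(b : ℝ) - ((K - 1 : ℕ) : ℝ) * lam| ≤ δ := by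
    have : (b : ℝ) - ((K - 1 : ℕ) : ℝ) * lam = ((q * Λ : ℝ≥0) : ℝ) - K * lam := by
      rw [hKm, hbr, har]; ring
    rw [this]
    exact ha
  rw [upper_formG ρ hρ ν hν G1 hG1 lam p q hpr hqr, lower_formG ρ hρ ν hν G0 hG0 lam (p * Λ) b hb,
    ← hΛ]
  set L := ∫ c, maxTheta c ∂ρ with hL
  set GR : Egy N → ℝ := fun H => ∫ l, (YRG ρ hρ ν hν G1 l).1 (liftE H) ∂(poissonMeasure (q * Λ))
    with hGR
  set GV : Egy N → ℝ := fun H => ∫ l, (YVG ρ hρ G0 l).1 H ∂(poissonMeasure b) with hGV
  have hGRl : LipschitzWith 1 GR := pois_lip_fun (fun l => YRlG ρ hρ ν hν G1 hG1 l) 1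
    (fun l => YRlG_lip ρ hρ ν hν G1 hG1 l) (fun x => YRG_eg ρ hρ ν hν G1 hG1 (liftE x)) (q * Λ)
  have hGVl : LipschitzWith 1 GV := pois_lip_fun (fun l => YVG ρ hρ G0 l) 1
    (fun l => YVG_lip ρ hρ G0 hG0 l) (fun x => YVG_eg ρ hρ G0 hG0 x) b
  have hg1 := growthZ ρ hρ ν hν GR hGRl
  have hg2 := growthZ ρ hρ ν hν GV hGVl
  show _ ≤ (∫ k, (∫ z, GR (En z.1 z.2) ∂(muZ ρ ν N k)) ∂(poissonMeasure (p * Λ))) -
    ∫ k, (∫ z, GV (En z.1 z.2) ∂(muZ ρ ν N k)) ∂(poissonMeasure (p * Λ))
  rw [← integral_sub (hg1.integrable _) (hg2.integrable _)]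
  set e0 : ℝ := κ + 2 * L * δ + (K * lam) * (2 * (K : ℝ) ^ 2 * x * L) with he0
  have hpt : ∀ H : Egy N, M0 - e0 ≤ GR H - GV H := fun H =>
    point_gen ρ hρ ν hν lam G1 hG1 Gh hGh κ hκ G0 hG0 M0 (q * Λ) b δ ha hbb hale H (hM H)
  have hk : ∀ k : ℕ, M0 - e0 ≤
      (∫ z, GR (En z.1 z.2) ∂(muZ ρ ν N k)) - ∫ z, GV (En z.1 z.2) ∂(muZ ρ ν N k) := by
    intro k
    have i1 := lip_integrable hGRl (integrable_EZ ρ hρ ν hν (N := N) k) 0
    have i2 := lip_integrable hGVl (integrable_EZ ρ hρ ν hν (N := N) k) 0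
    simp only [zero_add] at i1 i2
    rw [← integral_sub i1 i2]
    have e1 : ∫ _ : (Fin k → Clause K × (Fin K → Fin N)) × (Fin N → ℝ), (M0 - e0)
        ∂(muZ ρ ν N k) = M0 - e0 := by simp
    rw [← e1]
    exact integral_mono (integrable_const _) (i1.sub i2) fun z => hpt (En z.1 z.2)
  have hg5 : ExpGrowth fun k => (∫ z, GR (En z.1 z.2) ∂(muZ ρ ν N k)) -
      ∫ z, GV (En z.1 z.2) ∂(muZ ρ ν N k) := by
    have h := hg1.add (hg2.const_mul (-1))
    simpa only [sub_eq_add_neg, neg_mul, one_mul] using h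
  have key := pois_mono (expGrowth_const (M0 - e0)) hg5 (p * Λ) hk
  rw [pois_const] at key
  refine le_trans (le_of_eq ?_) key
  rw [he0, hδ]
  ring

end IncrG

section Final

variable {K : ℕ} [NeZero K] (ρ : Measure (Clause K)) [IsProbabilityMeasure ρ]
  (hρ : Integrable (maxTheta : Clause K → ℝ) ρ) (ν : Measure ℝ) [IsProbabilityMeasure ν]
  (hν : Integrable (fun h : ℝ => h) ν)

theorem aG_near (M : ℕ) [NeZero M] (G : LipS (Egy M)) (hG : LipschitzWith 1 G.1) (lam : ℝ≥0)
    (C0 : ℝ) (h : ∀ x, |G.1 x - logZ x| ≤ C0) :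
    aG ρ hρ ν hν M G lam - C0 ≤ (M : ℝ) * pressure lam ρ ν M := by
  rw [mul_pressure ρ hρ ν hν M lam]
  unfold aG
  have g1 := A_growthG ρ hρ ν hν G hG
  have g2 := A_growthG ρ hρ ν hν (PhiL M) logZ_lip
  have key := pois_mono (g1.add (expGrowth_const (-C0))) g2 (lam * M) fun n => by
    have h1 := (isAvg_Tc ρ hρ M).pow_bdd n (Tf ν hν M G - Tf ν hν M (PhiL M)) C0 (fun x => by
      have h2 := (isAvg_top (Measure.pi fun _ : Fin M => ν) fieldE (integrable_fieldE ν hν) _
        le_rfl).bdd (G - PhiL M) C0 (fun y => h y) x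
      rw [map_sub] at h2
      exact h2) 0
    rw [map_sub] at h1
    have h3 : |((Tc ρ hρ M ^ n) (Tf ν hν M G)).1 0 -
      ((Tc ρ hρ M ^ n) (Tf ν hν M (PhiL M))).1 0| ≤ C0 := h1
    have h4 := (abs_le.1 h3).2
    linarith
  rw [integral_add (g1.integrable _) ((expGrowth_const (-C0)).integrable _), pois_const] at key
  linarith

/-- The Aizenman–Sims–Starr scheme with a family of 1-Lipschitz functionals. -/
theorem ass_generic (lam : ℝ≥0) (G : ∀ N : ℕ, LipS (Egy N))
    (hG : ∀ N, LipschitzWith 1 (G N).1) (Gh : ∀ N : ℕ, LipS (Egy (N + 1)))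
    (hGh : ∀ N, LipschitzWith 1 (Gh N).1) (C0 C1 : ℝ) (hC0 : 0 ≤ C0) (hC1 : 0 ≤ C1)
    (h0 : ∀ N, 1 ≤ N → ∀ x, |(G N).1 x - logZ x| ≤ C0)
    (h1 : ∀ N, 1 ≤ N → ∀ x, |(G (N + 1)).1 x - (Gh N).1 x| ≤ C1 / ((N + 1 : ℕ) : ℝ)) (M0 : ℝ)
    (hM : ∀ (N : ℕ) [NeZero N] (H : Egy N),
      M0 ≤ (∫ l, uG ρ hρ ν hν (Gh N) H l ∂(poissonMeasure (K * lam))) -
      ∫ l, vG ρ hρ (G N) H l ∂(poissonMeasure (((K - 1 : ℕ) : ℝ≥0) * lam))) :
    (M0 : EReal) ≤ liminf (fun N => ((pressure lam ρ ν N : ℝ) : EReal)) atTop := by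
  set L := ∫ c, maxTheta c ∂ρ with hL
  have hL0 : 0 ≤ L := Lbar_nonneg ρ
  set C2' : ℝ := C1 + (2 * L * (lam * (K : ℝ) ^ 2) + (K * lam) * (2 * (K : ℝ) ^ 2 * L)) with hC2
  have hC20 : 0 ≤ C2' := by (clear * - hC1 hL0; positivity)
  -- the sequence
  set F : ℕ → ℝ := fun N => if h : N = 0 then 0 else
    haveI : NeZero N := ⟨h⟩; aG ρ hρ ν hν N (G N) lam / N with hF
  have hstep : ∀ N : ℕ, 1 ≤ N → M0 - C2' / Real.sqrt N ≤
      ((N + 1 : ℕ) : ℝ) * F (N + 1) - (N : ℝ) * F N := by
    intro N hN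
    haveI : NeZero N := ⟨by omega⟩
    have hNr : (1 : ℝ) ≤ N := by exact_mod_cast hN
    have e1 : ((N + 1 : ℕ) : ℝ) * F (N + 1) = aG ρ hρ ν hν (N + 1) (G (N + 1)) lam := by
      rw [hF]
      simp only
      rw [dif_neg (Nat.succ_ne_zero N)]
      (clear hG Gh hGh C0 C1 hC0 hC1 h0 h1 M0 hM L hL hL0 C2' hC2 hC20 F hF hNr; field_simp)
    have e2 : (N : ℝ) * F N = aG ρ hρ ν hν N (G N) lam := by
      rw [hF]
      simp only
      rw [dif_neg (by omega : ¬ N = 0)]
      (clear hG Gh hGh C0 C1 hC0 hC1 h0 h1 M0 hM L hL hL0 C2' hC2 hC20 F hF hNr e1; field_simp)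
    rw [e1, e2]
    have h2 := incr_gen (N := N) ρ hρ ν hν lam (G (N + 1)) (hG _) (Gh N) (hGh N)
      (C1 / ((N + 1 : ℕ) : ℝ)) (h1 N hN) (G N) (hG N) M0 (hM N)
    refine le_trans ?_ h2
    set s := Real.sqrt N with hs
    have hs1 : 1 ≤ s := Real.one_le_sqrt.2 hNr
    have hss : s * s = N := Real.mul_self_sqrt (by linarith only [])
    have h3 : 1 / ((N + 1 : ℕ) : ℝ) ≤ 1 / s := by
      apply one_div_le_one_div_of_le (by linarith only [hs1])
      push_cast
      nlinarith only [hss]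
    have h4 : C2' * (1 / ((N + 1 : ℕ) : ℝ)) ≤ C2' * (1 / s) := mul_le_mul_of_nonneg_left h3 hC20
    have h5 : C2' / s = C2' * (1 / s) := by ring
    have h6 : C1 / ((N + 1 : ℕ) : ℝ) + (2 * L * (lam * (K : ℝ) ^ 2) +
        (K * lam) * (2 * (K : ℝ) ^ 2 * L)) * (1 / ((N + 1 : ℕ) : ℝ)) =
        C2' * (1 / ((N + 1 : ℕ) : ℝ)) := by rw [hC2]; ring
    rw [h5, h6]
    linarith only [h4]
  have hbase : ∀ N : ℕ, 1 ≤ N → F N - C0 / N ≤ pressure lam ρ ν N := by
    intro N hN
    haveI : NeZero N := ⟨by omega⟩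
    have hNr : (0 : ℝ) < N := by exact_mod_cast hN
    have h2 := aG_near ρ hρ ν hν N (G N) (hG N) lam C0 (h0 N hN)
    have e2 : F N = aG ρ hρ ν hν N (G N) lam / N := by
      rw [hF]
      simp only
      rw [dif_neg (by omega : ¬ N = 0)]
    rw [e2, ← sub_div, div_le_iff₀ hNr]
    (clear Gh hGh C1 hC0 hC1 h1 M0 hM L hL hL0 C2' hC2 hC20 F hF hstep hNr e2; linarith)
  -- lower bound for F
  set D : ℝ := |F 1 - M0| + 2 * C2' with hD
  have hlow : ∀ N : ℕ, 1 ≤ N → M0 - D / Real.sqrt N ≤ F N := by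
    intro N hN
    obtain ⟨n, rfl⟩ : ∃ n, N = n + 1 := ⟨N - 1, by omega⟩
    have h1 := cesaro_bound F M0 C2' hC20 hstep n
    set b := Real.sqrt ((n + 1 : ℕ) : ℝ) with hb
    have hb0 : 0 < b := Real.sqrt_pos.2 (by positivity)
    have hbb : b * b = ((n + 1 : ℕ) : ℝ) := Real.mul_self_sqrt (by positivity)
    have hb1 : 1 ≤ b := by
      rw [hb]
      apply Real.one_le_sqrt.2
      push_cast
      have : (0 : ℝ) ≤ n := Nat.cast_nonneg n
      linarith only []
    have hab : Real.sqrt n ≤ b := Real.sqrt_le_sqrt (by push_cast; linarith only [])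
    have h2 : F 1 + n * M0 - 2 * C2' * Real.sqrt n ≥ ((n + 1 : ℕ) : ℝ) * M0 - D * b := by
      have h3 : ((n + 1 : ℕ) : ℝ) * M0 = n * M0 + M0 := by push_cast; ring
      rw [h3]
      have h4 : 2 * C2' * Real.sqrt n ≤ 2 * C2' * b := mul_le_mul_of_nonneg_left hab (by linarith only [hC20])
      have h5 : -(F 1 - M0) ≤ |F 1 - M0| * b := by
        calc -(F 1 - M0) ≤ |F 1 - M0| := neg_le_abs _
          _ = |F 1 - M0| * 1 := by ring
          _ ≤ |F 1 - M0| * b := mul_le_mul_of_nonneg_left hb1 (abs_nonneg _)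
      rw [hD]
      linarith only [h4, h5]
    have h6 : ((n + 1 : ℕ) : ℝ) * (M0 - D / b) = ((n + 1 : ℕ) : ℝ) * M0 - D * b := by
      rw [← hbb]
      (clear * - hb0; field_simp)
    have h7 : (0 : ℝ) < ((n + 1 : ℕ) : ℝ) := by positivity
    refine le_of_mul_le_mul_left ?_ h7
    rw [h6]
    linarith only [h1, h2]
  have hfin : ∀ N : ℕ, 1 ≤ N → M0 - (D + C0) / Real.sqrt N ≤ pressure lam ρ ν N := by
    intro N hN
    have hNr : (1 : ℝ) ≤ N := by exact_mod_cast hN
    have h2 := hlow N hN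
    have h3 := hbase N hN
    set s := Real.sqrt N with hs
    have hs1 : 1 ≤ s := Real.one_le_sqrt.2 hNr
    have hss : s * s = N := Real.mul_self_sqrt (by linarith only [])
    have h4 : C0 / N ≤ C0 / s := by
      apply div_le_div_of_nonneg_left hC0 (by linarith only [hs1])
      nlinarith only [hss, hs1]
    have h5 : (D + C0) / s = D / s + C0 / s := add_div _ _ _
    rw [h5]
    linarith only [h3, h2, h4]
  have ht : Tendsto (fun N : ℕ => M0 - (D + C0) / Real.sqrt N) atTop (𝓝 M0) := by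
    have h1 : Tendsto (fun N : ℕ => Real.sqrt (N : ℝ)) atTop atTop :=
      Real.tendsto_sqrt_atTop.comp tendsto_natCast_atTop_atTop
    have h2 : Tendsto (fun N : ℕ => (D + C0) / Real.sqrt (N : ℝ)) atTop (𝓝 0) :=
      h1.const_div_atTop _
    have h3 := (tendsto_const_nhds (x := M0)).sub h2
    simpa using h3
  have ht' : Tendsto (fun N : ℕ => ((M0 - (D + C0) / Real.sqrt N : ℝ) : EReal)) atTop
      (𝓝 (M0 : EReal)) := (continuous_coe_real_ereal.tendsto _).comp ht
  rw [← ht'.liminf_eq]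
  refine liminf_le_liminf ?_
  filter_upwards [eventually_ge_atTop 1] with N hN
  exact EReal.coe_le_coe_iff.2 (hfin N hN)

end Final

end Vale.Agent.P168
end
end

section

section

set_option autoImplicit false
set_option linter.unusedSectionVars false

open MeasureTheory ProbabilityTheory Finset Filter
open scoped NNReal Topology

namespace Vale.Agent.P168

open KS (unifK integral_unif)

section Plse

variable {N : ℕ}

/-- Summation over the extra spin, on the level of energies. -/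
noncomputable def plse (H : Egy (N + 1)) : Egy N := fun σ =>
  Real.log (∑ e, Real.exp (H (Fin.cons e σ)))

theorem plse_mono {H H' : Egy (N + 1)} {c : ℝ} (h : ∀ σ, H σ ≤ H' σ + c) (σ : Fin N → Bool) :
    plse H σ ≤ plse H' σ + c := by
  unfold plse
  have h1 : ∑ e, Real.exp (H (Fin.cons e σ)) ≤
      Real.exp c * ∑ e, Real.exp (H' (Fin.cons e σ)) := by
    rw [Finset.mul_sum]
    refine Finset.sum_le_sum fun e _ => ?_
    rw [← Real.exp_add, Real.exp_le_exp]
    linarith [h (Fin.cons e σ)]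
  have h2 : 0 < ∑ e : Bool, Real.exp (H (Fin.cons e σ)) :=
    Finset.sum_pos (fun σ _ => Real.exp_pos _) Finset.univ_nonempty
  have h3 : 0 < ∑ e : Bool, Real.exp (H' (Fin.cons e σ)) :=
    Finset.sum_pos (fun σ _ => Real.exp_pos _) Finset.univ_nonempty
  calc Real.log (∑ e, Real.exp (H (Fin.cons e σ))) ≤
        Real.log (Real.exp c * ∑ e, Real.exp (H' (Fin.cons e σ))) := Real.log_le_log h2 h1
    _ = _ := by rw [Real.log_mul (Real.exp_pos c).ne' h3.ne', Real.log_exp]; ring

theorem plse_lip : LipschitzWith 1 (plse : Egy (N + 1) → Egy N) := by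
  refine LipschitzWith.of_dist_le_mul fun x y => ?_
  rw [NNReal.coe_one, one_mul]
  rw [dist_pi_le_iff dist_nonneg]
  intro σ
  have h : ∀ a b : Egy (N + 1), ∀ σ, a σ ≤ b σ + dist a b := by
    intro a b σ
    have := (abs_le.1 ((Real.dist_eq (a σ) (b σ)) ▸ dist_le_pi_dist a b σ)).2
    linarith
  rw [Real.dist_eq, abs_le]
  have h1 := plse_mono (h x y) σ
  have h2 := plse_mono (h y x) σ
  rw [dist_comm y x] at h2
  constructor <;> linarith

theorem plse_lift_add (H : Egy N) (W : Egy (N + 1)) : plse (liftE H + W) = H + plse W := by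
  funext σ
  unfold plse
  have h3 : 0 < ∑ e : Bool, Real.exp (W (Fin.cons e σ)) :=
    Finset.sum_pos (fun σ _ => Real.exp_pos _) Finset.univ_nonempty
  have h1 : ∑ e, Real.exp ((liftE H + W) (Fin.cons e σ : Fin (N + 1) → Bool)) =
      Real.exp (H σ) * ∑ e, Real.exp (W (Fin.cons e σ)) := by
    rw [Finset.mul_sum]
    refine Finset.sum_congr rfl fun e _ => ?_
    rw [← Real.exp_add]
    rfl
  rw [h1, Real.log_mul (Real.exp_pos _).ne' h3.ne', Real.log_exp]
  rfl

theorem logZ_plse (H : Egy (N + 1)) : logZ (plse H) = logZ H := by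
  unfold logZ plse
  congr 1
  rw [sum_fin_succ_fun, Finset.sum_comm]
  refine Finset.sum_congr rfl fun σ _ => ?_
  rw [Real.exp_log]
  exact Finset.sum_pos (fun σ _ => Real.exp_pos _) Finset.univ_nonempty

/-- Composition of a functional with the summation over the extra spin. -/
noncomputable def compPlse (G : LipS (Egy N)) (hG : LipschitzWith 1 G.1) : LipS (Egy (N + 1)) :=
  ⟨fun x => G.1 (plse x), 1, by
    have := hG.comp (plse_lip (N := N))
    rw [one_mul] at this
    exact this⟩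

theorem compPlse_lip (G : LipS (Egy N)) (hG : LipschitzWith 1 G.1) :
    LipschitzWith 1 (compPlse G hG).1 := by
  have := hG.comp (plse_lip (N := N))
  rw [one_mul] at this
  exact this

end Plse

section Cav

variable {K N : ℕ} [NeZero K] [NeZero N]

/-- The energy of the cavity shape at the sites `i`. -/
noncomputable def eU {l : ℕ} (ω : Fin l → Clause K × Fin K) (h : ℝ)
    (i : Fin l × Fin K → Fin N) : Egy N := fun σ => Real.log (QU ω h fun p => σ (i p))

/-- The energy of the interaction shape at the sites `i`. -/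
noncomputable def eV {l : ℕ} (ω : Fin l → Clause K) (i : Fin l × Fin K → Fin N) : Egy N :=
  fun σ => Real.log (QV ω fun p => σ (i p))

theorem plse_cav {l : ℕ} (H : Egy N) (η : Fin l → (Clause K × Fin K) × (Fin K → Fin N)) (h : ℝ) :
    plse (liftE H + ∑ k, cavE (η k) + fE0 h) =
      H + eU (fun k => (η k).1) h (fun p => (η p.1).2 p.2) := by
  rw [add_assoc, plse_lift_add]
  congr 1
  funext σ
  unfold plse eU QU
  congr 1
  refine Finset.sum_congr rfl fun e _ => ?_
  rw [Pi.add_apply, Finset.sum_apply, Real.exp_add, Real.exp_sum, mul_comm]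
  congr 1
  refine Finset.prod_congr rfl fun k _ => ?_
  rw [cavE_cons]

theorem sum_clauseE_eV {l : ℕ} (η : Fin l → Clause K × (Fin K → Fin N)) :
    ∑ k, (clauseE (η k) : Egy N) = eV (fun k => (η k).1) (fun p => (η p.1).2 p.2) := by
  funext σ
  unfold eV QV
  rw [← Real.exp_sum, Real.log_exp, Finset.sum_apply]
  rfl

variable (ρ : Measure (Clause K)) [IsProbabilityMeasure ρ]
  (hρ : Integrable (maxTheta : Clause K → ℝ) ρ) (ν : Measure ℝ) [IsProbabilityMeasure ν]
  (hν : Integrable (fun h : ℝ => h) ν)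

theorem uG_formula (G : LipS (Egy N)) (hG : LipschitzWith 1 G.1) (H : Egy N) (l : ℕ) :
    uG ρ hρ ν hν (compPlse G hG) H l =
    ∫ ω : Fin l → Clause K × Fin K, (∫ h : ℝ, (∫ i : Fin l × Fin K → Fin N,
      G.1 (H + eU ω h i)
      ∂(Measure.pi fun _ => unif N)) ∂ν) ∂(Measure.pi fun _ => ρ.prod (unif K)) := by
  unfold uG TB
  rw [Top_pow]
  set F : (Fin l → Clause K × Fin K) → (Fin l × Fin K → Fin N) → ℝ := fun ω i =>
    ∫ h, G.1 (H + eU ω h i) ∂ν with hF
  have e1 : ∀ η : Fin l → (Clause K × Fin K) × (Fin K → Fin N),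
      (Tf0 ν hν N (compPlse G hG)).1 (liftE H + ∑ k, cavE (η k)) =
      F (fun k => (η k).1) (fun p => (η p.1).2 p.2) := by
    intro η
    unfold Tf0
    rw [Top_apply]
    congr 1
    funext h
    show G.1 (plse (liftE H + ∑ k, cavE (η k) + fE0 h)) = _
    rw [plse_cav]
  have hint : Integrable (fun η : Fin l → (Clause K × Fin K) × (Fin K → Fin N) =>
      (Tf0 ν hν N (compPlse G hG)).1 (liftE H + ∑ k, cavE (η k)))
      (Measure.pi fun _ => (ρ.prod (unif K)).prod (unifK K N)) := by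
    refine lip_integrable (lip_Tf0G ν hν _ (compPlse_lip G hG)) ?_ (liftE H)
    refine integrable_finsetSum _ fun k _ => ?_
    exact integrable_comp_eval (integrable_cavE ρ hρ)
  simp_rw [e1] at hint ⊢
  rw [integral_arrow (ρ.prod (unif K)) F hint]
  congr 1
  funext ω
  rw [hF]
  simp only
  rw [swap_fin ν]
  intro i
  have := lip_integrable (compPlse_lip G hG) (integrable_fE0 (N := N) ν hν)
    (liftE H + ∑ k, cavE ((ω k), fun j => i (k, j)))
  refine this.congr (Filter.Eventually.of_forall fun h => ?_)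
  show G.1 (plse (liftE H + ∑ k, cavE ((ω k), fun j => i (k, j)) + fE0 h)) = _
  rw [plse_cav H (fun k => ((ω k), fun j => i (k, j))) h]

theorem vG_formula (G : LipS (Egy N)) (hG : LipschitzWith 1 G.1) (H : Egy N) (l : ℕ) :
    vG ρ hρ G H l =
    ∫ ω : Fin l → Clause K, (∫ i : Fin l × Fin K → Fin N, G.1 (H + eV ω i)
      ∂(Measure.pi fun _ => unif N)) ∂(Measure.pi fun _ => ρ) := by
  unfold vG Tc
  rw [Top_pow]
  set F : (Fin l → Clause K) → (Fin l × Fin K → Fin N) → ℝ := fun ω i =>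
    G.1 (H + eV ω i) with hF
  have e1 : ∀ η : Fin l → Clause K × (Fin K → Fin N),
      G.1 (H + ∑ k, clauseE (η k)) = F (fun k => (η k).1) (fun p => (η p.1).2 p.2) := by
    intro η
    rw [sum_clauseE_eV]
  have hint : Integrable (fun η : Fin l → Clause K × (Fin K → Fin N) =>
      G.1 (H + ∑ k, clauseE (η k))) (Measure.pi fun _ => ρ.prod (unifK K N)) := by
    refine lip_integrable hG ?_ H
    refine integrable_finsetSum _ fun k _ => ?_
    exact integrable_comp_eval (integrable_clauseE ρ hρ)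
  simp_rw [e1] at hint ⊢
  exact integral_arrow ρ F hint

end Cav

end Vale.Agent.P168
end
end

section

section

set_option autoImplicit false
set_option linter.unusedSectionVars false

open MeasureTheory ProbabilityTheory Finset Filter
open scoped NNReal Topology

namespace Vale.Agent.P168.MP

/-- The energy of the (logarithmic) shape `ψ` at the sites `s`. -/
def shE {N : ℕ} {J : Type} (ψ : (J → Bool) → ℝ) (s : J → Fin N) : Egy N :=
  fun σ => ψ fun j => σ (s j)

theorem norm_shE_le {N : ℕ} {J : Type} {ψ : (J → Bool) → ℝ} {M : ℝ} (hM : 0 ≤ M)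
    (hψ : ∀ τ, |ψ τ| ≤ M) (s : J → Fin N) : ‖(shE ψ s : Egy N)‖ ≤ M := by
  rw [pi_norm_le_iff_of_nonneg hM]
  intro σ
  rw [Real.norm_eq_abs]
  exact hψ _

section Slots

variable {W J : Type} (ψ : W → (J → Bool) → ℝ) (M : ℝ) (hM : 0 ≤ M)
  (hψ : ∀ w τ, |ψ w τ| ≤ M)

/-- The slots acting on energies on `N` sites: the slot `(w, s)` adds the shape `ψ w` at the
sites `s`. -/
noncomputable def egySlots (N : ℕ) : Slots (Egy N) (W × (J → Fin N)) where
  act τ H := H + shE (ψ τ.1) τ.2
  comm τ τ' H := by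
    funext σ
    simp only [Pi.add_apply]
    ring
  base := logZ
  M := M
  M_nonneg := hM
  bd τ H := by
    have h := lip_bound (logZ_lip (N := N)) H (shE (ψ τ.1) τ.2)
    rw [NNReal.coe_one, one_mul] at h
    exact h.trans (norm_shE_le hM (hψ _) _)

theorem egySlots_act (N : ℕ) (τ : W × (J → Fin N)) (H : Egy N) :
    (egySlots ψ M hM hψ N).act τ H = H + shE (ψ τ.1) τ.2 := rfl

/-- The functional `lam` is 1-Lipschitz in the energy. -/
theorem lam_lip {N : ℕ} {L : List (ℝ × (W × (J → Fin N)))} (hL : Pos L) :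
    LipschitzWith 1 ((egySlots ψ M hM hψ N).lam L) := by
  induction L with
  | nil => exact logZ_lip
  | cons a L ih =>
    obtain ⟨μ, τ⟩ := a
    have hμ : 0 < μ := (Slots.Pos_head hL).1
    have ih' := ih (Slots.Pos_tail hL)
    refine LipschitzWith.of_dist_le_mul fun x y => ?_
    rw [NNReal.coe_one, one_mul, Real.dist_eq, abs_le]
    have key : ∀ x y : Egy N, (egySlots ψ M hM hψ N).lam L x ≤
        (egySlots ψ M hM hψ N).lam L y + dist x y := by
      intro x y
      have := ih'.dist_le_mul x y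
      rw [NNReal.coe_one, one_mul, Real.dist_eq] at this
      linarith [(abs_le.1 this).2]
    have hd : ∀ x y : Egy N, dist ((egySlots ψ M hM hψ N).act τ x)
        ((egySlots ψ M hM hψ N).act τ y) = dist x y := by
      intro x y
      rw [egySlots_act, egySlots_act, dist_add_right]
    have k1 := key ((egySlots ψ M hM hψ N).act τ x) ((egySlots ψ M hM hψ N).act τ y)
    have k2 := key ((egySlots ψ M hM hψ N).act τ y) ((egySlots ψ M hM hψ N).act τ x)
    rw [hd] at k1 k2
    have h1 := Slots.lamstep_le hμ (key x y) k1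
    have h2 := Slots.lamstep_le hμ (key y x) k2
    rw [Slots.lam_cons, Slots.lam_cons]
    rw [dist_comm y x] at h2
    constructor <;> linarith only [h1, h2]

/-- Lift of a slot type to `N + 1` sites. -/
def liftW {N : ℕ} (τ : W × (J → Fin N)) : W × (J → Fin (N + 1)) := (τ.1, fun j => (τ.2 j).succ)

theorem liftW_inj {N : ℕ} : Function.Injective (liftW : W × (J → Fin N) → _) := by
  intro a b h
  unfold liftW at h
  rw [Prod.mk.injEq] at h
  refine Prod.ext h.1 (funext fun j => ?_)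
  exact Fin.succ_injective _ (congrFun h.2 j)

theorem shE_lift {N : ℕ} (φ : (J → Bool) → ℝ) (s : J → Fin N) :
    shE φ (fun j => (s j).succ) = liftE (shE φ s) := rfl

theorem lam_lift {N : ℕ} (L : List (ℝ × (W × (J → Fin N)))) (H : Egy (N + 1)) :
    (egySlots ψ M hM hψ (N + 1)).lam (L.map (Prod.map id liftW)) H =
      (egySlots ψ M hM hψ N).lam L (plse H) := by
  induction L generalizing H with
  | nil =>
    rw [List.map_nil, Slots.lam_nil, Slots.lam_nil]
    exact (logZ_plse H).symm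
  | cons a L ih =>
    obtain ⟨μ, τ⟩ := a
    rw [List.map_cons, Prod.map_apply, Slots.lam_cons, Slots.lam_cons, ih, ih]
    have e : plse ((egySlots ψ M hM hψ (N + 1)).act (liftW τ) H) =
        (egySlots ψ M hM hψ N).act τ (plse H) := by
      rw [egySlots_act, egySlots_act]
      show plse (H + shE (ψ τ.1) fun j => (τ.2 j).succ) = _
      rw [shE_lift, add_comm H, plse_lift_add, add_comm]
    rw [e]
    rfl

end Slots

section Scheme

variable {W J I : Type} [Fintype W] [Nonempty W] [Fintype J] [DecidableEq J] [Fintype I]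
  [DecidableEq I] (ψ : W → (J → Bool) → ℝ) (M : ℝ) (hM : 0 ≤ M) (hψ : ∀ w τ, |ψ w τ| ≤ M)
  (pat : List (ℝ × I)) (hpat : Pos pat)

/-- The list of slots with pattern `pat` and data `τ`. -/
def patL {Ω : Type} (τ : I → Ω) : List (ℝ × Ω) := pat.map (Prod.map id τ)

include hpat in
theorem patL_pos {Ω : Type} (τ : I → Ω) : Pos (patL pat τ) := by
  intro s hs
  unfold patL at hs
  obtain ⟨a, ha, rfl⟩ := List.mem_map.1 hs
  exact hpat a ha

theorem patL_length {Ω : Type} (τ : I → Ω) : (patL pat τ).length = pat.length :=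
  List.length_map _

theorem patL_comp {Ω Ω' : Type} (f : Ω → Ω') (τ : I → Ω) :
    patL pat (fun i => f (τ i)) = (patL pat τ).map (Prod.map id f) := by
  unfold patL
  rw [List.map_map]
  rfl

/-- The averaged slot functional on energies on `N` sites (`0` for `N = 0`). -/
noncomputable def GP (N : ℕ) (H : Egy N) : ℝ :=
  (∑ τ : I → W × (J → Fin N), (egySlots ψ M hM hψ N).lam (patL pat τ) H) /
    (Fintype.card (I → W × (J → Fin N)) : ℝ)

theorem GP_eq (N : ℕ) [NeZero N] (H : Egy N) : GP ψ M hM hψ pat N H =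
    (PE.unif (I → W × (J → Fin N))).E fun τ =>
      (egySlots ψ M hM hψ N).lam (patL pat τ) H := rfl

include hpat in
theorem GP_lip (N : ℕ) : LipschitzWith 1 (GP ψ M hM hψ pat N) := by
  refine LipschitzWith.of_dist_le_mul fun x y => ?_
  rw [NNReal.coe_one, one_mul, Real.dist_eq]
  unfold GP
  rw [← sub_div, ← Finset.sum_sub_distrib, abs_div, Nat.abs_cast]
  rcases Nat.eq_zero_or_pos (Fintype.card (I → W × (J → Fin N))) with h | h
  · rw [h, Nat.cast_zero, div_zero]
    exact dist_nonneg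
  · have h' : (0 : ℝ) < Fintype.card (I → W × (J → Fin N)) := by exact_mod_cast h
    rw [div_le_iff₀ h']
    refine (Finset.abs_sum_le_sum_abs _ _).trans ?_
    refine (Finset.sum_le_card_nsmul _ _ (dist x y) fun τ _ => ?_).trans (le_of_eq ?_)
    · have := (lam_lip ψ M hM hψ (patL_pos pat hpat τ)).dist_le_mul x y
      rwa [NNReal.coe_one, one_mul, Real.dist_eq] at this
    · rw [nsmul_eq_mul, Finset.card_univ, mul_comm]

include hpat in
theorem GP_near (N : ℕ) [NeZero N] (H : Egy N) :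
    |GP ψ M hM hψ pat N H - logZ H| ≤ pat.length * M := by
  rw [GP_eq, ← PE.const (PE.unif (I → W × (J → Fin N))) (logZ H), ← PE.sub]
  refine (PE.abs_le _ _).trans (PE.le_const _ fun τ => ?_)
  have h := (egySlots ψ M hM hψ N).lam_base_near (patL_pos pat hpat τ) H
  rw [patL_length] at h
  exact h

theorem card_W (N : ℕ) : Fintype.card (I → W × (J → Fin N)) =
    (Fintype.card W * N ^ Fintype.card J) ^ Fintype.card I := by
  simp only [Fintype.card_pi, Fintype.card_prod, Fintype.card_fin, prod_const, card_univ]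

include hpat in
theorem GP_succ (N : ℕ) [NeZero N] (H : Egy (N + 1)) :
    |GP ψ M hM hψ pat (N + 1) H - GP ψ M hM hψ pat N (plse H)| ≤
      2 * (pat.length * M) * (Fintype.card I * Fintype.card J) / ((N + 1 : ℕ) : ℝ) := by
  have _inst : DecidableEq (I → W × (J → Fin (N + 1))) := Classical.decEq _
  set c := logZ H with hc
  set A := Fintype.card (I → W × (J → Fin (N + 1))) with hA
  set B := Fintype.card (I → W × (J → Fin N)) with hB
  have hA0 : (0 : ℝ) < A := by exact_mod_cast Fintype.card_pos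
  have hB0 : (0 : ℝ) < B := by exact_mod_cast Fintype.card_pos
  set f : (I → W × (J → Fin (N + 1))) → ℝ := fun τ =>
    (egySlots ψ M hM hψ (N + 1)).lam (patL pat τ) H - c with hf
  set f' : (I → W × (J → Fin N)) → ℝ := fun τ =>
    (egySlots ψ M hM hψ N).lam (patL pat τ) (plse H) - c with hf'
  have hfb : ∀ τ, |f τ| ≤ pat.length * M := fun τ => by
    have h := (egySlots ψ M hM hψ (N + 1)).lam_base_near (patL_pos pat hpat τ) H
    rw [patL_length] at h
    exact h
  have hfb' : ∀ τ, |f' τ| ≤ pat.length * M := fun τ => by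
    have h := (egySlots ψ M hM hψ N).lam_base_near (patL_pos pat hpat τ) (plse H)
    rw [patL_length] at h
    have e : (egySlots ψ M hM hψ N).base (plse H) = c := logZ_plse H
    rw [e] at h
    exact h
  set lf : (I → W × (J → Fin N)) → (I → W × (J → Fin (N + 1))) := fun τ i => liftW (τ i) with hlf
  have hinj : Function.Injective lf := by
    intro a b h
    funext i
    exact liftW_inj (congrFun h i)
  have hff : ∀ τ, f (lf τ) = f' τ := fun τ => by
    simp only [hf, hf', hlf]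
    rw [patL_comp pat liftW τ, lam_lift]
  have e1 : GP ψ M hM hψ pat (N + 1) H = c + (∑ τ, f τ) / A := by
    unfold GP
    simp only [hf]
    rw [Finset.sum_sub_distrib, Finset.sum_const, Finset.card_univ, nsmul_eq_mul, ← hA]
    field_simp
    ring
  have e2 : GP ψ M hM hψ pat N (plse H) = c + (∑ τ, f' τ) / B := by
    unfold GP
    simp only [hf']
    rw [Finset.sum_sub_distrib, Finset.sum_const, Finset.card_univ, nsmul_eq_mul, ← hB]
    field_simp
    ring
  rw [e1, e2, add_sub_add_left_eq_sub]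
  set s : Finset (I → W × (J → Fin (N + 1))) := Finset.univ.image lf with hs
  have hscard : s.card = B := by
    rw [hs, Finset.card_image_of_injective _ hinj, Finset.card_univ]
  have hsum : ∑ τ ∈ s, f τ = ∑ τ, f' τ := by
    rw [hs, Finset.sum_image fun a _ b _ h => hinj h]
    exact Finset.sum_congr rfl fun τ _ => hff τ
  have hBA : (B : ℝ) ≤ A := by
    rw [← hscard, hA]
    exact_mod_cast Finset.card_le_univ s
  have hsplit : ∑ τ, f τ = ∑ τ ∈ sᶜ, f τ + ∑ τ, f' τ := by
    rw [← hsum]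
    have := Finset.sum_add_sum_compl s f
    linarith only [this]
  have hcompl : |∑ τ ∈ sᶜ, f τ| ≤ (A - B) * (pat.length * M) := by
    refine (Finset.abs_sum_le_sum_abs _ _).trans ?_
    refine (Finset.sum_le_card_nsmul _ _ _ fun τ _ => hfb τ).trans (le_of_eq ?_)
    rw [Finset.card_compl, hscard, nsmul_eq_mul, Nat.cast_sub (by exact_mod_cast hBA), ← hA]
  have hsum' : |∑ τ, f' τ| ≤ B * (pat.length * M) := by
    refine (Finset.abs_sum_le_sum_abs _ _).trans ?_
    refine (Finset.sum_le_card_nsmul _ _ _ fun τ _ => hfb' τ).trans (le_of_eq ?_)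
    rw [Finset.card_univ, nsmul_eq_mul]
  have hTM : 0 ≤ pat.length * M := mul_nonneg (Nat.cast_nonneg _) hM
  have e3 : (∑ τ, f τ) / A - (∑ τ, f' τ) / B =
      (∑ τ ∈ sᶜ, f τ) / A - (∑ τ, f' τ) * ((A - B) / (A * B)) := by
    rw [hsplit]
    field_simp
    ring
  rw [e3]
  have hAB0 : (0 : ℝ) ≤ (A - B) / (A * B) := div_nonneg (by linarith only [hBA]) (by positivity)
  have h1 : |(∑ τ ∈ sᶜ, f τ) / A| ≤ (A - B) / A * (pat.length * M) := by
    rw [abs_div, abs_of_pos hA0, div_mul_eq_mul_div]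
    exact div_le_div_of_nonneg_right hcompl hA0.le
  have h2 : |(∑ τ, f' τ) * ((A - B) / (A * B))| ≤ (A - B) / A * (pat.length * M) := by
    rw [abs_mul, abs_of_nonneg hAB0]
    refine (mul_le_mul_of_nonneg_right hsum' hAB0).trans (le_of_eq ?_)
    (clear * - hB0 hA0; field_simp)
  have h3 : |(∑ τ ∈ sᶜ, f τ) / A - (∑ τ, f' τ) * ((A - B) / (A * B))| ≤
      2 * ((A - B) / A * (pat.length * M)) := by
    refine (abs_sub _ _).trans ?_
    linarith only [h1, h2]
  refine h3.trans ?_
  have hN1 : (0 : ℝ) < ((N + 1 : ℕ) : ℝ) := by (clear * -; positivity)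
  have hratio : (B : ℝ) / A =
      (1 - 1 / ((N + 1 : ℕ) : ℝ)) ^ (Fintype.card I * Fintype.card J) := by
    have hn1 : (0 : ℝ) < Fintype.card W := by exact_mod_cast Fintype.card_pos
    rw [hA, hB, card_W, card_W]
    push_cast
    rw [← div_pow, mul_div_mul_left _ _ hn1.ne', ← div_pow, ← pow_mul, mul_comm (Fintype.card I)]
    congr 1
    field_simp
    ring
  have hpow : 1 - ((Fintype.card I * Fintype.card J : ℕ) : ℝ) * (1 / ((N + 1 : ℕ) : ℝ)) ≤
      (1 - 1 / ((N + 1 : ℕ) : ℝ)) ^ (Fintype.card I * Fintype.card J) :=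
    one_sub_pow_ge (p0_le N) _
  have hprop : (A - B) / A ≤ (Fintype.card I * Fintype.card J : ℝ) / ((N + 1 : ℕ) : ℝ) := by
    have : ((A : ℝ) - B) / A = 1 - B / A := by (clear * - hA0; field_simp)
    rw [this, hratio]
    have h4 : ((Fintype.card I * Fintype.card J : ℕ) : ℝ) * (1 / ((N + 1 : ℕ) : ℝ)) =
        (Fintype.card I * Fintype.card J : ℝ) / ((N + 1 : ℕ) : ℝ) := by push_cast; ring
    rw [h4] at hpow
    linarith only [hpow]
  calc 2 * ((A - B) / A * (pat.length * M)) ≤
        2 * ((Fintype.card I * Fintype.card J : ℝ) / ((N + 1 : ℕ) : ℝ) * (pat.length * M)) := by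
        apply mul_le_mul_of_nonneg_left _ (by norm_num)
        exact mul_le_mul_of_nonneg_right hprop hTM
    _ = _ := by ring

end Scheme

section Ass

variable {K : ℕ} [NeZero K] (ρ : Measure (Clause K)) [IsProbabilityMeasure ρ]
  (hρ : Integrable (maxTheta : Clause K → ℝ) ρ) (ν : Measure ℝ) [IsProbabilityMeasure ν]
  (hν : Integrable (fun h : ℝ => h) ν)

variable {W J I : Type} [Fintype W] [Nonempty W] [Fintype J] [DecidableEq J] [Fintype I]
  [DecidableEq I] (ψ : W → (J → Bool) → ℝ) (M : ℝ) (hM : 0 ≤ M) (hψ : ∀ w τ, |ψ w τ| ≤ M)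
  (pat : List (ℝ × I)) (hpat : Pos pat)

include hρ hν hpat in
/-- The Aizenman–Sims–Starr scheme with random slots: a lower bound for the cavity functional of
the slot functional, uniform in `N` and in the energy, is a lower bound for the pressure. -/
theorem ass_slots (lam : ℝ≥0) (M0 : ℝ)
    (h : ∀ (N : ℕ) [NeZero N] (H : Egy N),
      M0 ≤ (∫ l : ℕ, (∫ ω : Fin l → Clause K × Fin K, (∫ h : ℝ, (∫ i : Fin l × Fin K → Fin N,
          GP ψ M hM hψ pat N (H + eU ω h i) ∂(Measure.pi fun _ => unif N)) ∂ν)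
          ∂(Measure.pi fun _ => ρ.prod (unif K))) ∂(poissonMeasure (K * lam))) -
        ∫ l : ℕ, (∫ ω : Fin l → Clause K, (∫ i : Fin l × Fin K → Fin N,
          GP ψ M hM hψ pat N (H + eV ω i) ∂(Measure.pi fun _ => unif N))
          ∂(Measure.pi fun _ => ρ)) ∂(poissonMeasure (((K - 1 : ℕ) : ℝ≥0) * lam))) :
    (M0 : EReal) ≤ liminf (fun N => ((pressure lam ρ ν N : ℝ) : EReal)) atTop := by
  set G : ∀ N : ℕ, LipS (Egy N) := fun N =>
    ⟨GP ψ M hM hψ pat N, 1, GP_lip ψ M hM hψ pat hpat N⟩ with hG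
  have hGl : ∀ N, LipschitzWith 1 (G N).1 := fun N => GP_lip ψ M hM hψ pat hpat N
  refine ass_generic ρ hρ ν hν lam G hGl (fun N => compPlse (G N) (hGl N))
    (fun N => compPlse_lip (G N) (hGl N)) (pat.length * M)
    (2 * (pat.length * M) * (Fintype.card I * Fintype.card J))
    (mul_nonneg (Nat.cast_nonneg _) hM) (by positivity) ?_ ?_ M0 ?_
  · intro N hN x
    haveI : NeZero N := ⟨by omega⟩
    exact GP_near ψ M hM hψ pat hpat N x
  · intro N hN x
    haveI : NeZero N := ⟨by omega⟩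
    exact GP_succ ψ M hM hψ pat hpat N x
  · intro N _ H
    simp_rw [uG_formula ρ hρ ν hν (G N) (hGl N) H, vG_formula ρ hρ (G N) (hGl N) H]
    exact h N H

end Ass

end Vale.Agent.P168.MP
end
end

section

section

set_option autoImplicit false
set_option linter.unusedSectionVars false

open MeasureTheory ProbabilityTheory Finset Filter
open scoped NNReal Topology

namespace Vale.Agent.P168.MP

section Shapes

variable {K : ℕ} [NeZero K]

/-- Logarithmic cavity shape. -/
noncomputable def lU {l : ℕ} (z : (Fin l → Clause K × Fin K) × ℝ) : SE K l :=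
  fun τ => Real.log (QU z.1 z.2 τ)

/-- Logarithmic interaction shape. -/
noncomputable def lV {l : ℕ} (ω : Fin l → Clause K) : SE K l :=
  fun τ => Real.log (QV ω τ)

theorem eU_eq {l N : ℕ} (ω : Fin l → Clause K × Fin K) (h : ℝ) (i : Fin l × Fin K → Fin N) :
    eU ω h i = shE (lU (ω, h)) i := rfl

theorem eV_eq {l N : ℕ} (ω : Fin l → Clause K) (i : Fin l × Fin K → Fin N) :
    eV ω i = shE (lV ω) i := rfl

theorem measurable_lU {l : ℕ} : Measurable (lU : (Fin l → Clause K × Fin K) × ℝ → SE K l) := by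
  rw [measurable_pi_iff]
  intro τ
  unfold lU QU
  refine Measurable.log ?_
  refine Finset.measurable_fun_sum _ fun e _ => ?_
  refine Measurable.mul ?_ ?_
  · exact (measurable_snd.mul_const _).exp
  · refine Finset.measurable_fun_prod _ fun k _ => ?_
    refine Measurable.exp ?_
    have h1 : Measurable fun y : Clause K × Fin K =>
        theta y.1 (Function.update (fun j => τ (k, j)) y.2 e) := by
      refine measurable_from_prod_countable_left (α := Clause K) (β := Fin K)
        (f := fun y => theta y.1 (Function.update (fun j => τ (k, j)) y.2 e)) fun a => ?_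
      show Measurable fun c : Clause K => theta c (Function.update (fun j => τ (k, j)) a e)
      exact measurable_theta (Function.update (fun j => τ (k, j)) a e)
    have h2 : Measurable fun z : (Fin l → Clause K × Fin K) × ℝ => z.1 k :=
      (measurable_pi_apply k).comp measurable_fst
    show Measurable ((fun y : Clause K × Fin K =>
      theta y.1 (Function.update (fun j => τ (k, j)) y.2 e)) ∘
        fun z : (Fin l → Clause K × Fin K) × ℝ => z.1 k)
    exact Measurable.comp h1 h2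

theorem measurable_lV {l : ℕ} : Measurable (lV : (Fin l → Clause K) → SE K l) := by
  rw [measurable_pi_iff]
  intro τ
  unfold lV QV
  refine Measurable.log ?_
  refine Finset.measurable_fun_prod _ fun k _ => ?_
  exact ((measurable_theta _).comp (measurable_pi_apply k)).exp

theorem log_cosh_abs (h : ℝ) : |Real.log (∑ e : Bool, Real.exp (h * spin e))| ≤
    |h| + Real.log 2 := by
  have e1 : ∑ e : Bool, Real.exp (h * spin e) = Real.exp h + Real.exp (-h) := by
    rw [Fintype.sum_bool]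
    simp [spin]
  rw [e1]
  have h1 : Real.exp h ≤ Real.exp |h| := Real.exp_le_exp.2 (le_abs_self h)
  have h2 : Real.exp (-h) ≤ Real.exp |h| := Real.exp_le_exp.2 (neg_le_abs h)
  have h3 : (1 : ℝ) ≤ Real.exp h + Real.exp (-h) := by
    rcases le_total 0 h with h0 | h0
    · have := Real.one_le_exp h0
      have := Real.exp_pos (-h)
      linarith
    · have := Real.one_le_exp (neg_nonneg.2 h0)
      have := Real.exp_pos h
      linarith
  have h4 : 0 ≤ Real.log (Real.exp h + Real.exp (-h)) := Real.log_nonneg h3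
  rw [abs_of_nonneg h4]
  calc Real.log (Real.exp h + Real.exp (-h)) ≤ Real.log (Real.exp |h| * 2) :=
        Real.log_le_log (by linarith) (by linarith)
    _ = |h| + Real.log 2 := by
        rw [Real.log_mul (Real.exp_pos _).ne' (by norm_num), Real.log_exp]

theorem norm_lU_le {l : ℕ} (z : (Fin l → Clause K × Fin K) × ℝ) :
    ‖lU z‖ ≤ |z.2| + Real.log 2 + ∑ k, maxTheta (z.1 k).1 := by
  have hs : 0 ≤ ∑ k, maxTheta (z.1 k).1 := Finset.sum_nonneg fun k _ => maxTheta_nonneg _
  have hl : 0 ≤ Real.log 2 := Real.log_nonneg (by norm_num)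
  refine norm_le_of (by positivity) fun τ => ?_
  have hc := abs_le.1 (log_cosh_abs z.2)
  have hZ : 0 < ∑ e : Bool, Real.exp (z.2 * spin e) :=
    Finset.sum_pos (fun e _ => Real.exp_pos _) Finset.univ_nonempty
  have hm := QU_mem z.1 z.2 τ
  have h1 := Real.log_le_log (mul_pos hZ (Real.exp_pos _)) hm.1
  have h2 := Real.log_le_log (lt_of_lt_of_le (mul_pos hZ (Real.exp_pos _)) hm.1) hm.2
  rw [Real.log_mul hZ.ne' (Real.exp_pos _).ne', Real.log_exp] at h1 h2
  unfold lU
  rw [abs_le]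
  constructor <;> linarith

theorem norm_lV_le {l : ℕ} (ω : Fin l → Clause K) :
    ‖lV ω‖ ≤ ∑ k, maxTheta (ω k) := by
  have hs : 0 ≤ ∑ k, maxTheta (ω k) := Finset.sum_nonneg fun k _ => maxTheta_nonneg _
  refine norm_le_of hs fun τ => ?_
  have hm := QV_mem ω τ
  exact log_abs_of_mem hm.1 hm.2

variable (ρ : Measure (Clause K)) [IsProbabilityMeasure ρ]
  (hρ : Integrable (maxTheta : Clause K → ℝ) ρ) (ν : Measure ℝ) [IsProbabilityMeasure ν]
  (hν : Integrable (fun h : ℝ => h) ν)

/-- Law of the cavity shape with `l` interactions. -/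
noncomputable def πU (l : ℕ) : Measure (SE K l) :=
  ((Measure.pi fun _ : Fin l => ρ.prod (unif K)).prod ν).map lU

/-- Law of the interaction shape with `l` interactions. -/
noncomputable def πV (l : ℕ) : Measure (SE K l) := (Measure.pi fun _ : Fin l => ρ).map lV

instance instU (l : ℕ) : IsProbabilityMeasure (πU ρ ν l) :=
  Measure.isProbabilityMeasure_map measurable_lU.aemeasurable

instance instV (l : ℕ) : IsProbabilityMeasure (πV ρ l) :=
  Measure.isProbabilityMeasure_map measurable_lV.aemeasurable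

include hρ hν in
theorem integrable_bU (l : ℕ) : Integrable (fun z : (Fin l → Clause K × Fin K) × ℝ =>
    |z.2| + Real.log 2 + ∑ k, maxTheta (z.1 k).1)
    ((Measure.pi fun _ : Fin l => ρ.prod (unif K)).prod ν) := by
  have h1 : Integrable (fun y : Clause K × Fin K => maxTheta y.1) (ρ.prod (unif K)) :=
    hρ.comp_fst _
  have h2 : Integrable (fun ω : Fin l → Clause K × Fin K => ∑ k, maxTheta (ω k).1)
      (Measure.pi fun _ : Fin l => ρ.prod (unif K)) :=
    integrable_finsetSum _ fun k _ => integrable_comp_eval (μ := fun _ : Fin l => ρ.prod (unif K))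
      (i := k) (f := fun y : Clause K × Fin K => maxTheta y.1) h1
  exact ((hν.abs.comp_snd _).add (integrable_const _)).add (h2.comp_fst _)

include hρ hν in
theorem integral_bU (l : ℕ) : ∫ z : (Fin l → Clause K × Fin K) × ℝ,
    (|z.2| + Real.log 2 + ∑ k, maxTheta (z.1 k).1)
    ∂((Measure.pi fun _ : Fin l => ρ.prod (unif K)).prod ν) =
    ((∫ h, |h| ∂ν) + Real.log 2) + (∫ c, maxTheta c ∂ρ) * l := by
  have h1 : Integrable (fun y : Clause K × Fin K => maxTheta y.1) (ρ.prod (unif K)) :=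
    hρ.comp_fst _
  have h2 : Integrable (fun ω : Fin l → Clause K × Fin K => ∑ k, maxTheta (ω k).1)
      (Measure.pi fun _ : Fin l => ρ.prod (unif K)) :=
    integrable_finsetSum _ fun k _ => integrable_comp_eval (μ := fun _ : Fin l => ρ.prod (unif K))
      (i := k) (f := fun y : Clause K × Fin K => maxTheta y.1) h1
  have e0 : ∫ y : Clause K × Fin K, maxTheta y.1 ∂(ρ.prod (unif K)) = ∫ c, maxTheta c ∂ρ := by
    have e2 := integral_prod_mul (μ := ρ) (ν := unif K)
      (fun c : Clause K => maxTheta c) (fun _ => (1 : ℝ))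
    simp only [mul_one, integral_const, probReal_univ, smul_eq_mul] at e2
    exact e2
  have i1 : Integrable (fun z : (Fin l → Clause K × Fin K) × ℝ => |z.2|)
      ((Measure.pi fun _ : Fin l => ρ.prod (unif K)).prod ν) := hν.abs.comp_snd _
  have i2 : Integrable (fun z : (Fin l → Clause K × Fin K) × ℝ => |z.2| + Real.log 2)
      ((Measure.pi fun _ : Fin l => ρ.prod (unif K)).prod ν) := i1.add (integrable_const _)
  rw [integral_add i2 (h2.comp_fst _), integral_add i1 (integrable_const _)]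
  have e1 : ∫ z : (Fin l → Clause K × Fin K) × ℝ, |z.2|
      ∂((Measure.pi fun _ : Fin l => ρ.prod (unif K)).prod ν) = ∫ h, |h| ∂ν := by
    have := integral_prod_mul (μ := Measure.pi fun _ : Fin l => ρ.prod (unif K)) (ν := ν)
      (fun _ => (1 : ℝ)) (fun h => |h|)
    simpa using this
  have e2 : ∫ z : (Fin l → Clause K × Fin K) × ℝ, (∑ k, maxTheta (z.1 k).1)
      ∂((Measure.pi fun _ : Fin l => ρ.prod (unif K)).prod ν) = (∫ c, maxTheta c ∂ρ) * l := by
    have e3 := integral_prod_mul (μ := Measure.pi fun _ : Fin l => ρ.prod (unif K)) (ν := ν)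
      (fun ω => ∑ k, maxTheta (ω k).1) (fun _ => (1 : ℝ))
    have e4 : ∫ ω : Fin l → Clause K × Fin K, (∑ k, maxTheta (ω k).1)
        ∂(Measure.pi fun _ : Fin l => ρ.prod (unif K)) = (∫ c, maxTheta c ∂ρ) * l := by
      rw [integral_finsetSum _ fun k _ => integrable_comp_eval
        (μ := fun _ : Fin l => ρ.prod (unif K)) (i := k)
        (f := fun y : Clause K × Fin K => maxTheta y.1) h1]
      have : ∀ k : Fin l, ∫ ω : Fin l → Clause K × Fin K, maxTheta (ω k).1
          ∂(Measure.pi fun _ : Fin l => ρ.prod (unif K)) = ∫ c, maxTheta c ∂ρ := by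
        intro k
        rw [← e0]
        exact integral_comp_eval (μ := fun _ : Fin l => ρ.prod (unif K)) (i := k)
          (f := fun y : Clause K × Fin K => maxTheta y.1) h1.aestronglyMeasurable
      simp_rw [this]
      simp only [sum_const, card_univ, Fintype.card_fin, nsmul_eq_mul, mul_comm]
    simp only [mul_one, integral_const, probReal_univ, smul_eq_mul] at e3
    rw [e3, e4]
  rw [e1, e2]
  simp

include hρ hν in
theorem integrable_πU (l : ℕ) : Integrable (fun φ : SE K l => ‖φ‖) (πU ρ ν l) := by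
  unfold πU
  rw [integrable_map_measure measurable_norm.aestronglyMeasurable measurable_lU.aemeasurable]
  refine (integrable_bU ρ hρ ν hν l).mono'
    (measurable_norm.comp measurable_lU).aestronglyMeasurable
    (Filter.Eventually.of_forall fun z => ?_)
  show ‖‖lU z‖‖ ≤ _
  rw [norm_norm]
  exact norm_lU_le z

include hρ hν in
theorem integral_πU_le (l : ℕ) : ∫ φ : SE K l, ‖φ‖ ∂(πU ρ ν l) ≤
    ((∫ h, |h| ∂ν) + Real.log 2) + (∫ c, maxTheta c ∂ρ) * l := by
  have hi := integrable_πU ρ hρ ν hν l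
  unfold πU at hi ⊢
  rw [integral_map measurable_lU.aemeasurable measurable_norm.aestronglyMeasurable,
    ← integral_bU ρ hρ ν hν l]
  rw [integrable_map_measure measurable_norm.aestronglyMeasurable measurable_lU.aemeasurable] at hi
  exact integral_mono hi (integrable_bU ρ hρ ν hν l) fun z => norm_lU_le z

include hρ in
theorem integrable_πV (l : ℕ) : Integrable (fun φ : SE K l => ‖φ‖) (πV ρ l) := by
  unfold πV
  rw [integrable_map_measure measurable_norm.aestronglyMeasurable measurable_lV.aemeasurable]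
  have h2 : Integrable (fun ω : Fin l → Clause K => ∑ k, maxTheta (ω k))
      (Measure.pi fun _ : Fin l => ρ) :=
    integrable_finsetSum _ fun k _ => integrable_comp_eval hρ
  refine h2.mono' (measurable_norm.comp measurable_lV).aestronglyMeasurable
    (Filter.Eventually.of_forall fun z => ?_)
  show ‖‖lV z‖‖ ≤ _
  rw [norm_norm]
  exact norm_lV_le z

include hρ in
theorem integral_πV_le (l : ℕ) : ∫ φ : SE K l, ‖φ‖ ∂(πV ρ l) ≤
    0 + (∫ c, maxTheta c ∂ρ) * l := by
  have hi := integrable_πV ρ hρ l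
  have h2 : Integrable (fun ω : Fin l → Clause K => ∑ k, maxTheta (ω k))
      (Measure.pi fun _ : Fin l => ρ) :=
    integrable_finsetSum _ fun k _ => integrable_comp_eval hρ
  unfold πV at hi ⊢
  rw [integral_map measurable_lV.aemeasurable measurable_norm.aestronglyMeasurable]
  rw [integrable_map_measure measurable_norm.aestronglyMeasurable measurable_lV.aemeasurable] at hi
  refine (integral_mono hi h2 fun z => norm_lV_le z).trans (le_of_eq ?_)
  rw [integral_finsetSum _ fun k _ => integrable_comp_eval hρ, zero_add]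
  have : ∀ k : Fin l, ∫ ω : Fin l → Clause K, maxTheta (ω k)
      ∂(Measure.pi fun _ : Fin l => ρ) = ∫ c, maxTheta c ∂ρ := by
    intro k
    exact integral_comp_eval (μ := fun _ : Fin l => ρ) (i := k)
      (f := (maxTheta : Clause K → ℝ)) hρ.aestronglyMeasurable
  simp_rw [this]
  simp only [sum_const, card_univ, Fintype.card_fin, nsmul_eq_mul, mul_comm]

include hρ hν in
/-- Nested integrals of a Lipschitz functional of the cavity shape. -/
theorem nested_U {l : ℕ} {F : SE K l → ℝ} (hF : LipschitzWith 1 F) :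
    ∫ ω : Fin l → Clause K × Fin K, (∫ h : ℝ, F (lU (ω, h)) ∂ν)
      ∂(Measure.pi fun _ => ρ.prod (unif K)) = ∫ φ, F φ ∂(πU ρ ν l) := by
  have hi : Integrable F (πU ρ ν l) := by
    refine ((integrable_const |F 0|).add (integrable_πU ρ hρ ν hν l)).mono'
      hF.continuous.aestronglyMeasurable (Filter.Eventually.of_forall fun φ => ?_)
    rw [Real.norm_eq_abs]
    have h1 := lip_bound hF 0 φ
    rw [zero_add, NNReal.coe_one, one_mul] at h1
    have h2 := abs_add_le (F φ - F 0) (F 0)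
    rw [sub_add_cancel] at h2
    show |F φ| ≤ |F 0| + ‖φ‖
    linarith
  unfold πU at hi ⊢
  rw [integral_map measurable_lU.aemeasurable hF.continuous.aestronglyMeasurable]
  rw [integrable_map_measure hF.continuous.aestronglyMeasurable measurable_lU.aemeasurable] at hi
  exact (integral_prod _ hi).symm

theorem nested_V {l : ℕ} {F : SE K l → ℝ} (hF : LipschitzWith 1 F) :
    ∫ ω : Fin l → Clause K, F (lV ω) ∂(Measure.pi fun _ => ρ) = ∫ φ, F φ ∂(πV ρ l) := by
  unfold πV
  rw [integral_map measurable_lV.aemeasurable hF.continuous.aestronglyMeasurable]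

include hρ hν in
theorem trialU_eq {r : ℕ} {m : Fin r → ℝ} {x : (Fin (r + 1) → U01) → ℝ} (h : IsTrial r m x)
    (lam : ℝ≥0) : trialU lam ρ ν r m x = (trSF K h).val (πU ρ ν) (K * lam) := by
  unfold trialU ShapeFun.val
  congr 1
  funext n
  rw [← nested_U ρ hρ ν hν ((trSF K h).lip n)]
  congr 1
  funext ω
  congr 1
  funext t
  show _ = trF m x (lU (ω, t))
  unfold trF
  congr 1
  funext w v
  have e : (fun σ => Real.exp (lU (ω, t) σ)) = QU ω t := by
    funext σ
    unfold lU
    rw [Real.exp_log]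
    exact lt_of_lt_of_le (mul_pos (Finset.sum_pos (fun e _ => Real.exp_pos _)
      Finset.univ_nonempty) (Real.exp_pos _)) (QU_mem ω t σ).1
  rw [e, mlin_eq_pav, pav_QU]

theorem trialV_eq {r : ℕ} {m : Fin r → ℝ} {x : (Fin (r + 1) → U01) → ℝ} (h : IsTrial r m x)
    (lam : ℝ≥0) : trialV lam ρ r m x =
      (trSF K h).val (πV ρ) (((K - 1 : ℕ) : ℝ≥0) * lam) := by
  unfold trialV ShapeFun.val
  congr 1
  funext n
  rw [← nested_V ρ ((trSF K h).lip n)]
  congr 1
  funext ω
  show _ = trF m x (lV ω)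
  unfold trF
  congr 1
  funext w v
  have e : (fun σ => Real.exp (lV ω σ)) = QV ω := by
    funext σ
    unfold lV
    rw [Real.exp_log]
    exact lt_of_lt_of_le (Real.exp_pos _) (QV_mem ω σ).1
  rw [e, mlin_eq_pav, pav_QV]

end Shapes

end Vale.Agent.P168.MP
end
end

section

section

set_option autoImplicit false
set_option linter.unusedSectionVars false

open MeasureTheory ProbabilityTheory Finset Filter
open scoped NNReal Topology

namespace Vale.Agent.P168.MP

section RealFun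

theorem shE_sub {N : ℕ} {J : Type} [Fintype J] [DecidableEq J] (φ φ' : (J → Bool) → ℝ) (s : J → Fin N) :
    ‖(shE φ s - shE φ' s : Egy N)‖ ≤ ‖φ - φ'‖ := by
  refine norm_le_of (norm_nonneg _) fun σ => ?_
  exact abs_le_norm (φ - φ') fun j => σ (s j)

variable {K N : ℕ} [NeZero K] [NeZero N]

/-- The increments of a functional of the energy, as a functional of shapes. -/
noncomputable def reSF (K : ℕ) {N : ℕ} [NeZero N] (g : Egy N → ℝ) (hg : LipschitzWith 1 g)
    (H : Egy N) : ShapeFun K where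
  F l φ := ∫ i : Fin l × Fin K → Fin N, (g (H + shE φ i) - g H)
    ∂(Measure.pi fun _ => unif N)
  lip l := by
    refine LipschitzWith.of_dist_le_mul fun φ φ' => ?_
    rw [NNReal.coe_one, one_mul, Real.dist_eq, dist_eq_norm,
      ← integral_sub (Integrable.of_finite) (Integrable.of_finite), ← Real.norm_eq_abs]
    have := norm_integral_le_of_norm_le_const
      (μ := Measure.pi fun _ : Fin l × Fin K => unif N)
      (f := fun i => g (H + shE φ i) - g H - (g (H + shE φ' i) - g H)) (C := ‖φ - φ'‖)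
      (Filter.Eventually.of_forall fun i => by
        have h1 := hg.dist_le_mul (H + shE φ i) (H + shE φ' i)
        rw [NNReal.coe_one, one_mul, Real.dist_eq, dist_eq_norm, add_sub_add_left_eq_sub] at h1
        rw [Real.norm_eq_abs, sub_sub_sub_cancel_right]
        exact h1.trans (shE_sub φ φ' i))
    simpa using this
  zero l := by
    have e : ∀ i : Fin l × Fin K → Fin N, g (H + shE (0 : SE K l) i) - g H = 0 := by
      intro i
      have : shE (0 : SE K l) i = (0 : Egy N) := rfl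
      rw [this, add_zero, sub_self]
    simp_rw [e]
    simp
  emb {l D} hlD φ := by
    have hmp := mp_comp_inj (unif N) (fun p : Fin l × Fin K => ((Fin.castLE hlD p.1, p.2) :
      Fin D × Fin K)) (fun a b hab => by
        rw [Prod.mk.injEq] at hab
        exact Prod.ext (Fin.castLE_injective hlD hab.1) hab.2)
    have h3 := integral_map (μ := Measure.pi fun _ : Fin D × Fin K => unif N)
      hmp.measurable.aemeasurable
      (f := fun i : Fin l × Fin K → Fin N => g (H + shE φ i) - g H)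
      (measurable_of_countable _).aestronglyMeasurable
    rw [hmp.map_eq] at h3
    exact h3.symm

theorem reSF_eq_unif (g : Egy N → ℝ) (hg : LipschitzWith 1 g) (H : Egy N) {l : ℕ} (φ : SE K l) :
    (reSF K g hg H).F l φ =
      (PE.unif (Fin l × Fin K → Fin N)).E (fun s => g (H + shE φ s)) - g H := by
  show ∫ i : Fin l × Fin K → Fin N, (g (H + shE φ i) - g H)
    ∂(Measure.pi fun _ => unif N) = _
  rw [integral_pi_unif, Finset.sum_sub_distrib, PE.unif_E]
  have hN : (N : ℝ) ≠ 0 := by exact_mod_cast NeZero.ne N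
  rw [Finset.sum_const, Finset.card_univ, nsmul_eq_mul]
  have e : (Fintype.card (Fin l × Fin K → Fin N) : ℝ) =
      (N : ℝ) ^ Fintype.card (Fin l × Fin K) := by
    rw [Fintype.card_fun, Fintype.card_fin]
    push_cast
    rfl
  rw [e, one_div, inv_pow]
  field_simp

end RealFun

section Main

variable {K : ℕ} [NeZero K]

theorem sum_wt (π : ∀ l : ℕ, Measure (SE K l)) [∀ l, IsProbabilityMeasure (π l)] (a : ℝ≥0)
    (ε : ℝ) (n D : ℕ) : ∑ c, wt π a ε n D c = 1 := by
  unfold wt
  have hgc : ∀ c : RI K n D, ExpGrowth fun l => (π l).real {φ | rnd ε n D φ = c} := by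
    intro c
    refine ⟨1, 1, zero_le_one, le_rfl, fun l => ?_⟩
    rw [abs_of_nonneg measureReal_nonneg, one_pow, mul_one]
    exact measureReal_le_one
  rw [← integral_finsetSum _ fun c _ => (hgc c).integrable a]
  have e : ∀ l, ∑ c, (π l).real {φ | rnd ε n D φ = c} = 1 := by
    intro l
    have := integral_rnd π ε n D l (fun _ => 1)
    simp only [mul_one] at this
    rw [← this]
    simp
  simp_rw [e]
  simp

theorem wt_nonneg (π : ∀ l : ℕ, Measure (SE K l)) (a : ℝ≥0)
    (ε : ℝ) (n D : ℕ) (c : RI K n D) : 0 ≤ wt π a ε n D c :=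
  integral_nonneg fun _ => measureReal_nonneg

/-- The conclusion of the core theorem for the family of shapes `ψ0`, with error `ε`. -/
def CoreFor {J W0 : Type} [Fintype J] [DecidableEq J] (ψ0 : W0 → (J → Bool) → ℝ) (ε : ℝ) :
    Prop :=
  ∃ (W : Type) (_ : Fintype W) (_ : Nonempty W) (ψ : W → (J → Bool) → ℝ) (M : ℝ) (hM : 0 ≤ M)
    (hψ : ∀ w τ, |ψ w τ| ≤ M) (I : Type) (_ : Fintype I) (_ : DecidableEq I)
    (pat : List (ℝ × I)) (_ : Pos pat) (r : ℕ) (m : Fin r → ℝ),
    ∀ (N : ℕ) [NeZero N] (H : Egy N),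
      ∃ (α : Type) (P : PE α) (x : α → (Fin (r + 1) → U01) → ℝ), (∀ a, IsTrial r m (x a)) ∧
        ∀ w : W0, |(PE.unif (J → Fin N)).E (fun s => GP ψ M hM hψ pat N (H + shE (ψ0 w) s)) -
          GP ψ M hM hψ pat N H - P.E (fun a => trF m (x a) (ψ0 w))| ≤ ε

variable (ρ : Measure (Clause K)) [IsProbabilityMeasure ρ]
  (hρ : Integrable (maxTheta : Clause K → ℝ) ρ) (ν : Measure ℝ) [IsProbabilityMeasure ν]
  (hν : Integrable (fun h : ℝ => h) ν)

include hρ hν in
/-- Assembly: the core theorem implies the lower bound. -/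
theorem lower_of_core (lam : ℝ≥0)
    (core : ∀ (n D : ℕ) (ε : ℝ), 0 < ε →
      CoreFor (rsh ε : RI K n D → SE K D) ε) :
    mezardParisi lam ρ ν ≤ liminf (fun N => ((pressure lam ρ ν N : ℝ) : EReal)) atTop := by
  refine EReal.ge_of_forall_gt_iff_ge.1 fun M0 hM0 => ?_
  -- it suffices to lose an arbitrarily small amount
  refine le_of_forall_lt fun b hb => ?_
  obtain ⟨b', hb1, hb2⟩ := EReal.lt_iff_exists_real_btwn.1 hb
  refine hb1.trans_le ?_
  have hb3 : b' < M0 := by exact_mod_cast hb2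
  set δ : ℝ := M0 - b' with hδ
  have hδ0 : 0 < δ := by rw [hδ]; linarith
  -- parameters
  set ε : ℝ := δ / 20 with hε
  have hε0 : 0 < ε := by positivity
  have hl2 : 0 ≤ (∫ h, |h| ∂ν) + Real.log 2 :=
    add_nonneg (integral_nonneg fun h => abs_nonneg h) (Real.log_nonneg (by norm_num))
  have hL0 : 0 ≤ ∫ c, maxTheta c ∂ρ := Lbar_nonneg ρ
  have tU := tail_tendsto (πU ρ ν) (integrable_πU ρ hρ ν hν) _ _ hl2 hL0
    (integral_πU_le ρ hρ ν hν) (K * lam)
  have tV := tail_tendsto (πV ρ) (integrable_πV ρ hρ) _ _ le_rfl hL0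
    (integral_πV_le ρ hρ) (((K - 1 : ℕ) : ℝ≥0) * lam)
  obtain ⟨D, hDU, hDV⟩ : ∃ D : ℕ,
      (∫ l, tl (πU ρ ν) D l ∂(poissonMeasure (K * lam))) < ε ∧
      (∫ l, tl (πV ρ) D l ∂(poissonMeasure (((K - 1 : ℕ) : ℝ≥0) * lam))) < ε :=
    ((tU.eventually (gt_mem_nhds hε0)).and (tV.eventually (gt_mem_nhds hε0))).exists
  obtain ⟨n, hn⟩ := exists_nat_ge ((D : ℝ) / ε + 1)
  obtain ⟨W, iW, nW, ψ, M, hM, hψ, I, iI, dI, pat, hpat, r, m, hcore⟩ := core n D ε hε0
  have hquantU : ∀ S : ShapeFun K, |S.val (πU ρ ν) (K * lam) -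
      ∑ c, wt (πU ρ ν) (K * lam) ε n D c * S.F D (rsh ε c)| ≤ 3 * ε := by
    intro S
    have := S.quant (πU ρ ν) (integrable_πU ρ hρ ν hν) _ _ hl2 hL0
      (integral_πU_le ρ hρ ν hν) (K * lam) hε0 hn
    linarith only [hDU, this]
  have hquantV : ∀ S : ShapeFun K, |S.val (πV ρ) (((K - 1 : ℕ) : ℝ≥0) * lam) -
      ∑ c, wt (πV ρ) (((K - 1 : ℕ) : ℝ≥0) * lam) ε n D c * S.F D (rsh ε c)| ≤ 3 * ε := by
    intro S
    have := S.quant (πV ρ) (integrable_πV ρ hρ) _ _ le_rfl hL0
      (integral_πV_le ρ hρ) (((K - 1 : ℕ) : ℝ≥0) * lam) hε0 hn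
    linarith only [hDV, this]
  have key : ((M0 - 14 * ε : ℝ) : EReal) ≤
      liminf (fun N => ((pressure lam ρ ν N : ℝ) : EReal)) atTop := by
    refine ass_slots ρ hρ ν hν ψ M hM hψ pat hpat lam (M0 - 14 * ε) fun N _ H => ?_
    set g := GP ψ M hM hψ pat N with hg
    have hgl : LipschitzWith 1 g := GP_lip ψ M hM hψ pat hpat N
    set S := reSF K g hgl H with hS
    obtain ⟨α, P, x, hx, hw⟩ := hcore N H
    -- the real functional
    have eU1 : (∫ l : ℕ, (∫ ω : Fin l → Clause K × Fin K, (∫ h : ℝ,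
        (∫ i : Fin l × Fin K → Fin N, g (H + eU ω h i) ∂(Measure.pi fun _ => unif N)) ∂ν)
          ∂(Measure.pi fun _ => ρ.prod (unif K))) ∂(poissonMeasure (K * lam))) =
        S.val (πU ρ ν) (K * lam) + g H := by
      have e1 : ∀ l : ℕ, (∫ ω : Fin l → Clause K × Fin K, (∫ h : ℝ,
        (∫ i : Fin l × Fin K → Fin N, g (H + eU ω h i) ∂(Measure.pi fun _ => unif N)) ∂ν)
          ∂(Measure.pi fun _ => ρ.prod (unif K))) = (∫ φ, S.F l φ ∂(πU ρ ν l)) + g H := by
        intro l
        have e2 : ∀ (ω : Fin l → Clause K × Fin K) (h : ℝ),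
            (∫ i : Fin l × Fin K → Fin N, g (H + eU ω h i) ∂(Measure.pi fun _ => unif N)) =
            (fun φ => S.F l φ + g H) (lU (ω, h)) := by
          intro ω h
          show _ = (∫ i : Fin l × Fin K → Fin N, (g (H + shE (lU (ω, h)) i) - g H)
            ∂(Measure.pi fun _ => unif N)) + g H
          rw [integral_sub (Integrable.of_finite) (Integrable.of_finite)]
          simp [eU_eq]
        simp_rw [e2]
        have hlip : LipschitzWith 1 (fun φ => S.F l φ + g H) := by
          refine LipschitzWith.of_dist_le_mul fun a b => ?_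
          rw [dist_add_right]
          exact (S.lip l).dist_le_mul a b
        rw [nested_U ρ hρ ν hν hlip, integral_add (S.integrable (πU ρ ν) l
          (integrable_πU ρ hρ ν hν)) (integrable_const _)]
        simp
      simp_rw [e1]
      rw [integral_add _ (integrable_const _)]
      · simp [ShapeFun.val]
      · have hgS : ExpGrowth fun l => ∫ φ, S.F l φ ∂(πU ρ ν l) := by
          refine expGrowth_of_linear (c := (∫ h, |h| ∂ν) + Real.log 2)
            (d := ∫ c, maxTheta c ∂ρ) (fun l => ?_) hl2 hL0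
          rw [← Real.norm_eq_abs]
          refine (norm_integral_le_integral_norm _).trans ((integral_mono
            (S.integrable (πU ρ ν) l (integrable_πU ρ hρ ν hν)).norm
            (integrable_πU ρ hρ ν hν l) fun φ => ?_).trans (integral_πU_le ρ hρ ν hν l))
          rw [Real.norm_eq_abs]
          exact S.abs_le φ
        exact hgS.integrable _
    have eV1 : (∫ l : ℕ, (∫ ω : Fin l → Clause K,
        (∫ i : Fin l × Fin K → Fin N, g (H + eV ω i) ∂(Measure.pi fun _ => unif N))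
          ∂(Measure.pi fun _ => ρ)) ∂(poissonMeasure (((K - 1 : ℕ) : ℝ≥0) * lam))) =
        S.val (πV ρ) (((K - 1 : ℕ) : ℝ≥0) * lam) + g H := by
      have e1 : ∀ l : ℕ, (∫ ω : Fin l → Clause K,
        (∫ i : Fin l × Fin K → Fin N, g (H + eV ω i) ∂(Measure.pi fun _ => unif N))
          ∂(Measure.pi fun _ => ρ)) = (∫ φ, S.F l φ ∂(πV ρ l)) + g H := by
        intro l
        have e2 : ∀ (ω : Fin l → Clause K),
            (∫ i : Fin l × Fin K → Fin N, g (H + eV ω i) ∂(Measure.pi fun _ => unif N)) =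
            (fun φ => S.F l φ + g H) (lV ω) := by
          intro ω
          show _ = (∫ i : Fin l × Fin K → Fin N, (g (H + shE (lV ω) i) - g H)
            ∂(Measure.pi fun _ => unif N)) + g H
          rw [integral_sub (Integrable.of_finite) (Integrable.of_finite)]
          simp [eV_eq]
        simp_rw [e2]
        have hlip : LipschitzWith 1 (fun φ => S.F l φ + g H) := by
          refine LipschitzWith.of_dist_le_mul fun a b => ?_
          rw [dist_add_right]
          exact (S.lip l).dist_le_mul a b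
        rw [nested_V ρ hlip, integral_add (S.integrable (πV ρ) l
          (integrable_πV ρ hρ)) (integrable_const _)]
        simp
      simp_rw [e1]
      rw [integral_add _ (integrable_const _)]
      · simp only [Nat.cast_tsub, Nat.cast_one, integral_const, probReal_univ, smul_eq_mul, one_mul, ShapeFun.val]
      · have hgS : ExpGrowth fun l => ∫ φ, S.F l φ ∂(πV ρ l) := by
          refine expGrowth_of_linear (c := 0)
            (d := ∫ c, maxTheta c ∂ρ) (fun l => ?_) le_rfl hL0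
          rw [← Real.norm_eq_abs]
          refine (norm_integral_le_integral_norm _).trans ((integral_mono
            (S.integrable (πV ρ) l (integrable_πV ρ hρ)).norm
            (integrable_πV ρ hρ l) fun φ => ?_).trans (integral_πV_le ρ hρ l))
          rw [Real.norm_eq_abs]
          exact S.abs_le φ
        exact hgS.integrable _
    rw [eU1, eV1, add_sub_add_right_eq_sub]
    -- quantized sums
    set cU := wt (πU ρ ν) (K * lam) ε n D with hcU
    set cV := wt (πV ρ) (((K - 1 : ℕ) : ℝ≥0) * lam) ε n D with hcV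
    have sU : ∑ c, cU c = 1 := sum_wt (πU ρ ν) (K * lam) ε n D
    have sV : ∑ c, cV c = 1 := sum_wt (πV ρ) (((K - 1 : ℕ) : ℝ≥0) * lam) ε n D
    have pU : ∀ c, 0 ≤ cU c := fun c => wt_nonneg _ _ _ _ _ c
    have pV : ∀ c, 0 ≤ cV c := fun c => wt_nonneg _ _ _ _ _ c
    have hSc : ∀ c : RI K n D, |S.F D (rsh ε c) - P.E (fun a => trF m (x a) (rsh ε c))| ≤ ε := by
      intro c
      rw [hS, reSF_eq_unif]
      exact hw c
    -- the average of the trial values
    have hP : ∀ cc : RI K n D → ℝ, P.E (fun a => ∑ c, cc c * trF m (x a) (rsh ε c)) =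
        ∑ c, cc c * P.E (fun a => trF m (x a) (rsh ε c)) := by
      intro cc
      rw [PE.sum]
      refine Finset.sum_congr rfl fun c _ => ?_
      rw [PE.smul]
    have hlow : M0 - 6 * ε ≤ P.E (fun a => (∑ c, cU c * trF m (x a) (rsh ε c)) -
        ∑ c, cV c * trF m (x a) (rsh ε c)) := by
      refine P.const_le fun a => ?_
      have hMP : (M0 : EReal) ≤ ((trialU lam ρ ν r m (x a) - trialV lam ρ r m (x a) : ℝ) :
          EReal) := by
        refine hM0.le.trans ?_
        unfold mezardParisi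
        refine (iInf_le _ r).trans ?_
        unfold phi
        exact (iInf_le _ m).trans ((iInf_le _ (x a)).trans (iInf_le _ (hx a)))
      rw [EReal.coe_le_coe_iff, trialU_eq ρ hρ ν hν (hx a) lam, trialV_eq ρ (hx a) lam] at hMP
      have q1 := (abs_le.1 (hquantU (trSF K (hx a)))).2
      have q2 := (abs_le.1 (hquantV (trSF K (hx a)))).1
      have q3 : ∀ c : RI K n D, (trSF K (hx a)).F D (rsh ε c) = trF m (x a) (rsh ε c) := fun c => rfl
      simp only [q3] at q1 q2
      linarith only [hMP, q1, q2]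
    rw [P.sub, hP, hP] at hlow
    have dU : |∑ c, cU c * S.F D (rsh ε c) -
        ∑ c, cU c * P.E (fun a => trF m (x a) (rsh ε c))| ≤ ε := by
      rw [← Finset.sum_sub_distrib]
      refine (Finset.abs_sum_le_sum_abs _ _).trans ?_
      calc ∑ c, |cU c * S.F D (rsh ε c) - cU c * P.E (fun a => trF m (x a) (rsh ε c))|
          ≤ ∑ c, cU c * ε := by
            refine Finset.sum_le_sum fun c _ => ?_
            rw [← mul_sub, abs_mul, abs_of_nonneg (pU c)]
            exact mul_le_mul_of_nonneg_left (hSc c) (pU c)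
        _ = ε := by rw [← Finset.sum_mul, sU, one_mul]
    have dV : |∑ c, cV c * S.F D (rsh ε c) -
        ∑ c, cV c * P.E (fun a => trF m (x a) (rsh ε c))| ≤ ε := by
      rw [← Finset.sum_sub_distrib]
      refine (Finset.abs_sum_le_sum_abs _ _).trans ?_
      calc ∑ c, |cV c * S.F D (rsh ε c) - cV c * P.E (fun a => trF m (x a) (rsh ε c))|
          ≤ ∑ c, cV c * ε := by
            refine Finset.sum_le_sum fun c _ => ?_
            rw [← mul_sub, abs_mul, abs_of_nonneg (pV c)]
            exact mul_le_mul_of_nonneg_left (hSc c) (pV c)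
        _ = ε := by rw [← Finset.sum_mul, sV, one_mul]
    have r1 := (abs_le.1 (hquantU S)).1
    have r2 := (abs_le.1 (hquantV S)).2
    have r3 := (abs_le.1 dU).1
    have r4 := (abs_le.1 dV).2
    linarith only [hlow, r1, r2, r3, r4]
  refine le_trans ?_ key
  rw [EReal.coe_le_coe_iff, hε, hδ]
  linarith only [hb3]

end Main

end Vale.Agent.P168.MP
end
end

section

section

set_option autoImplicit false
set_option linter.unusedSectionVars false

open Finset

namespace Vale.Agent.P168.MP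

section Char

variable {ι : Type} [Fintype ι] [DecidableEq ι]

theorem spin_abs (b : Bool) : |spin b| = 1 := by cases b <;> simp [spin]

theorem abs_prod_spin (I : Finset ι) (σ : ι → Bool) : |∏ j ∈ I, spin (σ j)| = 1 := by
  rw [Finset.abs_prod]
  exact Finset.prod_eq_one fun j _ => spin_abs _

/-- The coefficients of the expansion in characters. -/
noncomputable def hatc (W : (ι → Bool) → ℝ) (I : Finset ι) : ℝ :=
  (∑ σ : ι → Bool, W σ * ∏ j ∈ I, spin (σ j)) / 2 ^ Fintype.card ι

theorem mlin_expand (W : (ι → Bool) → ℝ) (y : ι → ℝ) :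
    mlin W y = ∑ I : Finset ι, hatc W I * ∏ j ∈ I, y j := by
  unfold mlin hatc
  have h1 : ∀ σ : ι → Bool, ∏ j, (1 + y j * spin (σ j)) / 2 =
      (∑ I : Finset ι, (∏ j ∈ I, y j) * ∏ j ∈ I, spin (σ j)) / 2 ^ Fintype.card ι := by
    intro σ
    rw [Finset.prod_div_distrib, Finset.prod_const, Finset.card_univ]
    congr 1
    have h2 : ∀ j, 1 + y j * spin (σ j) = y j * spin (σ j) + 1 := fun j => add_comm _ _
    rw [Finset.prod_congr rfl fun j _ => h2 j, Finset.prod_add_one, Finset.powerset_univ]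
    exact Finset.sum_congr rfl fun I _ => Finset.prod_mul_distrib
  simp_rw [h1]
  have h3 : ∀ σ : ι → Bool, W σ * ((∑ I : Finset ι, (∏ j ∈ I, y j) * ∏ j ∈ I, spin (σ j)) /
      2 ^ Fintype.card ι) = ∑ I : Finset ι, (W σ * ∏ j ∈ I, spin (σ j)) / 2 ^ Fintype.card ι *
        ∏ j ∈ I, y j := by
    intro σ
    rw [← mul_div_assoc, Finset.mul_sum, Finset.sum_div]
    refine Finset.sum_congr rfl fun I _ => ?_
    ring
  simp_rw [h3]
  rw [Finset.sum_comm]
  refine Finset.sum_congr rfl fun I _ => ?_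
  rw [← Finset.sum_mul, Finset.sum_div]

theorem mlin_spin (W : (ι → Bool) → ℝ) (τ : ι → Bool) :
    mlin W (fun j => spin (τ j)) = W τ := by
  unfold mlin
  rw [Finset.sum_eq_single τ]
  · have : ∏ j, (1 + spin (τ j) * spin (τ j)) / 2 = 1 := by
      refine Finset.prod_eq_one fun j _ => ?_
      cases τ j <;> simp [spin]
    rw [this, mul_one]
  · intro σ _ hσ
    obtain ⟨j, hj⟩ := Function.ne_iff.1 hσ
    have h0 : (1 + spin (τ j) * spin (σ j)) / 2 = 0 := by
      revert hj
      cases τ j <;> cases σ j <;> simp [spin]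
    rw [Finset.prod_eq_zero (Finset.mem_univ j) h0, mul_zero]
  · intro h
    exact absurd (Finset.mem_univ _) h

/-- Expansion in characters. -/
theorem expand (W : (ι → Bool) → ℝ) (τ : ι → Bool) :
    W τ = ∑ I : Finset ι, hatc W I * ∏ j ∈ I, spin (τ j) := by
  conv_lhs => rw [← mlin_spin W τ]
  exact mlin_expand W _

theorem abs_hatc_le {W : (ι → Bool) → ℝ} {C : ℝ} (hW : ∀ σ, |W σ| ≤ C) (I : Finset ι) :
    |hatc W I| ≤ C := by
  unfold hatc
  rw [abs_div, abs_of_pos (show (0 : ℝ) < 2 ^ Fintype.card ι by positivity),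
    div_le_iff₀ (by positivity)]
  refine (Finset.abs_sum_le_sum_abs _ _).trans ?_
  refine (Finset.sum_le_card_nsmul _ _ C fun σ _ => ?_).trans (le_of_eq ?_)
  · rw [abs_mul, abs_prod_spin, mul_one]
    exact hW σ
  · rw [nsmul_eq_mul, Finset.card_univ, Fintype.card_fun, Fintype.card_bool]
    push_cast
    ring

end Char

section Marg

variable {ι β : Type} [Fintype ι] [DecidableEq ι] [Fintype β] [Nonempty β]

/-- Exchange the coordinate `a` of two tuples. -/
def swapAt (a : ι) (p : (ι → β) × (ι → β)) : (ι → β) × (ι → β) :=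
  (Function.update p.1 a (p.2 a), Function.update p.2 a (p.1 a))

theorem swapAt_invol (a : ι) : Function.Involutive (swapAt (β := β) a) := by
  intro p
  unfold swapAt
  simp

/-- A function of the coordinate `a` of an independent copy. -/
theorem aS_marg (a : ι) (G : (ι → β) → β → ℝ)
    (hG : ∀ s t i, (∀ j, j ≠ a → s j = t j) → G s i = G t i) :
    (aS fun s : ι → β => aS fun s' : ι → β => G s (s' a)) = aS fun s : ι → β => G s (s a) := by
  have hcard : (Fintype.card (ι → β) : ℝ) ≠ 0 := by exact_mod_cast Fintype.card_ne_zero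
  have h1 : (aS fun s : ι → β => aS fun s' : ι → β => G s (s' a)) =
      aS fun s : ι → β => aS fun _ : ι → β => G s (s a) := by
    unfold aS
    simp only [PE.unif_E]
    rw [← Finset.sum_div, ← Finset.sum_div]
    congr 2
    rw [← Fintype.sum_prod_type' (f := fun s s' : ι → β => G s (s' a)),
      ← Fintype.sum_prod_type' (f := fun s _ : ι → β => G s (s a)),
      ← Equiv.sum_comp (Function.Involutive.toPerm _ (swapAt_invol (β := β) a))]
    refine Finset.sum_congr rfl fun p _ => ?_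
    rw [Function.Involutive.coe_toPerm]
    unfold swapAt
    dsimp only
    rw [Function.update_self]
    refine hG _ _ _ fun j hj => ?_
    rw [Function.update_of_ne hj]
  rw [h1]
  congr 1
  funext s
  exact PE.const _ _

end Marg

end Vale.Agent.P168.MP
end
end

section

section

set_option autoImplicit false
set_option linter.unusedSectionVars false

open Finset

namespace Vale.Agent.P168.MP

/-- Logarithms of shapes. -/
abbrev Sh (ι : Type) : Type := (ι → Bool) → ℝ

section Sys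

variable {ι 𝒲 : Type} [Fintype ι] [DecidableEq ι] {N : ℕ}

/-- The energy of the shape `w` at the sites `s`. -/
def addE (u : 𝒲 → Sh ι) (τ : 𝒲 × (ι → Fin N)) : Egy N := fun σ => u τ.1 fun j => σ (τ.2 j)

/-- The slots of the finite system on `N` sites. -/
noncomputable def sys (N : ℕ) (u : 𝒲 → Sh ι) (M : ℝ) (hM : 0 ≤ M) (hu : ∀ w σ, |u w σ| ≤ M) :
    Slots (Egy N) (𝒲 × (ι → Fin N)) where
  act τ H := H + addE u τ
  comm τ τ' x := by rw [add_assoc, add_assoc, add_comm (addE u τ') (addE u τ)]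
  base := logZ
  M := M
  M_nonneg := hM
  bd τ x := by
    have h := lip_bound (logZ_lip (N := N)) x (addE u τ)
    rw [NNReal.coe_one, one_mul] at h
    refine h.trans ?_
    rw [pi_norm_le_iff_of_nonneg hM]
    intro σ
    rw [Real.norm_eq_abs]
    exact hu _ _

/-- Gibbs weight at a node of the last block (power `1`) with remaining slots `l`. -/
noncomputable def gw (u : 𝒲 → Sh ι) (l : List (𝒲 × (ι → Fin N))) (H : Egy N)
    (σ : Fin N → Bool) : ℝ :=
  Real.exp (H σ) * (l.map fun τ => (1 + Real.exp (addE u τ σ)) / 2).prod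

/-- Gibbs average at such a node. -/
noncomputable def gav (u : 𝒲 → Sh ι) (l : List (𝒲 × (ι → Fin N))) (H : Egy N)
    (f : (Fin N → Bool) → ℝ) : ℝ :=
  (∑ σ, gw u l H σ * f σ) / ∑ σ, gw u l H σ

/-- Local magnetizations at such a node. -/
noncomputable def gmag (u : 𝒲 → Sh ι) (l : List (𝒲 × (ι → Fin N))) (H : Egy N) (i : Fin N) : ℝ :=
  gav u l H fun σ => spin (σ i)

theorem gw_pos (u : 𝒲 → Sh ι) (l : List (𝒲 × (ι → Fin N))) (H : Egy N) (σ : Fin N → Bool) :
    0 < gw u l H σ := by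
  unfold gw
  refine mul_pos (Real.exp_pos _) (List.prod_pos fun a ha => ?_)
  obtain ⟨τ, _, rfl⟩ := List.mem_map.1 ha
  positivity

theorem sum_gw_pos (u : 𝒲 → Sh ι) (l : List (𝒲 × (ι → Fin N))) (H : Egy N) :
    0 < ∑ σ, gw u l H σ :=
  Finset.sum_pos (fun σ _ => gw_pos u l H σ) Finset.univ_nonempty

theorem gw_cons (u : 𝒲 → Sh ι) (τ : 𝒲 × (ι → Fin N)) (l : List (𝒲 × (ι → Fin N))) (H : Egy N)
    (σ : Fin N → Bool) :
    gw u (τ :: l) H σ = (gw u l H σ + gw u l (H + addE u τ) σ) / 2 := by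
  unfold gw
  rw [List.map_cons, List.prod_cons, Pi.add_apply, Real.exp_add]
  ring

theorem gw_act (u : 𝒲 → Sh ι) (τ : 𝒲 × (ι → Fin N)) (l : List (𝒲 × (ι → Fin N))) (H : Egy N)
    (σ : Fin N → Bool) : gw u l (H + addE u τ) σ = gw u l H σ * Real.exp (addE u τ σ) := by
  unfold gw
  rw [Pi.add_apply, Real.exp_add]
  ring

/-- The Gibbs average as a `PE`. -/
noncomputable def gPE (u : 𝒲 → Sh ι) (l : List (𝒲 × (ι → Fin N))) (H : Egy N) :
    PE (Fin N → Bool) where
  E f := gav u l H f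
  add' f g := by
    unfold gav
    rw [← add_div, ← Finset.sum_add_distrib]
    congr 1
    exact Finset.sum_congr rfl fun σ _ => mul_add _ _ _
  smul' c f := by
    unfold gav
    rw [← mul_div_assoc, Finset.mul_sum]
    congr 1
    exact Finset.sum_congr rfl fun σ _ => by ring
  mono' f g h := by
    unfold gav
    exact div_le_div_of_nonneg_right (Finset.sum_le_sum fun σ _ =>
      mul_le_mul_of_nonneg_left (h σ) (gw_pos u l H σ).le) (sum_gw_pos u l H).le
  one' := by
    unfold gav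
    simp only [mul_one]
    exact div_self (sum_gw_pos u l H).ne'

theorem gPE_E (u : 𝒲 → Sh ι) (l : List (𝒲 × (ι → Fin N))) (H : Egy N)
    (f : (Fin N → Bool) → ℝ) : (gPE u l H).E f = gav u l H f := rfl

theorem abs_gav_le (u : 𝒲 → Sh ι) (l : List (𝒲 × (ι → Fin N))) (H : Egy N)
    {f : (Fin N → Bool) → ℝ} {c : ℝ} (hf : ∀ σ, |f σ| ≤ c) : |gav u l H f| ≤ c :=
  ((gPE u l H).abs_le f).trans ((gPE u l H).le_const hf)

theorem abs_gmag_le (u : 𝒲 → Sh ι) (l : List (𝒲 × (ι → Fin N))) (H : Egy N) (i : Fin N) :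
    |gmag u l H i| ≤ 1 := abs_gav_le u l H fun _ => (spin_abs _).le

/-- Gibbs averages after an insertion. -/
theorem gav_act (u : 𝒲 → Sh ι) (l : List (𝒲 × (ι → Fin N))) (H : Egy N) (τ : 𝒲 × (ι → Fin N))
    (f : (Fin N → Bool) → ℝ) : gav u l (H + addE u τ) f =
      gav u l H (fun σ => f σ * Real.exp (addE u τ σ)) /
        gav u l H fun σ => Real.exp (addE u τ σ) := by
  unfold gav
  simp only [gw_act]
  have h1 := sum_gw_pos u l H
  have h2 : 0 < ∑ σ, gw u l H σ * Real.exp (addE u τ σ) :=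
    Finset.sum_pos (fun σ _ => mul_pos (gw_pos u l H σ) (Real.exp_pos _)) Finset.univ_nonempty
  rw [div_div_div_cancel_right₀ h1.ne']
  congr 1
  exact Finset.sum_congr rfl fun σ _ => by ring

variable (u : 𝒲 → Sh ι) (M : ℝ) (hM : 0 ≤ M) (hu : ∀ w σ, |u w σ| ≤ M)

theorem exp_lam_one (l : List (𝒲 × (ι → Fin N))) (H : Egy N) :
    Real.exp ((sys N u M hM hu).lam (blk 1 l) H) = ∑ σ, gw u l H σ := by
  induction l generalizing H with
  | nil =>
    have h : 0 < ∑ σ : Fin N → Bool, Real.exp (H σ) :=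
      Finset.sum_pos (fun σ _ => Real.exp_pos _) Finset.univ_nonempty
    rw [blk_nil, Slots.lam_nil]
    change Real.exp (Real.log _) = _
    rw [Real.exp_log h]
    exact Finset.sum_congr rfl fun σ _ => by simp [gw]
  | cons τ l ih =>
    have h := (sys N u M hM hu).exp_lam_cons one_pos τ (blk 1 l) H
    rw [one_mul, one_mul, one_mul] at h
    rw [blk_cons, h, ih, ih, Finset.sum_congr rfl fun σ _ => gw_cons u τ l H σ,
      ← Finset.sum_div, Finset.sum_add_distrib]
    rfl

theorem av_one (l : List (𝒲 × (ι → Fin N))) (H : Egy N) (τ : 𝒲 × (ι → Fin N)) :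
    (sys N u M hM hu).av 1 (blk 1 l) τ H = gav u l H fun σ => Real.exp (addE u τ σ) := by
  unfold Slots.av Slots.val
  rw [one_mul, Real.exp_sub, exp_lam_one, exp_lam_one]
  unfold gav
  congr 1
  exact Finset.sum_congr rfl fun σ _ => gw_act u τ l H σ

/-- The characters. -/
noncomputable def chi (I : Finset ι) (s : ι → Fin N) (σ : Fin N → Bool) : ℝ :=
  ∏ j ∈ I, spin (σ (s j))

/-- Truncated correlations are controlled by the effect of an insertion. -/
theorem cov_le_diff (l : List (𝒲 × (ι → Fin N))) (H : Egy N) (τ τ' : 𝒲 × (ι → Fin N))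
    {f g : (Fin N → Bool) → ℝ} (hg : ∀ σ, |g σ| ≤ 1)
    (h1 : ∀ σ, Real.exp (addE u τ' σ) = 1 + (1 / 2) * f σ)
    (h2 : ∀ σ, Real.exp (addE u τ σ) = 1 + (1 / 2) * g σ) :
    |(gPE u l H).cov f g| ≤ 6 * |(sys N u M hM hu).av 1 (blk 1 l) τ' (H + addE u τ) -
      (sys N u M hM hu).av 1 (blk 1 l) τ' H| := by
  rw [av_one, av_one, gav_act]
  have e1 : gav u l H (fun σ => Real.exp (addE u τ σ)) = 1 + (1 / 2) * (gPE u l H).E g := by
    simp only [h2]
    rw [← gPE_E, PE.add, PE.const, PE.smul]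
  have e2 : gav u l H (fun σ => Real.exp (addE u τ' σ)) = 1 + (1 / 2) * (gPE u l H).E f := by
    simp only [h1]
    rw [← gPE_E, PE.add, PE.const, PE.smul]
  have e3 : gav u l H (fun σ => Real.exp (addE u τ' σ) * Real.exp (addE u τ σ)) =
      1 + (1 / 2) * (gPE u l H).E f + (1 / 2) * (gPE u l H).E g +
        (1 / 4) * (gPE u l H).E fun σ => f σ * g σ := by
    have : (fun σ => Real.exp (addE u τ' σ) * Real.exp (addE u τ σ)) =
        fun σ => ((1 + (1 / 2) * f σ) + (1 / 2) * g σ) + (1 / 4) * (f σ * g σ) := by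
      funext σ
      rw [h1, h2]
      ring
    rw [this, ← gPE_E, PE.add, PE.add, PE.add, PE.const, PE.smul, PE.smul, PE.smul]
  have hE := abs_le.1 (abs_gav_le u l H hg)
  rw [← gPE_E] at hE
  have hpos : 0 < 1 + (1 / 2) * (gPE u l H).E g := by linarith only [hE]
  rw [e1, e2, e3]
  have e4 : (1 + (1 / 2) * (gPE u l H).E f + (1 / 2) * (gPE u l H).E g +
        (1 / 4) * (gPE u l H).E fun σ => f σ * g σ) / (1 + (1 / 2) * (gPE u l H).E g) -
      (1 + (1 / 2) * (gPE u l H).E f) =
      (1 / 4) * (gPE u l H).cov f g / (1 + (1 / 2) * (gPE u l H).E g) := by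
    unfold PE.cov
    rw [div_sub' hpos.ne']
    congr 1
    ring
  rw [e4, abs_div, abs_mul, abs_of_pos hpos, abs_of_pos (show (0 : ℝ) < 1 / 4 by norm_num),
    mul_div_assoc', le_div_iff₀ hpos]
  have := abs_nonneg ((gPE u l H).cov f g)
  nlinarith only [hE, this]

/-- Mean error of the factorization of the correlation over `I`. -/
noncomputable def facErr (l : List (𝒲 × (ι → Fin N))) (H : Egy N) [NeZero N] (I : Finset ι) : ℝ :=
  aS fun s : ι → Fin N => |gav u l H (chi I s) - ∏ j ∈ I, gmag u l H (s j)|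

/-- Mean truncated correlation. -/
noncomputable def corErr (l : List (𝒲 × (ι → Fin N))) (H : Egy N) [NeZero N] (I : Finset ι)
    (a : ι) : ℝ :=
  aS fun s : ι → Fin N => aS fun s' : ι → Fin N =>
    |(gPE u l H).cov (chi I s) fun σ => spin (σ (s' a))|

theorem facErr_empty (l : List (𝒲 × (ι → Fin N))) (H : Egy N) [NeZero N] :
    facErr u l H ∅ = 0 := by
  unfold facErr
  have h : ∀ s : ι → Fin N, |gav u l H (chi ∅ s) - ∏ j ∈ (∅ : Finset ι), gmag u l H (s j)| = 0 := by
    intro s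
    have h1 : gav u l H (chi ∅ s) = 1 := by
      have : chi (N := N) (∅ : Finset ι) s = fun _ => 1 := by
        funext σ
        simp [chi]
      rw [this, ← gPE_E, PE.const]
    rw [h1, Finset.prod_empty, sub_self, abs_zero]
  simp only [h]
  exact PE.const _ _

theorem facErr_insert (l : List (𝒲 × (ι → Fin N))) (H : Egy N) [NeZero N] {I : Finset ι} {a : ι}
    (ha : a ∉ I) : facErr u l H (insert a I) ≤ facErr u l H I + corErr u l H I a := by
  have h1 : corErr u l H I a = aS fun s : ι → Fin N =>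
      |(gPE u l H).cov (chi I s) fun σ => spin (σ (s a))| := by
    unfold corErr
    refine aS_marg a (fun s i => |(gPE u l H).cov (chi I s) fun σ => spin (σ i)|) ?_
    intro s t i hst
    have : chi (N := N) I s = chi I t := by
      funext σ
      unfold chi
      refine Finset.prod_congr rfl fun j hj => ?_
      rw [hst j (fun h => ha (h ▸ hj))]
    simp only [this]
  rw [h1]
  unfold facErr aS
  rw [← PE.add]
  refine PE.mono _ fun s => ?_
  have e1 : gav u l H (chi (insert a I) s) = (gPE u l H).E fun σ => chi I s σ * spin (σ (s a)) := by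
    rw [gPE_E]
    congr 1
    funext σ
    unfold chi
    rw [Finset.prod_insert ha, mul_comm]
  have e2 : (gPE u l H).cov (chi I s) (fun σ => spin (σ (s a))) =
      gav u l H (chi (insert a I) s) - gav u l H (chi I s) * gmag u l H (s a) := by
    rw [e1]
    rfl
  rw [Finset.prod_insert ha]
  have e3 : gav u l H (chi (insert a I) s) - gmag u l H (s a) * ∏ j ∈ I, gmag u l H (s j) =
      (gav u l H (chi I s) - ∏ j ∈ I, gmag u l H (s j)) * gmag u l H (s a) +
        (gPE u l H).cov (chi I s) fun σ => spin (σ (s a)) := by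
    rw [e2]
    ring
  rw [e3]
  refine (abs_add_le _ _).trans (add_le_add_left ?_ _)
  rw [abs_mul]
  exact mul_le_of_le_one_right (abs_nonneg _) (abs_gmag_le u l H (s a))

include hu in
/-- The error of the multilinear formula for the value of the shape `w`. -/
theorem leaf_le (l : List (𝒲 × (ι → Fin N))) (H : Egy N) [NeZero N] (w : 𝒲) :
    (aS fun s : ι → Fin N => |gav u l H (fun σ => Real.exp (addE u (w, s) σ)) -
      mlin (fun σ => Real.exp (u w σ)) fun j => gmag u l H (s j)|) ≤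
      Real.exp M * ∑ I : Finset ι, facErr u l H I := by
  have hW : ∀ σ, |Real.exp (u w σ)| ≤ Real.exp M := fun σ => by
    rw [abs_of_pos (Real.exp_pos _)]
    exact Real.exp_le_exp.2 (abs_le.1 (hu w σ)).2
  unfold facErr aS
  rw [← PE.sum, ← PE.smul]
  refine PE.mono _ fun s => ?_
  have e1 : gav u l H (fun σ => Real.exp (addE u (w, s) σ)) =
      ∑ I : Finset ι, hatc (fun σ => Real.exp (u w σ)) I * gav u l H (chi I s) := by
    have : (fun σ => Real.exp (addE u (w, s) σ)) = fun σ => ∑ I : Finset ι,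
        hatc (fun σ => Real.exp (u w σ)) I * chi I s σ := by
      funext σ
      exact expand (fun σ => Real.exp (u w σ)) fun j => σ (s j)
    rw [this, ← gPE_E, PE.sum]
    exact Finset.sum_congr rfl fun I _ => PE.smul _ _ _
  rw [e1, mlin_expand, ← Finset.sum_sub_distrib, Finset.mul_sum]
  refine (Finset.abs_sum_le_sum_abs _ _).trans (Finset.sum_le_sum fun I _ => ?_)
  rw [← mul_sub, abs_mul]
  exact mul_le_mul_of_nonneg_right (abs_hatc_le hW I) (abs_nonneg _)

variable [Fintype 𝒲] [Nonempty 𝒲]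

/-- The average over one shape is controlled by the average over all shapes. -/
theorem aS_le_unif [NeZero N] (w : 𝒲) {F : 𝒲 × (ι → Fin N) → ℝ} (hF : ∀ τ, 0 ≤ F τ) :
    (aS fun s : ι → Fin N => F (w, s)) ≤
      Fintype.card 𝒲 * (PE.unif (𝒲 × (ι → Fin N))).E F := by
  unfold aS
  rw [PE.unif_E, PE.unif_E, Fintype.card_prod, Fintype.sum_prod_type]
  have h1 : (0 : ℝ) < Fintype.card 𝒲 := by exact_mod_cast Fintype.card_pos
  have h2 : (0 : ℝ) < Fintype.card (ι → Fin N) := by exact_mod_cast Fintype.card_pos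
  push_cast
  rw [mul_div_assoc', mul_div_mul_left _ _ h1.ne']
  refine div_le_div_of_nonneg_right ?_ h2.le
  exact Finset.single_le_sum (f := fun w => ∑ s : ι → Fin N, F (w, s))
    (fun w _ => Finset.sum_nonneg fun s _ => hF _) (Finset.mem_univ w)

/-- Joint law of the structure and of the node of the last level. -/
noncomputable def jointPE (θ : ℝ) (R n N : ℕ) [NeZero N] (H0 : Egy N) :
    PE (St R n (𝒲 × (ι → Fin N)) × Egy N) :=
  (PE.unif (St R n (𝒲 × (ι → Fin N)))).bind fun st =>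
    ((sys N u M hM hu).lawP θ st H0 R).map fun H => (st, H)

theorem cor_small {θ : ℝ} (h0 : 0 < θ) (h1 : θ < 1) (R n : ℕ) [NeZero N] (H0 : Egy N)
    (I : Finset ι) (a : ι)
    (hpur : ∀ I : Finset ι, ∃ w, ∀ σ : ι → Bool,
      u w σ = Real.log (1 + (1 / 2) * ∏ j ∈ I, spin (σ j))) :
    ((jointPE u M hM hu θ R n N H0).E fun x => corErr u (blkAt x.1 R).suf x.2 I a) ≤
      6 * Real.sqrt (Fintype.card 𝒲 * ((sys N u M hM hu).CM / (n + 1))) := by
  obtain ⟨wI, hwI⟩ := hpur I
  obtain ⟨wa, hwa⟩ := hpur {a}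
  set P := jointPE u M hM hu θ R n N H0 with hP
  set Δ : St R n (𝒲 × (ι → Fin N)) × Egy N → (ι → Fin N) → (ι → Fin N) → ℝ := fun x s s' =>
    ((sys N u M hM hu).chain θ x.1).a R ((sys N u M hM hu).act (wa, s') x.2) (wI, s) -
      ((sys N u M hM hu).chain θ x.1).a R x.2 (wI, s) with hΔ
  have hpow : pw θ R R = 1 := by unfold pw; rw [Nat.sub_self, pow_zero]
  have ha : ∀ (st : St R n (𝒲 × (ι → Fin N))) (H : Egy N) τ,
      ((sys N u M hM hu).chain θ st).a R H τ =
        (sys N u M hM hu).av 1 (blk 1 (blkAt st R).suf) τ H := by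
    intro st H τ
    change (sys N u M hM hu).av (pw θ R R) (remSlots θ st R) τ H = _
    unfold remSlots
    rw [hpow, rest_last, List.append_nil]
  have hexp : ∀ (J : Finset ι) (w : 𝒲), (∀ σ : ι → Bool,
      u w σ = Real.log (1 + (1 / 2) * ∏ j ∈ J, spin (σ j))) → ∀ (s : ι → Fin N) σ,
      Real.exp (addE u (w, s) σ) = 1 + (1 / 2) * chi J s σ := by
    intro J w hw s σ
    unfold addE
    dsimp only
    rw [hw, Real.exp_log]
    · rfl
    · have := abs_le.1 (abs_prod_spin J fun j => σ (s j)).le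
      linarith only [this]
  have hcor : ∀ x, corErr u (blkAt x.1 R).suf x.2 I a ≤
      6 * aS fun s : ι → Fin N => aS fun s' : ι → Fin N => |Δ x s s'| := by
    intro x
    unfold corErr
    unfold aS
    rw [← PE.smul]
    refine PE.mono _ fun s => ?_
    rw [← PE.smul]
    refine PE.mono _ fun s' => ?_
    rw [hΔ]
    dsimp only
    rw [ha, ha]
    refine cov_le_diff u M hM hu (blkAt x.1 R).suf x.2 (wa, s') (wI, s)
      (fun σ => (spin_abs _).le) (hexp I wI hwI s) fun σ => ?_
    rw [hexp {a} wa hwa s' σ]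
    simp [chi]
  refine (P.mono hcor).trans ?_
  rw [P.smul]
  refine mul_le_mul_of_nonneg_left ?_ (by norm_num)
  set Q := P.bind fun x => (PE.unif (ι → Fin N)).bind fun s =>
    (PE.unif (ι → Fin N)).map fun s' => (x, s, s') with hQ
  have hQ1 := Q.abs_le_sqrt fun y => Δ y.1 y.2.1 y.2.2
  refine hQ1.trans (Real.sqrt_le_sqrt ?_)
  change (P.E fun x => (PE.unif (ι → Fin N)).E fun s => (PE.unif (ι → Fin N)).E fun s' =>
    Δ x s s' ^ 2) ≤ _
  rw [PE.comm_unif]
  refine PE.le_const _ fun s => ?_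
  have h3 := (sys N u M hM hu).chain_M_avg (n := n) (R := R) h0 h1 H0 (wI, s)
  have h4 : (P.E fun x => (PE.unif (ι → Fin N)).E fun s' => Δ x s s' ^ 2) ≤
      P.E fun x => Fintype.card 𝒲 * (PE.unif (𝒲 × (ι → Fin N))).E fun τ =>
        (((sys N u M hM hu).chain θ x.1).a R ((sys N u M hM hu).act τ x.2) (wI, s) -
          ((sys N u M hM hu).chain θ x.1).a R x.2 (wI, s)) ^ 2 := by
    refine P.mono fun x => ?_
    exact aS_le_unif (F := fun τ =>
      (((sys N u M hM hu).chain θ x.1).a R ((sys N u M hM hu).act τ x.2) (wI, s) -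
          ((sys N u M hM hu).chain θ x.1).a R x.2 (wI, s)) ^ 2) wa fun τ => sq_nonneg _
  refine h4.trans ?_
  rw [P.smul]
  exact mul_le_mul_of_nonneg_left h3 (Nat.cast_nonneg _)

/-- PURITY of the last level of a random structure. -/
theorem purity (hpur : ∀ I : Finset ι, ∃ w, ∀ σ : ι → Bool,
      u w σ = Real.log (1 + (1 / 2) * ∏ j ∈ I, spin (σ j))) :
    ∃ C : ℝ, 0 ≤ C ∧ ∀ (N : ℕ) [NeZero N] (R n : ℕ) (θ : ℝ), 0 < θ → θ < 1 → ∀ H0 : Egy N,
      ((PE.unif (St R n (𝒲 × (ι → Fin N)))).E fun st =>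
        ((sys N u M hM hu).lawP θ st H0 R).E fun H => ∑ w,
          ((sys N u M hM hu).chain θ st).leafErr (fun w σ => Real.exp (u w σ))
            (fun H i => gmag u (blkAt st R).suf H i) R H w) ≤ C / Real.sqrt (n + 1) := by
  set CM0 : ℝ := Real.exp (4 * M) * (1 + Real.exp M) ^ 6 with hCM0
  refine ⟨Fintype.card 𝒲 * (Real.exp M * (Fintype.card (Finset ι) * (Fintype.card ι *
    (6 * Real.sqrt (Fintype.card 𝒲 * CM0))))), by positivity, ?_⟩
  intro N _ R n θ h0 h1 H0
  have hn : (0 : ℝ) < n + 1 := by positivity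
  set B : ℝ := 6 * Real.sqrt (Fintype.card 𝒲 * ((sys N u M hM hu).CM / (n + 1))) with hB
  have hB0 : 0 ≤ B := by (clear * - hM hu; positivity)
  have hBe : B = 6 * Real.sqrt (Fintype.card 𝒲 * CM0) / Real.sqrt (n + 1) := by
    have : (Fintype.card 𝒲 : ℝ) * ((sys N u M hM hu).CM / (n + 1)) =
        (Fintype.card 𝒲 * CM0) / (n + 1) := by
      rw [mul_div_assoc]
      rfl
    rw [hB, this, Real.sqrt_div (by positivity), mul_div_assoc]
  set P := jointPE u M hM hu θ R n N H0 with hP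
  have hfac : ∀ I : Finset ι, (P.E fun x => facErr u (blkAt x.1 R).suf x.2 I) ≤ I.card * B := by
    intro I
    induction I using Finset.induction_on with
    | empty =>
      simp only [facErr_empty]
      rw [PE.const]
      simp
    | insert a I ha ih =>
      refine (P.mono fun x => facErr_insert u (blkAt x.1 R).suf x.2 ha).trans ?_
      rw [P.add, Finset.card_insert_of_notMem ha]
      have h2 := cor_small u M hM hu h0 h1 R n H0 I a hpur
      push_cast
      (clear CM0 hCM0 hn hB hB0 hBe hP ha; linarith)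
  have hpow : pw θ R R = 1 := by unfold pw; rw [Nat.sub_self, pow_zero]
  have hleaf : ∀ (x : St R n (𝒲 × (ι → Fin N)) × Egy N) (w : 𝒲),
      ((sys N u M hM hu).chain θ x.1).leafErr (fun w σ => Real.exp (u w σ))
            (fun H i => gmag u (blkAt x.1 R).suf H i) R x.2 w ≤
        Real.exp M * ∑ I : Finset ι, facErr u (blkAt x.1 R).suf x.2 I := by
    intro x w
    refine le_trans (le_of_eq ?_) (leaf_le u M hu (blkAt x.1 R).suf x.2 w)
    unfold Chain.leafErr
    congr 1
    funext s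
    congr 2
    change (sys N u M hM hu).av (pw θ R R) (remSlots θ x.1 R) (w, s) x.2 = _
    unfold remSlots
    rw [hpow, rest_last, List.append_nil, av_one]
  change (P.E fun x => ∑ w, ((sys N u M hM hu).chain θ x.1).leafErr
    (fun w σ => Real.exp (u w σ)) (fun H i => gmag u (blkAt x.1 R).suf H i) R x.2 w) ≤ _
  rw [P.sum]
  have h3 : ∀ w : 𝒲, (P.E fun x => ((sys N u M hM hu).chain θ x.1).leafErr
      (fun w σ => Real.exp (u w σ)) (fun H i => gmag u (blkAt x.1 R).suf H i) R x.2 w) ≤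
      Real.exp M * (Fintype.card (Finset ι) * (Fintype.card ι * B)) := by
    intro w
    refine (P.mono fun x => hleaf x w).trans ?_
    rw [P.smul, P.sum]
    refine mul_le_mul_of_nonneg_left ?_ (Real.exp_pos _).le
    refine (Finset.sum_le_card_nsmul _ _ (Fintype.card ι * B) fun I _ => ?_).trans (le_of_eq ?_)
    · refine (hfac I).trans (mul_le_mul_of_nonneg_right ?_ hB0)
      exact_mod_cast Finset.card_le_univ I
    · rw [nsmul_eq_mul, Finset.card_univ]
  refine (Finset.sum_le_card_nsmul _ _ _ fun w _ => h3 w).trans (le_of_eq ?_)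
  rw [nsmul_eq_mul, Finset.card_univ, hBe]
  ring

/-- The value of the trial data on the log shape `v`. -/
noncomputable def valMP {R N : ℕ} [NeZero N] (θ : ℝ) (data : Chain.Data R (Fin N)) {κ : Type}
    [Fintype κ] [DecidableEq κ] (v : Sh κ) : ℝ :=
  (1 / θ ^ R) * aS fun s : κ → Fin N =>
    Real.log (betaRec θ R data.1 (Chain.leafF (fun σ => Real.exp (v σ)) data.2) s)

/-- The slot functional `E log X_L` for a uniform structure. -/
noncomputable def PhiN (θ : ℝ) (R n : ℕ) (N : ℕ) [NeZero N] (H : Egy N) : ℝ :=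
  (PE.unif (St R n (𝒲 × (ι → Fin N)))).E fun st => (sys N u M hM hu).lam (allSlots θ st) H

end Sys

end Vale.Agent.P168.MP
end
end

section

section

set_option autoImplicit false
set_option linter.unusedSectionVars false

open Finset

namespace Vale.Agent.P168.MP

namespace PE

variable {α β : Type} (P : PE α)

theorem cov_unif_right [Fintype β] [Nonempty β] (f : α → ℝ) (g : β → α → ℝ) :
    P.cov f (fun x => (unif β).E fun b => g b x) = (unif β).E fun b => P.cov f (g b) := by
  unfold cov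
  rw [(unif β).sub, (unif β).smul, P.comm_unif (fun x b => g b x)]
  congr 1
  rw [← P.comm_unif (fun x b => f x * g b x)]
  congr 1
  funext x
  rw [(unif β).smul]

end PE

/-- elementary quadratic inequality -/
theorem le_sqrt_add_of_sq_le {v e D : ℝ} (he : 0 ≤ e) (hD : 0 ≤ D) (h : v ^ 2 ≤ e + v * D) :
    v ≤ Real.sqrt e + D := by
  by_contra hc
  push Not at hc
  have h1 := Real.sqrt_nonneg e
  have h2 := Real.sq_sqrt he
  nlinarith only [h, h2, hc, h1, hD]

theorem rpow_bounds {c u δ : ℝ} (hc : 0 < c) (hc1 : c ≤ 1) (hu : c ≤ u) (hu' : u ≤ c⁻¹)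
    (h0 : 0 ≤ δ) (h1 : δ ≤ 1) :
    1 - δ * (c⁻¹ - 1) ≤ u ^ (-δ) ∧ u ^ (-δ) ≤ 1 + δ * (c⁻¹ - 1) := by
  have hci : 1 ≤ c⁻¹ := (one_le_inv₀ hc).mpr hc1
  have hB : (c⁻¹) ^ δ ≤ 1 + δ * (c⁻¹ - 1) := by
    have := rpow_one_add_le_one_add_mul_self (s := c⁻¹ - 1) (by linarith only [hc, hu, hu']) h0 h1
    simpa using this
  have hupos : 0 < u := hc.trans_le hu
  constructor
  · have h2 : u ^ δ ≤ (c⁻¹) ^ δ := Real.rpow_le_rpow hupos.le hu' h0
    have h3 : 0 < u ^ δ := Real.rpow_pos_of_pos hupos δ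
    rw [Real.rpow_neg hupos.le]
    have h4 : 0 ≤ δ * (c⁻¹ - 1) := mul_nonneg h0 (by linarith only [hci])
    have h5 : (1 + δ * (c⁻¹ - 1))⁻¹ ≤ (u ^ δ)⁻¹ := by
      apply inv_anti₀ h3
      linarith only [hB, h2]
    refine le_trans ?_ h5
    generalize δ * (c⁻¹ - 1) = t at h4
    rw [inv_eq_one_div, le_div_iff₀ (by linarith only [h4])]
    nlinarith only [h4]
  · have h2 : u ^ (-δ) ≤ c ^ (-δ) := by
      rw [Real.rpow_neg hupos.le, Real.rpow_neg hc.le]
      exact inv_anti₀ (Real.rpow_pos_of_pos hc δ) (Real.rpow_le_rpow hc.le hu h0)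
    refine h2.trans ?_
    rw [Real.rpow_neg hc.le, ← Real.inv_rpow hc.le]
    exact hB

/-- the map `u ↦ u - u ^ θ` is Lipschitz with constant `c⁻¹ (1 - θ)` -/
theorem sub_rpow_lip {θ c u v : ℝ} (h0 : 0 < θ) (h1 : θ < 1) (hc : 0 < c) (hc1 : c ≤ 1)
    (hu : c ≤ u) (hu' : u ≤ c⁻¹) (hv : c ≤ v) (hv' : v ≤ c⁻¹) :
    |(u - u ^ θ) - (v - v ^ θ)| ≤ c⁻¹ * (1 - θ) * |u - v| := by
  have hci : 1 ≤ c⁻¹ := (one_le_inv₀ hc).mpr hc1
  have key := Convex.norm_image_sub_le_of_norm_hasDerivWithin_le (𝕜 := ℝ)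
    (f := fun x : ℝ => x - x ^ θ) (f' := fun x => 1 - θ * x ^ (θ - 1)) (C := c⁻¹ * (1 - θ))
    (s := Set.Icc c c⁻¹) (x := v) (y := u) ?_ ?_ (convex_Icc _ _) ⟨hv, hv'⟩ ⟨hu, hu'⟩
  · simpa only [ge_iff_le, Real.norm_eq_abs] using key
  · intro x hx
    have hx0 : x ≠ 0 := (hc.trans_le hx.1).ne'
    exact ((hasDerivAt_id x).sub (Real.hasDerivAt_rpow_const (Or.inl hx0))).hasDerivWithinAt
  · intro x hx
    obtain ⟨b1, b2⟩ := rpow_bounds (δ := 1 - θ) hc hc1 hx.1 hx.2 (by linarith only [h1]) (by linarith)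
    have e : -(1 - θ) = θ - 1 := by ring
    rw [e] at b1 b2
    rw [Real.norm_eq_abs, abs_le]
    constructor
    · nlinarith only [b2, h0, h1, b1]
    · nlinarith only [b1, h0, h1, b2]

namespace PE

variable {α β : Type}

/-- law of the pair (intermediate state, final state) -/
def pairPE (κ : PE α) (ρ : α → PE α) : PE (α × α) := κ.bind fun y => (ρ y).map fun z => (y, z)

theorem pairPE_E (κ : PE α) (ρ : α → PE α) (F : α × α → ℝ) :
    (pairPE κ ρ).E F = κ.E fun y => (ρ y).E fun z => F (y, z) := rfl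

/-- Conditional variance computation: for `h y = E_y f` the function
`f(z) - f(z) h(y)^(θ - 1)` has small standard deviation. -/
theorem sd_sub_le {θ c : ℝ} (h0 : 0 < θ) (h1 : θ < 1) (hc : 0 < c) (hc1 : c ≤ 1)
    (κ : PE α) (ρ : α → PE α) {f : α → ℝ} (hf : ∀ x, c ≤ f x) (hf' : ∀ x, f x ≤ c⁻¹) :
    (pairPE κ ρ).sd (fun u => f u.2 - f u.2 * ((ρ u.1).E f) ^ (θ - 1)) ≤
      c⁻¹ * (1 - θ) * (pairPE κ ρ).sd (fun u => f u.2) := by
  have hci : 1 ≤ c⁻¹ := (one_le_inv₀ hc).mpr hc1
  set L : ℝ := c⁻¹ * (1 - θ) with hL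
  have hL0 : 0 ≤ L := mul_nonneg (by linarith only [hci]) (by linarith)
  set h : α → ℝ := fun y => (ρ y).E f with hh
  have hlo : ∀ y, c ≤ h y := fun y => (ρ y).const_le hf
  have hhi : ∀ y, h y ≤ c⁻¹ := fun y => (ρ y).le_const hf'
  set g : α → ℝ := fun y => 1 - h y ^ (θ - 1) with hg
  have hgL : ∀ y, |g y| ≤ L := by
    intro y
    obtain ⟨b1, b2⟩ := rpow_bounds (δ := 1 - θ) hc hc1 (hlo y) (hhi y) (by linarith) (by linarith)
    have e : -(1 - θ) = θ - 1 := by ring
    rw [e] at b1 b2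
    rw [_root_.abs_le, hg, hL]
    constructor <;> nlinarith only [h1, b1, b2]
  have hvar : (pairPE κ ρ).var (fun u => f u.2 - f u.2 * ((ρ u.1).E f) ^ (θ - 1)) ≤
      L ^ 2 * (pairPE κ ρ).var (fun u => f u.2) := by
    have e1 : (fun u : α × α => f u.2 - f u.2 * ((ρ u.1).E f) ^ (θ - 1)) =
        fun u => g u.1 * f u.2 := by
      funext u
      simp only [hg, hh]
      ring
    rw [e1]
    have e2 : (pairPE κ ρ).E (fun u => (g u.1 * f u.2) ^ 2) =
        κ.E fun y => g y ^ 2 * (ρ y).E fun z => f z ^ 2 := by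
      rw [pairPE_E]
      congr 1
      funext y
      rw [← (ρ y).smul]
      congr 1
      funext z
      ring
    have e3 : (pairPE κ ρ).E (fun u => g u.1 * f u.2) = κ.E fun y => g y * h y := by
      rw [pairPE_E]
      congr 1
      funext y
      exact (ρ y).smul (g y) f
    have e4 : (pairPE κ ρ).E (fun u => f u.2 ^ 2) = κ.E fun y => (ρ y).E fun z => f z ^ 2 := rfl
    have e5 : (pairPE κ ρ).E (fun u => f u.2) = κ.E h := rfl
    unfold var
    rw [e2, e3, e4, e5]
    have s1 : (κ.E fun y => g y ^ 2 * (ρ y).E fun z => f z ^ 2) ≤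
        L ^ 2 * ((κ.E fun y => (ρ y).E fun z => f z ^ 2) - κ.E fun y => h y ^ 2) +
          κ.E fun y => (g y * h y) ^ 2 := by
      rw [← κ.sub, ← κ.smul, ← κ.add]
      refine κ.mono fun y => ?_
      have hv : 0 ≤ ((ρ y).E fun z => f z ^ 2) - h y ^ 2 := (ρ y).var_nonneg f
      have hg2 : g y ^ 2 ≤ L ^ 2 := by
        rw [← sq_abs (g y)]
        exact pow_le_pow_left₀ (abs_nonneg _) (hgL y) 2
      nlinarith only [hg2, hv]
    have s2 : (κ.E fun y => (g y * h y) ^ 2) - (κ.E fun y => g y * h y) ^ 2 ≤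
        L ^ 2 * ((κ.E fun y => h y ^ 2) - κ.E h ^ 2) := by
      have m1 : c ≤ κ.E h := κ.const_le hlo
      have m2 : κ.E h ≤ c⁻¹ := κ.le_const hhi
      have hψ : ∀ y, g y * h y = h y - h y ^ θ := by
        intro y
        have hy : 0 < h y := hc.trans_le (hlo y)
        have : h y ^ θ = h y ^ (θ - 1) * h y := by
          rw [← Real.rpow_add_one hy.ne']
          congr 1
          ring
        rw [this, hg]
        ring
      have := κ.var_le (fun y => g y * h y) (κ.E h - (κ.E h) ^ θ)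
      have t1 : (κ.E fun y => (g y * h y - (κ.E h - (κ.E h) ^ θ)) ^ 2) ≤
          L ^ 2 * κ.E fun y => (h y - κ.E h) ^ 2 := by
        rw [← κ.smul]
        refine κ.mono fun y => ?_
        rw [hψ y]
        have := sub_rpow_lip h0 h1 hc hc1 (hlo y) (hhi y) m1 m2
        rw [← hL] at this
        have h2 := pow_le_pow_left₀ (abs_nonneg _) this 2
        rw [sq_abs, mul_pow, sq_abs] at h2
        exact h2
      have t2 := κ.var_eq h
      unfold var at this t2
      rw [← t2] at t1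
      exact this.trans t1
    linarith
  unfold sd
  calc Real.sqrt ((pairPE κ ρ).var (fun u => f u.2 - f u.2 * ((ρ u.1).E f) ^ (θ - 1)))
      ≤ Real.sqrt (L ^ 2 * (pairPE κ ρ).var (fun u => f u.2)) := Real.sqrt_le_sqrt hvar
    _ = L * Real.sqrt ((pairPE κ ρ).var (fun u => f u.2)) := by
        rw [Real.sqrt_mul (sq_nonneg L), Real.sqrt_sq hL0]

/-- Bound for the standard deviation of an average: `b ↦ f b` are the summands, `g b` are
approximations of them for which the covariances are small. -/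
theorem sd_avg_le [Fintype β] [Nonempty β] (P : PE α) (χ : β → ℝ) (hχ : ∀ b, 0 ≤ χ b)
    (f g : β → α → ℝ) (D : β → ℝ) (hD : ∀ b, P.sd (fun x => f b x - g b x) ≤ D b) :
    P.sd (fun x => (unif β).E fun b => χ b * f b x) ≤
      Real.sqrt ((unif β).E fun b => χ b * (unif β).E fun b' => χ b' * |P.cov (f b') (g b)|) +
        (unif β).E fun b => χ b * D b := by
  have hD0 : ∀ b, 0 ≤ D b := fun b => (P.sd_nonneg _).trans (hD b)
  refine le_sqrt_add_of_sq_le ?_ ?_ ?_
  · exact (unif β).nonneg fun b => mul_nonneg (hχ b)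
      ((unif β).nonneg fun b' => mul_nonneg (hχ b') (abs_nonneg _))
  · exact (unif β).nonneg fun b => mul_nonneg (hχ b) (hD0 b)
  · rw [sd_sq, ← cov_self]
    set X : α → ℝ := fun x => (unif β).E fun b => χ b * f b x with hX
    have h1 : P.cov X X = (unif β).E fun b => χ b * P.cov X (f b) := by
      conv_lhs => rw [show P.cov X X = P.cov X (fun x => (unif β).E fun b => χ b * f b x) from rfl]
      rw [cov_unif_right]
      congr 1
      funext b
      rw [cov_smul_right]
    rw [h1, ← (unif β).smul, ← (unif β).add]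
    refine (unif β).mono fun b => ?_
    have h2 : P.cov X (f b) = P.cov X (g b) + P.cov X (fun x => f b x - g b x) := by
      rw [← cov_add_right]
      congr 1
      funext x
      ring
    have h3 : P.cov X (g b) ≤ (unif β).E fun b' => χ b' * |P.cov (f b') (g b)| := by
      rw [cov_comm, hX, cov_unif_right]
      refine (unif β).mono fun b' => ?_
      rw [cov_smul_right, cov_comm]
      exact mul_le_mul_of_nonneg_left (le_abs_self _) (hχ b')
    have h4 : P.cov X (fun x => f b x - g b x) ≤ P.sd X * D b :=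
      (le_abs_self _).trans ((P.abs_cov_le _ _).trans
        (mul_le_mul_of_nonneg_left (hD b) (P.sd_nonneg _)))
    rw [h2]
    have h5 : P.cov X (g b) + P.cov X (fun x => f b x - g b x) ≤
        ((unif β).E fun b' => χ b' * |P.cov (f b') (g b)|) + P.sd X * D b := add_le_add h3 h4
    calc χ b * (P.cov X (g b) + P.cov X (fun x => f b x - g b x))
        ≤ χ b * (((unif β).E fun b' => χ b' * |P.cov (f b') (g b)|) + P.sd X * D b) :=
          mul_le_mul_of_nonneg_left h5 (hχ b)
      _ = _ := by ring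

end PE

section core

variable {α S ι : Type} [Fintype S] [Nonempty S] [Fintype ι] [DecidableEq ι]

theorem cellAvg_sub (Q : S → ℕ) (f g : (ι → S) → ℝ) (s : ι → S) :
    cellAvg Q (fun t => f t - g t) s = cellAvg Q f s - cellAvg Q g s :=
  (cellPE Q s).sub f g

/-- Claim C, abstract form. -/
theorem claimC_core (P : PE α) (f g : (ι → S) → α → ℝ) {K : ℝ}
    (hD : ∀ s, P.sd (fun x => f s x - g s x) ≤ K * P.sd (f s)) (Q : S → ℕ) {Λ : ℕ}
    (hQ : nlab Q ≤ Λ) :
    P.E (fun x => aS fun s : ι → S =>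
      |cellAvg Q (fun t => f t x) s - cellAvg Q (fun t => P.E (f t)) s|) ≤
      Real.sqrt ((Λ : ℝ) ^ Fintype.card ι) *
        Real.sqrt (aS fun s : ι → S => aS fun s' : ι → S => |P.cov (f s') (g s)|) +
      K * aS fun s : ι → S => P.sd (f s) := by
  classical
  set Z := univ.image (fun s : ι → S => Q ∘ s) with hZ
  let χ : (ι → ℕ) → (ι → S) → ℝ := fun ζ s => if Q ∘ s = ζ then 1 else 0
  have hχ0 : ∀ ζ s, 0 ≤ χ ζ s := fun ζ s => by
    simp only [χ]; split_ifs <;> norm_num
  have hχ1 : ∀ ζ s, χ ζ s ≤ 1 := fun ζ s => by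
    simp only [χ]; split_ifs <;> norm_num
  have hχm : ∀ ζ (s : ι → S) (a : ℝ), (if Q ∘ s = ζ then a else 0) = χ ζ s * a := by
    intro ζ s a
    simp only [χ]; split_ifs <;> simp
  have hsplit : ∀ F : (ι → S) → ℝ, ∑ ζ ∈ Z, aS (fun s => χ ζ s * F s) = aS F := by
    intro F
    rw [aS_eq_sum_cells Q F]
    refine Finset.sum_congr rfl fun ζ _ => ?_
    congr 1
    funext s
    rw [hχm]
  -- the fluctuations of the cells
  have h1 : ∀ x, (aS fun s : ι → S =>
      |cellAvg Q (fun t => f t x) s - cellAvg Q (fun t => P.E (f t)) s|) =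
      ∑ ζ ∈ Z, |(aS fun s => χ ζ s * f s x) - P.E fun x => aS fun s => χ ζ s * f s x| := by
    intro x
    have e1 : (fun s : ι → S =>
        |cellAvg Q (fun t => f t x) s - cellAvg Q (fun t => P.E (f t)) s|) =
        fun s => |cellAvg Q (fun t => f t x - P.E (f t)) s| := by
      funext s
      rw [cellAvg_sub]
    rw [e1, aS_abs_cellAvg_eq]
    refine Finset.sum_congr rfl fun ζ _ => ?_
    have e2 : (P.E fun x => aS fun s => χ ζ s * f s x) = aS fun s => χ ζ s * P.E (f s) := by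
      unfold aS
      rw [P.comm_unif (fun x s => χ ζ s * f s x)]
      congr 1
      funext s
      rw [P.smul]
    rw [e2]
    congr 1
    rw [← (PE.unif (ι → S)).sub]
    congr 1
    funext s
    rw [hχm]
    ring
  have h2 : P.E (fun x => aS fun s : ι → S =>
      |cellAvg Q (fun t => f t x) s - cellAvg Q (fun t => P.E (f t)) s|) ≤
      ∑ ζ ∈ Z, P.sd (fun x => aS fun s => χ ζ s * f s x) := by
    have e : (fun x => aS fun s : ι → S =>
      |cellAvg Q (fun t => f t x) s - cellAvg Q (fun t => P.E (f t)) s|) =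
      fun x => ∑ ζ ∈ Z, |(aS fun s => χ ζ s * f s x) - P.E fun x => aS fun s => χ ζ s * f s x| :=
      funext h1
    rw [e, P.sum]
    exact Finset.sum_le_sum fun ζ _ => P.abs_dev_le_sd _
  refine h2.trans ?_
  set e : (ι → ℕ) → ℝ := fun ζ =>
    aS fun s => χ ζ s * aS fun s' => χ ζ s' * |P.cov (f s') (g s)| with he
  have he0 : ∀ ζ, 0 ≤ e ζ := fun ζ => PE.nonneg _ fun s => mul_nonneg (hχ0 _ _)
    (PE.nonneg _ fun s' => mul_nonneg (hχ0 _ _) (abs_nonneg _))
  have h3 : ∀ ζ ∈ Z, P.sd (fun x => aS fun s => χ ζ s * f s x) ≤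
      Real.sqrt (e ζ) + aS fun s => χ ζ s * (K * P.sd (f s)) := fun ζ _ =>
    PE.sd_avg_le P (χ ζ) (hχ0 ζ) f g (fun s => K * P.sd (f s)) hD
  refine (Finset.sum_le_sum h3).trans ?_
  rw [Finset.sum_add_distrib, hsplit]
  have h4 : (aS fun s : ι → S => K * P.sd (f s)) = K * aS fun s : ι → S => P.sd (f s) :=
    PE.smul _ _ _
  rw [h4]
  refine add_le_add ?_ le_rfl
  -- Cauchy-Schwarz
  have h5 : ∑ ζ ∈ Z, Real.sqrt (e ζ) ≤ Real.sqrt (Z.card * ∑ ζ ∈ Z, e ζ) := by
    apply Real.le_sqrt_of_sq_le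
    have := sq_sum_le_card_mul_sum_sq (s := Z) (f := fun ζ => Real.sqrt (e ζ))
    refine this.trans (le_of_eq ?_)
    congr 1
    exact Finset.sum_congr rfl fun ζ _ => Real.sq_sqrt (he0 ζ)
  have h6 : ∑ ζ ∈ Z, e ζ ≤ aS fun s : ι → S => aS fun s' : ι → S => |P.cov (f s') (g s)| := by
    rw [← hsplit (fun s => aS fun s' : ι → S => |P.cov (f s') (g s)|)]
    refine Finset.sum_le_sum fun ζ _ => PE.mono _ fun s => mul_le_mul_of_nonneg_left ?_ (hχ0 _ _)
    refine PE.mono _ fun s' => ?_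
    exact mul_le_of_le_one_left (abs_nonneg _) (hχ1 _ _)
  have h7 : (Z.card : ℝ) ≤ (Λ : ℝ) ^ Fintype.card ι := by
    have := card_cells_le (ι := ι) Q
    calc (Z.card : ℝ) ≤ ((nlab Q ^ Fintype.card ι : ℕ) : ℝ) := by exact_mod_cast this
      _ = (nlab Q : ℝ) ^ Fintype.card ι := by push_cast; rfl
      _ ≤ (Λ : ℝ) ^ Fintype.card ι := by
        (clear * - hQ; gcongr)
  refine h5.trans ?_
  rw [← Real.sqrt_mul (by (clear * -; positivity))]
  exact Real.sqrt_le_sqrt (mul_le_mul h7 h6 (Finset.sum_nonneg fun ζ _ => he0 ζ) (by (clear * -; positivity)))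

end core

namespace Chain

section Sites

variable {𝒩 S ι 𝒲 : Type} [Fintype S] [Nonempty S] [Fintype ι] [DecidableEq ι]
  [Fintype 𝒲] [Nonempty 𝒲] {θ c : ℝ} {R : ℕ}

theorem claimC {C : Chain 𝒩 (𝒲 × (ι → S))} (h : C.Ok θ c R) {p : ℕ} (hp : p < R) (x : 𝒩) (w : 𝒲)
    (Q : S → ℕ) {Λ : ℕ} (hQ : nlab Q ≤ Λ) :
    (C.step p x).E (fun z => aS fun s : ι → S =>
      |cellAvg Q (fun t => C.a (p + 1) z (w, t)) s - cellAvg Q (fun t => C.A p x (w, t)) s|) ≤
    c⁻¹ ^ 3 * Real.sqrt ((Λ : ℝ) ^ Fintype.card ι) * Real.sqrt (C.Iav θ p x w) +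
      c⁻¹ ^ 3 * (1 - θ) * aS fun s : ι → S => Real.sqrt (C.vr p x (w, s)) := by
  have hci : 1 ≤ c⁻¹ := (one_le_inv₀ h.c_pos).mpr h.c_le
  have hθ : 0 ≤ 1 - θ := by linarith only [h.θ_lt]
  have key := claimC_core (C.two p x) (fun (s : ι → S) (u : 𝒩 × 𝒩) => C.a (p + 1) u.2 (w, s))
    (fun s u => C.a (p + 1) u.2 (w, s) * (C.hat p u.1 (w, s)) ^ (θ - 1))
    (K := c⁻¹ * (1 - θ))
    (fun s => PE.sd_sub_le h.θ_pos h.θ_lt h.c_pos h.c_le (C.κ p x) (C.ρ p)
      (f := fun z => C.a (p + 1) z (w, s)) (fun z => h.lo _ hp z _) (fun z => h.hi _ hp z _)) Q hQ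
  refine (show (C.step p x).E (fun z => aS fun s : ι → S =>
      |cellAvg Q (fun t => C.a (p + 1) z (w, t)) s - cellAvg Q (fun t => C.A p x (w, t)) s|) ≤ _
      from key).trans ?_
  have hI : 0 ≤ Real.sqrt ((Λ : ℝ) ^ Fintype.card ι) * Real.sqrt (C.Iav θ p x w) := by positivity
  have e1 : Real.sqrt ((Λ : ℝ) ^ Fintype.card ι) * Real.sqrt (aS fun s : ι → S =>
      aS fun s' : ι → S => |(C.two p x).cov (fun u : 𝒩 × 𝒩 => C.a (p + 1) u.2 (w, s'))
        (fun u => C.a (p + 1) u.2 (w, s) * (C.hat p u.1 (w, s)) ^ (θ - 1))|) =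
      Real.sqrt ((Λ : ℝ) ^ Fintype.card ι) * Real.sqrt (C.Iav θ p x w) := rfl
  have e2 : (aS fun s : ι → S => (C.two p x).sd (fun u : 𝒩 × 𝒩 => C.a (p + 1) u.2 (w, s))) =
      aS fun s : ι → S => Real.sqrt (C.vr p x (w, s)) := rfl
  rw [e1, e2]
  have hV : 0 ≤ aS fun s : ι → S => Real.sqrt (C.vr p x (w, s)) :=
    PE.nonneg _ fun s => Real.sqrt_nonneg _
  have c3 : (1 : ℝ) ≤ c⁻¹ ^ 3 := one_le_pow₀ hci
  have c31 : c⁻¹ ≤ c⁻¹ ^ 3 := by
    calc c⁻¹ = c⁻¹ ^ 1 := (pow_one _).symm
      _ ≤ c⁻¹ ^ 3 := pow_le_pow_right₀ hci (by norm_num)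
  refine add_le_add ?_ ?_
  · rw [mul_assoc]
    exact le_mul_of_one_le_left hI c3
  · exact mul_le_mul_of_nonneg_right (mul_le_mul_of_nonneg_right c31 hθ) hV

theorem er_nonneg {C : Chain 𝒩 (𝒲 × (ι → S))} (W : 𝒲 → (ι → Bool) → ℝ) (xh : 𝒩 → S → ℝ)
    (hc : 0 < c) {η d : ℝ} (hη : 0 ≤ η) (hd : 0 ≤ d) (j : ℕ) (x : 𝒩) :
    0 ≤ C.er W xh R c η d j x := by
  induction j generalizing x with
  | zero =>
    exact add_nonneg (Finset.sum_nonneg fun w _ => PE.nonneg _ fun s => abs_nonneg _) hd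
  | succ j ih =>
    exact mul_nonneg (inv_pos.mpr hc).le (add_nonneg (PE.nonneg _ ih) (by linarith))

/-- Total error from the level `R - j` on. -/
noncomputable def tot (C : Chain 𝒩 (𝒲 × (ι → S))) (W : 𝒲 → (ι → Bool) → ℝ) (xh : 𝒩 → S → ℝ)
    (R : ℕ) (θ c η d : ℝ) (Λ : ℕ) (j : ℕ) : 𝒩 → 𝒲 → ℝ :=
  Nat.rec (motive := fun _ => 𝒩 → 𝒲 → ℝ) (C.leafErr W xh R)
    (fun j T x w => C.errP W xh R θ c η d Λ (R - (j + 1)) x w +
      (C.step (R - (j + 1)) x).E fun z => T z w) j

theorem tot_zero (C : Chain 𝒩 (𝒲 × (ι → S))) (W : 𝒲 → (ι → Bool) → ℝ) (xh : 𝒩 → S → ℝ)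
    (R : ℕ) (θ c η d : ℝ) (Λ : ℕ) (x : 𝒩) (w : 𝒲) :
    C.tot W xh R θ c η d Λ 0 x w = C.leafErr W xh R x w := rfl

theorem tot_succ (C : Chain 𝒩 (𝒲 × (ι → S))) (W : 𝒲 → (ι → Bool) → ℝ) (xh : 𝒩 → S → ℝ)
    (R : ℕ) (θ c η d : ℝ) (Λ j : ℕ) (x : 𝒩) (w : 𝒲) :
    C.tot W xh R θ c η d Λ (j + 1) x w = C.errP W xh R θ c η d Λ (R - (j + 1)) x w +
      (C.step (R - (j + 1)) x).E fun z => C.tot W xh R θ c η d Λ j z w := rfl

/-- Unfolding of the total error along the path. -/
theorem tot_eq (C : Chain 𝒩 (𝒲 × (ι → S))) (W : 𝒲 → (ι → Bool) → ℝ) (xh : 𝒩 → S → ℝ)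
    (R : ℕ) (θ c η d : ℝ) (Λ : ℕ) (x : 𝒩) (w : 𝒲) (k : ℕ) (hk : k ≤ R) :
    C.tot W xh R θ c η d Λ R x w =
      ∑ p ∈ range k, (C.law x p).E (fun y => C.errP W xh R θ c η d Λ p y w) +
        (C.law x k).E fun y => C.tot W xh R θ c η d Λ (R - k) y w := by
  induction k with
  | zero => simp [C.law_zero, PE.dirac_E]
  | succ k ih =>
    rw [ih (by omega), Finset.sum_range_succ, add_assoc, C.law_succ, PE.bind_E, ← (C.law x k).add]
    congr 2
    funext y
    obtain ⟨m, hm⟩ : ∃ m, R - k = m + 1 := ⟨R - k - 1, by omega⟩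
    have hm' : R - (k + 1) = m := by omega
    have hm2 : R - (m + 1) = k := by omega
    rw [hm, tot_succ, hm', hm2]

theorem errP_nonneg {C : Chain 𝒩 (𝒲 × (ι → S))} (h : C.Ok θ c R) (W : 𝒲 → (ι → Bool) → ℝ)
    (xh : 𝒩 → S → ℝ) {η d : ℝ} (hη : 0 ≤ η) (hd : 0 ≤ d) (Λ p : ℕ) (x : 𝒩) (w : 𝒲) :
    0 ≤ C.errP W xh R θ c η d Λ p x w := by
  have hc := h.c_pos
  have hθ : 0 ≤ 1 - θ := by linarith [h.θ_lt]
  have h1 : 0 ≤ aS fun s : ι → S => Real.sqrt (C.vr p x (w, s)) :=
    PE.nonneg _ fun s => Real.sqrt_nonneg _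
  have h2 : 0 ≤ aS fun s : ι → S => C.vr p x (w, s) :=
    PE.nonneg _ fun s => PE.var_nonneg _ _
  have h3 := er_nonneg (C := C) (R := R) W xh hc hη hd (R - p) x
  unfold errP
  positivity

theorem tot_nonneg {C : Chain 𝒩 (𝒲 × (ι → S))} (h : C.Ok θ c R) (W : 𝒲 → (ι → Bool) → ℝ)
    (xh : 𝒩 → S → ℝ) {η d : ℝ} (hη : 0 ≤ η) (hd : 0 ≤ d) (Λ j : ℕ) (x : 𝒩) (w : 𝒲) :
    0 ≤ C.tot W xh R θ c η d Λ j x w := by
  induction j generalizing x with
  | zero => exact PE.nonneg _ fun s => abs_nonneg _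
  | succ j ih =>
    exact add_nonneg (errP_nonneg h W xh hη hd Λ _ x w) (PE.nonneg _ fun z => ih z)

/-- One step of the comparison at a fixed final state and fixed later data. -/
theorem step_bound {A a a' β : (ι → S) → ℝ} (h0 : 0 < θ) (h1 : θ < 1) (hc : 0 < c)
    (q : S → ℕ) (hA : ∀ s, c ≤ A s) (hβ : ∀ s, c ≤ β s) {e v : ℝ}
    (he : (aS fun s => |cellAvg q A s - A s|) ≤ e) (hv : (aS fun s => |a s - A s ^ θ|) ≤ v) :
    (aS fun s => |cellAvg q β s ^ θ - a s|) ≤
      c ^ (-(1 - θ)) * ((aS fun s => |β s - a' s|) +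
        aS fun s => |cellAvg q a' s - cellAvg q A s|) + c ^ (-(1 - θ)) * e + v := by
  set K : ℝ := c ^ (-(1 - θ)) with hK
  have hK0 : 0 ≤ K := (Real.rpow_pos_of_pos hc _).le
  have hcA : ∀ s, c ≤ cellAvg q A s := fun s => (cellPE q s).const_le hA
  have hcβ : ∀ s, c ≤ cellAvg q β s := fun s => (cellPE q s).const_le hβ
  have p1 : ∀ s, |cellAvg q β s ^ θ - a s| ≤
      K * (|cellAvg q (fun t => β t - a' t) s| + |cellAvg q a' s - cellAvg q A s|) +
        (K * |cellAvg q A s - A s| + |a s - A s ^ θ|) := by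
    intro s
    have t1 := rpow_lip h0 h1.le hc (hcβ s) (hcA s)
    have t2 := rpow_lip h0 h1.le hc (hcA s) (hA s)
    rw [← hK] at t1 t2
    have t3 : |cellAvg q β s - cellAvg q A s| ≤
        |cellAvg q (fun t => β t - a' t) s| + |cellAvg q a' s - cellAvg q A s| := by
      rw [cellAvg_sub]
      exact abs_sub_le _ _ _
    have t4 : |cellAvg q β s ^ θ - a s| ≤ |cellAvg q β s ^ θ - cellAvg q A s ^ θ| +
        (|cellAvg q A s ^ θ - A s ^ θ| + |a s - A s ^ θ|) := by
      rw [abs_sub_comm (a s)]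
      exact (abs_sub_le _ _ _).trans (add_le_add le_rfl (abs_sub_le _ _ _))
    have t5 := mul_le_mul_of_nonneg_left t3 hK0
    linarith only [t1, t2, t4, t5]
  refine (PE.mono _ p1).trans ?_
  rw [PE.add, PE.smul, PE.add, PE.add, PE.smul]
  have p2 := aS_abs_cellAvg_le q (fun t => β t - a' t)
  have p3 := mul_le_mul_of_nonneg_left p2 hK0
  have p4 := mul_le_mul_of_nonneg_left he hK0
  unfold aS at *
  linarith

theorem chain_ind {C : Chain 𝒩 (𝒲 × (ι → S))} (h : C.Ok θ c R) {W : 𝒲 → (ι → Bool) → ℝ}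
    {xh : 𝒩 → S → ℝ} (hW : ∀ w σ, W w σ ∈ Set.Icc c c⁻¹) (hxh : ∀ x i, |xh x i| ≤ 1) {K0 Dq : ℕ}
    (hK : 0 < K0) (hD : 0 < Dq) {Λ : ℕ} (hΛ : ∀ j ≤ R, lab K0 Dq j ≤ Λ) (j : ℕ) (hj : j ≤ R) :
    ∀ x : 𝒩, ∃ D : PE (Data j S), ∀ w : 𝒲,
      D.E (fun data => aS fun s : ι → S =>
        |betaRec θ j data.1 (leafF (W w) data.2) s - C.a (R - j) x (w, s)|) ≤
      (c ^ (-(1 - θ))) ^ j * C.tot W xh R θ c (2 * Fintype.card 𝒲 * c⁻¹ / Real.sqrt K0)
            (Fintype.card 𝒲 * (c⁻¹ * (Fintype.card ι / Dq))) Λ j x w := by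
  set K : ℝ := c ^ (-(1 - θ)) with hKdef
  set η : ℝ := 2 * Fintype.card 𝒲 * c⁻¹ / Real.sqrt K0 with hη
  set d : ℝ := Fintype.card 𝒲 * (c⁻¹ * (Fintype.card ι / Dq)) with hd
  have hc := h.c_pos
  have hci : 1 ≤ c⁻¹ := (one_le_inv₀ hc).mpr h.c_le
  have hθ : 0 ≤ 1 - θ := by linarith only [h.θ_lt]
  have hη0 : 0 ≤ η := by (clear W xh hW hxh Dq hD Λ hΛ j hj K hKdef hη d hd hci hθ; positivity)
  have hd0 : 0 ≤ d := by (clear W xh hW hxh K0 hK Λ hΛ j hj K hKdef η hη hd hci hθ hη0; positivity)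
  have hK1 : 1 ≤ K := by
    rw [hKdef, Real.rpow_neg hc.le, one_le_inv₀ (Real.rpow_pos_of_pos hc _)]
    exact Real.rpow_le_one hc.le h.c_le hθ
  have hWabs : ∀ w σ, |W w σ| ≤ c⁻¹ := by
    intro w σ
    rw [abs_of_nonneg (hc.le.trans (hW w σ).1)]
    exact (hW w σ).2
  induction j with
  | zero =>
    intro x
    refine ⟨PE.dirac (Fin.elim0, fun i => ⟨xh x i, abs_le.mp (hxh x i)⟩), fun w => ?_⟩
    rw [PE.dirac_E, tot_zero, pow_zero, one_mul]
    refine le_of_eq ?_
    unfold leafErr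
    congr 1
    funext s
    rw [betaRec_zero, abs_sub_comm]
    rfl
  | succ j ih =>
    intro x
    have ih' := ih (by omega)
    choose Dz hDz using ih'
    obtain ⟨q, hq1, -, hq3⟩ := approx h hWabs hxh hK hD (j + 1) hj x
    obtain ⟨G, hG⟩ := hq3 (Nat.succ_pos j)
    rw [← hη, ← hd] at hG
    set p : ℕ := R - (j + 1) with hp
    have hpR : p < R := by omega
    have hp1 : R - j = p + 1 := by omega
    have hRp : R - p = j + 1 := by omega
    refine ⟨(C.step p x).bind fun z => (Dz z).map fun data => (Fin.cons q data.1, data.2),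
      fun w => ?_⟩
    -- approximation error of `A`
    have hA : (aS fun s : ι → S => |cellAvg q (fun t => C.A p x (w, t)) s - C.A p x (w, s)|) ≤
        2 * C.er W xh R c η d (j + 1) x := by
      refine (aS_abs_cellAvg_sub_le q _ (G w)).trans ?_
      refine mul_le_mul_of_nonneg_left ?_ (by norm_num)
      refine le_trans ?_ hG
      exact Finset.single_le_sum (f := fun w => aS fun s : ι → S =>
        |C.A p x (w, s) - G w (q ∘ s)|) (fun w _ => PE.nonneg _ fun s => abs_nonneg _)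
        (Finset.mem_univ w)
    have hv : (aS fun s : ι → S => |C.a p x (w, s) - C.A p x (w, s) ^ θ|) ≤
        c⁻¹ ^ 2 * (1 - θ) * aS fun s : ι → S => C.vr p x (w, s) := by
      rw [← PE.smul]
      exact PE.mono _ fun s => h.F2 hpR x (w, s)
    have hAlo : ∀ s : ι → S, c ≤ C.A p x (w, s) := fun s =>
      (C.step p x).const_le fun z => h.lo _ hpR z _
    -- pointwise bound
    have hpt : ∀ (z : 𝒩) (data : Data j S),
        (aS fun s : ι → S => |betaRec θ (j + 1) (Fin.cons q data.1) (leafF (W w) data.2) s -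
          C.a p x (w, s)|) ≤
        (K * (aS fun s : ι → S => |betaRec θ j data.1 (leafF (W w) data.2) s -
          C.a (R - j) z (w, s)|)) +
        ((K * aS fun s : ι → S => |cellAvg q (fun t => C.a (p + 1) z (w, t)) s -
          cellAvg q (fun t => C.A p x (w, t)) s|) + (K * (2 * C.er W xh R c η d (j + 1) x) +
            c⁻¹ ^ 2 * (1 - θ) * aS fun s : ι → S => C.vr p x (w, s))) := by
      intro z data
      have hβ : ∀ s, c ≤ betaRec θ j data.1 (leafF (W w) data.2) s := fun s =>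
        betaRec_lower h.θ_pos.le h.θ_lt.le hc h.c_le (fun s => mlin_lower (fun σ => (hW w σ).1)
          (fun i => abs_le.mpr (data.2 (s i)).2)) j data.1 s
      have := step_bound (a := fun s => C.a p x (w, s)) (A := fun s => C.A p x (w, s))
        (a' := fun s => C.a (p + 1) z (w, s))
        (β := fun s => betaRec θ j data.1 (leafF (W w) data.2) s) h.θ_pos h.θ_lt hc q hAlo hβ hA hv
      rw [← hKdef] at this
      have e : (fun s : ι → S => |betaRec θ (j + 1) (Fin.cons q data.1) (leafF (W w) data.2) s -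
          C.a p x (w, s)|) = fun s =>
          |cellAvg q (fun s => betaRec θ j data.1 (leafF (W w) data.2) s) s ^ θ -
            C.a p x (w, s)| := by
        funext s
        rw [betaRec_succ, Fin.cons_zero, Fin.tail_cons]
      rw [e, hp1]
      refine this.trans (le_of_eq ?_)
      ring
    have hC := claimC h hpR x w q (Λ := Λ) (hq1.trans (hΛ (j + 1) hj))
    rw [PE.bind_E]
    simp only [PE.map_E]
    -- integrate over the data, then over `z`
    have hz : ∀ z, ((Dz z).E fun data => aS fun s : ι → S =>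
        |betaRec θ (j + 1) (Fin.cons q data.1) (leafF (W w) data.2) s - C.a p x (w, s)|) ≤
        K * (K ^ j * C.tot W xh R θ c η d Λ j z w) +
        ((K * aS fun s : ι → S => |cellAvg q (fun t => C.a (p + 1) z (w, t)) s -
          cellAvg q (fun t => C.A p x (w, t)) s|) + (K * (2 * C.er W xh R c η d (j + 1) x) +
            c⁻¹ ^ 2 * (1 - θ) * aS fun s : ι → S => C.vr p x (w, s))) := by
      intro z
      refine ((Dz z).mono (hpt z)).trans ?_
      rw [(Dz z).add, (Dz z).smul, (Dz z).const]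
      have := mul_le_mul_of_nonneg_left (hDz z w) (zero_le_one.trans hK1)
      (clear hW hxh hK hD hΛ hη hd hci hη0 hd0 hWabs ih hj hq1 G hq3 hG hp hpR hp1 hRp hA hv hAlo hpt hC; linarith)
    refine ((C.step p x).mono hz).trans ?_
    rw [(C.step p x).add, (C.step p x).smul, (C.step p x).smul, (C.step p x).add,
      (C.step p x).smul, (C.step p x).const, tot_succ, ← hp]
    unfold errP
    rw [hRp]
    set T : ℝ := (C.step p x).E fun z => C.tot W xh R θ c η d Λ j z w with hT
    have hT0 : 0 ≤ T := PE.nonneg _ fun z => tot_nonneg h W xh hη0 hd0 Λ j z w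
    set V : ℝ := aS fun s : ι → S => C.vr p x (w, s) with hV
    have hV0 : 0 ≤ V := PE.nonneg _ fun s => PE.var_nonneg _ _
    set E1 : ℝ := c⁻¹ ^ 3 * Real.sqrt ((Λ : ℝ) ^ Fintype.card ι) * Real.sqrt (C.Iav θ p x w) +
      c⁻¹ ^ 3 * (1 - θ) * aS fun s : ι → S => Real.sqrt (C.vr p x (w, s)) with hE1
    have hE10 : 0 ≤ E1 := le_trans (PE.nonneg _ fun z => PE.nonneg _ fun s => abs_nonneg _) hC
    set er' : ℝ := C.er W xh R c η d (j + 1) x with her
    have her0 : 0 ≤ er' := er_nonneg W xh hc hη0 hd0 (j + 1) x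
    have hKj : 1 ≤ K ^ j := one_le_pow₀ hK1
    have hK0 : 0 ≤ K := zero_le_one.trans hK1
    have hKK : K ≤ K ^ (j + 1) := by
      rw [pow_succ]
      exact le_mul_of_one_le_left hK0 hKj
    have s1 : K * (C.step p x).E (fun z => aS fun s : ι → S =>
        |cellAvg q (fun t => C.a (p + 1) z (w, t)) s - cellAvg q (fun t => C.A p x (w, t)) s|) ≤
        K ^ (j + 1) * E1 :=
      (mul_le_mul_of_nonneg_left hC hK0).trans (mul_le_mul_of_nonneg_right hKK hE10)
    have s2 : K * (2 * er') ≤ K ^ (j + 1) * (2 * er') :=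
      mul_le_mul_of_nonneg_right hKK (by linarith only [her0])
    have s3 : c⁻¹ ^ 2 * (1 - θ) * V ≤ K ^ (j + 1) * (c⁻¹ ^ 3 * (1 - θ) * V) := by
      have a1 : c⁻¹ ^ 2 * (1 - θ) * V ≤ c⁻¹ ^ 3 * (1 - θ) * V := by
        have : c⁻¹ ^ 2 ≤ c⁻¹ ^ 3 := pow_le_pow_right₀ hci (by norm_num)
        exact mul_le_mul_of_nonneg_right (mul_le_mul_of_nonneg_right this hθ) hV0
      have a2 : 0 ≤ c⁻¹ ^ 3 * (1 - θ) * V := by (clear * - hc hθ hV0; positivity)
      exact a1.trans (le_mul_of_one_le_left a2 (hK1.trans hKK))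
    have s4 : K * (K ^ j * T) = K ^ (j + 1) * T := by ring
    calc K * (K ^ j * T) + (K * (C.step p x).E (fun z => aS fun s : ι → S =>
        |cellAvg q (fun t => C.a (p + 1) z (w, t)) s - cellAvg q (fun t => C.A p x (w, t)) s|) +
          (K * (2 * er') + c⁻¹ ^ 2 * (1 - θ) * V))
        ≤ K ^ (j + 1) * T + (K ^ (j + 1) * E1 + (K ^ (j + 1) * (2 * er') +
          K ^ (j + 1) * (c⁻¹ ^ 3 * (1 - θ) * V))) := by
          rw [s4]
          exact add_le_add le_rfl (add_le_add s1 (add_le_add s2 s3))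
      _ = K ^ (j + 1) * ((E1 + c⁻¹ ^ 3 * (1 - θ) * V + 2 * er') + T) := by ring

/-- CHAIN THEOREM (Claim D and its iteration). The partition of the level `p` is the one given by
the labels of `approx` at the node of level `p` of the reference path. -/
theorem chain_main {C : Chain 𝒩 (𝒲 × (ι → S))} (h : C.Ok θ c R) {W : 𝒲 → (ι → Bool) → ℝ}
    {xh : 𝒩 → S → ℝ} (hW : ∀ w σ, W w σ ∈ Set.Icc c c⁻¹) (hxh : ∀ x i, |xh x i| ≤ 1) {K0 Dq : ℕ}
    (hK : 0 < K0) (hD : 0 < Dq) (x : 𝒩) {Λ : ℕ} (hΛ : ∀ j ≤ R, lab K0 Dq j ≤ Λ) :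
    ∃ D : PE (Data R S), ∀ w : 𝒲,
      D.E (fun data => aS fun s : ι → S =>
        |betaRec θ R data.1 (leafF (W w) data.2) s - C.a 0 x (w, s)|) ≤
      c ^ (-(R * (1 - θ))) * (∑ p ∈ range R, (C.law x p).E (fun y =>
          C.errP W xh R θ c (2 * Fintype.card 𝒲 * c⁻¹ / Real.sqrt K0)
            (Fintype.card 𝒲 * (c⁻¹ * (Fintype.card ι / Dq))) Λ p y w) +
        (C.law x R).E (fun y => C.leafErr W xh R y w)) := by
  obtain ⟨D, hDw⟩ := chain_ind h hW hxh hK hD hΛ R le_rfl x
  refine ⟨D, fun w => ?_⟩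
  have := hDw w
  rw [tot_eq C W xh R θ c _ _ Λ x w R le_rfl, Nat.sub_self] at this
  refine this.trans (le_of_eq ?_)
  congr 1
  rw [← Real.rpow_natCast, ← Real.rpow_mul h.c_pos.le]
  congr 1
  ring

end Sites

end Chain

end Vale.Agent.P168.MP
end
end

section

section

set_option autoImplicit false
set_option linter.unusedSectionVars false

open Finset

namespace Vale.Agent.P168.MP

namespace Chain

variable {𝒩 S ι 𝒲 : Type} [Fintype S] [Nonempty S] [Fintype ι] [DecidableEq ι]
  [Fintype 𝒲] [Nonempty 𝒲] {C : Chain 𝒩 (𝒲 × (ι → S))}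

theorem leafErr_nonneg (W : 𝒲 → (ι → Bool) → ℝ) (xh : 𝒩 → S → ℝ) (R : ℕ) (x : 𝒩) (w : 𝒲) :
    0 ≤ C.leafErr W xh R x w := PE.nonneg _ fun _ => abs_nonneg _

theorem er_bound (W : 𝒲 → (ι → Bool) → ℝ) (xh : 𝒩 → S → ℝ) {R : ℕ} {c η d : ℝ} (hc : 0 < c)
    (hc1 : c ≤ 1) (hη : 0 ≤ η) (hd : 0 ≤ d) (x : 𝒩) (j : ℕ) (hj : j ≤ R) :
    (C.law x (R - j)).E (C.er W xh R c η d j) ≤
      c⁻¹ ^ j * ((C.law x R).E (fun y => ∑ w, C.leafErr W xh R y w) + d + 2 * j * η) := by
  have hci : 1 ≤ c⁻¹ := (one_le_inv₀ hc).2 hc1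
  induction j with
  | zero =>
    have : (C.law x (R - 0)).E (C.er W xh R c η d 0) =
        (C.law x R).E (fun y => ∑ w, C.leafErr W xh R y w + d) := rfl
    rw [this, PE.add, PE.const]
    simp
  | succ j ih =>
    have ih' := ih (by omega)
    have e1 : R - j = (R - (j + 1)) + 1 := by omega
    have e2 : (C.law x (R - (j + 1))).E (C.er W xh R c η d (j + 1)) =
        c⁻¹ * ((C.law x (R - j)).E (C.er W xh R c η d j) + 2 * η) := by
      rw [e1, law_succ, PE.bind_E]
      have : (C.er W xh R c η d (j + 1)) = fun y =>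
          c⁻¹ * ((C.step (R - (j + 1)) y).E (C.er W xh R c η d j) + 2 * η) := rfl
      rw [this, PE.smul, PE.add, PE.const]
    rw [e2]
    have hL : 0 ≤ (C.law x R).E (fun y => ∑ w, C.leafErr W xh R y w) :=
      PE.nonneg _ fun y => Finset.sum_nonneg fun w _ => leafErr_nonneg W xh R y w
    have hp : 1 ≤ c⁻¹ ^ j := one_le_pow₀ hci
    have hη' : 2 * η ≤ c⁻¹ ^ j * (2 * η) := le_mul_of_one_le_left (by positivity) hp
    calc c⁻¹ * ((C.law x (R - j)).E (C.er W xh R c η d j) + 2 * η)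
        ≤ c⁻¹ * (c⁻¹ ^ j * ((C.law x R).E (fun y => ∑ w, C.leafErr W xh R y w) + d +
            2 * j * η) + c⁻¹ ^ j * (2 * η)) := by
          apply mul_le_mul_of_nonneg_left _ (by positivity)
          exact add_le_add ih' hη'
      _ = _ := by
          push_cast
          ring

/-- Sum of the errors along the levels, for a fixed structure and a fixed starting node. -/
theorem err_sum {θ c : ℝ} {R : ℕ} (h : C.Ok θ c R) (W : 𝒲 → (ι → Bool) → ℝ) (xh : 𝒩 → S → ℝ)
    {η d : ℝ} (hη : 0 ≤ η) (hd : 0 ≤ d) (Λ : ℕ) (x : 𝒩) (w : 𝒲) :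
    ∑ p ∈ range R, (C.law x p).E (fun y => C.errP W xh R θ c η d Λ p y w) ≤
      c⁻¹ ^ 3 * Real.sqrt ((Λ : ℝ) ^ Fintype.card ι) *
        (∑ p ∈ range R, (C.law x p).E (fun y => Real.sqrt (C.Iav θ p y w))) +
      c⁻¹ ^ 3 * (1 - θ) * (Real.sqrt R * Real.sqrt (5 * c⁻¹ ^ 5 * (1 + R * (1 - θ)))) +
      c⁻¹ ^ 3 * (1 - θ) * (5 * c⁻¹ ^ 5 * (1 + R * (1 - θ))) +
      2 * (R * (c⁻¹ ^ R * ((C.law x R).E (fun y => ∑ w, C.leafErr W xh R y w) + d +
        2 * R * η))) := by
  have hci : 1 ≤ c⁻¹ := (one_le_inv₀ h.c_pos).2 h.c_le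
  have hth : 0 ≤ 1 - θ := by linarith [h.θ_lt]
  have hA : 0 ≤ c⁻¹ ^ 3 * (1 - θ) := by positivity
  -- standard deviations
  have h1 : ∑ p ∈ range R, (C.law x p).E (fun y => aS fun s : ι → S =>
      Real.sqrt (C.vr p y (w, s))) ≤
      Real.sqrt R * Real.sqrt (5 * c⁻¹ ^ 5 * (1 + R * (1 - θ))) := by
    have e : ∀ p, (C.law x p).E (fun y => aS fun s : ι → S => Real.sqrt (C.vr p y (w, s))) =
        aS fun s : ι → S => (C.law x p).E fun y => Real.sqrt (C.vr p y (w, s)) := fun p =>
      PE.comm_unif _ _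
    simp_rw [e]
    rw [← PE.sum]
    exact PE.le_const _ fun s => h.F3sd x (w, s)
  have h2 : ∑ p ∈ range R, (C.law x p).E (fun y => aS fun s : ι → S => C.vr p y (w, s)) ≤
      5 * c⁻¹ ^ 5 * (1 + R * (1 - θ)) := by
    have e : ∀ p, (C.law x p).E (fun y => aS fun s : ι → S => C.vr p y (w, s)) =
        aS fun s : ι → S => (C.law x p).E fun y => C.vr p y (w, s) := fun p =>
      PE.comm_unif _ _
    simp_rw [e]
    rw [← PE.sum]
    exact PE.le_const _ fun s => h.F3 x (w, s)
  have hL : 0 ≤ (C.law x R).E (fun y => ∑ w, C.leafErr W xh R y w) :=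
    PE.nonneg _ fun y => Finset.sum_nonneg fun w _ => leafErr_nonneg W xh R y w
  have h3 : ∑ p ∈ range R, (C.law x p).E (C.er W xh R c η d (R - p)) ≤
      R * (c⁻¹ ^ R * ((C.law x R).E (fun y => ∑ w, C.leafErr W xh R y w) + d +
        2 * R * η)) := by
    have : ∀ p ∈ range R, (C.law x p).E (C.er W xh R c η d (R - p)) ≤
        c⁻¹ ^ R * ((C.law x R).E (fun y => ∑ w, C.leafErr W xh R y w) + d + 2 * R * η) := by
      intro p hp
      have hp' : p < R := mem_range.1 hp
      have h4 := er_bound (C := C) W xh h.c_pos h.c_le hη hd x (R - p) (Nat.sub_le R p)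
      have e : R - (R - p) = p := by omega
      rw [e] at h4
      refine h4.trans ?_
      have h5 : c⁻¹ ^ (R - p) ≤ c⁻¹ ^ R := pow_le_pow_right₀ hci (Nat.sub_le R p)
      have h6 : ((R - p : ℕ) : ℝ) ≤ R := by exact_mod_cast Nat.sub_le R p
      have h7 : (2 : ℝ) * ((R - p : ℕ) : ℝ) * η ≤ 2 * R * η := by nlinarith only [hη, h6]
      apply mul_le_mul h5 (by (clear θ c h hd Λ w hci hth hA h1 h2 hL hp hp' h4 e h5; linarith)) _ (by positivity)
      have : (0 : ℝ) ≤ 2 * ((R - p : ℕ) : ℝ) * η := by (clear * - hη; positivity)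
      (clear θ c h Λ w hci hth hA h1 h2 hp hp' h4 e h5 h6 h7; linarith)
    refine (Finset.sum_le_sum this).trans (le_of_eq ?_)
    rw [Finset.sum_const, card_range, nsmul_eq_mul]
  have e0 : ∀ p, (C.law x p).E (fun y => C.errP W xh R θ c η d Λ p y w) =
      c⁻¹ ^ 3 * Real.sqrt ((Λ : ℝ) ^ Fintype.card ι) *
        ((C.law x p).E (fun y => Real.sqrt (C.Iav θ p y w))) +
      c⁻¹ ^ 3 * (1 - θ) * ((C.law x p).E (fun y => aS fun s : ι → S =>
        Real.sqrt (C.vr p y (w, s)))) +
      c⁻¹ ^ 3 * (1 - θ) * ((C.law x p).E (fun y => aS fun s : ι → S => C.vr p y (w, s))) +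
      2 * (C.law x p).E (C.er W xh R c η d (R - p)) := by
    intro p
    unfold errP
    rw [PE.add, PE.add, PE.add, PE.smul, PE.smul, PE.smul, PE.smul]
  simp_rw [e0]
  rw [Finset.sum_add_distrib, Finset.sum_add_distrib, Finset.sum_add_distrib,
    ← Finset.mul_sum, ← Finset.mul_sum, ← Finset.mul_sum, ← Finset.mul_sum]
  have h8 := mul_le_mul_of_nonneg_left h1 hA
  have h9 := mul_le_mul_of_nonneg_left h2 hA
  linarith

end Chain

section Avg

variable {ι 𝒲 : Type} [Fintype ι] [DecidableEq ι] [Fintype 𝒲] [Nonempty 𝒲] {N : ℕ} [NeZero N]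

/-- The average over the sites of a nonnegative function of one shape is at most `card 𝒲` times
the average over all tests. -/
theorem aS_le_all {f : 𝒲 × (ι → Fin N) → ℝ} (hf : ∀ τ, 0 ≤ f τ) (w : 𝒲) :
    (aS fun s : ι → Fin N => f (w, s)) ≤
      Fintype.card 𝒲 * (PE.unif (𝒲 × (ι → Fin N))).E f := by
  have hW : (0 : ℝ) < Fintype.card 𝒲 := by exact_mod_cast Fintype.card_pos
  have hS : (0 : ℝ) < Fintype.card (ι → Fin N) := by exact_mod_cast Fintype.card_pos
  show (PE.unif (ι → Fin N)).E (fun s => f (w, s)) ≤ _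
  rw [PE.unif_E, PE.unif_E, Fintype.card_prod, Fintype.sum_prod_type]
  push_cast
  have h1 : ∑ s : ι → Fin N, f (w, s) ≤ ∑ w', ∑ s : ι → Fin N, f (w', s) :=
    Finset.single_le_sum (f := fun w' => ∑ s : ι → Fin N, f (w', s))
      (fun w' _ => Finset.sum_nonneg fun s _ => hf _) (Finset.mem_univ w)
  have h2 : (Fintype.card 𝒲 : ℝ) * ((∑ w', ∑ s : ι → Fin N, f (w', s)) /
      (Fintype.card 𝒲 * Fintype.card (ι → Fin N))) =
      (∑ w', ∑ s : ι → Fin N, f (w', s)) / Fintype.card (ι → Fin N) := by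
    field_simp
  rw [h2]
  exact div_le_div_of_nonneg_right h1 hS.le

variable (u : 𝒲 → Sh ι) (M : ℝ) (hM : 0 ≤ M) (hu : ∀ w σ, |u w σ| ≤ M)

/-- Average of the covariance errors of a random structure. -/
theorem avg_Iav {R n : ℕ} {θ : ℝ} (h0 : 0 < θ) (h1 : θ < 1) (H0 : Egy N) {p : ℕ} (hp : p < R)
    (w : 𝒲) :
    ((PE.unif (St R n (𝒲 × (ι → Fin N)))).E fun st =>
      ((sys N u M hM hu).law0 θ st H0).E fun x => (((sys N u M hM hu).chain θ st).law x p).E fun y =>
        Real.sqrt (((sys N u M hM hu).chain θ st).Iav θ p y w)) ≤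
      Real.sqrt (Fintype.card 𝒲 ^ 2 * (sys N u M hM hu).CI / Real.sqrt (n + 1)) := by
  set S := sys N u M hM hu with hS
  have hW : (0 : ℝ) < Fintype.card 𝒲 := by exact_mod_cast Fintype.card_pos
  have hI : ∀ st : St R n (𝒲 × (ι → Fin N)), ∀ y, 0 ≤ (S.chain θ st).Iav θ p y w := fun st y =>
    PE.nonneg _ fun s => PE.nonneg _ fun s' => abs_nonneg _
  have e1 : ∀ st : St R n (𝒲 × (ι → Fin N)), (S.law0 θ st H0).E (fun x =>
      ((S.chain θ st).law x p).E fun y => Real.sqrt ((S.chain θ st).Iav θ p y w)) =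
      (S.lawP θ st H0 p).E fun y => Real.sqrt ((S.chain θ st).Iav θ p y w) := fun st =>
    S.lawP_eq st H0 hp.le _
  simp_rw [e1]
  have h2 : ∀ st : St R n (𝒲 × (ι → Fin N)),
      ((S.lawP θ st H0 p).E fun y => Real.sqrt ((S.chain θ st).Iav θ p y w)) ≤
      Real.sqrt ((S.lawP θ st H0 p).E fun y => (S.chain θ st).Iav θ p y w) := fun st =>
    PE.sqrt_le _ (hI st)
  refine ((PE.unif _).mono h2).trans ?_
  refine (PE.sqrt_le _ fun st => PE.nonneg _ (hI st)).trans ?_
  apply Real.sqrt_le_sqrt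
  have h3 : ∀ st : St R n (𝒲 × (ι → Fin N)), ∀ y, (S.chain θ st).Iav θ p y w ≤
      Fintype.card 𝒲 ^ 2 * (PE.unif (𝒲 × (ι → Fin N))).E fun τ =>
        (PE.unif (𝒲 × (ι → Fin N))).E fun τ' => |(S.chain θ st).Ic θ p y τ' τ| := by
    intro st y
    have h4 : ∀ s : ι → Fin N, (aS fun s' : ι → Fin N => |(S.chain θ st).Ic θ p y (w, s') (w, s)|) ≤
        Fintype.card 𝒲 * (PE.unif (𝒲 × (ι → Fin N))).E fun τ' =>
          |(S.chain θ st).Ic θ p y τ' (w, s)| := fun s =>
      aS_le_all (f := fun τ' => |(S.chain θ st).Ic θ p y τ' (w, s)|) (fun _ => abs_nonneg _) w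
    have h5 : (aS fun s : ι → Fin N => (PE.unif (𝒲 × (ι → Fin N))).E fun τ' =>
        |(S.chain θ st).Ic θ p y τ' (w, s)|) ≤
        Fintype.card 𝒲 * (PE.unif (𝒲 × (ι → Fin N))).E fun τ =>
          (PE.unif (𝒲 × (ι → Fin N))).E fun τ' => |(S.chain θ st).Ic θ p y τ' τ| :=
      aS_le_all (f := fun τ => (PE.unif (𝒲 × (ι → Fin N))).E fun τ' =>
        |(S.chain θ st).Ic θ p y τ' τ|) (fun _ => PE.nonneg _ fun _ => abs_nonneg _) w
    calc (S.chain θ st).Iav θ p y w ≤ aS fun s : ι → Fin N => Fintype.card 𝒲 *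
          (PE.unif (𝒲 × (ι → Fin N))).E fun τ' => |(S.chain θ st).Ic θ p y τ' (w, s)| :=
          PE.mono _ h4
      _ = Fintype.card 𝒲 * aS fun s : ι → Fin N =>
          (PE.unif (𝒲 × (ι → Fin N))).E fun τ' => |(S.chain θ st).Ic θ p y τ' (w, s)| :=
          PE.smul _ _ _
      _ ≤ Fintype.card 𝒲 * (Fintype.card 𝒲 * (PE.unif (𝒲 × (ι → Fin N))).E fun τ =>
          (PE.unif (𝒲 × (ι → Fin N))).E fun τ' => |(S.chain θ st).Ic θ p y τ' τ|) :=
          mul_le_mul_of_nonneg_left h5 hW.le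
      _ = _ := by ring
  calc ((PE.unif (St R n (𝒲 × (ι → Fin N)))).E fun st => (S.lawP θ st H0 p).E fun y =>
        (S.chain θ st).Iav θ p y w)
      ≤ (PE.unif (St R n (𝒲 × (ι → Fin N)))).E fun st => (S.lawP θ st H0 p).E fun y =>
        Fintype.card 𝒲 ^ 2 * (PE.unif (𝒲 × (ι → Fin N))).E fun τ =>
        (PE.unif (𝒲 × (ι → Fin N))).E fun τ' => |(S.chain θ st).Ic θ p y τ' τ| :=
        PE.mono _ fun st => PE.mono _ (h3 st)
    _ = Fintype.card 𝒲 ^ 2 * ((PE.unif (St R n (𝒲 × (ι → Fin N)))).E fun st =>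
        (S.lawP θ st H0 p).E fun y => (PE.unif (𝒲 × (ι → Fin N))).E fun τ =>
        (PE.unif (𝒲 × (ι → Fin N))).E fun τ' => |(S.chain θ st).Ic θ p y τ' τ|) := by
        simp_rw [PE.smul]
    _ ≤ Fintype.card 𝒲 ^ 2 * (S.CI / Real.sqrt (n + 1)) :=
        mul_le_mul_of_nonneg_left (S.chain_I_avg h0 h1 hp H0) (by positivity)
    _ = _ := by ring

end Avg

theorem PE.lin4 {α : Type} (P : PE α) (X a b g : ℝ) (F G K : α → ℝ) :
    P.E (fun x => X * (a * F x + b + g * G x + K x)) =
      X * (a * P.E F + b + g * P.E G + P.E K) := by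
  rw [PE.smul, PE.add, PE.add, PE.add, PE.smul, PE.const, PE.smul]

section Main

variable {ι 𝒲 : Type} [Fintype ι] [DecidableEq ι] [Fintype 𝒲] [Nonempty 𝒲]
variable (u : 𝒲 → Sh ι) (M : ℝ) (hM : 0 ≤ M) (hu : ∀ w σ, |u w σ| ≤ M)

/-- The increment of the slot functional is the mean value at the root. -/
theorem PhiN_incr (θ : ℝ) (R n N : ℕ) [NeZero N] (H : Egy N) (w : 𝒲) :
    (aS fun s : ι → Fin N => PhiN u M hM hu θ R n N (H + addE u (w, s))) -
      PhiN u M hM hu θ R n N H =
    (PE.unif (St R n (𝒲 × (ι → Fin N)))).E fun st => aS fun s : ι → Fin N =>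
      (sys N u M hM hu).val (allSlots θ st) (w, s) H := by
  have e1 : (aS fun s : ι → Fin N => PhiN u M hM hu θ R n N (H + addE u (w, s))) =
      (PE.unif (St R n (𝒲 × (ι → Fin N)))).E fun st => aS fun s : ι → Fin N =>
        (sys N u M hM hu).lam (allSlots θ st) (H + addE u (w, s)) := by
    unfold PhiN
    exact PE.comm_unif _ _
  have e2 : PhiN u M hM hu θ R n N H =
      (PE.unif (St R n (𝒲 × (ι → Fin N)))).E fun st => aS fun _ : ι → Fin N =>
        (sys N u M hM hu).lam (allSlots θ st) H := by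
    unfold PhiN
    congr 1
    funext st
    exact (PE.const _ _).symm
  rw [e1, e2, ← PE.sub]
  congr 1
  funext st
  rw [← PE.sub]
  rfl

/-- Decoupling with explicit parameters. -/
theorem decoupling_params {R n : ℕ} {θ : ℝ} (h0 : 0 < θ) (h1 : θ < 1) {K0 Dq : ℕ} (hK : 0 < K0)
    (hD : 0 < Dq) {Λ : ℕ} (hΛ : ∀ j ≤ R, Chain.lab K0 Dq j ≤ Λ) {CL : ℝ} (N : ℕ) [NeZero N]
    (H : Egy N)
    (hCL : ((PE.unif (St R n (𝒲 × (ι → Fin N)))).E fun st =>
        ((sys N u M hM hu).lawP θ st H R).E fun H => ∑ w,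
          ((sys N u M hM hu).chain θ st).leafErr (fun w σ => Real.exp (u w σ))
            (fun H i => gmag u (blkAt st R).suf H i) R H w) ≤ CL / Real.sqrt (n + 1)) :
    ∃ D : PE (Chain.Data R (Fin N)), ∀ w : 𝒲,
      |(aS fun s : ι → Fin N => PhiN u M hM hu θ R n N (H + addE u (w, s))) -
          PhiN u M hM hu θ R n N H - D.E fun data => valMP θ data (u w)| ≤
      Real.exp M / θ ^ R * Real.exp (-M) ^ (-(R * (1 - θ))) *
        (Real.exp M ^ 3 * Real.sqrt ((Λ : ℝ) ^ Fintype.card ι) *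
          (R * Real.sqrt (Fintype.card 𝒲 ^ 2 * (sys N u M hM hu).CI / Real.sqrt (n + 1))) +
        Real.exp M ^ 3 * (1 - θ) *
          (Real.sqrt R * Real.sqrt (5 * Real.exp M ^ 5 * (1 + R * (1 - θ)))) +
        Real.exp M ^ 3 * (1 - θ) * (5 * Real.exp M ^ 5 * (1 + R * (1 - θ))) +
        2 * (R * (Real.exp M ^ R * (CL / Real.sqrt (n + 1) +
          Fintype.card 𝒲 * (Real.exp M * (Fintype.card ι / Dq)) +
          2 * R * (2 * Fintype.card 𝒲 * Real.exp M / Real.sqrt K0)))) +
        CL / Real.sqrt (n + 1)) + θ ^ R * M ^ 2 * Real.exp M := by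
  set S := sys N u M hM hu with hS
  set c : ℝ := Real.exp (-M) with hc
  have hc0 : 0 < c := Real.exp_pos _
  have hc1 : c ≤ 1 := by rw [hc]; exact Real.exp_le_one_iff.2 (by linarith only [hM])
  have hcinv : c⁻¹ = Real.exp M := by rw [hc, ← Real.exp_neg, neg_neg]
  have hok : ∀ st : St R n (𝒲 × (ι → Fin N)), (S.chain θ st).Ok θ c R := fun st =>
    S.chain_ok h0 h1 st
  set W : 𝒲 → (ι → Bool) → ℝ := fun w σ => Real.exp (u w σ) with hWdef
  have hW : ∀ w σ, W w σ ∈ Set.Icc c c⁻¹ := by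
    intro w σ
    have := abs_le.1 (hu w σ)
    rw [hcinv]
    exact ⟨Real.exp_le_exp.2 this.1, Real.exp_le_exp.2 this.2⟩
  set η : ℝ := 2 * Fintype.card 𝒲 * c⁻¹ / Real.sqrt K0 with hη
  set d : ℝ := Fintype.card 𝒲 * (c⁻¹ * (Fintype.card ι / Dq)) with hd
  have hη0 : 0 ≤ η := by positivity
  have hd0 : 0 ≤ d := by positivity
  have hmain := fun (st : St R n (𝒲 × (ι → Fin N))) (x : Egy N) =>
    Chain.chain_main (hok st) (W := W) (xh := fun H i => gmag u (blkAt st R).suf H i) hW
      (fun H i => abs_gmag_le u _ H i) hK hD x hΛ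
  choose D hDx using hmain
  set 𝔻 : PE (Chain.Data R (Fin N)) :=
    (PE.unif (St R n (𝒲 × (ι → Fin N)))).bind fun st => (S.law0 θ st H).bind fun x => D st x
    with h𝔻
  refine ⟨𝔻, fun w => ?_⟩
  have hθR : 0 < θ ^ R := pow_pos h0 R
  have hθR1 : θ ^ R ≤ 1 := pow_le_one₀ h0.le h1.le
  set rt : ℝ := θ ^ R * M ^ 2 * Real.exp M with hrt
  -- bound for fixed st, x
  set Bd : St R n (𝒲 × (ι → Fin N)) → Egy N → ℝ := fun st x =>
    c ^ (-(R * (1 - θ))) * (∑ p ∈ range R, ((S.chain θ st).law x p).E (fun y =>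
      (S.chain θ st).errP W (fun H i => gmag u (blkAt st R).suf H i) R θ c η d Λ p y w) +
      ((S.chain θ st).law x R).E (fun y =>
        (S.chain θ st).leafErr W (fun H i => gmag u (blkAt st R).suf H i) R y w)) with hBd
  have hval : ∀ st x, |(1 / θ ^ R) * (aS fun s : ι → Fin N =>
      Real.log ((S.chain θ st).a 0 x (w, s))) - (D st x).E fun data => valMP θ data (u w)| ≤
      c⁻¹ / θ ^ R * Bd st x := by
    intro st x
    have e1 : (D st x).E (fun data => valMP θ data (u w)) = (1 / θ ^ R) *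
        (D st x).E fun data => aS fun s : ι → Fin N =>
          Real.log (betaRec θ R data.1 (Chain.leafF (W w) data.2) s) := by
      unfold valMP
      rw [PE.smul]
    have e2 : (aS fun s : ι → Fin N => Real.log ((S.chain θ st).a 0 x (w, s))) =
        (D st x).E fun _ => aS fun s : ι → Fin N => Real.log ((S.chain θ st).a 0 x (w, s)) :=
      (PE.const _ _).symm
    rw [e1, ← mul_sub, abs_mul, abs_of_pos (by positivity : 0 < 1 / θ ^ R), e2]
    have h3 := (D st x).abs_sub_le
      (fun _ => aS fun s : ι → Fin N => Real.log ((S.chain θ st).a 0 x (w, s)))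
      (fun data => aS fun s : ι → Fin N =>
        Real.log (betaRec θ R data.1 (Chain.leafF (W w) data.2) s))
    have h4 : (D st x).E (fun data => |(aS fun s : ι → Fin N =>
        Real.log ((S.chain θ st).a 0 x (w, s))) - aS fun s : ι → Fin N =>
        Real.log (betaRec θ R data.1 (Chain.leafF (W w) data.2) s)|) ≤
        (D st x).E fun data => c⁻¹ * aS fun s : ι → Fin N =>
          |betaRec θ R data.1 (Chain.leafF (W w) data.2) s - (S.chain θ st).a 0 x (w, s)| := by
      refine PE.mono _ fun data => ?_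
      refine ((PE.unif (ι → Fin N)).abs_sub_le _ _).trans ?_
      rw [← PE.smul]
      refine PE.mono _ fun s => ?_
      rw [abs_sub_comm (betaRec θ R data.1 (Chain.leafF (W w) data.2) s)]
      have hy : ∀ s : ι → Fin N, ∀ j, |((data.2 (s j) : ℝ))| ≤ 1 := fun s j =>
        abs_le.2 (data.2 (s j)).2
      refine log_lip hc0 ((hok st).lo 0 (Nat.zero_le _) x _) ?_
      exact betaRec_lower h0.le h1.le hc0 hc1
        (fun s => mlin_lower (fun σ => (hW w σ).1) (hy s)) R _ s
    rw [PE.smul] at h4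
    have h5 := hDx st x w
    calc 1 / θ ^ R * |(D st x).E (fun _ => aS fun s : ι → Fin N =>
          Real.log ((S.chain θ st).a 0 x (w, s))) - (D st x).E fun data => aS fun s : ι → Fin N =>
          Real.log (betaRec θ R data.1 (Chain.leafF (W w) data.2) s)|
        ≤ 1 / θ ^ R * (c⁻¹ * Bd st x) := by
          apply mul_le_mul_of_nonneg_left _ (by positivity)
          exact (h3.trans h4).trans (mul_le_mul_of_nonneg_left h5 (by positivity))
      _ = _ := by ring
  -- root
  have hroot : ∀ st : St R n (𝒲 × (ι → Fin N)), |(aS fun s : ι → Fin N => S.val (allSlots θ st) (w, s) H) -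
      (S.law0 θ st H).E (fun x => (1 / θ ^ R) * aS fun s : ι → Fin N =>
        Real.log ((S.chain θ st).a 0 x (w, s)))| ≤ rt := by
    intro st
    have e1 : (S.law0 θ st H).E (fun x => (1 / θ ^ R) * aS fun s : ι → Fin N =>
        Real.log ((S.chain θ st).a 0 x (w, s))) = aS fun s : ι → Fin N =>
        (S.law0 θ st H).E fun x => (1 / θ ^ R) * Real.log ((S.chain θ st).a 0 x (w, s)) := by
      refine Eq.trans ?_ ((S.law0 θ st H).comm_unif (β := ι → Fin N)
        (fun x s => (1 / θ ^ R) * Real.log ((S.chain θ st).a 0 x (w, s))))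
      congr 1
      funext x
      exact (PE.smul _ _ _).symm
    rw [e1]
    refine ((PE.unif (ι → Fin N)).abs_sub_le _ _).trans ?_
    exact PE.le_const _ fun s => S.root_near h0 h1 st H (w, s)
  -- combine
  rw [PhiN_incr]
  have hcomb : ∀ st : St R n (𝒲 × (ι → Fin N)), |(aS fun s : ι → Fin N => S.val (allSlots θ st) (w, s) H) -
      (S.law0 θ st H).E (fun x => (D st x).E fun data => valMP θ data (u w))| ≤
      c⁻¹ / θ ^ R * (S.law0 θ st H).E (Bd st) + rt := by
    intro st
    have h6 : |(S.law0 θ st H).E (fun x => (1 / θ ^ R) * aS fun s : ι → Fin N =>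
        Real.log ((S.chain θ st).a 0 x (w, s))) -
        (S.law0 θ st H).E (fun x => (D st x).E fun data => valMP θ data (u w))| ≤
        c⁻¹ / θ ^ R * (S.law0 θ st H).E (Bd st) := by
      rw [← PE.smul]
      exact (PE.abs_sub_le _ _ _).trans (PE.mono _ (hval st))
    have h7 := abs_sub_le (aS fun s : ι → Fin N => S.val (allSlots θ st) (w, s) H)
      ((S.law0 θ st H).E (fun x => (1 / θ ^ R) * aS fun s : ι → Fin N =>
        Real.log ((S.chain θ st).a 0 x (w, s))))
      ((S.law0 θ st H).E (fun x => (D st x).E fun data => valMP θ data (u w)))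
    (clear hK hD hΛ CL hS hCL hWdef hη hd hη0 hd0 𝔻 h𝔻 hθR hθR1 hrt hBd; linarith [hroot st])
  have h8 : |((PE.unif (St R n (𝒲 × (ι → Fin N)))).E fun st => aS fun s : ι → Fin N =>
      S.val (allSlots θ st) (w, s) H) - 𝔻.E fun data => valMP θ data (u w)| ≤
      c⁻¹ / θ ^ R * ((PE.unif (St R n (𝒲 × (ι → Fin N)))).E fun st =>
        (S.law0 θ st H).E (Bd st)) + rt := by
    have e1 : 𝔻.E (fun data => valMP θ data (u w)) =
        (PE.unif (St R n (𝒲 × (ι → Fin N)))).E fun st => (S.law0 θ st H).E fun x =>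
          (D st x).E fun data => valMP θ data (u w) := rfl
    rw [e1]
    refine (PE.abs_sub_le _ _ _).trans ?_
    refine (PE.mono _ hcomb).trans (le_of_eq ?_)
    rw [PE.add, PE.smul, PE.const]
  refine h8.trans ?_
  have hBdle : ((PE.unif (St R n (𝒲 × (ι → Fin N)))).E fun st => (S.law0 θ st H).E (Bd st)) ≤
      c ^ (-(R * (1 - θ))) *
        (c⁻¹ ^ 3 * Real.sqrt ((Λ : ℝ) ^ Fintype.card ι) *
          (R * Real.sqrt (Fintype.card 𝒲 ^ 2 * S.CI / Real.sqrt (n + 1))) +
        c⁻¹ ^ 3 * (1 - θ) * (Real.sqrt R * Real.sqrt (5 * c⁻¹ ^ 5 * (1 + R * (1 - θ)))) +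
        c⁻¹ ^ 3 * (1 - θ) * (5 * c⁻¹ ^ 5 * (1 + R * (1 - θ))) +
        2 * (R * (c⁻¹ ^ R * (CL / Real.sqrt (n + 1) + d + 2 * R * η))) +
        CL / Real.sqrt (n + 1)) := by
    -- leaf errors
    set LE : ℝ := (PE.unif (St R n (𝒲 × (ι → Fin N)))).E fun st => (S.law0 θ st H).E fun x =>
      ((S.chain θ st).law x R).E fun y => ∑ w,
        (S.chain θ st).leafErr W (fun H i => gmag u (blkAt st R).suf H i) R y w with hLE
    have hLE1 : LE ≤ CL / Real.sqrt (n + 1) := by
      refine le_trans (le_of_eq ?_) hCL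
      rw [hLE]
      congr 1
      funext st
      exact S.lawP_eq st H le_rfl _
    have hLEw : ((PE.unif (St R n (𝒲 × (ι → Fin N)))).E fun st => (S.law0 θ st H).E fun x =>
        ((S.chain θ st).law x R).E fun y =>
          (S.chain θ st).leafErr W (fun H i => gmag u (blkAt st R).suf H i) R y w) ≤ LE := by
      refine PE.mono _ fun st => PE.mono _ fun x => PE.mono _ fun y => ?_
      exact Finset.single_le_sum (f := fun w => (S.chain θ st).leafErr W
        (fun H i => gmag u (blkAt st R).suf H i) R y w)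
        (fun w _ => Chain.leafErr_nonneg W _ R y w) (Finset.mem_univ w)
    set IE : ℝ := ∑ p ∈ range R, (PE.unif (St R n (𝒲 × (ι → Fin N)))).E fun st =>
      (S.law0 θ st H).E fun x => ((S.chain θ st).law x p).E fun y =>
        Real.sqrt ((S.chain θ st).Iav θ p y w) with hIE
    have hIE1 : IE ≤ R * Real.sqrt (Fintype.card 𝒲 ^ 2 * S.CI / Real.sqrt (n + 1)) := by
      have : ∀ p ∈ range R, ((PE.unif (St R n (𝒲 × (ι → Fin N)))).E fun st =>
          (S.law0 θ st H).E fun x => ((S.chain θ st).law x p).E fun y =>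
            Real.sqrt ((S.chain θ st).Iav θ p y w)) ≤
          Real.sqrt (Fintype.card 𝒲 ^ 2 * S.CI / Real.sqrt (n + 1)) := fun p hp =>
        avg_Iav u M hM hu h0 h1 H (mem_range.1 hp) w
      refine (Finset.sum_le_sum this).trans (le_of_eq ?_)
      rw [Finset.sum_const, card_range, nsmul_eq_mul]
    have hpt : ∀ st x, Bd st x ≤ c ^ (-(R * (1 - θ))) *
        ((c⁻¹ ^ 3 * Real.sqrt ((Λ : ℝ) ^ Fintype.card ι)) *
          (∑ p ∈ range R, ((S.chain θ st).law x p).E
            (fun y => Real.sqrt ((S.chain θ st).Iav θ p y w))) +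
        (c⁻¹ ^ 3 * (1 - θ) * (Real.sqrt R * Real.sqrt (5 * c⁻¹ ^ 5 * (1 + R * (1 - θ)))) +
        c⁻¹ ^ 3 * (1 - θ) * (5 * c⁻¹ ^ 5 * (1 + R * (1 - θ))) +
        2 * R * c⁻¹ ^ R * (d + 2 * R * η)) +
        2 * R * c⁻¹ ^ R * (((S.chain θ st).law x R).E (fun y => ∑ w,
          (S.chain θ st).leafErr W (fun H i => gmag u (blkAt st R).suf H i) R y w)) +
        ((S.chain θ st).law x R).E (fun y =>
        (S.chain θ st).leafErr W (fun H i => gmag u (blkAt st R).suf H i) R y w)) := by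
      intro st x
      have h9 := Chain.err_sum (hok st) W (fun H i => gmag u (blkAt st R).suf H i) hη0 hd0 Λ x w
      rw [hBd]
      apply mul_le_mul_of_nonneg_left _ (Real.rpow_nonneg hc0.le _)
      (clear hΛ CL H hS hc hc0 hc1 hcinv hCL hWdef hW hη hd D hDx 𝔻 h𝔻 hθR hθR1 rt hrt Bd hBd hval hroot hcomb h8 LE hLE hLE1 hLEw IE hIE hIE1; linarith)
    have h10 : ((PE.unif (St R n (𝒲 × (ι → Fin N)))).E fun st => (S.law0 θ st H).E (Bd st)) ≤
        c ^ (-(R * (1 - θ))) *
        ((c⁻¹ ^ 3 * Real.sqrt ((Λ : ℝ) ^ Fintype.card ι)) * IE +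
        (c⁻¹ ^ 3 * (1 - θ) * (Real.sqrt R * Real.sqrt (5 * c⁻¹ ^ 5 * (1 + R * (1 - θ)))) +
        c⁻¹ ^ 3 * (1 - θ) * (5 * c⁻¹ ^ 5 * (1 + R * (1 - θ))) +
        2 * R * c⁻¹ ^ R * (d + 2 * R * η)) +
        2 * R * c⁻¹ ^ R * LE + LE) := by
      refine (PE.mono _ fun st => PE.mono _ (hpt st)).trans ?_
      simp_rw [PE.lin4]
      apply mul_le_mul_of_nonneg_left _ (Real.rpow_nonneg hc0.le _)
      have e3 : IE = (PE.unif (St R n (𝒲 × (ι → Fin N)))).E fun st => (S.law0 θ st H).E fun x =>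
          ∑ p ∈ range R, ((S.chain θ st).law x p).E fun y =>
            Real.sqrt ((S.chain θ st).Iav θ p y w) := by
        rw [hIE]
        rw [← PE.sum]
        congr 1
        funext st
        rw [← PE.sum]
      rw [e3]
      exact add_le_add le_rfl hLEw
    refine h10.trans ?_
    apply mul_le_mul_of_nonneg_left _ (Real.rpow_nonneg hc0.le _)
    have h11 := mul_le_mul_of_nonneg_left hIE1
      (by (clear * -; positivity) : 0 ≤ c⁻¹ ^ 3 * Real.sqrt ((Λ : ℝ) ^ Fintype.card ι))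
    have h12 := mul_le_mul_of_nonneg_left hLE1
      (by (clear * -; positivity) : (0 : ℝ) ≤ 2 * R * c⁻¹ ^ R)
    have h13 : 2 * (R * (c⁻¹ ^ R * (CL / Real.sqrt (n + 1) + d + 2 * R * η))) =
        2 * R * c⁻¹ ^ R * (d + 2 * R * η) + 2 * R * c⁻¹ ^ R * (CL / Real.sqrt (n + 1)) := by
      ring
    rw [h13]
    linarith only [hLE1, h11, h12]
  have h14 := mul_le_mul_of_nonneg_left hBdle (by positivity : 0 ≤ c⁻¹ / θ ^ R)
  rw [hη, hd] at h14
  rw [hcinv] at h14
  have h15 : Real.exp M / θ ^ R * Real.exp (-M) ^ (-(R * (1 - θ))) = Real.exp M / θ ^ R *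
    c ^ (-(R * (1 - θ))) := rfl
  rw [h15, mul_assoc (Real.exp M / θ ^ R)]
  rw [hcinv]
  linarith

/-- DECOUPLING THEOREM for a family of shapes which contains the purification shapes. -/
theorem decoupling_core (hpur : ∀ I : Finset ι, ∃ w, ∀ σ : ι → Bool,
      u w σ = Real.log (1 + (1 / 2) * ∏ j ∈ I, spin (σ j))) {ε : ℝ} (hε : 0 < ε) :
    ∃ (R n : ℕ) (θ : ℝ), 0 < θ ∧ θ < 1 ∧ ∀ (N : ℕ) [NeZero N] (H : Egy N),
      ∃ D : PE (Chain.Data (R + 1) (Fin N)), ∀ w : 𝒲,
        |(aS fun s : ι → Fin N => PhiN u M hM hu θ (R + 1) n N (H + addE u (w, s))) -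
          PhiN u M hM hu θ (R + 1) n N H - D.E fun data => valMP θ data (u w)| ≤ ε := by
  obtain ⟨CL, hCL0, hCL⟩ := purity u M hM hu hpur
  have hc0 : 0 < Real.exp (-M) := Real.exp_pos _
  have hc1 : Real.exp (-M) ≤ 1 := Real.exp_le_one_iff.2 (by linarith)
  have hcinv : (Real.exp (-M))⁻¹ = Real.exp M := by rw [← Real.exp_neg, neg_neg]
  obtain ⟨r, θ, K0, Dq, Λ, n, h0, h1, hK, hD, hΛ, hn⟩ :=
    exists_params (c := Real.exp (-M)) (M := M) (cW := Fintype.card 𝒲) (cJ := Fintype.card ι)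
      (Fintype.card ι) (CI := Fintype.card 𝒲 ^ 2 * (100 * Real.exp (10 * M) *
        (1 + Real.exp M) ^ 6)) (CL := CL) hc0 hc1 (Nat.cast_nonneg _) (Nat.cast_nonneg _) hCL0 hε
  refine ⟨r, n, θ, h0, h1, fun N _ H => ?_⟩
  obtain ⟨D, hDw⟩ := decoupling_params u M hM hu h0 h1 hK hD hΛ N H
    (hCL N (r + 1) n θ h0 h1 H)
  refine ⟨D, fun w => (hDw w).trans ?_⟩
  refine le_trans ?_ (hn n le_rfl)
  unfold totErr
  rw [hcinv]
  have hW1 : (1 : ℝ) ≤ Fintype.card 𝒲 := by exact_mod_cast Fintype.card_pos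
  have e1 : Real.exp M ^ (r + 1) * (CL / Real.sqrt (n + 1) +
      Fintype.card 𝒲 * (Real.exp M * (Fintype.card ι / Dq)) +
      2 * ((r + 1 : ℕ) : ℝ) * (2 * Fintype.card 𝒲 * Real.exp M / Real.sqrt K0)) ≤
      Real.exp M ^ (r + 1) * (Fintype.card 𝒲 * (CL / Real.sqrt (n + 1)) +
      Fintype.card 𝒲 * (Real.exp M * (Fintype.card ι / Dq)) +
      2 * ((r + 1 : ℕ) : ℝ) * (2 * Fintype.card 𝒲 * Real.exp M / Real.sqrt K0)) := by
    apply mul_le_mul_of_nonneg_left _ (by positivity)
    have : CL / Real.sqrt (n + 1) ≤ Fintype.card 𝒲 * (CL / Real.sqrt (n + 1)) :=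
      le_mul_of_one_le_left (by (clear * - hCL0; positivity)) hW1
    linarith only [this]
  have e2 : (sys N u M hM hu).CI = 100 * Real.exp (10 * M) * (1 + Real.exp M) ^ 6 := rfl
  rw [e2]
  have e3 : θ ^ (r + 1) * M ^ 2 * Real.exp M = θ ^ (r + 1) * (M ^ 2 * Real.exp M) := by ring
  rw [e3]
  refine add_le_add ?_ le_rfl
  apply mul_le_mul_of_nonneg_left
  · have e4 := mul_le_mul_of_nonneg_left e1 (by positivity : (0 : ℝ) ≤ 2 * ((r + 1 : ℕ) : ℝ))
    linarith only [e4]
  · have := Real.rpow_nonneg hc0.le (-(((r + 1 : ℕ) : ℝ) * (1 - θ)))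
    positivity

end Main

/-- DECOUPLING THEOREM: for every finite family of shapes there is a slot functional (built with a
larger family `u'`) whose increments are mixtures of Mézard–Parisi values, with the same mixture
for all shapes of the family. -/
theorem decoupling {ι 𝒲 : Type} [Fintype ι] [DecidableEq ι] [Fintype 𝒲] (u : 𝒲 → Sh ι)
    {ε : ℝ} (hε : 0 < ε) :
    ∃ (𝒲' : Type) (_ : Fintype 𝒲') (_ : Nonempty 𝒲') (u' : 𝒲' → Sh ι) (M : ℝ) (hM : 0 ≤ M)
      (hu : ∀ w σ, |u' w σ| ≤ M) (R n : ℕ) (θ : ℝ), 0 < θ ∧ θ < 1 ∧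
      ∀ (N : ℕ) [NeZero N] (H : Egy N),
      ∃ D : PE (Chain.Data (R + 1) (Fin N)), ∀ w : 𝒲,
        |(aS fun s : ι → Fin N => PhiN u' M hM hu θ (R + 1) n N (H + addE u (w, s))) -
          PhiN u' M hM hu θ (R + 1) n N H - D.E fun data => valMP θ data (u w)| ≤ ε := by
  let u' : 𝒲 ⊕ Finset ι → Sh ι := fun w => match w with
    | Sum.inl w => u w
    | Sum.inr I => fun σ => Real.log (1 + (1 / 2) * ∏ j ∈ I, spin (σ j))
  have hM : 0 ≤ ∑ w, ∑ σ, |u' w σ| :=
    Finset.sum_nonneg fun w _ => Finset.sum_nonneg fun σ _ => abs_nonneg _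
  have hu : ∀ w σ, |u' w σ| ≤ ∑ w, ∑ σ, |u' w σ| := fun w σ =>
    (Finset.single_le_sum (f := fun σ => |u' w σ|) (fun σ _ => abs_nonneg _)
      (Finset.mem_univ σ)).trans
    (Finset.single_le_sum (f := fun w => ∑ σ, |u' w σ|)
      (fun w _ => Finset.sum_nonneg fun σ _ => abs_nonneg _) (Finset.mem_univ w))
  obtain ⟨R, n, θ, h0, h1, h⟩ := decoupling_core u' _ hM hu (fun I => ⟨Sum.inr I, fun σ => rfl⟩) hε
  refine ⟨𝒲 ⊕ Finset ι, inferInstance, inferInstance, u', _, hM, hu, R, n, θ, h0, h1,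
    fun N _ H => ?_⟩
  obtain ⟨D, hD⟩ := h N H
  exact ⟨D, fun w => hD (Sum.inl w)⟩

end Vale.Agent.P168.MP
end
end

section

section

set_option autoImplicit false
set_option linter.unusedSectionVars false

open Finset

namespace Vale.Agent.P168.MP

section Unif

/-- Uniform average over a type which projects uniformly (as a factor of a product). -/
theorem unif_snd {α β γ : Type} [Fintype α] [Nonempty α] [Fintype β] [Nonempty β] [Fintype γ]
    [Nonempty γ] (e : γ ≃ α × β) (f : β → ℝ) :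
    (PE.unif γ).E (fun g => f (e g).2) = (PE.unif β).E f := by
  rw [PE.unif_E, PE.unif_E]
  have h1 : ∑ g, f (e g).2 = ∑ ab : α × β, f ab.2 := e.sum_comp fun ab => f ab.2
  have h2 : Fintype.card γ = Fintype.card α * Fintype.card β := by
    rw [Fintype.card_congr e, Fintype.card_prod]
  have h3 : ∑ ab : α × β, f ab.2 = Fintype.card α * ∑ b, f b := by
    rw [Fintype.sum_prod_type]
    show ∑ _a : α, ∑ b : β, f b = _
    rw [Finset.sum_const, Finset.card_univ, nsmul_eq_mul]
  have ha : (Fintype.card α : ℝ) ≠ 0 := by exact_mod_cast Fintype.card_ne_zero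
  rw [h1, h2, h3]
  push_cast
  rw [mul_div_mul_left _ _ ha]

end Unif

section Pat

variable (θ : ℝ) (R n : ℕ)

/-- The pattern of the slots of a structure. -/
noncomputable def patR : List (ℝ × (Fin (R + 1) × Fin n)) :=
  (List.range (R + 1)).flatMap fun p =>
    blk (pw θ R p) (List.ofFn fun i : Fin n => ((⟨min p R, by omega⟩ : Fin (R + 1)), i))

theorem allSlots_patL {Ω : Type} (st : St R n Ω) :
    allSlots θ st = patL (patR θ R n) fun q => (st q.1).2 q.2 := by
  unfold allSlots patL patR full blk blkAt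
  rw [List.map_flatMap]
  congr 1
  funext p
  rw [List.map_map, List.map_ofFn, List.map_ofFn]
  rfl

theorem patR_pos {θ : ℝ} (h0 : 0 < θ) (h1 : θ < 1) (R n : ℕ) : Pos (patR θ R n) := by
  intro s hs
  unfold patR blk at hs
  simp only [List.mem_flatMap, List.mem_map] at hs
  obtain ⟨p, _, a, _, rfl⟩ := hs
  exact ⟨pow_pos h0 _, pow_le_one₀ h0.le h1.le⟩

/-- Structures, as positions and slots. -/
def stEquiv {Ω : Type} : St R n Ω ≃ (Fin (R + 1) → Fin (n + 1)) × ((Fin (R + 1) × Fin n) → Ω) where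
  toFun st := (fun p => (st p).1, fun q => (st q.1).2 q.2)
  invFun a := fun p => (a.1 p, fun i => a.2 (p, i))
  left_inv _ := rfl
  right_inv _ := rfl

end Pat

variable {ι 𝒲 : Type} [Fintype ι] [DecidableEq ι] [Fintype 𝒲] [Nonempty 𝒲]

theorem PhiN_eq_GP (u : 𝒲 → Sh ι) (M : ℝ) (hM : 0 ≤ M) (hu : ∀ w σ, |u w σ| ≤ M) (θ : ℝ)
    (R n N : ℕ) [NeZero N] (H : Egy N) :
    PhiN u M hM hu θ R n N H = GP u M hM hu (patR θ R n) N H := by
  rw [GP_eq]
  unfold PhiN
  simp_rw [allSlots_patL]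
  exact unif_snd (stEquiv R n) fun τ =>
    (egySlots u M hM hu N).lam (patL (patR θ R n) τ) H

/-- The core theorem from the decoupling theorem. -/
theorem core_of_decoupling {J W0 : Type} [Fintype J] [DecidableEq J] [Fintype W0]
    (ψ0 : W0 → (J → Bool) → ℝ) {ε : ℝ} (hε : 0 < ε) : CoreFor ψ0 ε := by
  obtain ⟨W, iW, nW, u', M, hM, hu, R, n, θ, h0, h1, h⟩ := decoupling (ι := J) ψ0 hε
  refine ⟨W, iW, nW, u', M, hM, hu, Fin (R + 1 + 1) × Fin n, inferInstance, inferInstance,
    patR θ (R + 1) n, patR_pos h0 h1 _ _, R, fun i => θ ^ (R - (i : ℕ)), fun N _ H => ?_⟩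
  obtain ⟨D, hD⟩ := h N H
  choose x hx hval using fun data : Chain.Data (R + 1) (Fin N) => realize_data h0 h1 R data
  refine ⟨Chain.Data (R + 1) (Fin N), D, x, hx, fun w => ?_⟩
  have h2 := hD w
  simp only [PhiN_eq_GP] at h2
  have e : (fun data : Chain.Data (R + 1) (Fin N) =>
      trF (fun i => θ ^ (R - (i : ℕ))) (x data) (ψ0 w)) = fun data => valMP θ data (ψ0 w) := by
    funext data
    exact hval data J (fun σ => Real.exp (ψ0 w σ)) fun σ => Real.exp_pos _
  rw [e]
  exact h2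

end Vale.Agent.P168.MP
end
end

section

section

set_option autoImplicit false

open MeasureTheory ProbabilityTheory Filter
open scoped NNReal Topology

namespace Vale.Agent.P168.MP

variable {K : ℕ} [NeZero K] (ρ : Measure (Clause K)) [IsProbabilityMeasure ρ]
  (hρ : Integrable (maxTheta : Clause K → ℝ) ρ) (ν : Measure ℝ) [IsProbabilityMeasure ν]
  (hν : Integrable (fun h : ℝ => h) ν)

include hρ hν in
/-- THE LOWER BOUND: the Mézard–Parisi value is at most the lower limit of the pressure. -/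
theorem lower_full (lam : ℝ≥0) :
    mezardParisi lam ρ ν ≤ liminf (fun N => ((pressure lam ρ ν N : ℝ) : EReal)) atTop :=
  lower_of_core ρ hρ ν hν lam fun _ _ _ hε => core_of_decoupling _ hε

end Vale.Agent.P168.MP
end
end

section

section

/-!
Measurability and bounds for the interpolating system.
-/

set_option autoImplicit false
set_option linter.unusedSectionVars false

open MeasureTheory ProbabilityTheory
open scoped NNReal

namespace Vale.Agent.P168.PT

variable {K N r : ℕ}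

theorem measurable_intF (σ : Fin N → Bool) : Measurable fun y : Y3 K N => intF y σ :=
  Real.measurable_exp.comp ((measurable_clauseE σ).comp measurable_fst)

theorem intF_mem (y : Y3 K N) (σ : Fin N → Bool) :
    Real.exp (-maxTheta y.1.1) ≤ intF y σ ∧ intF y σ ≤ Real.exp (maxTheta y.1.1) :=
  ⟨Real.exp_le_exp.2 (theta_mem _ _).1, Real.exp_le_exp.2 (theta_mem _ _).2⟩

theorem measurable_msgs {x : (Fin (r + 1) → U01) → ℝ} (hx : Measurable x) :
    Measurable fun q : (Fin K → U01) × (Fin r → Lv K) => msgs x q.1 q.2 := by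
  refine measurable_pi_lambda _ fun j => ?_
  refine hx.comp ?_
  rw [measurable_pi_iff]
  intro i
  refine Fin.cases ?_ (fun i => ?_) i
  · have h : Measurable fun q : (Fin K → U01) × (Fin r → Lv K) => q.1 j :=
      (measurable_pi_apply j).comp measurable_fst
    simpa only [Fin.cons_zero] using h
  · have h : Measurable fun q : (Fin K → U01) × (Fin r → Lv K) => q.2 i j :=
      (measurable_pi_apply j).comp ((measurable_pi_apply i).comp measurable_snd)
    simpa only [Fin.cons_succ] using h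

theorem msgs_abs {x : (Fin (r + 1) → U01) → ℝ} (hx : ∀ w, x w ∈ Set.Icc (-1 : ℝ) 1)
    (w : Fin K → U01) (v : Fin r → Lv K) (j : Fin K) : |msgs x w v j| ≤ 1 :=
  abs_le.2 (hx _)

theorem measurable_cavityFactor (l : Fin K) (e : Bool) :
    Measurable fun q : Clause K × (Fin K → ℝ) => cavityFactor q.1 l q.2 e := by
  unfold cavityFactor
  refine Finset.measurable_fun_sum _ fun σ _ => ?_
  by_cases h : σ l = e
  · simp only [h, if_true]
    refine (Real.measurable_exp.comp ((measurable_theta σ).comp measurable_fst)).mul ?_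
    refine Finset.measurable_fun_prod _ fun j _ => ?_
    have : Measurable fun q : Clause K × (Fin K → ℝ) => q.2 j :=
      (measurable_pi_apply j).comp measurable_snd
    fun_prop
  · simp only [h, if_false]
    exact measurable_const

theorem measurable_edgeFactor :
    Measurable fun q : Clause K × (Fin K → ℝ) => edgeFactor q.1 q.2 := by
  unfold edgeFactor
  refine Finset.measurable_fun_sum _ fun σ _ => ?_
  refine (Real.measurable_exp.comp ((measurable_theta σ).comp measurable_fst)).mul ?_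
  refine Finset.measurable_fun_prod _ fun j _ => ?_
  have : Measurable fun q : Clause K × (Fin K → ℝ) => q.2 j :=
    (measurable_pi_apply j).comp measurable_snd
  fun_prop

theorem measurable_cavC {x : (Fin (r + 1) → U01) → ℝ} (hx : Measurable x) (σ : Fin N → Bool) :
    Measurable fun q : C4 K N × (Fin r → Lv K) => cavC x q.1 q.2 σ := by
  have e : (fun q : C4 K N × (Fin r → Lv K) => cavC x q.1 q.2 σ) = fun q =>
      ∑ l : Fin K, ∑ e : Bool, if q.1.1.1.2 = l ∧ σ q.1.2 = e then
        cavityFactor q.1.1.1.1 l (msgs x q.1.1.2 q.2) e else 0 := by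
    funext q
    rw [Finset.sum_eq_single q.1.1.1.2, Finset.sum_eq_single (σ q.1.2)]
    · simp [cavC]
    · intro e _ he
      rw [if_neg]
      exact fun h => he h.2.symm
    · intro h; exact absurd (Finset.mem_univ _) h
    · intro l _ hl
      refine Finset.sum_eq_zero fun e _ => ?_
      rw [if_neg]
      exact fun h => hl h.1.symm
    · intro h; exact absurd (Finset.mem_univ _) h
  rw [e]
  refine Finset.measurable_fun_sum _ fun l _ => Finset.measurable_fun_sum _ fun e _ => ?_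
  refine Measurable.ite ?_ ?_ measurable_const
  · refine MeasurableSet.inter ?_ ?_
    · have h1 : Measurable fun q : C4 K N × (Fin r → Lv K) => q.1.1.1.2 :=
        measurable_snd.comp (measurable_fst.comp (measurable_fst.comp measurable_fst))
      exact h1 (measurableSet_singleton l)
    · have h1 : Measurable fun q : C4 K N × (Fin r → Lv K) => σ q.1.2 :=
        (measurable_of_countable σ).comp (measurable_snd.comp measurable_fst)
      exact h1 (measurableSet_singleton e)
  · refine (measurable_cavityFactor l e).comp (f := fun q : C4 K N × (Fin r → Lv K) =>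
      (q.1.1.1.1, msgs x q.1.1.2 q.2)) ?_
    refine Measurable.prodMk ?_ ?_
    · exact measurable_fst.comp (measurable_fst.comp (measurable_fst.comp measurable_fst))
    · exact (measurable_msgs hx).comp ((measurable_snd.comp (measurable_fst.comp
        measurable_fst)).prodMk measurable_snd)

theorem cavC_mem {x : (Fin (r + 1) → U01) → ℝ} (hx : ∀ w, x w ∈ Set.Icc (-1 : ℝ) 1)
    (q : C4 K N) (v : Fin r → Lv K) (σ : Fin N → Bool) :
    Real.exp (-maxTheta q.1.1.1) ≤ cavC x q v σ ∧ cavC x q v σ ≤ Real.exp (maxTheta q.1.1.1) :=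
  cavityFactor_mem _ _ _ (fun j => msgs_abs hx _ _ j) _

variable {a n : ℕ}

/-- the bound. -/
noncomputable def Bw (ω : Om K N a n) : ℝ :=
  (∑ k, maxTheta (ω.1 k).1.1) + ((∑ s, |ω.2.2 s|) + ∑ k, maxTheta (ω.2.1 k).1.1.1)

theorem measurable_wt {x : (Fin (r + 1) → U01) → ℝ} (hx : Measurable x) (σ : Fin N → Bool) :
    Measurable fun z : Om K N a n × (Fin r → Fin n → Lv K) => wt x z.1 z.2 σ := by
  unfold wt
  refine Measurable.mul ?_ (Measurable.mul ?_ ?_)
  · refine Finset.measurable_fun_prod _ fun k _ => ?_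
    exact (measurable_intF σ).comp ((measurable_pi_apply k).comp
      (measurable_fst.comp measurable_fst))
  · refine Real.measurable_exp.comp (Finset.measurable_fun_sum _ fun s _ => ?_)
    have : Measurable fun z : Om K N a n × (Fin r → Fin n → Lv K) => z.1.2.2 s :=
      (measurable_pi_apply s).comp (measurable_snd.comp (measurable_snd.comp measurable_fst))
    exact this.mul_const _
  · refine Finset.measurable_fun_prod _ fun k _ => ?_
    refine (measurable_cavC hx σ).comp (f := fun z : Om K N a n × (Fin r → Fin n → Lv K) =>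
      (z.1.2.1 k, fun p => z.2 p k)) ?_
    refine Measurable.prodMk ?_ (measurable_pi_lambda _ fun p => ?_)
    · exact (measurable_pi_apply k).comp (measurable_fst.comp (measurable_snd.comp
        measurable_fst))
    · exact (measurable_pi_apply k).comp ((measurable_pi_apply p).comp measurable_snd)

theorem prod_mem_exp {ι : Type*} (t : Finset ι) (f B : ι → ℝ)
    (h : ∀ i ∈ t, Real.exp (-B i) ≤ f i ∧ f i ≤ Real.exp (B i)) :
    Real.exp (-∑ i ∈ t, B i) ≤ ∏ i ∈ t, f i ∧ ∏ i ∈ t, f i ≤ Real.exp (∑ i ∈ t, B i) := by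
  constructor
  · rw [← Finset.sum_neg_distrib, Real.exp_sum]
    exact Finset.prod_le_prod (fun i _ => (Real.exp_pos _).le) fun i hi => (h i hi).1
  · rw [Real.exp_sum]
    exact Finset.prod_le_prod (fun i hi => (Real.exp_pos _).le.trans (h i hi).1)
      fun i hi => (h i hi).2

theorem mul_mem_exp {f g A B : ℝ} (h : Real.exp (-A) ≤ f ∧ f ≤ Real.exp A)
    (h' : Real.exp (-B) ≤ g ∧ g ≤ Real.exp B) :
    Real.exp (-(A + B)) ≤ f * g ∧ f * g ≤ Real.exp (A + B) := by
  rw [neg_add, Real.exp_add, Real.exp_add]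
  exact ⟨mul_le_mul h.1 h'.1 (Real.exp_pos _).le ((Real.exp_pos _).le.trans h.1),
    mul_le_mul h.2 h'.2 ((Real.exp_pos _).le.trans h'.1) (Real.exp_pos _).le⟩

theorem wt_mem {x : (Fin (r + 1) → U01) → ℝ} (hx : ∀ w, x w ∈ Set.Icc (-1 : ℝ) 1)
    (ω : Om K N a n) (v : Fin r → Fin n → Lv K) (σ : Fin N → Bool) :
    Real.exp (-Bw ω) ≤ wt x ω v σ ∧ wt x ω v σ ≤ Real.exp (Bw ω) := by
  unfold wt Bw
  refine mul_mem_exp ?_ (mul_mem_exp ?_ ?_)
  · exact prod_mem_exp _ _ _ fun k _ => intF_mem _ _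
  · have h1 : |∑ s, ω.2.2 s * spin (σ s)| ≤ ∑ s, |ω.2.2 s| := by
      refine (Finset.abs_sum_le_sum_abs _ _).trans (Finset.sum_le_sum fun s _ => ?_)
      rw [abs_mul, KS.spin_abs, mul_one]
    exact ⟨Real.exp_le_exp.2 (abs_le.1 h1).1, Real.exp_le_exp.2 (abs_le.1 h1).2⟩
  · exact prod_mem_exp _ _ _ fun k _ => cavC_mem hx _ _ _

theorem wt_bd {x : (Fin (r + 1) → U01) → ℝ} (hxm : Measurable x)
    (hx : ∀ w, x w ∈ Set.Icc (-1 : ℝ) 1) (ω : Om K N a n) (σ : Fin N → Bool) :
    Bd (Real.exp (-Bw ω)) (Real.exp (Bw ω)) fun v : Fin r → Fin n → Lv K => wt x ω v σ := by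
  have h1 : Measurable fun v : Fin r → Fin n → Lv K => (ω, v) := measurable_prodMk_left
  have h2 := (measurable_wt (a := a) hxm σ).comp h1
  exact ⟨h2, fun v => (wt_mem hx ω v σ).1, fun v => (wt_mem hx ω v σ).2⟩

theorem measurable_FF (m : Fin r → ℝ) {x : (Fin (r + 1) → U01) → ℝ} (hx : Measurable x) :
    Measurable fun ω : Om K N a n => FF m x ω := by
  unfold FF
  refine Real.measurable_log.comp (measurable_nest _ r m _ ?_)
  exact Finset.measurable_fun_sum _ fun σ _ => measurable_wt hx σ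

/-- log of a nested sum. -/
theorem abs_log_nest_sum_le {W S : Type} [MeasurableSpace W] [Fintype S] [Nonempty S]
    {P : Measure W} [IsProbabilityMeasure P] {m : Fin r → ℝ} (hm : ∀ p, 0 < m p)
    {Z : (Fin r → W) → S → ℝ} {B : ℝ}
    (hZ : ∀ σ, Bd (Real.exp (-B)) (Real.exp B) fun v => Z v σ) :
    |Real.log (nest P r m fun v => ∑ σ, Z v σ)| ≤ B + Real.log (Fintype.card S) := by
  have hc : (0 : ℝ) < Fintype.card S := by exact_mod_cast Fintype.card_pos
  have hc1 : (1 : ℝ) ≤ Fintype.card S := by exact_mod_cast Fintype.card_pos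
  have h1 := nest_mem (P := P) (by positivity) r m hm _ (sum_bd hZ)
  have hpos : 0 < nest P r m fun v => ∑ σ, Z v σ :=
    lt_of_lt_of_le (by positivity) h1.1
  have hl : 0 ≤ Real.log (Fintype.card S) := Real.log_nonneg hc1
  rw [abs_le]
  constructor
  · have h2 := Real.log_le_log (by positivity) h1.1
    rw [Real.log_mul hc.ne' (Real.exp_pos _).ne', Real.log_exp] at h2
    linarith only [hl, h2]
  · have h2 := Real.log_le_log hpos h1.2
    rw [Real.log_mul hc.ne' (Real.exp_pos _).ne', Real.log_exp] at h2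
    linarith

theorem abs_FF_le {m : Fin r → ℝ} {x : (Fin (r + 1) → U01) → ℝ} (hx : IsTrial r m x)
    (ω : Om K N a n) : |FF m x ω| ≤ Bw ω + N * Real.log 2 := by
  have h := abs_log_nest_sum_le (P := Measure.pi fun _ : Fin n => lvM K) (m := m)
    (fun p => (hx.2.1 p).1) (wt_bd hx.2.2.1 hx.2.2.2 ω)
  unfold FF
  simpa only [ge_iff_le, Fintype.card_pi, Fintype.card_bool, Finset.prod_const, Finset.card_univ,     Fintype.card_fin, Nat.cast_pow, Nat.cast_ofNat, Real.log_pow] using h

section Int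

theorem mp_integral {α β : Type} [MeasurableSpace α] [MeasurableSpace β] {μ : Measure α}
    {μ' : Measure β} {φ : α → β} (h : MeasurePreserving φ μ μ') {f : β → ℝ}
    (hf : AEStronglyMeasurable f μ') : ∫ a, f (φ a) ∂μ = ∫ b, f b ∂μ' := by
  have h2 := integral_map (μ := μ) (φ := φ) (f := f) h.measurable.aemeasurable
    (by rwa [h.map_eq])
  rw [h.map_eq] at h2
  exact h2.symm

theorem neZero_of {ρ : Measure (Clause K)} {ν : Measure ℝ} (h : InClass K ρ ν) : NeZero K :=
  ⟨by have := h.two_le; omega⟩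

theorem maxTheta_int_bd420 {ρ : Measure (Clause K)} {ν : Measure ℝ} (h : InClass K ρ ν) :
    Integrable (maxTheta : Clause K → ℝ) ρ := by
  have := h.prob_clause
  exact integrable_maxTheta_of ρ h.theta_int

variable (ρ : Measure (Clause K)) (ν : Measure ℝ) [IsProbabilityMeasure ρ]
  [IsProbabilityMeasure ν] [NeZero N] [NeZero K]

theorem mpA (k : Fin a) :
    MeasurePreserving (fun ω : Om K N a n => (ω.1 k).1.1) (om ρ ν N a n) ρ :=
  (measurePreserving_fst (μ := ρ) (ν := Measure.pi fun _ : Fin K => unif N)).comp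
    ((measurePreserving_fst (μ := ρ.prod (Measure.pi fun _ : Fin K => unif N))
      (ν := Measure.pi fun _ : Fin K => (volume : Measure U01))).comp
    ((measurePreserving_eval (fun _ : Fin a => cl3 ρ N) k).comp measurePreserving_fst))

theorem mpH (s : Fin N) :
    MeasurePreserving (fun ω : Om K N a n => ω.2.2 s) (om ρ ν N a n) ν :=
  (measurePreserving_eval (fun _ : Fin N => ν) s).comp
    (measurePreserving_snd.comp measurePreserving_snd)

theorem mpC (k : Fin n) :
    MeasurePreserving (fun ω : Om K N a n => (ω.2.1 k).1.1.1) (om ρ ν N a n) ρ :=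
  (measurePreserving_fst (μ := ρ) (ν := unif K)).comp
    ((measurePreserving_fst (μ := ρ.prod (unif K)) (ν := lvM K)).comp
    ((measurePreserving_fst (μ := (ρ.prod (unif K)).prod (lvM K)) (ν := unif N)).comp
    ((measurePreserving_eval (fun _ : Fin n => c4 ρ N) k).comp
      (measurePreserving_fst.comp measurePreserving_snd))))

variable {ρ} {ν}

theorem integrable_Bw (hρ : Integrable (maxTheta : Clause K → ℝ) ρ)
    (hν : Integrable (fun h => h) ν) :
    Integrable (Bw : Om K N a n → ℝ) (om ρ ν N a n) := by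
  unfold Bw
  refine Integrable.add ?_ (Integrable.add ?_ ?_)
  · exact integrable_finsetSum _ fun k _ => (mpA ρ ν k).integrable_comp_of_integrable hρ
  · exact integrable_finsetSum _ fun s _ => (mpH ρ ν s).integrable_comp_of_integrable hν.abs
  · exact integrable_finsetSum _ fun k _ => (mpC ρ ν k).integrable_comp_of_integrable hρ

theorem integral_Bw (hρ : Integrable (maxTheta : Clause K → ℝ) ρ)
    (hν : Integrable (fun h => h) ν) :
    ∫ ω : Om K N a n, Bw ω ∂(om ρ ν N a n) =
      a * ∫ c, maxTheta c ∂ρ + (N * ∫ h, |h| ∂ν + n * ∫ c, maxTheta c ∂ρ) := by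
  unfold Bw
  have i1 : ∀ k : Fin a, Integrable (fun ω : Om K N a n => maxTheta (ω.1 k).1.1)
      (om ρ ν N a n) := fun k => (mpA ρ ν k).integrable_comp_of_integrable hρ
  have i2 : ∀ s : Fin N, Integrable (fun ω : Om K N a n => |ω.2.2 s|)
      (om ρ ν N a n) := fun s => (mpH ρ ν s).integrable_comp_of_integrable hν.abs
  have i3 : ∀ k : Fin n, Integrable (fun ω : Om K N a n => maxTheta (ω.2.1 k).1.1.1)
      (om ρ ν N a n) := fun k => (mpC ρ ν k).integrable_comp_of_integrable hρ
  have s1 : Integrable (fun ω : Om K N a n => ∑ k, maxTheta (ω.1 k).1.1) (om ρ ν N a n) :=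
    integrable_finsetSum _ fun k _ => i1 k
  have s2 : Integrable (fun ω : Om K N a n => ∑ s, |ω.2.2 s|) (om ρ ν N a n) :=
    integrable_finsetSum _ fun k _ => i2 k
  have s3 : Integrable (fun ω : Om K N a n => ∑ k, maxTheta (ω.2.1 k).1.1.1) (om ρ ν N a n) :=
    integrable_finsetSum _ fun k _ => i3 k
  have s4 : Integrable (fun ω : Om K N a n => (∑ s, |ω.2.2 s|) +
    ∑ k, maxTheta (ω.2.1 k).1.1.1) (om ρ ν N a n) := s2.add s3
  rw [integral_add s1 s4, integral_add s2 s3,
    integral_finsetSum _ fun k _ => i1 k, integral_finsetSum _ fun k _ => i2 k,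
    integral_finsetSum _ fun k _ => i3 k]
  have j1 : ∀ k : Fin a, ∫ ω : Om K N a n, maxTheta (ω.1 k).1.1 ∂(om ρ ν N a n) =
      ∫ c, maxTheta c ∂ρ := fun k => mp_integral (mpA ρ ν k) hρ.aestronglyMeasurable
  have j2 : ∀ s : Fin N, ∫ ω : Om K N a n, |ω.2.2 s| ∂(om ρ ν N a n) = ∫ h, |h| ∂ν :=
    fun s => mp_integral (mpH ρ ν s) hν.abs.aestronglyMeasurable
  have j3 : ∀ k : Fin n, ∫ ω : Om K N a n, maxTheta (ω.2.1 k).1.1.1 ∂(om ρ ν N a n) =
      ∫ c, maxTheta c ∂ρ := fun k => mp_integral (mpC ρ ν k) hρ.aestronglyMeasurable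
  simp only [j1, j2, j3]
  simp only [Finset.sum_const, Finset.card_univ, Fintype.card_fin, nsmul_eq_mul]

theorem integrable_FF (h : InClass K ρ ν) {m : Fin r → ℝ} {x : (Fin (r + 1) → U01) → ℝ}
    (hx : IsTrial r m x) : Integrable (fun ω : Om K N a n => FF m x ω) (om ρ ν N a n) := by
  refine ((integrable_Bw (maxTheta_int_bd420 h) h.field_int).add
    (integrable_const (N * Real.log 2))).mono' (measurable_FF m hx.2.2.1).aestronglyMeasurable ?_
  exact Filter.Eventually.of_forall fun ω => abs_FF_le hx ω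

theorem abs_TT_le (h : InClass K ρ ν) {m : Fin r → ℝ} {x : (Fin (r + 1) → U01) → ℝ}
    (hx : IsTrial r m x) (a n : ℕ) :
    |TT ρ ν m x N a n| ≤ (a + n) * (∫ c, maxTheta c ∂ρ) +
      N * (∫ h, |h| ∂ν + Real.log 2) := by
  unfold TT
  have h1 : |∫ ω : Om K N a n, FF m x ω ∂(om ρ ν N a n)| ≤
      ∫ ω : Om K N a n, |FF m x ω| ∂(om ρ ν N a n) := abs_integral_le_integral_abs
  have h2 : ∫ ω : Om K N a n, |FF m x ω| ∂(om ρ ν N a n) ≤
      ∫ ω : Om K N a n, (Bw ω + N * Real.log 2) ∂(om ρ ν N a n) :=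
    integral_mono (integrable_FF h hx).abs ((integrable_Bw (maxTheta_int_bd420 h) h.field_int).add
      (integrable_const _)) fun ω => abs_FF_le hx ω
  rw [integral_add (integrable_Bw (maxTheta_int_bd420 h) h.field_int) (integrable_const _),
    integral_Bw (maxTheta_int_bd420 h) h.field_int, integral_const, probReal_univ, one_smul] at h2
  linarith

end Int

end Vale.Agent.P168.PT
end
end

section

section

/-!
The interpolation inequality for `TT`.
-/

set_option autoImplicit false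
set_option linter.unusedSectionVars false

open MeasureTheory ProbabilityTheory
open scoped NNReal

namespace Vale.Agent.P168.PT

variable {K N r a n : ℕ}

theorem wt_insA (x : (Fin (r + 1) → U01) → ℝ) (ω : Om K N a n) (y : Y3 K N)
    (v : Fin r → Fin n → Lv K) (σ : Fin N → Bool) :
    wt x (insA (ω, y)) v σ = wt x ω v σ * intF y σ := by
  unfold wt insA
  simp only [Fin.prod_univ_succ, Fin.cons_zero, Fin.cons_succ]
  ring

theorem wt_insC (x : (Fin (r + 1) → U01) → ℝ) (ω : Om K N a n) (q : C4 K N)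
    (v : Fin r → (Fin n → Lv K) × Lv K) (σ : Fin N → Bool) :
    wt x (insC (ω, q)) (fun p => (Fin.cons (v p).2 (v p).1 : Fin (n + 1) → Lv K)) σ =
      wt x ω (fun p => (v p).1) σ * cavC x q (fun p => (v p).2) σ := by
  unfold wt insC
  simp only [Fin.prod_univ_succ, Fin.cons_zero, Fin.cons_succ]
  ring

theorem FF_insA (m : Fin r → ℝ) (x : (Fin (r + 1) → U01) → ℝ) (ω : Om K N a n) (y : Y3 K N) :
    FF m x (insA (ω, y)) = Real.log (nest (Measure.pi fun _ : Fin n => lvM K) r m fun v =>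
      ∑ σ, wt x ω v σ * intF y σ) := by
  unfold FF
  simp only [wt_insA]

theorem FF_insC (m : Fin r → ℝ) {x : (Fin (r + 1) → U01) → ℝ} (hx : Measurable x)
    (ω : Om K N a n) (q : C4 K N) :
    FF m x (insC (ω, q)) = Real.log (nest ((Measure.pi fun _ : Fin n => lvM K).prod (lvM K)) r m
      fun v => ∑ σ, wt x ω (fun p => (v p).1) σ * cavC x q (fun p => (v p).2) σ) := by
  unfold FF
  have h1 := nest_comp (cons_mp' (lvM K) n) r m
    (fun v => ∑ σ, wt x (insC (ω, q)) v σ) ?_
  · rw [← h1]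
    simp only [wt_insC]
  · refine Finset.measurable_fun_sum _ fun σ _ => ?_
    have h2 : Measurable fun v : Fin r → Fin (n + 1) → Lv K =>
        ((insC (ω, q) : Om K N a (n + 1)), v) := measurable_prodMk_left
    have h3 := (measurable_wt (a := a) (n := n + 1) hx σ).comp h2
    exact h3

section Int

variable {ρ : Measure (Clause K)} {ν : Measure ℝ} [IsProbabilityMeasure ρ]
  [IsProbabilityMeasure ν] [NeZero N] [NeZero K]

/-- adding one interaction. -/
theorem TT_succ_left (h : InClass K ρ ν) {m : Fin r → ℝ} {x : (Fin (r + 1) → U01) → ℝ}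
    (hx : IsTrial r m x) :
    TT ρ ν m x N (a + 1) n = ∫ ω : Om K N a n, (∫ y, Real.log
      (nest (Measure.pi fun _ : Fin n => lvM K) r m fun v =>
        ∑ σ, wt x ω v σ * intF y σ) ∂(cl3 ρ N)) ∂(om ρ ν N a n) := by
  unfold TT
  have hmp := insA_mp (K := K) (N := N) ρ ν a n
  rw [← mp_integral hmp (measurable_FF m hx.2.2.1).aestronglyMeasurable, integral_prod]
  · simp only [FF_insA]
  · exact hmp.integrable_comp_of_integrable (integrable_FF h hx)

theorem TT_succ_left_int (h : InClass K ρ ν) {m : Fin r → ℝ} {x : (Fin (r + 1) → U01) → ℝ}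
    (hx : IsTrial r m x) :
    Integrable (fun ω : Om K N a n => (∫ y, Real.log
      (nest (Measure.pi fun _ : Fin n => lvM K) r m fun v =>
        ∑ σ, wt x ω v σ * intF y σ) ∂(cl3 ρ N))) (om ρ ν N a n) := by
  have hmp := insA_mp (K := K) (N := N) ρ ν a n
  have h1 := (hmp.integrable_comp_of_integrable (integrable_FF (m := m) (x := x) h hx))
  have h2 := h1.integral_prod_left
  simpa only [Function.comp, FF_insA] using h2

/-- adding one cavity clause. -/
theorem TT_succ_right (h : InClass K ρ ν) {m : Fin r → ℝ} {x : (Fin (r + 1) → U01) → ℝ}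
    (hx : IsTrial r m x) :
    TT ρ ν m x N a (n + 1) = ∫ ω : Om K N a n, (∫ q : Y3 K N × Fin K, Real.log
      (nest ((Measure.pi fun _ : Fin n => lvM K).prod (lvM K)) r m fun v =>
        ∑ σ, wt x ω (fun p => (v p).1) σ * cavF x q.1 q.2 (fun p => (v p).2) σ)
        ∂((cl3 ρ N).prod (unif K))) ∂(om ρ ν N a n) := by
  unfold TT
  have hmp := insC_mp (K := K) (N := N) ρ ν a n
  have hmp2 := (MeasurePreserving.id (om ρ ν N a n)).prod (toC4_mp (N := N) ρ)
  have hmp3 := hmp.comp hmp2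
  rw [← mp_integral hmp3 (measurable_FF m hx.2.2.1).aestronglyMeasurable, integral_prod]
  · simp only [Function.comp, Prod.map, id]
    simp only [FF_insC m hx.2.2.1]
    rfl
  · exact hmp3.integrable_comp_of_integrable (integrable_FF h hx)

theorem TT_succ_right_int (h : InClass K ρ ν) {m : Fin r → ℝ} {x : (Fin (r + 1) → U01) → ℝ}
    (hx : IsTrial r m x) :
    Integrable (fun ω : Om K N a n => (∫ q : Y3 K N × Fin K, Real.log
      (nest ((Measure.pi fun _ : Fin n => lvM K).prod (lvM K)) r m fun v =>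
        ∑ σ, wt x ω (fun p => (v p).1) σ * cavF x q.1 q.2 (fun p => (v p).2) σ)
        ∂((cl3 ρ N).prod (unif K)))) (om ρ ν N a n) := by
  have hmp := insC_mp (K := K) (N := N) ρ ν a n
  have hmp2 := (MeasurePreserving.id (om ρ ν N a n)).prod (toC4_mp (N := N) ρ)
  have hmp3 := hmp.comp hmp2
  have h1 := (hmp3.integrable_comp_of_integrable (integrable_FF (m := m) (x := x) h hx))
  have h2 := h1.integral_prod_left
  simp only [Function.comp, Prod.map, id, FF_insC m hx.2.2.1] at h2
  exact h2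

theorem Bw_insC (ω : Om K N a n) (q : C4 K N) : Bw (insC (ω, q)) = Bw ω + maxTheta q.1.1.1 := by
  unfold Bw insC
  simp only [Fin.sum_univ_succ, Fin.cons_zero, Fin.cons_succ]
  ring

/-- for a fixed environment, the average over the distinguished index. -/
theorem right_fixed (h : InClass K ρ ν) {m : Fin r → ℝ} {x : (Fin (r + 1) → U01) → ℝ}
    (hx : IsTrial r m x) (ω : Om K N a n) :
    (K : ℝ) * ∫ q : Y3 K N × Fin K, Real.log
      (nest ((Measure.pi fun _ : Fin n => lvM K).prod (lvM K)) r m fun v =>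
        ∑ σ, wt x ω (fun p => (v p).1) σ * cavF x q.1 q.2 (fun p => (v p).2) σ)
        ∂((cl3 ρ N).prod (unif K)) =
    ∑ l : Fin K, ∫ y, Real.log (nest ((Measure.pi fun _ : Fin n => lvM K).prod
        (Measure.pi fun _ : Fin K => volume)) r m
        fun v => ∑ σ, wt x ω (fun p => (v p).1) σ * cavF x y l (fun p => (v p).2) σ)
        ∂(cl3 ρ N) := by
  have hG : Integrable (fun q : C4 K N => FF m x (insC (ω, q))) (c4 ρ N) := by
    have h1 : Integrable (fun q : C4 K N => (Bw ω + N * Real.log 2) + maxTheta q.1.1.1)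
        (c4 ρ N) :=
      (integrable_const _).add ((((maxTheta_int h).comp_fst _).comp_fst _).comp_fst _)
    have hm : Measurable fun q : C4 K N => FF m x (insC (ω, q)) := by
      have h2 : Measurable fun q : C4 K N => (insC (ω, q) : Om K N a (n + 1)) := by
        change Measurable fun q : C4 K N => ((ω.1, ((Fin.cons q ω.2.1 : Fin (n + 1) → C4 K N),
          ω.2.2)) : Om K N a (n + 1))
        refine measurable_const.prodMk (Measurable.prodMk ?_ measurable_const)
        exact measurable_cons.comp (measurable_id.prodMk measurable_const)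
      exact (measurable_FF m hx.2.2.1).comp h2
    refine h1.mono' hm.aestronglyMeasurable (Filter.Eventually.of_forall fun q => ?_)
    have h3 := abs_FF_le hx (insC (ω, q))
    rw [Bw_insC] at h3
    rw [Real.norm_eq_abs]
    linarith
  have hG2 := (toC4_mp (N := N) ρ).integrable_comp_of_integrable hG
  simp only [Function.comp_def, FF_insC m hx.2.2.1] at hG2
  have hK : (K : ℝ) ≠ 0 := by exact_mod_cast NeZero.ne K
  have e1 := integral_prod_symm _ hG2
  have e2 : ∀ (q : Y3 K N × Fin K) (v : Fin r → Lv K) (σ : Fin N → Bool),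
      cavC x (toC4 q) v σ = cavF x q.1 q.2 v σ := fun q v σ => rfl
  simp only [e2] at e1
  rw [e1, KS.integral_unif]
  field_simp

/-- bounds of the edge factor. -/
theorem edgF_bd {x : (Fin (r + 1) → U01) → ℝ} (hxm : Measurable x)
    (hx : ∀ w, x w ∈ Set.Icc (-1 : ℝ) 1) (y : Y3 K N) :
    Bd (Real.exp (-maxTheta y.1.1)) (Real.exp (maxTheta y.1.1))
      fun v : Fin r → Lv K => edgF x y v := by
  refine ⟨?_, fun v => ?_, fun v => ?_⟩
  · have h5 : Measurable fun v : Fin r → Lv K => (y.2, v) := measurable_prodMk_left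
    have h4 := (measurable_msgs hxm).comp h5
    have h6 : Measurable fun z : Fin K → ℝ => (y.1.1, z) := measurable_prodMk_left
    exact (measurable_edgeFactor.comp h6).comp h4
  · exact (edgeFactor_mem y.1.1 (msgs x y.2 v) fun j => msgs_abs hx _ _ j).1
  · exact (edgeFactor_mem y.1.1 (msgs x y.2 v) fun j => msgs_abs hx _ _ j).2

theorem integrable_edge (h : InClass K ρ ν) {m : Fin r → ℝ} {x : (Fin (r + 1) → U01) → ℝ}
    (hx : IsTrial r m x) :
    Integrable (fun y : Y3 K N => Real.log (nest (lvM K) r m fun v => edgF x y v))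
      (cl3 ρ N) := by
  have h1 : Integrable (fun y : Y3 K N => maxTheta y.1.1) (cl3 ρ N) :=
    ((maxTheta_int h).comp_fst _).comp_fst _
  refine h1.mono' ?_ (Filter.Eventually.of_forall fun y => ?_)
  · refine (Real.measurable_log.comp (measurable_nest (lvM K) r m
      (fun (y : Y3 K N) v => edgF x y v) ?_)).aestronglyMeasurable
    refine measurable_edgeFactor.comp (f := fun z : Y3 K N × (Fin r → Lv K) =>
      (z.1.1.1, msgs x z.1.2 z.2)) (Measurable.prodMk ?_ ?_)
    · exact measurable_fst.comp (measurable_fst.comp measurable_fst)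
    · exact (measurable_msgs hx.2.2.1).comp ((measurable_snd.comp measurable_fst).prodMk
        measurable_snd)
  · have h2 := nest_mem (P := lvM K) (Real.exp_pos _) r m (fun p => (hx.2.1 p).1) _
      (edgF_bd hx.2.2.1 hx.2.2.2 y)
    exact log_abs_of_mem h2.1 h2.2

/-- edge factors. -/
theorem edge_fixed (h : InClass K ρ ν) {m : Fin r → ℝ} {x : (Fin (r + 1) → U01) → ℝ}
    (hx : IsTrial r m x) (ω : Om K N a n) :
    (∫ y, Real.log (nest ((Measure.pi fun _ : Fin n => lvM K).prod
        (Measure.pi fun _ : Fin K => volume)) r m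
        fun v => ∑ σ, wt x ω (fun p => (v p).1) σ * edgF x y fun p => (v p).2) ∂(cl3 ρ N)) =
      FF m x ω + tV ρ m x N := by
  have hm : ∀ p, 0 < m p := fun p => (hx.2.1 p).1
  have e1 : ∀ y : Y3 K N, Real.log (nest ((Measure.pi fun _ : Fin n => lvM K).prod
        (Measure.pi fun _ : Fin K => volume)) r m
        fun v => ∑ σ, wt x ω (fun p => (v p).1) σ * edgF x y fun p => (v p).2) =
      FF m x ω + Real.log (nest (lvM K) r m fun v => edgF x y v) := by
    intro y
    have hpos : ∀ v, 0 < edgF x y v := fun v => (Real.exp_pos _).trans_le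
      (edgeFactor_mem y.1.1 (msgs x y.2 v) fun j => msgs_abs hx.2.2.2 _ _ j).1
    have hbd := sum_bd (wt_bd hx.2.2.1 hx.2.2.2 ω)
    have h1 := nest_mul (P := Measure.pi fun _ : Fin n => lvM K) (P' := lvM K) r m hm
      (fun v => ∑ σ, wt x ω v σ)
      (fun v => (mul_nonneg (Nat.cast_nonneg _) (Real.exp_pos _).le).trans (hbd.lo v))
      (fun v => edgF x y v) (fun v => (hpos v).le)
    simp only [← Finset.sum_mul]
    rw [h1, Real.log_mul]
    · rfl
    · have h2 := nest_mem (P := Measure.pi fun _ : Fin n => lvM K)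
        (mul_pos (by exact_mod_cast Fintype.card_pos) (Real.exp_pos _)) r m hm _ hbd
      exact (lt_of_lt_of_le (mul_pos (by exact_mod_cast Fintype.card_pos) (Real.exp_pos _))
        h2.1).ne'
    · have h2 := nest_mem (P := lvM K) (Real.exp_pos _) r m hm _
        (edgF_bd hx.2.2.1 hx.2.2.2 y)
      exact ((Real.exp_pos _).trans_le h2.1).ne'
  simp only [e1]
  rw [integral_add (integrable_const _) (integrable_edge h hx), integral_const, probReal_univ,
    one_smul]
  rfl

/-- the interpolation inequality. -/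
theorem TT_step (h : InClass K ρ ν) {m : Fin r → ℝ} {x : (Fin (r + 1) → U01) → ℝ}
    (hx : IsTrial r m x) (a n : ℕ) :
    TT ρ ν m x N (a + 1) n + ((K : ℝ) - 1) * (TT ρ ν m x N a n + tV ρ m x N) ≤
      K * TT ρ ν m x N a (n + 1) := by
  rw [TT_succ_left h hx, TT_succ_right h hx, ← integral_const_mul]
  simp only [right_fixed h hx]
  have e1 : TT ρ ν m x N a n + tV ρ m x N =
      ∫ ω : Om K N a n, (FF m x ω + tV ρ m x N) ∂(om ρ ν N a n) := by
    rw [integral_add (integrable_FF h hx) (integrable_const _), integral_const, probReal_univ,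
      one_smul]
    rfl
  have i1 := TT_succ_left_int (a := a) (n := n) (N := N) h hx
  have i2 : Integrable (fun ω : Om K N a n => ((K : ℝ) - 1) * (FF m x ω + tV ρ m x N))
      (om ρ ν N a n) := ((integrable_FF h hx).add (integrable_const _)).const_mul _
  rw [e1, ← integral_const_mul, ← integral_add i1 i2]
  have i3 := (TT_succ_right_int (a := a) (n := n) (N := N) h hx).const_mul (K : ℝ)
  simp only [right_fixed h hx] at i3
  refine integral_mono (i1.add i2) i3 fun ω => ?_
  have hs := star h hx (P := Measure.pi fun _ : Fin n => lvM K) (Real.exp_pos _)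
    (wt_bd hx.2.2.1 hx.2.2.2 ω)
  rw [edge_fixed h hx ω] at hs
  exact hs

end Int

end Vale.Agent.P168.PT
end
end

section

section

/-!
Iteration of the interpolation inequality, Poisson averages, and the pressure.
-/

set_option autoImplicit false
set_option linter.unusedSectionVars false

open MeasureTheory ProbabilityTheory
open scoped NNReal

namespace Vale.Agent.P168.PT

variable {K N r a n : ℕ} {ρ : Measure (Clause K)} {ν : Measure ℝ} [IsProbabilityMeasure ρ]
  [IsProbabilityMeasure ν] [NeZero N] [NeZero K]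

theorem TT_growth2 (h : InClass K ρ ν) {m : Fin r → ℝ} {x : (Fin (r + 1) → U01) → ℝ}
    (hx : IsTrial r m x) : ExpGrowth2 fun k l => TT ρ ν m x N k 0 + l * tV ρ m x N := by
  set L := ∫ c, maxTheta c ∂ρ with hL
  set C := (N : ℝ) * (∫ h, |h| ∂ν + Real.log 2) with hC
  have hL0 : 0 ≤ L := integral_nonneg fun c => maxTheta_nonneg c
  have hC0 : 0 ≤ C := by
    have : 0 ≤ ∫ h, |h| ∂ν := integral_nonneg fun h => abs_nonneg h
    have h2 : 0 ≤ Real.log 2 := Real.log_nonneg (by norm_num)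
    positivity
  refine ⟨L + C + |tV ρ m x N|, 2, by positivity, by norm_num, fun k l => ?_⟩
  have h1 := abs_TT_le (N := N) h hx k 0
  have h2 := abs_add_le (TT ρ ν m x N k 0) (l * tV ρ m x N)
  rw [abs_mul, Nat.abs_cast] at h2
  have hk := nat_le_two_pow_real k
  have hl := nat_le_two_pow_real l
  have hk1 : (1 : ℝ) ≤ 2 ^ k := one_le_pow₀ (by norm_num)
  have hl1 : (1 : ℝ) ≤ 2 ^ l := one_le_pow₀ (by norm_num)
  have hkl : (k : ℝ) ≤ 2 ^ k * 2 ^ l := by nlinarith only [hl1, hk]
  have hkl2 : (l : ℝ) ≤ 2 ^ k * 2 ^ l := by nlinarith only [hl, hk1]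
  have hkl1 : (1 : ℝ) ≤ 2 ^ k * 2 ^ l := by nlinarith only [hk1, hl1]
  push_cast at h1
  have h3 : |TT ρ ν m x N k 0| ≤ (L + C) * (2 ^ k * 2 ^ l) := by
    refine h1.trans ?_
    have := mul_le_mul_of_nonneg_right hkl hL0
    have := mul_le_mul_of_nonneg_left hkl1 hC0
    nlinarith
  have h4 : (l : ℝ) * |tV ρ m x N| ≤ |tV ρ m x N| * (2 ^ k * 2 ^ l) := by
    rw [mul_comm]
    exact mul_le_mul_of_nonneg_left hkl2 (abs_nonneg _)
  calc _ ≤ |TT ρ ν m x N k 0| + l * |tV ρ m x N| := h2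
    _ ≤ (L + C) * (2 ^ k * 2 ^ l) + |tV ρ m x N| * (2 ^ k * 2 ^ l) := add_le_add h3 h4
    _ = _ := by ring

theorem TT_growth_left (h : InClass K ρ ν) {m : Fin r → ℝ} {x : (Fin (r + 1) → U01) → ℝ}
    (hx : IsTrial r m x) : ExpGrowth fun k => TT ρ ν m x N k 0 := by
  obtain ⟨C, A, hC, hA, hb⟩ := TT_growth2 (N := N) h hx
  refine ⟨C, A, hC, hA, fun k => ?_⟩
  simpa only [CharP.cast_eq_zero, zero_mul, add_zero, pow_zero, mul_one] using hb k 0

theorem TT_growth_right (h : InClass K ρ ν) {m : Fin r → ℝ} {x : (Fin (r + 1) → U01) → ℝ}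
    (hx : IsTrial r m x) : ExpGrowth fun n => TT ρ ν m x N 0 n := by
  have hL0 : 0 ≤ ∫ c, maxTheta c ∂ρ := integral_nonneg fun c => maxTheta_nonneg c
  refine expGrowth_of_linear (c := N * (∫ h, |h| ∂ν + Real.log 2))
    (d := ∫ c, maxTheta c ∂ρ) (fun n => ?_) ?_ hL0
  · have h1 := abs_TT_le (N := N) h hx 0 n
    push_cast at h1
    linarith
  · have : 0 ≤ ∫ h, |h| ∂ν := integral_nonneg fun h => abs_nonneg h
    have h2 : 0 ≤ Real.log 2 := Real.log_nonneg (by norm_num)
    positivity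

theorem TT_iter (h : InClass K ρ ν) {m : Fin r → ℝ} {x : (Fin (r + 1) → U01) → ℝ}
    (hx : IsTrial r m x) (lam : ℝ≥0) :
    (∫ k, TT ρ ν m x N k 0 ∂(poissonMeasure (lam * N))) +
      ((K : ℝ) - 1) * lam * N * tV ρ m x N ≤
      ∫ n, TT ρ ν m x N 0 n ∂(poissonMeasure (K * lam * N)) := by
  have hK0 : (0 : ℝ) < K := by exact_mod_cast NeZero.pos K
  have hK1 : 1 ≤ K := NeZero.pos K
  set p : ℝ≥0 := 1 / K with hp
  set q : ℝ≥0 := ((K - 1 : ℕ) : ℝ≥0) / K with hq
  have hKn : (K : ℝ≥0) ≠ 0 := by exact_mod_cast NeZero.ne K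
  have hpq : p + q = 1 := by
    rw [hp, hq, ← add_div, div_eq_one_iff_eq hKn]
    norm_cast
    omega
  have hpr : (p : ℝ) = 1 / K := by rw [hp]; push_cast; rfl
  have hqr : (q : ℝ) = ((K : ℝ) - 1) / K := by
    rw [hq, NNReal.coe_div, NNReal.coe_natCast, NNReal.coe_natCast, Nat.cast_sub hK1,
      Nat.cast_one]
  have hB := TT_growth2 (N := N) h hx
  have h1 : ∀ n, bmix p q (fun k l => TT ρ ν m x N k 0 + l * tV ρ m x N) n 0 0 ≤
      TT ρ ν m x N 0 n := by
    intro n
    have h2 := binom_iter_ge (fun n k l => TT ρ ν m x N k n + l * tV ρ m x N) p q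
      (NNReal.coe_nonneg _) (NNReal.coe_nonneg _) ?_ n 0 0
    · simpa only [ge_iff_le, CharP.cast_eq_zero, zero_mul, add_zero] using h2
    · intro n k l
      have h3 := TT_step (N := N) h hx k n
      rw [hpr, hqr]
      have h4 : 1 / (K : ℝ) * (TT ρ ν m x N (k + 1) n + l * tV ρ m x N) +
          ((K : ℝ) - 1) / K * (TT ρ ν m x N k n + ((l + 1 : ℕ) : ℝ) * tV ρ m x N) =
          1 / K * (TT ρ ν m x N (k + 1) n + ((K : ℝ) - 1) *
            (TT ρ ν m x N k n + tV ρ m x N)) + l * tV ρ m x N := by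
        push_cast
        field_simp
        ring
      rw [h4]
      have h5 : 1 / (K : ℝ) * (TT ρ ν m x N (k + 1) n + ((K : ℝ) - 1) *
            (TT ρ ν m x N k n + tV ρ m x N)) ≤ TT ρ ν m x N k (n + 1) := by
        rw [one_div_mul_eq_div, div_le_iff₀ hK0]
        linarith only [h3]
      linarith only [h5]
  have h2 := pois_mono (bmix_growth hB p q (NNReal.coe_nonneg _) (NNReal.coe_nonneg _)
    (by exact_mod_cast hpq)) (TT_growth_right (N := N) h hx) (K * lam * N) h1
  rw [pois_bmix hB _ p q hpq] at h2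
  have e1 : p * (K * lam * N) = lam * N := by
    rw [hp]; field_simp
  have e2 : ((q * (K * lam * N) : ℝ≥0) : ℝ) = ((K : ℝ) - 1) * lam * N := by
    push_cast
    rw [hqr]
    (clear * - hK1; field_simp)
  have h3 : ∀ k, ∫ l : ℕ, (TT ρ ν m x N k 0 + l * tV ρ m x N)
      ∂(poissonMeasure (q * (K * lam * N))) =
      TT ρ ν m x N k 0 + ((K : ℝ) - 1) * lam * N * tV ρ m x N := by
    intro k
    have g1 : ExpGrowth fun l : ℕ => (l : ℝ) :=
      expGrowth_of_linear (c := 0) (d := 1) (fun n => by simp) le_rfl zero_le_one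
    rw [integral_add (integrable_const _) ((g1.integrable _).mul_const _), integral_const,
      probReal_univ, one_smul, integral_mul_const, pois_mean, e2]
  simp only [h3] at h2
  rw [e1, integral_add ((TT_growth_left (N := N) h hx).integrable _) (integrable_const _),
    integral_const, probReal_univ, one_smul] at h2
  exact h2

theorem wt_zero (x : (Fin (r + 1) → U01) → ℝ) (ω : Om K N a 0) (v : Fin r → Fin 0 → Lv K)
    (σ : Fin N → Bool) :
    wt x ω v σ = Real.exp (∑ k, theta (ω.1 k).1.1 (fun j => σ ((ω.1 k).1.2 j)) +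
      ∑ s, ω.2.2 s * spin (σ s)) := by
  unfold wt intF
  rw [Finset.univ_eq_empty (α := Fin 0), Finset.prod_empty, mul_one, ← Real.exp_sum,
    ← Real.exp_add]

theorem FF_zero {m : Fin r → ℝ} {x : (Fin (r + 1) → U01) → ℝ} (hx : IsTrial r m x)
    (ω : Om K N a 0) :
    FF m x ω = Real.log (partitionFn (fun k => (ω.1 k).1) ω.2.2) := by
  unfold FF
  simp only [wt_zero]
  rw [nest_const (P := Measure.pi fun _ : Fin 0 => lvM K) _ r m fun p => (hx.2.1 p).1]
  · rfl
  · exact Finset.sum_pos (fun σ _ => Real.exp_pos _) Finset.univ_nonempty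

/-- forget the level-`0` variables. -/
def toPF (ω : Om K N a 0) : (Fin a → Clause K × (Fin K → Fin N)) × (Fin N → ℝ) :=
  (fun k => (ω.1 k).1, ω.2.2)

theorem toPF_mp : MeasurePreserving (toPF (K := K) (N := N) (a := a)) (om ρ ν N a 0)
    ((Measure.pi fun _ : Fin a => ρ.prod (Measure.pi fun _ : Fin K => unif N)).prod
      (Measure.pi fun _ : Fin N => ν)) := by
  have h1 := measurePreserving_pi (fun _ : Fin a => cl3 ρ N)
    (fun _ : Fin a => ρ.prod (Measure.pi fun _ : Fin K => unif N))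
    (f := fun _ => Prod.fst) fun _ => measurePreserving_fst
  have h2 : MeasurePreserving (Prod.snd : (Fin 0 → C4 K N) × (Fin N → ℝ) → (Fin N → ℝ))
      ((Measure.pi fun _ : Fin 0 => c4 ρ N).prod (Measure.pi fun _ : Fin N => ν))
      (Measure.pi fun _ : Fin N => ν) := measurePreserving_snd
  exact h1.prod h2

theorem TT_zero_right (h : InClass K ρ ν) {m : Fin r → ℝ} {x : (Fin (r + 1) → U01) → ℝ}
    (hx : IsTrial r m x) :
    TT ρ ν m x N a 0 = ∫ ω : Fin a → Clause K × (Fin K → Fin N), (∫ h : Fin N → ℝ,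
      Real.log (partitionFn ω h) ∂(Measure.pi fun _ => ν))
      ∂(Measure.pi fun _ => ρ.prod (Measure.pi fun _ => unif N)) := by
  have hmp := toPF_mp (K := K) (N := N) (a := a) (ρ := ρ) (ν := ν)
  have hmeas : Measurable fun q : (Fin a → Clause K × (Fin K → Fin N)) × (Fin N → ℝ) =>
      Real.log (partitionFn q.1 q.2) := by
    refine Real.measurable_log.comp ?_
    unfold partitionFn
    refine Finset.measurable_fun_sum _ fun σ _ => Real.measurable_exp.comp ?_
    refine Measurable.add (Finset.measurable_fun_sum _ fun k _ => ?_)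
      (Finset.measurable_fun_sum _ fun s _ => ?_)
    · exact (measurable_clauseE σ).comp ((measurable_pi_apply k).comp measurable_fst)
    · have : Measurable fun q : (Fin a → Clause K × (Fin K → Fin N)) × (Fin N → ℝ) => q.2 s :=
        (measurable_pi_apply s).comp measurable_snd
      exact this.mul_const _
  have e1 : ∀ ω : Om K N a 0, FF m x ω =
      (fun q : (Fin a → Clause K × (Fin K → Fin N)) × (Fin N → ℝ) =>
        Real.log (partitionFn q.1 q.2)) (toPF ω) := fun ω => FF_zero hx ω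
  have hint : Integrable (fun q : (Fin a → Clause K × (Fin K → Fin N)) × (Fin N → ℝ) =>
      Real.log (partitionFn q.1 q.2))
      ((Measure.pi fun _ : Fin a => ρ.prod (Measure.pi fun _ : Fin K => unif N)).prod
      (Measure.pi fun _ : Fin N => ν)) := by
    rw [← hmp.integrable_comp hmeas.aestronglyMeasurable]
    have h2 := integrable_FF (N := N) (a := a) (n := 0) (m := m) (x := x) h hx
    simp only [e1] at h2
    exact h2
  unfold TT
  simp only [e1]
  rw [mp_integral hmp hmeas.aestronglyMeasurable, integral_prod _ hint]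

theorem pressure_eq (h : InClass K ρ ν) {m : Fin r → ℝ} {x : (Fin (r + 1) → U01) → ℝ}
    (hx : IsTrial r m x) (lam : ℝ≥0) :
    ∫ k, TT ρ ν m x N k 0 ∂(poissonMeasure (lam * N)) = N * pressure lam ρ ν N := by
  unfold pressure
  have hN : (N : ℝ) ≠ 0 := by exact_mod_cast NeZero.ne N
  rw [← mul_assoc, mul_one_div_cancel hN, one_mul]
  refine integral_congr_ae (Filter.Eventually.of_forall fun k => ?_)
  exact TT_zero_right h hx

end Vale.Agent.P168.PT
end
end

section

section

/-!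
The Panchenko–Talagrand upper bound.
-/

set_option autoImplicit false

open MeasureTheory ProbabilityTheory
open scoped NNReal

namespace Vale.Agent.P168.PT

variable {K r : ℕ} {ρ : Measure (Clause K)} {ν : Measure ℝ}

/-- The upper bound for every number of sites, every depth and all admissible parameters. -/
theorem pt_upper (h : InClass K ρ ν) {m : Fin r → ℝ} {x : (Fin (r + 1) → U01) → ℝ}
    (hx : IsTrial r m x) (lam : ℝ≥0) {N : ℕ} (hN : 1 ≤ N) :
    pressure lam ρ ν N ≤ trialU lam ρ ν r m x - trialV lam ρ r m x := by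
  have := h.prob_clause
  have := h.prob_field
  have : NeZero N := ⟨by omega⟩
  have : NeZero K := neZero_of h
  have hN0 : (0 : ℝ) < N := by exact_mod_cast hN
  have h1 := TT_iter (N := N) h hx lam
  rw [pressure_eq h hx lam, TU.TT0_pois h hx lam N] at h1
  have h2 := trialV_eq h hx lam N
  have hK : ((K - 1 : ℕ) : ℝ) = (K : ℝ) - 1 := by
    have := h.two_le
    rw [Nat.cast_sub (by omega), Nat.cast_one]
  rw [hK] at h2
  have h3 : (N : ℝ) * pressure lam ρ ν N ≤
      N * (trialU lam ρ ν r m x - trialV lam ρ r m x) := by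
    rw [h2]
    linarith only [h1]
  exact le_of_mul_le_mul_left h3 hN0

end Vale.Agent.P168.PT
end
end
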